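import Crest.Agent.R065.HF_669

/-!
# Row 65: flats, null pairs, restriction, dimension count (route independent base)

Points `z = (x, y)`, the flat `F_z = {(S, θ) : θ = y + S x}` in `so(d) × k^d`.
-/

set_option autoImplicit false

open MvPolynomial Module

namespace Crest.Agent.R065.Base348

open Crest.Agent.R065.HF669

/-- index set of the coordinates of a skew matrix -/
abbrev Pr (d : ℕ) : Type := {p : Fin d × Fin d // p.1 < p.2}

section skew

variable {d : ℕ} {R : Type*} [CommRing R]

/-- the skew matrix with upper triangular part `S` -/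
def sk (S : Pr d → R) (i j : Fin d) : R :=
  if h : i < j then S ⟨(i, j), h⟩ else if h' : j < i then -S ⟨(j, i), h'⟩ else 0

lemma sk_self (S : Pr d → R) (i : Fin d) : sk S i i = 0 := by simp [sk]

lemma sk_swap (S : Pr d → R) (i j : Fin d) : sk S i j = -sk S j i := by
  unfold sk
  rcases lt_trichotomy i j with h | h | h
  · simp [h, not_lt.2 h.le]
  · subst h; simp
  · simp [h, not_lt.2 h.le]

lemma sk_of_lt (S : Pr d → R) (p : Pr d) : sk S p.1.1 p.1.2 = S p := by
  unfold sk; rw [dif_pos p.2]



lemma sk_map {R' : Type*} [CommRing R'] (φ : R →+* R') (S : Pr d → R) (i j : Fin d) :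
    sk (fun p => φ (S p)) i j = φ (sk S i j) := by
  unfold sk; split_ifs <;> simp

/-- `S x` -/
def act (S : Pr d → R) (x : Fin d → R) (i : Fin d) : R := ∑ j, sk S i j * x j



lemma act_sub_right (S : Pr d → R) (x y : Fin d → R) : act S (x - y) = act S x - act S y := by
  ext i; simp only [act, Pi.sub_apply, mul_sub, Finset.sum_sub_distrib]



/-- `x · S y = - y · S x` -/
lemma dot_act (S : Pr d → R) (x y : Fin d → R) :
    ∑ i, x i * act S y i = -∑ i, y i * act S x i := by
  simp only [act, Finset.mul_sum]
  rw [Finset.sum_comm, ← Finset.sum_neg_distrib]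
  refine Finset.sum_congr rfl fun i _ => ?_
  rw [← Finset.sum_neg_distrib]
  refine Finset.sum_congr rfl fun j _ => ?_
  rw [sk_swap S j i]; ring

lemma dot_act_self {K : Type*} [Field K] [NeZero (2 : K)] (S : Pr d → K) (x : Fin d → K) :
    ∑ i, x i * act S x i = 0 := by
  have h := dot_act S x x
  have h2 : (2 : K) * ∑ i, x i * act S x i = 0 := by
    rw [two_mul]; nth_rw 1 [h]; ring
  exact (mul_eq_zero.1 h2).resolve_left (NeZero.ne _)

end skew

/-! ### flats and null pairs -/

variable {d : ℕ} {k : Type*} [Field k]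

/-- points `z = (x, y)` -/
abbrev Pt (d : ℕ) (k : Type*) : Type _ := (Fin d → k) × (Fin d → k)


/-- the quadratic form -/
def q (z : Pt d k) : k := ∑ i, z.1 i * z.2 i

/-- null pairs -/
def Null (z w : Pt d k) : Prop := q (z - w) = 0

lemma q_neg (z : Pt d k) : q (-z) = q z := by simp [q]

lemma null_symm {z w : Pt d k} (h : Null z w) : Null w z := by
  unfold Null at *; rw [← neg_sub, q_neg]; exact h



/-- parametrisation of the flat -/
def pt (z : Pt d k) (S : Pr d → k) : Pr d ⊕ Fin d → k :=
  Sum.elim S (z.2 + act S z.1)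









/-! ### restriction of polynomials to the flats -/

/-- the generic skew matrix acting -/
noncomputable def actX (x : Fin d → k) (i : Fin d) : MvPolynomial (Pr d) k :=
  ∑ j, sk (fun p => (X p : MvPolynomial (Pr d) k)) i j * C (x j)

lemma sk_mem_W (i j : Fin d) : sk (fun p => (X p : MvPolynomial (Pr d) k)) i j ∈ W k (Pr d) 1 := by
  unfold sk
  split_ifs
  · exact X_mem_W _ le_rfl
  · exact Submodule.neg_mem _ (X_mem_W _ le_rfl)
  · exact Submodule.zero_mem _

lemma actX_mem_W (x : Fin d → k) (i : Fin d) : actX x i ∈ W k (Pr d) 1 :=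
  Submodule.sum_mem _ fun j _ => mul_mem_W (sk_mem_W i j) (C_mem_W (x j) 0)


/-- restriction to the flat of `z` -/
noncomputable def res (z : Pt d k) : MvPolynomial (Pr d ⊕ Fin d) k →ₐ[k] MvPolynomial (Pr d) k :=
  aeval (Sum.elim X fun i => C (z.2 i) + actX z.1 i)


lemma totalDegree_aeval_le {σ τ : Type*} (g : σ → MvPolynomial τ k)
    (hg : ∀ i, g i ∈ W k τ 1) (f : MvPolynomial σ k) {m : ℕ} (hf : f.totalDegree ≤ m) :
    (aeval g f).totalDegree ≤ m := by
  classical
  rw [← mem_W, aeval_def, eval₂_eq]
  refine Submodule.sum_mem _ fun n hn => ?_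
  have h1 : (∏ i ∈ n.support, g i ^ n i) ∈ W k τ (∑ i ∈ n.support, n i * 1) :=
    prod_mem_W _ _ _ fun i _ => pow_mem_W (hg i) _
  have h2 : ∑ i ∈ n.support, n i * 1 ≤ m := by
    simp only [mul_one]
    exact (le_totalDegree hn).trans hf
  have := mul_mem_W (C_mem_W (σ := τ) (coeff n f) 0) (W_mono h2 h1)
  rwa [zero_add] at this

lemma res_mem_W (z : Pt d k) (f : MvPolynomial (Pr d ⊕ Fin d) k) {m : ℕ}
    (hf : f.totalDegree ≤ m) : (res z f).totalDegree ≤ m := by
  apply totalDegree_aeval_le _ _ _ hf
  rintro (i | i)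
  · exact X_mem_W _ le_rfl
  · exact Submodule.add_mem _ (C_mem_W _ _) (actX_mem_W _ _)



/-! ### dimension count -/

lemma card_Pr (d : ℕ) : Fintype.card (Pr d) = d.choose 2 := by
  classical
  have h1 : Fintype.card (Pr d) = ∑ j : Fin d, (j : ℕ) := by
    rw [Fintype.card_subtype]
    rw [Finset.card_eq_sum_ones, Finset.sum_filter, ← Finset.univ_product_univ,
      Finset.sum_product_right]
    refine Finset.sum_congr rfl fun j _ => ?_
    rw [← Finset.sum_filter, ← Finset.card_eq_sum_ones]
    have : (Finset.univ.filter fun x : Fin d => x < j) = Finset.Iio j := by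
      ext x; simp
    simpa using congrArg Finset.card this
  rw [h1, Fin.sum_univ_eq_sum_range (fun i => i) d, Finset.sum_range_id, Nat.choose_two_right]

/-- the simultaneous restriction to the flats of `Z'` -/
noncomputable def resLin (Z' : Finset (Pt d k)) :
    MvPolynomial (Pr d ⊕ Fin d) k →ₗ[k] (Z' → MvPolynomial (Pr d) k) :=
  LinearMap.pi fun w => (res (w : Pt d k)).toLinearMap

lemma resLin_apply (Z' : Finset (Pt d k)) (f : MvPolynomial (Pr d ⊕ Fin d) k) (w : Z') :
    resLin Z' f w = res (w : Pt d k) f := rfl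

lemma finrank_map_resLin (Z' : Finset (Pt d k)) (m : ℕ) :
    finrank k ((W k (Pr d ⊕ Fin d) m).map (resLin Z')) ≤
      Z'.card * finrank k (W k (Pr d) m) := by
  classical
  have hle : ∀ g ∈ (W k (Pr d ⊕ Fin d) m).map (resLin Z'), ∀ w, g w ∈ W k (Pr d) m := by
    rintro g ⟨f, hf, rfl⟩ w
    exact mem_W.2 (res_mem_W _ _ (mem_W.1 hf))
  let φ : ((W k (Pr d ⊕ Fin d) m).map (resLin Z')) →ₗ[k] (Z' → W k (Pr d) m) :=
    { toFun := fun g w => ⟨g.1 w, hle g.1 g.2 w⟩
      map_add' := fun _ _ => rfl
      map_smul' := fun _ _ => rfl }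
  have hφ : Function.Injective φ := by
    intro a b hab
    apply Subtype.ext
    funext w
    have := congrFun hab w
    exact congrArg Subtype.val this
  refine (LinearMap.finrank_le_finrank_of_injective hφ).trans ?_
  rw [Module.finrank_pi_fintype]
  simp

/-- dimension count -/
lemma exists_res_eq_zero (Z' : Finset (Pt d k)) (m : ℕ)
    (h : Z'.card * (m + Fintype.card (Pr d)).choose (Fintype.card (Pr d)) <
      (m + Fintype.card (Pr d ⊕ Fin d)).choose (Fintype.card (Pr d ⊕ Fin d))) :
    ∃ f : MvPolynomial (Pr d ⊕ Fin d) k, f.totalDegree ≤ m ∧ f ≠ 0 ∧ ∀ w ∈ Z', res w f = 0 := by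
  obtain ⟨f, h1, h2, h3⟩ := exists_notMem_of_finrank_lt (resLin Z') ⊥ m (by
    rw [HF_bot]
    refine (finrank_map_resLin Z' m).trans_lt ?_
    rw [finrank_W]
    exact h)
  refine ⟨f, h1, fun h0 => h2 (by rw [h0]; exact Submodule.zero_mem _), fun w hw => ?_⟩
  have := congrFun h3 ⟨w, hw⟩
  rwa [resLin_apply] at this

lemma choose_ratio (m a e : ℕ) :
    (m + (a + e)).choose (a + e) * (a + e).descFactorial e =
      (m + a).choose a * (m + (a + e)).descFactorial e := by
  have h1 := Nat.add_choose_mul_factorial_mul_factorial m (a + e)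
  have h2 := Nat.add_choose_mul_factorial_mul_factorial m a
  have h3 : a.factorial * (a + e).descFactorial e = (a + e).factorial := by
    have := Nat.factorial_mul_descFactorial (n := a + e) (k := e) (by omega)
    rwa [show a + e - e = a by omega] at this
  have h4 : (m + a).factorial * (m + (a + e)).descFactorial e = (m + (a + e)).factorial := by
    have := Nat.factorial_mul_descFactorial (n := m + (a + e)) (k := e) (by omega)
    rwa [show m + (a + e) - e = m + a by omega] at this
  have hpos : 0 < m.factorial * a.factorial := by positivity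
  apply Nat.eq_of_mul_eq_mul_left hpos
  calc m.factorial * a.factorial * ((m + (a + e)).choose (a + e) * (a + e).descFactorial e)
      = (m + (a + e)).choose (a + e) * m.factorial * (a.factorial * (a + e).descFactorial e) := by
        ring
    _ = (m + (a + e)).factorial := by rw [h3]; exact h1
    _ = (m + a).factorial * (m + (a + e)).descFactorial e := h4.symm
    _ = (m + a).choose a * m.factorial * a.factorial * (m + (a + e)).descFactorial e := by
        rw [h2]
    _ = m.factorial * a.factorial * ((m + a).choose a * (m + (a + e)).descFactorial e) := by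
        ring

/-- the constant of the dimension count -/
def Kd (d : ℕ) : ℕ := (Fintype.card (Pr d) + d).descFactorial d

lemma Kd_pos (d : ℕ) : 0 < Kd d := Nat.descFactorial_pos.2 (by omega)

/-- dimension count, explicit: `|Z'| K_d < (m+1)^d` suffices -/
lemma exists_res_eq_zero' (Z' : Finset (Pt d k)) (m : ℕ) (h : Z'.card * Kd d < (m + 1) ^ d) :
    ∃ f : MvPolynomial (Pr d ⊕ Fin d) k, f.totalDegree ≤ m ∧ f ≠ 0 ∧ ∀ w ∈ Z', res w f = 0 := by
  apply exists_res_eq_zero
  rw [Fintype.card_sum, Fintype.card_fin]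
  set a := Fintype.card (Pr d) with ha
  have h1 := choose_ratio m a d
  have h2 : (m + 1) ^ d ≤ (m + (a + d)).descFactorial d :=
    (Nat.pow_le_pow_left (by omega) d).trans (Nat.pow_sub_le_descFactorial (m + (a + d)) d)
  have h3 : 0 < (m + a).choose a := Nat.choose_pos (by omega)
  have h4 : Z'.card * (m + a).choose a * Kd d < (m + (a + d)).choose (a + d) * Kd d := by
    calc Z'.card * (m + a).choose a * Kd d = (m + a).choose a * (Z'.card * Kd d) := by ring
      _ < (m + a).choose a * (m + 1) ^ d := by
        exact Nat.mul_lt_mul_of_pos_left h h3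
      _ ≤ (m + a).choose a * (m + (a + d)).descFactorial d := Nat.mul_le_mul_left _ h2
      _ = (m + (a + d)).choose (a + d) * Kd d := h1.symm
  exact lt_of_mul_lt_mul_right h4 (Nat.zero_le _)

end Crest.Agent.R065.Base348
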