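import Mathlib
import Crest.Agent.R188.Noe3

/-!
# Row 65: regular sequences at a prime of a polynomial ring   (helper474)

`exists_regular_seq`: if `P` is a prime of height `c` in a polynomial ring over an infinite field
and `V_0, V_1, ...` are linear subspaces of `P` such that every prime `Q ≤ P` containing `V_j` has
height at least `j+1`, then there are `f_j ∈ V_j` (`j < c`) whose images form a regular sequence of
the local ring at `P`; in elementary terms there is a chain of ideals `J_0 = 0 ≤ J_1 ≤ ... ≤ J_c`,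
with `f_j ∈ J_{j+1}`, `f_j` a nonzerodivisor modulo `J_j`, and `J_c` a `P`-primary ideal.
-/

set_option autoImplicit false

open MvPolynomial IsLocalRing RingTheory.Sequence Crest.Agent.R188.Noe

namespace Crest.Agent.R065.CM474

universe u v

section loc

variable {A : Type u} [CommRing A]

/-- `height Q + dim A/Q ≤ dim A` -/
theorem height_add_le {Q : Ideal A} [hQ : Q.IsPrime] {n c : ℕ} (h1 : (n : WithBot ℕ∞) ≤ ringKrullDim (A ⧸ Q))
    (hc : ringKrullDim A = (c : ℕ)) : Q.height + n ≤ c := by
  have hne : Nonempty (PrimeSpectrum A) := ⟨⟨Q, hQ⟩⟩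
  have h2 := Order.krullDim_eq_iSup_height_add_coheight_of_nonempty (α := PrimeSpectrum A)
  have h3 : ringKrullDim (A ⧸ Q) = Order.coheight (⟨Q, hQ⟩ : PrimeSpectrum A) := by
    rw [Order.coheight_eq_krullDim_Ici, ringKrullDim_quotient]
    congr 1
  rw [h3] at h1
  have h4 : (n : ℕ∞) ≤ Order.coheight (⟨Q, hQ⟩ : PrimeSpectrum A) := by exact_mod_cast h1
  have h5 : Order.height (⟨Q, hQ⟩ : PrimeSpectrum A) + Order.coheight (⟨Q, hQ⟩ : PrimeSpectrum A)
      ≤ ⨆ (a : PrimeSpectrum A), Order.height a + Order.coheight a :=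
    le_iSup (fun a : PrimeSpectrum A => Order.height a + Order.coheight a) _
  have h6 : ((⨆ (a : PrimeSpectrum A), Order.height a + Order.coheight a : ℕ∞) : WithBot ℕ∞) =
      ((c : ℕ∞) : WithBot ℕ∞) := by
    rw [← h2]; exact hc
  have h7 : (⨆ (a : PrimeSpectrum A), Order.height a + Order.coheight a : ℕ∞) = (c : ℕ∞) :=
    WithBot.coe_injective h6
  rw [h7] at h5
  have h8 : Q.height = Order.height (⟨Q, hQ⟩ : PrimeSpectrum A) :=
    PrimeSpectrum.height_eq_orderHeight ⟨Q, hQ⟩
  rw [h8]
  exact (add_le_add le_rfl h4).trans h5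

variable [IsLocalRing A] [IsNoetherianRing A]

/-- unmixedness: associated primes of `A/(f_1..f_j)` have height at most `j` -/
theorem height_le_of_assoc {n : ℕ} (rs : List A) (hrs : ∀ r ∈ rs, r ∈ maximalIdeal A)
    (hCM : CM A (n + rs.length) A) (hreg : IsWeaklyRegular A rs) {q : Ideal A}
    (hq : q ∈ associatedPrimes A (A ⧸ (Ideal.ofList rs • ⊤ : Submodule A A))) :
    q.height ≤ rs.length := by
  have h1 := hCM.quot_of_isWeaklyRegular rs hrs n A hreg
  have h2 := h1.dep.le_ringKrullDim hq
  have hqp : q.IsPrime := (AssociatedPrimes.mem_iff.1 hq).isPrime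
  have h3 : ringKrullDim A = ((n + rs.length : ℕ) : ℕ) := by
    rw [← Module.supportDim_self_eq_ringKrullDim, hCM.dim]
  have h4 := height_add_le h2 h3
  have h5 : q.height + n ≤ (rs.length : ℕ∞) + n := by
    refine h4.trans ?_
    push_cast
    rw [add_comm]
  exact (ENat.add_le_add_iff_right (ENat.natCast_ne_top n)).1 h5

end loc

section main

variable {k : Type u} [Field k] {σ : Type v}

/-- `(f_0,...,f_{j-1})R_P ∩ R` -/
noncomputable def JJ (P : Ideal (MvPolynomial σ k)) [P.IsPrime] (f : ℕ → MvPolynomial σ k) (j : ℕ) :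
    Ideal (MvPolynomial σ k) :=
  (Ideal.ofList ((List.range j).map
    fun i => algebraMap (MvPolynomial σ k) (Localization.AtPrime P) (f i))).comap
    (algebraMap (MvPolynomial σ k) (Localization.AtPrime P))

/-- the images of `f_0..f_{j-1}` form a regular sequence at `P` -/
def Reg (P : Ideal (MvPolynomial σ k)) [P.IsPrime] (f : ℕ → MvPolynomial σ k) (j : ℕ) : Prop :=
  IsWeaklyRegular (Localization.AtPrime P) ((List.range j).map
    fun i => algebraMap (MvPolynomial σ k) (Localization.AtPrime P) (f i))

variable {P : Ideal (MvPolynomial σ k)} [hP : P.IsPrime]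

lemma mem_JJ {f : ℕ → MvPolynomial σ k} {j : ℕ} {g : MvPolynomial σ k} :
    g ∈ JJ P f j ↔ algebraMap (MvPolynomial σ k) (Localization.AtPrime P) g ∈
      Ideal.ofList ((List.range j).map
        fun i => algebraMap (MvPolynomial σ k) (Localization.AtPrime P) (f i)) := Iff.rfl

lemma algebraMap_mem_maximalIdeal {g : MvPolynomial σ k} (hg : g ∈ P) :
    algebraMap (MvPolynomial σ k) (Localization.AtPrime P) g ∈
      maximalIdeal (Localization.AtPrime P) :=
  (IsLocalization.AtPrime.to_map_mem_maximal_iff (Localization.AtPrime P) P g).2 hg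

lemma JJ_zero (f : ℕ → MvPolynomial σ k) : JJ P f 0 = ⊥ := by
  rw [eq_bot_iff]
  intro g hg
  rw [mem_JJ] at hg
  simp only [List.range_zero, List.map_nil, Ideal.ofList_nil, Ideal.mem_bot] at hg
  have hinj : Function.Injective (algebraMap (MvPolynomial σ k) (Localization.AtPrime P)) :=
    IsLocalization.injective _ P.primeCompl_le_nonZeroDivisors
  exact (map_eq_zero_iff _ hinj).1 hg

lemma JJ_le_succ (f : ℕ → MvPolynomial σ k) (j : ℕ) : JJ P f j ≤ JJ P f (j + 1) := by
  refine Ideal.comap_mono ?_
  rw [List.range_succ, List.map_append, Ideal.ofList_append]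
  exact le_sup_left

lemma mem_JJ_succ (f : ℕ → MvPolynomial σ k) (j : ℕ) : f j ∈ JJ P f (j + 1) := by
  rw [mem_JJ, List.range_succ, List.map_append, Ideal.ofList_append]
  exact Ideal.mem_sup_right (Ideal.subset_span (by simp))

lemma JJ_le {f : ℕ → MvPolynomial σ k} {j : ℕ} (hf : ∀ i < j, f i ∈ P) : JJ P f j ≤ P := by
  intro g hg
  rw [mem_JJ] at hg
  have : Ideal.ofList ((List.range j).map
      fun i => algebraMap (MvPolynomial σ k) (Localization.AtPrime P) (f i)) ≤
      maximalIdeal (Localization.AtPrime P) := by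
    refine Ideal.span_le.2 ?_
    intro r hr
    simp only [List.mem_map, List.mem_range, Set.mem_ofPred_eq] at hr
    obtain ⟨i, hi, rfl⟩ := hr
    exact algebraMap_mem_maximalIdeal (hf i hi)
  exact (IsLocalization.AtPrime.to_map_mem_maximal_iff (Localization.AtPrime P) P g).1 (this hg)

lemma Reg.mono {f : ℕ → MvPolynomial σ k} {i j : ℕ} (h : Reg P f j) (hij : i ≤ j) : Reg P f i := by
  obtain ⟨l, rfl⟩ := Nat.exists_eq_add_of_le hij
  unfold Reg at h ⊢
  rw [List.range_add, List.map_append, isWeaklyRegular_append_iff] at h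
  exact h.1

lemma reg_succ_iff {f : ℕ → MvPolynomial σ k} {j : ℕ} :
    Reg P f (j + 1) ↔ Reg P f j ∧ IsSMulRegular (Localization.AtPrime P ⧸
      (Ideal.ofList ((List.range j).map
        fun i => algebraMap (MvPolynomial σ k) (Localization.AtPrime P) (f i)) • ⊤ :
          Submodule (Localization.AtPrime P) (Localization.AtPrime P)))
      (algebraMap (MvPolynomial σ k) (Localization.AtPrime P) (f j)) := by
  unfold Reg
  rw [List.range_succ, List.map_append, isWeaklyRegular_append_iff]
  simp only [List.map_cons, List.map_nil]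
  rw [isWeaklyRegular_singleton_iff]

lemma mem_JJ_of_mul_mem {f : ℕ → MvPolynomial σ k} {j : ℕ} (h : Reg P f (j + 1))
    {g : MvPolynomial σ k} (hg : f j * g ∈ JJ P f j) : g ∈ JJ P f j := by
  rw [mem_JJ, map_mul] at hg
  rw [mem_JJ]
  have h1 := (reg_succ_iff.1 h).2
  have key : ∀ x : Localization.AtPrime P, x ∈ (Ideal.ofList ((List.range j).map
        fun i => algebraMap (MvPolynomial σ k) (Localization.AtPrime P) (f i)) • ⊤ :
          Submodule (Localization.AtPrime P) (Localization.AtPrime P)) ↔ x ∈ Ideal.ofList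
          ((List.range j).map
        fun i => algebraMap (MvPolynomial σ k) (Localization.AtPrime P) (f i)) := by
    intro x
    rw [smul_eq_mul, Ideal.mul_top]
  have h2 := h1.right_eq_zero_of_smul (x := Submodule.Quotient.mk (algebraMap _ _ g)) (by
    rw [← Submodule.Quotient.mk_smul, Submodule.Quotient.mk_eq_zero, key]
    exact hg)
  rw [Submodule.Quotient.mk_eq_zero, key] at h2
  exact h2

variable [Finite σ]

instance : IsNoetherianRing (Localization.AtPrime P) :=
  IsLocalization.isNoetherianRing P.primeCompl _ inferInstance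

lemma cm_localization {c : ℕ} (hc : P.height = c) :
    CM (Localization.AtPrime P) c (Localization.AtPrime P) := by
  refine CM.of_regular _ ?_
  rw [IsLocalization.AtPrime.ringKrullDim_eq_height P, hc]
  rfl

omit [Finite σ] in
/-- a vector space over an infinite field is not covered by finitely many ideals not containing
it -/
lemma exists_mem_forall_notMem [Infinite k] (V : Submodule k (MvPolynomial σ k))
    (S : Set (Ideal (MvPolynomial σ k))) (hS : S.Finite)
    (hV : ∀ Q ∈ S, ¬ V ≤ Q.restrictScalars k) : ∃ f ∈ V, ∀ Q ∈ S, f ∉ Q := by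
  classical
  by_contra hcon
  push Not at hcon
  have := hS.to_subtype
  have hcov : ⋃ Q : S, (((Q : Ideal (MvPolynomial σ k)).restrictScalars k).comap V.subtype :
      Set V) = Set.univ := by
    rw [Set.eq_univ_iff_forall]
    intro f
    obtain ⟨Q, hQ, hfQ⟩ := hcon f f.2
    exact Set.mem_iUnion.2 ⟨⟨Q, hQ⟩, by simpa using hfQ⟩
  obtain ⟨Q, hQ⟩ := Subspace.exists_eq_top_of_iUnion_eq_univ hcov
  apply hV Q Q.2
  intro f hf
  have : (⟨f, hf⟩ : V) ∈ ((Q : Ideal (MvPolynomial σ k)).restrictScalars k).comap V.subtype := by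
    rw [hQ]; trivial
  simpa using this

/-- one step -/
lemma exists_step [Infinite k] {c : ℕ} (hc : P.height = c) (f : ℕ → MvPolynomial σ k) {j : ℕ}
    (hj : j < c) (hf : ∀ i < j, f i ∈ P) (hreg : Reg P f j) (V : Submodule k (MvPolynomial σ k))
    (hV : ∀ Q : Ideal (MvPolynomial σ k), Q.IsPrime → Q ≤ P → V ≤ Q.restrictScalars k →
      ((j + 1 : ℕ) : ℕ∞) ≤ Q.height) :
    ∃ g ∈ V, IsSMulRegular (Localization.AtPrime P ⧸
      (Ideal.ofList ((List.range j).map
        fun i => algebraMap (MvPolynomial σ k) (Localization.AtPrime P) (f i)) • ⊤ :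
          Submodule (Localization.AtPrime P) (Localization.AtPrime P)))
      (algebraMap (MvPolynomial σ k) (Localization.AtPrime P) g) := by
  set rs := (List.range j).map
        fun i => algebraMap (MvPolynomial σ k) (Localization.AtPrime P) (f i) with hrs
  set M := (Localization.AtPrime P ⧸ (Ideal.ofList rs • ⊤ :
          Submodule (Localization.AtPrime P) (Localization.AtPrime P))) with hM
  have hlen : rs.length = j := by simp [hrs]
  have hmem : ∀ r ∈ rs, r ∈ maximalIdeal (Localization.AtPrime P) := by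
    intro r hr
    simp only [hrs, List.mem_map, List.mem_range] at hr
    obtain ⟨i, hi, rfl⟩ := hr
    exact algebraMap_mem_maximalIdeal (hf i hi)
  obtain ⟨n, hn⟩ := Nat.exists_eq_add_of_lt hj
  have hCM : CM (Localization.AtPrime P) ((n + 1) + rs.length) (Localization.AtPrime P) := by
    have := cm_localization hc
    rwa [hn, show j + n + 1 = (n + 1) + rs.length by omega] at this
  have hfin : (associatedPrimes (Localization.AtPrime P) M).Finite :=
    associatedPrimes.finite _ _
  obtain ⟨g, hgV, hg⟩ := exists_mem_forall_notMem V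
    ((fun q : Ideal (Localization.AtPrime P) =>
      q.comap (algebraMap (MvPolynomial σ k) (Localization.AtPrime P))) ''
        associatedPrimes (Localization.AtPrime P) M) (hfin.image _) (by
      rintro _ ⟨q, hq, rfl⟩ hle
      have hqp : q.IsPrime := (AssociatedPrimes.mem_iff.1 hq).isPrime
      have h1 := hV _ (Ideal.IsPrime.comap _) (by
        intro x hx
        have : algebraMap (MvPolynomial σ k) (Localization.AtPrime P) x ∈
          maximalIdeal (Localization.AtPrime P) := IsLocalRing.le_maximalIdeal hqp.ne_top hx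
        exact (IsLocalization.AtPrime.to_map_mem_maximal_iff (Localization.AtPrime P) P x).1 this)
        hle
      have h2 := height_le_of_assoc rs hmem hCM hreg hq
      have h3 : (q.comap (algebraMap (MvPolynomial σ k) (Localization.AtPrime P))).height =
          q.height := IsLocalization.height_under P.primeCompl q
      rw [h3] at h1
      rw [hlen] at h2
      have h4 := h1.trans h2
      have h5 : j + 1 ≤ j := by exact_mod_cast h4
      omega)
  refine ⟨g, hgV, ?_⟩
  by_contra hr
  have : algebraMap (MvPolynomial σ k) (Localization.AtPrime P) g ∈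
      ⋃ p ∈ associatedPrimes (Localization.AtPrime P) M, (p : Set (Localization.AtPrime P)) := by
    rw [biUnion_associatedPrimes_eq_compl_regular]
    exact hr
  simp only [Set.mem_iUnion, SetLike.mem_coe, exists_prop] at this
  obtain ⟨q, hq, hgq⟩ := this
  exact hg _ ⟨q, hq, rfl⟩ hgq

theorem exists_reg [Infinite k] {c : ℕ} (hc : P.height = c)
    (V : ℕ → Submodule k (MvPolynomial σ k)) (hVP : ∀ j, V j ≤ P.restrictScalars k)
    (hV : ∀ j < c, ∀ Q : Ideal (MvPolynomial σ k), Q.IsPrime → Q ≤ P →
      V j ≤ Q.restrictScalars k → ((j + 1 : ℕ) : ℕ∞) ≤ Q.height) (j : ℕ) (hj : j ≤ c) :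
    ∃ f : ℕ → MvPolynomial σ k, (∀ i, f i ∈ V i) ∧ Reg P f j := by
  induction j with
  | zero => exact ⟨0, fun i => (V i).zero_mem, by unfold Reg; simp⟩
  | succ j ih =>
    obtain ⟨f, hfV, hreg⟩ := ih (by omega)
    obtain ⟨g, hgV, hg⟩ := exists_step hc f (by omega) (fun i _ => hVP i (hfV i)) hreg (V j)
      (hV j (by omega))
    refine ⟨Function.update f j g, ?_, ?_⟩
    · intro i
      by_cases h : i = j
      · subst h; simpa using hgV
      · simpa [Function.update_of_ne h] using hfV i
    · have hmap : (List.range j).map (fun i => algebraMap (MvPolynomial σ k)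
          (Localization.AtPrime P) (Function.update f j g i)) = (List.range j).map
          (fun i => algebraMap (MvPolynomial σ k) (Localization.AtPrime P) (f i)) := by
        apply List.map_congr_left
        intro i hi
        rw [List.mem_range] at hi
        rw [Function.update_of_ne (by omega)]
      rw [reg_succ_iff]
      unfold Reg
      rw [hmap, Function.update_self]
      exact ⟨hreg, hg⟩

/-- at the end of a regular sequence of length `height P` the contracted ideal is `P`-primary -/
theorem Reg.radical_eq {c : ℕ} (hc : P.height = c) {f : ℕ → MvPolynomial σ k}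
    (hf : ∀ i < c, f i ∈ P) (h : Reg P f c) :
    (JJ P f c).IsPrimary ∧ (JJ P f c).radical = P := by
  set A := Localization.AtPrime P with hA
  set rs := (List.range c).map fun i => algebraMap (MvPolynomial σ k) A (f i) with hrs
  have hlen : rs.length = c := by simp [hrs]
  have hmem : ∀ r ∈ rs, r ∈ maximalIdeal A := by
    intro r hr
    simp only [hrs, List.mem_map, List.mem_range] at hr
    obtain ⟨i, hi, rfl⟩ := hr
    exact algebraMap_mem_maximalIdeal (hf i hi)
  have hCM : CM A (0 + rs.length) A := by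
    have := cm_localization hc
    rwa [zero_add, hlen]
  have h0 := hCM.quot_of_isWeaklyRegular rs hmem 0 A h
  -- every prime over `rs` is maximal
  have hmax : ∀ q : Ideal A, q.IsPrime → Ideal.ofList rs ≤ q → q = maximalIdeal A := by
    intro q hq hle
    by_contra hne
    have hd := h0.dim
    rw [smul_eq_mul, Ideal.mul_top, Module.supportDim_quotient_eq_ringKrullDim] at hd
    have hqm : q ≤ maximalIdeal A := le_maximalIdeal hq.ne_top
    obtain ⟨x, hx, hxq⟩ := SetLike.exists_of_lt (lt_of_le_of_ne hqm hne)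
    have h1 := ringKrullDim_quotient_add_one_le hqm hx hxq
    have h2 : ringKrullDim (A ⧸ q) ≤ ringKrullDim (A ⧸ Ideal.ofList rs) :=
      ringKrullDim_le_of_surjective (Ideal.Quotient.factor hle)
        (Ideal.Quotient.factor_surjective hle)
    rw [hd] at h2
    have h3 : (0 : WithBot ℕ∞) ≤ ringKrullDim (A ⧸ maximalIdeal A) := ringKrullDim_nonneg_of_nontrivial
    have h4 : (0 : WithBot ℕ∞) + 1 ≤ 0 := by
      refine le_trans (add_le_add_left h3 1) (h1.trans (h2.trans ?_))
      simp
    exact absurd h4 (by decide)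
  have hrad : (Ideal.ofList rs).radical = maximalIdeal A := by
    rw [Ideal.radical_eq_sInf]
    apply le_antisymm
    · refine sInf_le ⟨?_, inferInstance⟩
      refine Ideal.span_le.2 ?_
      intro r hr
      exact hmem r hr
    · refine le_sInf ?_
      rintro q ⟨hq1, hq2⟩
      rw [hmax q hq2 hq1]
  have hprim : (Ideal.ofList rs).IsPrimary := by
    apply Ideal.isPrimary_of_isMaximal_radical
    rw [hrad]; infer_instance
  refine ⟨hprim.comap _, ?_⟩
  show (Ideal.comap (algebraMap (MvPolynomial σ k) A) (Ideal.ofList rs)).radical = P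
  rw [← Ideal.comap_radical, hrad]
  exact IsLocalization.AtPrime.under_maximalIdeal A P


/-- **Existence of regular sequences in given linear subspaces of `P`.** -/
theorem exists_regular_seq [Infinite k] {c : ℕ} (hc : P.height = c)
    (V : ℕ → Submodule k (MvPolynomial σ k)) (hVP : ∀ j, V j ≤ P.restrictScalars k)
    (hV : ∀ j < c, ∀ Q : Ideal (MvPolynomial σ k), Q.IsPrime → Q ≤ P →
      V j ≤ Q.restrictScalars k → ((j + 1 : ℕ) : ℕ∞) ≤ Q.height) :
    ∃ (f : ℕ → MvPolynomial σ k) (J : ℕ → Ideal (MvPolynomial σ k)), J 0 = ⊥ ∧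
      (∀ j, f j ∈ V j) ∧
      (∀ j < c, f j ∈ J (j + 1) ∧ J j ≤ J (j + 1) ∧ (∀ g, f j * g ∈ J j → g ∈ J j)) ∧
      (∀ j ≤ c, J j ≤ P) ∧ (J c).IsPrimary ∧ (J c).radical = P ∧
      (∀ j, J j = (Ideal.span {x | ∃ i < j, x = algebraMap (MvPolynomial σ k)
        (Localization.AtPrime P) (f i)}).comap
          (algebraMap (MvPolynomial σ k) (Localization.AtPrime P))) := by
  obtain ⟨f, hfV, hreg⟩ := exists_reg hc V hVP hV c le_rfl
  have hfP : ∀ i, f i ∈ P := fun i => hVP i (hfV i)
  obtain ⟨h1, h2⟩ := hreg.radical_eq hc (fun i _ => hfP i)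
  refine ⟨f, JJ P f, JJ_zero f, hfV, ?_, fun j _ => JJ_le fun i _ => hfP i, h1, h2, ?_⟩
  · intro j hj
    exact ⟨mem_JJ_succ f j, JJ_le_succ f j, fun g hg => mem_JJ_of_mul_mem (hreg.mono hj) hg⟩
  · intro j
    unfold JJ Ideal.ofList
    congr 2
    ext x
    simp only [List.mem_map, List.mem_range, Set.mem_ofPred_eq]
    constructor
    · rintro ⟨i, hi, rfl⟩; exact ⟨i, hi, rfl⟩
    · rintro ⟨i, hi, rfl⟩; exact ⟨i, hi, rfl⟩

end main

end Crest.Agent.R065.CM474
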