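import Crest.Agent.R065.HFcut_669
import Mathlib
import Crest.Agent.R065.DimDeg_669
import Crest.Agent.R003.Kr576

-- ▼ part R065/Mult_496a
section

/-!
# Multiplicity through Hilbert functions (row 65)

Chains of ideals whose colon ideals lie in a prime `P`, and the telescoped cut inequality for a
regular sequence: `N * δ ≤ d_1 ... d_c`.
-/

set_option autoImplicit false

open MvPolynomial Module

namespace Crest.Agent.R065.Mult496

open Crest.Agent.R065.HF669

variable {k : Type*} [Field k] {σ : Type*}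

/-- one step of a chain: `J ∋ u` and `I : u ≤ P` -/
lemma HF_step [Finite σ] {I J P : Ideal (MvPolynomial σ k)} (h : I ≤ J)
    {u : MvPolynomial σ k} (huJ : u ∈ J) (hu : ∀ g, u * g ∈ I → g ∈ P) {e : ℕ}
    (he : u.totalDegree ≤ e) (m : ℕ) : HF J (m + e) + HF P m ≤ HF I (m + e) := by
  have h1 := HF_add_col_le h huJ he m
  have h2 : col I u ≤ P := fun g hg => hu g (mem_col.1 hg)
  have h3 := HF_anti h2 m
  omega

/-- a chain of ideals `J 0 ≤ J 1 ≤ ... ≤ J N` all of whose steps contain a copy of `R/P'` with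
`P' ≤ P` -/
def PChain {R : Type*} [CommRing R] (P : Ideal R) (J : ℕ → Ideal R) (N : ℕ) : Prop :=
  ∀ i < N, J i ≤ J (i + 1) ∧ ∃ u ∈ J (i + 1), ∀ g, u * g ∈ J i → g ∈ P

/-- a chain of length `N` above `W` gives `N * HF P m ≤ HF W (m + b)` -/
lemma HF_chain [Finite σ] {P : Ideal (MvPolynomial σ k)} {J : ℕ → Ideal (MvPolynomial σ k)}
    {N : ℕ} (hJ : PChain P J N) :
    ∃ b : ℕ, ∀ m, HF (J N) (m + b) + N * HF P m ≤ HF (J 0) (m + b) := by
  induction N with
  | zero => exact ⟨0, fun m => by simp⟩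
  | succ N ih =>
    obtain ⟨b, hb⟩ := ih fun i hi => hJ i (by omega)
    obtain ⟨h1, u, hu1, hu2⟩ := hJ N (by omega)
    refine ⟨b + u.totalDegree, fun m => ?_⟩
    have h3 := HF_step h1 hu1 hu2 le_rfl (m + b)
    have h4 := hb (m + u.totalDegree)
    have h5 : HF P m ≤ HF P (m + b) := HF_mono P (by omega)
    have h6 : HF P m ≤ HF P (m + u.totalDegree) := HF_mono P (by omega)
    have h7 : N * HF P m ≤ N * HF P (m + u.totalDegree) := Nat.mul_le_mul_left _ h6
    have e1 : m + u.totalDegree + b = m + b + u.totalDegree := by omega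
    rw [e1] at h4
    have e2 : m + (b + u.totalDegree) = m + b + u.totalDegree := by omega
    rw [e2, Nat.succ_mul]
    omega

lemma HF_chain' [Finite σ] {P : Ideal (MvPolynomial σ k)} {J : ℕ → Ideal (MvPolynomial σ k)}
    {N : ℕ} (hJ : PChain P J N) : ∃ b : ℕ, ∀ m, N * HF P m ≤ HF (J 0) (m + b) := by
  obtain ⟨b, hb⟩ := HF_chain hJ
  exact ⟨b, fun m => (Nat.le_add_left _ _).trans (hb m)⟩

/-! ### Elementary inequalities -/

lemma add_pow_le (a d s : ℕ) : (a + d) ^ (s + 1) ≤ a ^ (s + 1) + (s + 1) * d * (a + d) ^ s := by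
  induction s with
  | zero => simp
  | succ s ih =>
    have h1 : (a + d) ^ (s + 2) = a * (a + d) ^ (s + 1) + d * (a + d) ^ (s + 1) := by ring
    have h2 : a * (a + d) ^ (s + 1) ≤ a * (a ^ (s + 1) + (s + 1) * d * (a + d) ^ s) :=
      Nat.mul_le_mul_left _ ih
    have h3 : a * ((s + 1) * d * (a + d) ^ s) ≤ (s + 1) * d * (a + d) ^ (s + 1) := by
      have h4 : a * (a + d) ^ s ≤ (a + d) ^ (s + 1) := by
        rw [pow_succ']; exact Nat.mul_le_mul_right _ (by omega)
      calc a * ((s + 1) * d * (a + d) ^ s) = (s + 1) * d * (a * (a + d) ^ s) := by ring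
        _ ≤ _ := Nat.mul_le_mul_left _ h4
    have e1 : (s + 1 + 1) * d * (a + d) ^ (s + 1) =
        (s + 1) * d * (a + d) ^ (s + 1) + d * (a + d) ^ (s + 1) := by ring
    have e2 : a ^ (s + 1 + 1) = a * a ^ (s + 1) := by ring
    have e3 : a * (a ^ (s + 1) + (s + 1) * d * (a + d) ^ s) =
      a * a ^ (s + 1) + a * ((s + 1) * d * (a + d) ^ s) := by ring
    rw [e1, e2]
    change (a + d) ^ (s + 2) ≤ _
    rw [h1]
    rw [e3] at h2
    omega

/-- the limit argument -/
lemma le_of_pow_le {x y a s : ℕ} (h : ∀ m : ℕ, x * m ^ s ≤ y * (m + a) ^ s) : x ≤ y := by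
  rcases Nat.eq_zero_or_pos s with rfl | hs
  · simpa using h 0
  obtain ⟨s, rfl⟩ : ∃ t, s = t + 1 := ⟨s - 1, by omega⟩
  by_contra hxy
  push Not at hxy
  -- m ^ (s+1) ≤ y * (s+1) * a * (m+a) ^ s
  have h1 : ∀ m, m ^ (s + 1) ≤ y * ((s + 1) * a * (m + a) ^ s) := by
    intro m
    have h2 : (y + 1) * m ^ (s + 1) ≤ x * m ^ (s + 1) := Nat.mul_le_mul_right _ hxy
    have h3 : y * (m + a) ^ (s + 1) ≤ y * (m ^ (s + 1) + (s + 1) * a * (m + a) ^ s) :=
      Nat.mul_le_mul_left _ (add_pow_le m a s)
    have h4 := h m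
    have e1 : (y + 1) * m ^ (s + 1) = y * m ^ (s + 1) + m ^ (s + 1) := by ring
    rw [mul_add] at h3
    omega
  have h2 := h1 (a + y * (s + 1) * a * 2 ^ s + 1)
  set m := a + y * (s + 1) * a * 2 ^ s + 1 with hm
  have h3 : (m + a) ^ s ≤ (2 * m) ^ s := Nat.pow_le_pow_left (by omega) s
  have h4 : y * ((s + 1) * a * (m + a) ^ s) ≤ y * ((s + 1) * a * (2 * m) ^ s) :=
    Nat.mul_le_mul_left _ (Nat.mul_le_mul_left _ h3)
  have h5 : y * ((s + 1) * a * (2 * m) ^ s) = (y * (s + 1) * a * 2 ^ s) * m ^ s := by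
    rw [mul_pow]; ring
  have h6 : m ^ (s + 1) = m * m ^ s := by ring
  have h7 : m * m ^ s ≤ (y * (s + 1) * a * 2 ^ s) * m ^ s := by
    rw [← h6, ← h5]; exact h2.trans h4
  have h8 : 0 < m ^ s := Nat.pow_pos (by omega)
  have h9 := Nat.le_of_mul_le_mul_right h7 h8
  omega

lemma pow_le_factorial_choose (m r : ℕ) : m ^ r ≤ r.factorial * (m + r).choose r := by
  rw [← Nat.ascFactorial_eq_factorial_mul_choose]
  exact (Nat.pow_le_pow_left (Nat.le_succ m) r).trans (Nat.pow_succ_le_ascFactorial (m + 1) r)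

lemma factorial_choose_le_pow (m r : ℕ) : r.factorial * (m + r).choose r ≤ (m + r) ^ r := by
  rw [← Nat.ascFactorial_eq_factorial_mul_choose]
  exact Nat.ascFactorial_le_pow_add m r

/-! ### The telescoped inequality -/

/-- one step of the summation: from `I = J_j` to `J = J_{j+1}` -/
lemma cut_step {F G : ℕ → ℕ} {d s b x y : ℕ} (hFG : ∀ m, F m ≤ G m)
    (hcut : ∀ m, F (m + d) + G m ≤ G (m + d)) (hF : ∀ m, x * m ^ s ≤ y * F (m + b)) (m : ℕ) :
    x * m ^ (s + 1) ≤ ((s + 1) * d * y) * G (m + b) := by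
  rcases Nat.eq_zero_or_pos d with rfl | hd
  · have h1 : F (m + b) = 0 := by
      have := hcut (m + b)
      simp only [add_zero] at this
      omega
    have h2 := hF m
    rw [h1, mul_zero, Nat.le_zero] at h2
    rw [pow_succ, ← mul_assoc, h2, zero_mul]
    exact Nat.zero_le _
  induction m using Nat.strong_induction_on with
  | _ m ih =>
    by_cases hm : m < d
    · calc x * m ^ (s + 1) = (x * m ^ s) * m := by ring
        _ ≤ (y * F (m + b)) * ((s + 1) * d) := by
            refine Nat.mul_le_mul (hF m) ?_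
            nlinarith
        _ = ((s + 1) * d * y) * F (m + b) := by ring
        _ ≤ _ := Nat.mul_le_mul_left _ (hFG _)
    · push Not at hm
      obtain ⟨m', rfl⟩ := Nat.exists_eq_add_of_le' hm
      have h1 := ih m' (by omega)
      have h2 := hcut (m' + b)
      have h3 := hF (m' + d)
      have e0 : m' + d + b = m' + b + d := by omega
      rw [e0] at h3 ⊢
      have h4 := add_pow_le m' d s
      calc x * (m' + d) ^ (s + 1) ≤ x * (m' ^ (s + 1) + (s + 1) * d * (m' + d) ^ s) :=
            Nat.mul_le_mul_left _ h4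
        _ = x * m' ^ (s + 1) + (s + 1) * d * (x * (m' + d) ^ s) := by ring
        _ ≤ (s + 1) * d * y * G (m' + b) + (s + 1) * d * (y * F (m' + b + d)) :=
            Nat.add_le_add h1 (Nat.mul_le_mul_left _ h3)
        _ = (s + 1) * d * y * (F (m' + b + d) + G (m' + b)) := by ring
        _ ≤ _ := Nat.mul_le_mul_left _ h2

/-- data of a regular sequence `f 0, ..., f (c-1)` with degrees `≤ d j` relative to the chain of
ideals `J 0 ≤ ... ≤ J c` -/
structure RegChain (J : ℕ → Ideal (MvPolynomial σ k)) (f : ℕ → MvPolynomial σ k) (d : ℕ → ℕ)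
    (c : ℕ) : Prop where
  le : ∀ j < c, J j ≤ J (j + 1)
  mem : ∀ j < c, f j ∈ J (j + 1)
  deg : ∀ j < c, (f j).totalDegree ≤ d j
  nzd : ∀ j < c, ∀ g, f j * g ∈ J j → g ∈ J j

lemma RegChain.HF_pow [Finite σ] {J : ℕ → Ideal (MvPolynomial σ k)} {f : ℕ → MvPolynomial σ k}
    {d : ℕ → ℕ} {c : ℕ} (h : RegChain J f d c) {x r b : ℕ}
    (hx : ∀ m, x * m ^ r ≤ r.factorial * HF (J c) (m + b)) :
    ∀ i ≤ c, ∀ m, x * m ^ (r + i) ≤
      ((r + i).factorial * ∏ j ∈ Finset.Ico (c - i) c, d j) * HF (J (c - i)) (m + b) := by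
  intro i
  induction i with
  | zero => intro _ m; simpa using hx m
  | succ i ih =>
    intro hi m
    have h1 := ih (by omega)
    have e1 : c - i = (c - (i + 1)) + 1 := by omega
    have hj : c - (i + 1) < c := by omega
    have h2 := cut_step (F := HF (J (c - i))) (G := HF (J (c - (i + 1)))) (d := d (c - (i + 1)))
      (s := r + i) (b := b) (x := x) (y := (r + i).factorial * ∏ j ∈ Finset.Ico (c - i) c, d j)
      (fun m => by rw [e1]; exact HF_anti (h.le _ hj) m)
      (fun m => by
        rw [e1]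
        exact HF_cut (h.le _ hj) (h.mem _ hj) (h.deg _ hj) (h.nzd _ hj) m)
      h1 m
    have e2 : (r + (i + 1)).factorial * ∏ j ∈ Finset.Ico (c - (i + 1)) c, d j =
        (r + i + 1) * d (c - (i + 1)) *
          ((r + i).factorial * ∏ j ∈ Finset.Ico (c - i) c, d j) := by
      rw [Finset.prod_eq_prod_Ico_succ_bot hj, ← e1, ← add_assoc, Nat.factorial_succ]
      ring
    rw [e2, ← add_assoc]
    exact h2

/-- **Multiplicity bound.** If `HF (J c) (m+b) ≥ x * C(m+r,r)` and `c + r ≥ dim`, then
`x ≤ d_0 ... d_{c-1}`. -/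
theorem RegChain.le_prod [Fintype σ] {J : ℕ → Ideal (MvPolynomial σ k)}
    {f : ℕ → MvPolynomial σ k} {d : ℕ → ℕ} {c : ℕ} (h : RegChain J f d c) {x r b : ℕ}
    (hcr : Fintype.card σ ≤ r + c)
    (hx : ∀ m, x * (m + r).choose r ≤ HF (J c) (m + b)) : x ≤ ∏ j ∈ Finset.range c, d j := by
  have h1 := h.HF_pow (x := x) (r := r) (b := b) (fun m => by
    calc x * m ^ r ≤ x * (r.factorial * (m + r).choose r) :=
          Nat.mul_le_mul_left _ (pow_le_factorial_choose m r)
      _ = r.factorial * (x * (m + r).choose r) := by ring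
      _ ≤ _ := Nat.mul_le_mul_left _ (hx m)) c le_rfl
  simp only [Nat.sub_self, ← Finset.range_eq_Ico] at h1
  refine le_of_pow_le (s := r + c) (a := b + (r + c)) (fun m => (h1 m).trans ?_)
  have h2 := HF_le_choose (J 0) (m + b)
  have h3 : (m + b + Fintype.card σ).choose (Fintype.card σ) ≤
      (m + b + (r + c)).choose (r + c) := by
    rw [← Nat.choose_symm_add, ← Nat.choose_symm_add]
    exact Nat.choose_le_choose _ (by omega)
  calc (r + c).factorial * (∏ j ∈ Finset.range c, d j) * HF (J 0) (m + b)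
      ≤ (r + c).factorial * (∏ j ∈ Finset.range c, d j) * (m + b + (r + c)).choose (r + c) :=
        Nat.mul_le_mul_left _ (h2.trans h3)
    _ = (∏ j ∈ Finset.range c, d j) * ((r + c).factorial * (m + b + (r + c)).choose (r + c)) := by
        ring
    _ ≤ (∏ j ∈ Finset.range c, d j) * (m + b + (r + c)) ^ (r + c) :=
        Nat.mul_le_mul_left _ (factorial_choose_le_pow _ _)
    _ = _ := by rw [add_assoc]

/-- **Multiplicity bound, chain form.** A `P`-chain of length `N` above `J c`, `δ` a lower bound for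
the degree of `P`: `N * δ ≤ d_0 ... d_{c-1}`. -/
theorem RegChain.chain_le_prod [Fintype σ] {J : ℕ → Ideal (MvPolynomial σ k)}
    {f : ℕ → MvPolynomial σ k} {d : ℕ → ℕ} {c : ℕ} (h : RegChain J f d c)
    {P : Ideal (MvPolynomial σ k)} {δ r b : ℕ} (hcr : Fintype.card σ ≤ r + c)
    (hδ : ∀ m, δ * (m + r).choose r ≤ HF P (m + b)) {K : ℕ → Ideal (MvPolynomial σ k)} {N : ℕ}
    (hK : PChain P K N) (hJK : J c ≤ K 0) : N * δ ≤ ∏ j ∈ Finset.range c, d j := by
  obtain ⟨b', hb'⟩ := HF_chain' hK
  refine h.le_prod (x := N * δ) (r := r) (b := b + b') hcr fun m => ?_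
  calc N * δ * (m + r).choose r = N * (δ * (m + r).choose r) := by ring
    _ ≤ N * HF P (m + b) := Nat.mul_le_mul_left _ (hδ m)
    _ ≤ HF (K 0) (m + b + b') := hb' _
    _ ≤ HF (J c) (m + b + b') := HF_anti hJK _
    _ = _ := by rw [add_assoc]

end Crest.Agent.R065.Mult496
end

-- ▼ part R065/Der_496
section

/-!
# Derivations and primes: the filtration `K_n = {u | E^i u ∈ P for i < n}` (row 65)

If `E` is a derivation of `R` and `E P ⊄ P` for the prime `P` (with `R/P` of characteristic `0`) then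
`K_n < ... < K_1 = P < K_0 = R` is a chain whose steps have colon ideals `≤ P`.
-/

set_option autoImplicit false

namespace Crest.Agent.R065.Der496

open Finset

variable {R : Type*} [CommRing R]

/-- Leibniz formula for iterated derivations -/
theorem iterate_mul (E : Derivation ℤ R R) (n : ℕ) (p q : R) :
    E^[n] (p * q) = ∑ i ∈ range n.succ, (n.choose i) • (E^[n - i] p * E^[i] q) := by
  induction n with
  | zero => simp
  | succ n IH =>
    have hmap : ∀ (s : Finset ℕ) (g : ℕ → R), E (∑ i ∈ s, g i) = ∑ i ∈ s, E (g i) :=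
      fun s g => map_sum E g s
    calc
      E^[n + 1] (p * q) =
          E (∑ k ∈ range n.succ, n.choose k • (E^[n - k] p * E^[k] q)) := by
        rw [Function.iterate_succ_apply', IH]
      _ = (∑ k ∈ range n.succ, n.choose k • (E^[n - k + 1] p * E^[k] q)) +
          ∑ k ∈ range n.succ, n.choose k • (E^[n - k] p * E^[k + 1] q) := by
        rw [hmap, ← sum_add_distrib]
        refine sum_congr rfl fun i _ => ?_
        have h1 : E (n.choose i • (E^[n - i] p * E^[i] q)) =
            n.choose i • E (E^[n - i] p * E^[i] q) := map_nsmul E _ _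
        rw [h1, Derivation.leibniz, ← smul_add]
        congr 1
        rw [Function.iterate_succ_apply', Function.iterate_succ_apply', smul_eq_mul, smul_eq_mul]
        ring
      _ = (∑ k ∈ range n.succ, n.choose k.succ • (E^[n - k] p * E^[k + 1] q)) +
            1 • (E^[n + 1] p * E^[0] q) +
          ∑ k ∈ range n.succ, n.choose k • (E^[n - k] p * E^[k + 1] q) :=
        ?_
      _ = ((∑ k ∈ range n.succ, n.choose k • (E^[n - k] p * E^[k + 1] q)) +
            ∑ k ∈ range n.succ, n.choose k.succ • (E^[n - k] p * E^[k + 1] q)) +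
          1 • (E^[n + 1] p * E^[0] q) := by
        rw [add_comm, add_assoc]
      _ = (∑ i ∈ range n.succ, (n + 1).choose (i + 1) •
          (E^[n + 1 - (i + 1)] p * E^[i + 1] q)) +
            1 • (E^[n + 1] p * E^[0] q) := by
        simp_rw [Nat.choose_succ_succ, Nat.succ_sub_succ, add_smul, sum_add_distrib]
      _ = ∑ k ∈ range n.succ.succ,
            n.succ.choose k • (E^[n.succ - k] p * E^[k] q) := by
        rw [sum_range_succ' _ n.succ, Nat.choose_zero_right, tsub_zero]
    congr
    refine (sum_range_succ' _ _).trans (congr_arg₂ (· + ·) ?_ ?_)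
    · rw [sum_range_succ, Nat.choose_succ_self, zero_smul, add_zero]
      refine sum_congr rfl fun k hk => ?_
      rw [mem_range] at hk
      congr
      lia
    · rw [Nat.choose_zero_right, tsub_zero]

/-- `K E P n = {u | E^i u ∈ P for all i < n}` -/
def K (E : Derivation ℤ R R) (P : Ideal R) (n : ℕ) : Ideal R where
  carrier := {u | ∀ i < n, E^[i] u ∈ P}
  zero_mem' := by
    intro i _
    have : ∀ i, E^[i] (0 : R) = 0 := by
      intro i
      induction i with
      | zero => rfl
      | succ i ih => rw [Function.iterate_succ_apply', ih, map_zero]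
    rw [this]; exact P.zero_mem
  add_mem' := by
    intro a b ha hb i hi
    have : ∀ i, E^[i] (a + b) = E^[i] a + E^[i] b := by
      intro i
      induction i with
      | zero => rfl
      | succ i ih => simp only [Function.iterate_succ_apply', ih, map_add]
    rw [this]; exact P.add_mem (ha i hi) (hb i hi)
  smul_mem' := by
    intro c x hx i hi
    rw [smul_eq_mul, iterate_mul]
    refine P.sum_mem fun j hj => ?_
    rw [mem_range] at hj
    exact P.smul_of_tower_mem _ (P.mul_mem_left _ (hx j (by omega)))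

lemma mem_K {E : Derivation ℤ R R} {P : Ideal R} {n : ℕ} {u : R} :
    u ∈ K E P n ↔ ∀ i < n, E^[i] u ∈ P := Iff.rfl

lemma K_zero (E : Derivation ℤ R R) (P : Ideal R) : K E P 0 = ⊤ := by
  rw [Ideal.eq_top_iff_one, mem_K]
  intro i hi; omega

lemma K_one (E : Derivation ℤ R R) (P : Ideal R) : K E P 1 = P := by
  ext u
  rw [mem_K]
  constructor
  · intro h; exact h 0 (by omega)
  · intro h i hi
    have : i = 0 := by omega
    rw [this]; exact h

lemma K_anti (E : Derivation ℤ R R) (P : Ideal R) {m n : ℕ} (h : m ≤ n) : K E P n ≤ K E P m :=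
  fun _ hu i hi => hu i (by omega)

/-- elements outside `P` are nonzerodivisors modulo `K_n` -/
lemma mem_K_of_mul_mem {E : Derivation ℤ R R} {P : Ideal R} (hP : P.IsPrime) {n : ℕ} {g u : R}
    (hg : g ∉ P) (h : g * u ∈ K E P n) : u ∈ K E P n := by
  rw [mem_K] at h ⊢
  intro i
  induction i using Nat.strong_induction_on with
  | _ i ih =>
    intro hi
    have h1 := h i hi
    rw [iterate_mul, sum_range_succ] at h1
    have h2 : ∑ j ∈ range i, (i.choose j) • (E^[i - j] g * E^[j] u) ∈ P := by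
      refine P.sum_mem fun j hj => ?_
      rw [mem_range] at hj
      exact P.smul_of_tower_mem _ (P.mul_mem_left _ (ih j hj (by omega)))
    have h3 := (P.add_mem_iff_right h2).1 h1
    rw [Nat.choose_self, one_smul, Nat.sub_self] at h3
    exact (hP.mem_or_mem h3).resolve_left hg

lemma mul_mem_K {E : Derivation ℤ R R} {P : Ideal R} {a b : ℕ} {u v : R} (hu : u ∈ K E P a)
    (hv : v ∈ K E P b) : u * v ∈ K E P (a + b) := by
  intro n hn
  rw [iterate_mul]
  refine P.sum_mem fun j hj => ?_
  rw [mem_range] at hj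
  refine P.smul_of_tower_mem _ ?_
  by_cases h : j < b
  · exact P.mul_mem_left _ (hv j h)
  · exact P.mul_mem_right _ (hu (n - j) (by omega))

/-- the leading terms multiply -/
lemma iterate_mul_sub_mem {E : Derivation ℤ R R} {P : Ideal R} {a b : ℕ} {u v : R}
    (hu : u ∈ K E P a) (hv : v ∈ K E P b) :
    E^[a + b] (u * v) - (a + b).choose b • (E^[a] u * E^[b] v) ∈ P := by
  rw [iterate_mul, ← Finset.add_sum_erase _ _ (a := b) (mem_range.2 (by omega))]
  have e1 : a + b - b = a := by omega
  rw [e1, add_sub_cancel_left]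
  refine P.sum_mem fun j hj => ?_
  rw [mem_erase, mem_range] at hj
  refine P.smul_of_tower_mem _ ?_
  by_cases h : j < b
  · exact P.mul_mem_left _ (hv j h)
  · exact P.mul_mem_right _ (hu (a + b - j) (by omega))

lemma pow_mem_K {E : Derivation ℤ R R} {P : Ideal R} {w : R} (hw : w ∈ P) (n : ℕ) :
    w ^ n ∈ K E P n := by
  induction n with
  | zero => rw [K_zero]; trivial
  | succ n ih =>
    rw [pow_succ]
    exact mul_mem_K ih (by rw [K_one]; exact hw)

lemma iterate_pow_notMem {E : Derivation ℤ R R} {P : Ideal R} (hP : P.IsPrime)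
    (hch : ∀ n : ℕ, n ≠ 0 → (n : R) ∉ P) {w : R} (hw : w ∈ P) (hEw : E w ∉ P) (n : ℕ) :
    E^[n] (w ^ n) ∉ P := by
  induction n with
  | zero =>
    rw [pow_zero]
    exact fun h => hP.ne_top ((Ideal.eq_top_iff_one _).2 h)
  | succ n ih =>
    intro h
    rw [pow_succ] at h
    have h1 := iterate_mul_sub_mem (E := E) (P := P) (a := n) (b := 1) (pow_mem_K hw n)
      (by rw [K_one]; exact hw)
    have h2 := (P.sub_mem_iff_right h).1 h1
    rw [Nat.choose_one_right, nsmul_eq_mul] at h2
    rcases hP.mem_or_mem h2 with h3 | h3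
    · exact hch _ (by omega) h3
    · rcases hP.mem_or_mem h3 with h4 | h4
      · exact ih h4
      · exact hEw h4

/-- the chain `J i = K_{n-i}` -/
def J (E : Derivation ℤ R R) (P : Ideal R) (n : ℕ) (i : ℕ) : Ideal R := K E P (n - i)

/-- if `E P ⊄ P`, then `K_n < K_{n-1} < ... < K_0` with colon ideals `≤ P` -/
lemma J_chain {E : Derivation ℤ R R} {P : Ideal R} (hP : P.IsPrime)
    (hch : ∀ n : ℕ, n ≠ 0 → (n : R) ∉ P) {w : R} (hw : w ∈ P) (hEw : E w ∉ P) (n : ℕ) :
    ∀ i < n, J E P n i ≤ J E P n (i + 1) ∧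
      ∃ u ∈ J E P n (i + 1), ∀ g, u * g ∈ J E P n i → g ∈ P := by
  intro i hi
  refine ⟨K_anti E P (by omega), w ^ (n - (i + 1)), pow_mem_K hw _, fun g hg => ?_⟩
  by_contra hgP
  rw [mul_comm] at hg
  have h1 := mem_K_of_mul_mem hP hgP hg
  exact iterate_pow_notMem hP hch hw hEw _ (h1 (n - (i + 1)) (by omega))

end Crest.Agent.R065.Der496
end

-- ▼ part R065/Mult_496b
section

/-!
# Multiplicity through lengths, and the derivation lemma (row 65)
-/

set_option autoImplicit false

open MvPolynomial Module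

namespace Crest.Agent.R065.Mult496

open Crest.Agent.R065.HF669

section chain

variable {R : Type*} [CommRing R]

/-- an ideal `I` of `R_P` with `length (R_P / I) ≥ N` gives a `P`-chain of length `N` starting from
the contraction of `I` -/
lemma exists_PChain (P : Ideal R) [P.IsPrime] (I : Ideal (Localization.AtPrime P)) {N : ℕ}
    (hN : (N : ℕ∞) ≤ Module.length (Localization.AtPrime P) (Localization.AtPrime P ⧸ I)) :
    ∃ K : ℕ → Ideal R, K 0 = I.comap (algebraMap R (Localization.AtPrime P)) ∧ PChain P K N := by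
  rw [Module.length_quotient] at hN
  obtain ⟨p, hp0, hpN⟩ := Order.exists_series_of_le_coheight I hN
  refine ⟨fun i => if h : i < p.length + 1 then
    (p ⟨i, h⟩ : Ideal (Localization.AtPrime P)).comap (algebraMap R (Localization.AtPrime P))
    else ⊤, ?_, ?_⟩
  · simp only [Nat.zero_lt_succ, dite_true]
    rw [← hp0]
    rfl
  · intro i hi
    have h1 : i < p.length + 1 := by omega
    have h2 : i + 1 < p.length + 1 := by omega
    simp only [h1, h2, dite_true]
    have hlt : (p ⟨i, h1⟩ : Ideal (Localization.AtPrime P)) < p ⟨i + 1, h2⟩ :=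
      p.strictMono (by simp [Fin.lt_def])
    refine ⟨Ideal.comap_mono hlt.le, ?_⟩
    obtain ⟨x, hx1, hx2⟩ := SetLike.exists_of_lt hlt
    obtain ⟨⟨a, s⟩, hs⟩ := IsLocalization.surj P.primeCompl x
    simp only at hs
    have hu : IsUnit (algebraMap R (Localization.AtPrime P) s) :=
      IsLocalization.map_units _ s
    refine ⟨a, ?_, fun g hg => ?_⟩
    · rw [Ideal.mem_comap, ← hs]
      exact Ideal.mul_mem_right _ _ hx1
    · by_contra hgP
      have hg' : IsUnit (algebraMap R (Localization.AtPrime P) g) :=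
        IsLocalization.map_units (Localization.AtPrime P) (⟨g, hgP⟩ : P.primeCompl)
      rw [Ideal.mem_comap, map_mul, ← hs] at hg
      have h3 : x * algebraMap R (Localization.AtPrime P) s ∈
          (p ⟨i, h1⟩ : Ideal (Localization.AtPrime P)) :=
        (Ideal.mul_unit_mem_iff_mem _ hg').1 hg
      exact hx2 ((Ideal.mul_unit_mem_iff_mem _ hu).1 h3)

end chain

variable {k : Type*} [Field k] {σ : Type*}

/-- **Multiplicity bound, length form.** -/
theorem RegChain.length_mul_le_prod [Fintype σ] {J : ℕ → Ideal (MvPolynomial σ k)}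
    {f : ℕ → MvPolynomial σ k} {d : ℕ → ℕ} {c : ℕ} (h : RegChain J f d c)
    {P : Ideal (MvPolynomial σ k)} [P.IsPrime] {δ r b : ℕ} (hcr : Fintype.card σ ≤ r + c)
    (hδ : ∀ m, δ * (m + r).choose r ≤ HF P (m + b)) (I : Ideal (Localization.AtPrime P))
    (hI : J c ≤ I.comap (algebraMap (MvPolynomial σ k) (Localization.AtPrime P))) {N : ℕ}
    (hN : (N : ℕ∞) ≤ Module.length (Localization.AtPrime P) (Localization.AtPrime P ⧸ I)) :
    N * δ ≤ ∏ j ∈ Finset.range c, d j := by
  obtain ⟨K, hK0, hK⟩ := exists_PChain P I hN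
  exact h.chain_le_prod hcr hδ hK (hK0 ▸ hI)

/-- finiteness of the length, and the bound in `ℕ∞` -/
theorem RegChain.length_mul_le_prod' [Fintype σ] {J : ℕ → Ideal (MvPolynomial σ k)}
    {f : ℕ → MvPolynomial σ k} {d : ℕ → ℕ} {c : ℕ} (h : RegChain J f d c)
    {P : Ideal (MvPolynomial σ k)} [P.IsPrime] {δ r b : ℕ} (hδ0 : 0 < δ)
    (hcr : Fintype.card σ ≤ r + c)
    (hδ : ∀ m, δ * (m + r).choose r ≤ HF P (m + b)) (I : Ideal (Localization.AtPrime P))
    (hI : J c ≤ I.comap (algebraMap (MvPolynomial σ k) (Localization.AtPrime P))) :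
    ∃ N : ℕ, Module.length (Localization.AtPrime P) (Localization.AtPrime P ⧸ I) = N ∧
      N * δ ≤ ∏ j ∈ Finset.range c, d j := by
  have hfin : Module.length (Localization.AtPrime P) (Localization.AtPrime P ⧸ I) ≠ ⊤ := by
    intro htop
    have h1 := h.length_mul_le_prod hcr hδ I hI (N := (∏ j ∈ Finset.range c, d j) + 1)
      (by rw [htop]; exact le_top)
    have h2 : (∏ j ∈ Finset.range c, d j) + 1 ≤ ((∏ j ∈ Finset.range c, d j) + 1) * δ :=
      Nat.le_mul_of_pos_right _ hδ0
    omega
  obtain ⟨N, hN⟩ := ENat.ne_top_iff_exists.1 hfin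
  exact ⟨N, hN.symm, h.length_mul_le_prod hcr hδ I hI (by rw [hN])⟩

/-! ### The derivation lemma -/

/-- `E^i f ∈ P` for `i ≤ n` if `E (P_{≤ D' + n D}) ⊆ P` and `deg f ≤ D'` -/
lemma mem_K_of_deg {P : Ideal (MvPolynomial σ k)}
    (E : Derivation ℤ (MvPolynomial σ k) (MvPolynomial σ k)) {D D' n : ℕ}
    (hE : ∀ g, (E g).totalDegree ≤ g.totalDegree + D)
    (hP : ∀ g ∈ P, g.totalDegree ≤ D' + n * D → E g ∈ P) {f : MvPolynomial σ k} (hf : f ∈ P)
    (hdeg : f.totalDegree ≤ D') : f ∈ Der496.K E P (n + 2) := by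
  have key : ∀ i, i ≤ n + 1 → E^[i] f ∈ P ∧ (E^[i] f).totalDegree ≤ D' + i * D := by
    intro i
    induction i with
    | zero => intro _; exact ⟨hf, by simpa using hdeg⟩
    | succ i ih =>
      intro hi
      obtain ⟨h1, h2⟩ := ih (by omega)
      rw [Function.iterate_succ_apply']
      have h3 : i * D ≤ n * D := Nat.mul_le_mul_right _ (by omega)
      refine ⟨hP _ h1 (by omega), (hE _).trans ?_⟩
      have : (i + 1) * D = i * D + D := by ring
      omega
  intro i hi
  exact (key i (by omega)).1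

/-- **Derivation lemma, chain form.**  Let `f_0, ..., f_{c-1} ∈ P` be a regular sequence of degrees
`≤ d_j` such that `J c` is generated by the `f_j` locally at `P`.  If `E^i f_j ∈ P` for `i < n`, and
`∏ d_j < n * δ`, then `E P ⊆ P`. -/
theorem RegChain.derivation_mem [Fintype σ] {J : ℕ → Ideal (MvPolynomial σ k)}
    {f : ℕ → MvPolynomial σ k} {d : ℕ → ℕ} {c : ℕ} (h : RegChain J f d c)
    {P : Ideal (MvPolynomial σ k)} (hP : P.IsPrime) {δ r b : ℕ}
    (hch : ∀ n : ℕ, n ≠ 0 → (n : MvPolynomial σ k) ∉ P)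
    (hcr : Fintype.card σ ≤ r + c) (hδ : ∀ m, δ * (m + r).choose r ≤ HF P (m + b))
    (hJ : ∀ u ∈ J c, ∃ g, g ∉ P ∧ g * u ∈ Ideal.span (f '' {j | j < c}))
    (E : Derivation ℤ (MvPolynomial σ k) (MvPolynomial σ k)) {n : ℕ}
    (hn : ∏ j ∈ Finset.range c, d j < n * δ)
    (hE : ∀ j < c, ∀ i < n, E^[i] (f j) ∈ P) : ∀ w ∈ P, E w ∈ P := by
  intro w hw
  by_contra hEw
  have h1 := h.chain_le_prod hcr hδ (K := Der496.J E P n) (N := n)
    (Der496.J_chain hP hch hw hEw n) (by
      intro u hu
      obtain ⟨g, hg, hgu⟩ := hJ u hu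
      change u ∈ Der496.K E P (n - 0)
      rw [Nat.sub_zero]
      refine Der496.mem_K_of_mul_mem hP hg ?_
      refine Ideal.span_le.2 ?_ hgu
      rintro _ ⟨j, hj, rfl⟩
      exact hE j hj)
  omega

/-- **Derivation lemma, length form.** If `length (R_P / (P_{≤ D'}) R_P) ≤ L` and
`E (P_{≤ D' + L D}) ⊆ P`, then `E P ⊆ P`. -/
theorem derivation_mem_of_length {P : Ideal (MvPolynomial σ k)} [hP : P.IsPrime]
    (hch : ∀ n : ℕ, n ≠ 0 → (n : MvPolynomial σ k) ∉ P)
    (E : Derivation ℤ (MvPolynomial σ k) (MvPolynomial σ k)) {D D' L : ℕ}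
    (hE : ∀ g, (E g).totalDegree ≤ g.totalDegree + D)
    (hL : Module.length (Localization.AtPrime P) (Localization.AtPrime P ⧸
      (Ideal.span {g | g ∈ P ∧ g.totalDegree ≤ D'}).map
        (algebraMap (MvPolynomial σ k) (Localization.AtPrime P))) ≤ L)
    (hP' : ∀ g ∈ P, g.totalDegree ≤ D' + L * D → E g ∈ P) : ∀ w ∈ P, E w ∈ P := by
  intro w hw
  by_contra hEw
  -- the chain `I i = K_{L+1-i} A`
  let A := Localization.AtPrime P
  let I : ℕ → Ideal A := fun i => (Der496.K E P (L + 1 - i)).map (algebraMap _ A)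
  have hcomap : ∀ i, (I i).comap (algebraMap (MvPolynomial σ k) A) =
      Der496.K E P (L + 1 - i) := by
    intro i
    apply le_antisymm
    · intro u hu
      rw [Ideal.mem_comap, IsLocalization.mem_map_algebraMap_iff P.primeCompl] at hu
      obtain ⟨⟨a, s⟩, has⟩ := hu
      simp only at has
      rw [← map_mul] at has
      obtain ⟨c, hc⟩ := (IsLocalization.eq_iff_exists P.primeCompl A).1 has
      have h1 : (c * s : MvPolynomial σ k) * u ∈ Der496.K E P (L + 1 - i) := by
        have : (c * s : MvPolynomial σ k) * u = c * a := by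
          rw [← hc]; ring
        rw [this]
        exact Ideal.mul_mem_left _ _ a.2
      exact Der496.mem_K_of_mul_mem hP (g := (c * s : MvPolynomial σ k))
        (fun hcs => (P.primeCompl.mul_mem c.2 s.2) hcs) h1
    · exact Ideal.le_comap_map
  have hlt : ∀ i < L + 1, I i < I (i + 1) := by
    intro i hi
    refine lt_of_le_of_ne (Ideal.map_mono (Der496.K_anti E P (by omega))) ?_
    intro heq
    have h1 := congrArg (fun I => Ideal.comap (algebraMap (MvPolynomial σ k) A) I) heq
    simp only [hcomap] at h1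
    have h2 : w ^ (L - i) ∈ Der496.K E P (L + 1 - i) := by
      rw [h1]
      have : L + 1 - (i + 1) = L - i := by omega
      rw [this]
      exact Der496.pow_mem_K hw _
    exact Der496.iterate_pow_notMem hP hch hw hEw (L - i) (h2 (L - i) (by omega))
  have hI0 : (Ideal.span {g | g ∈ P ∧ g.totalDegree ≤ D'}).map
      (algebraMap (MvPolynomial σ k) A) ≤ I 0 := by
    refine Ideal.map_mono ?_
    rw [Ideal.span_le]
    rintro g ⟨hg, hgd⟩
    exact Der496.K_anti E P (by omega) (mem_K_of_deg E hE hP' hg hgd)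
  have hlen : ((L + 1 : ℕ) : ℕ∞) ≤ Order.coheight (I 0) := by
    have key : ∀ j ≤ L + 1, ((j : ℕ) : ℕ∞) ≤ Order.coheight (I (L + 1 - j)) := by
      intro j
      induction j with
      | zero => intro _; simp
      | succ j ih =>
        intro hj
        have h1 := ih (by omega)
        have h2 : I (L + 1 - (j + 1)) < I (L + 1 - j) := by
          have := hlt (L + 1 - (j + 1)) (by omega)
          have e : L + 1 - (j + 1) + 1 = L + 1 - j := by omega
          rwa [e] at this
        have h3 := Order.coheight_add_one_le h2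
        refine le_trans ?_ h3
        push_cast
        exact add_le_add h1 le_rfl
    have := key (L + 1) le_rfl
    rwa [Nat.sub_self] at this
  rw [Module.length_quotient] at hL
  have h4 := hlen.trans ((Order.coheight_anti hI0).trans hL)
  have h5 : L + 1 ≤ L := by exact_mod_cast h4
  omega

end Crest.Agent.R065.Mult496
end

-- ▼ part R065/Mult_496c

/-!
# Dimension and degree of a prime of a polynomial ring (row 65)

`DegData P r δ b`: the Hilbert function of `R/P` is between `δ C(m-b+r,r)` and `δ C(m+r,r)`.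
Such data exist for every prime (`k` infinite), and `height P + r = dim R`.
-/

set_option autoImplicit false

open MvPolynomial Module

namespace Crest.Agent.R065.Mult496

open Crest.Agent.R065.HF669

variable {k : Type*} [Field k] {σ : Type*}

/-- dimension `r` and degree `δ` of `P` through the Hilbert function -/
structure DegData (P : Ideal (MvPolynomial σ k)) (r δ b : ℕ) : Prop where
  pos : 0 < δ
  le : ∀ m, HF P m ≤ δ * (m + r).choose r
  ge : ∀ m, δ * (m + r).choose r ≤ HF P (m + b)

lemma growth_le {x y r s b : ℕ} (hx : 0 < x) (h : ∀ m : ℕ, x * m ^ r ≤ y * (m + b) ^ s) :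
    r ≤ s := by
  by_contra hrs
  push Not at hrs
  have h1 := h (y * 2 ^ s + b + 1)
  set m := y * 2 ^ s + b + 1 with hm
  have h2 : m ^ (s + 1) ≤ x * m ^ r := by
    calc m ^ (s + 1) ≤ m ^ r := Nat.pow_le_pow_right (by omega) hrs
      _ ≤ x * m ^ r := Nat.le_mul_of_pos_left _ hx
  have h3 : y * (m + b) ^ s ≤ (y * 2 ^ s) * m ^ s := by
    calc y * (m + b) ^ s ≤ y * (2 * m) ^ s :=
          Nat.mul_le_mul_left _ (Nat.pow_le_pow_left (by omega) s)
      _ = _ := by rw [mul_pow]; ring
  have h4 : m * m ^ s ≤ (y * 2 ^ s) * m ^ s := by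
    calc m * m ^ s = m ^ (s + 1) := by ring
      _ ≤ _ := (h2.trans h1).trans h3
  have h5 : 0 < m ^ s := Nat.pow_pos (by omega)
  have h6 := Nat.le_of_mul_le_mul_right h4 h5
  omega

lemma choose_le_pow' (m r : ℕ) : (m + r).choose r ≤ (m + r) ^ r :=
  (Nat.le_mul_of_pos_left _ (Nat.factorial_pos r)).trans (factorial_choose_le_pow m r)

/-- comparison of growths of binomials -/
lemma choose_growth_le {x y r s a b : ℕ} (hx : 0 < x)
    (h : ∀ m : ℕ, x * (m + r).choose r ≤ y * (m + b + s).choose s + a * 0) : r ≤ s := by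
  refine growth_le (x := x) (y := r.factorial * y) (b := b + s) hx fun m => ?_
  calc x * m ^ r ≤ x * (r.factorial * (m + r).choose r) :=
        Nat.mul_le_mul_left _ (pow_le_factorial_choose m r)
    _ = r.factorial * (x * (m + r).choose r) := by ring
    _ ≤ r.factorial * (y * (m + b + s).choose s) := Nat.mul_le_mul_left _ (by simpa using h m)
    _ ≤ r.factorial * (y * (m + b + s) ^ s) :=
        Nat.mul_le_mul_left _ (Nat.mul_le_mul_left _ (choose_le_pow' _ _))
    _ = _ := by rw [add_assoc]; ring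


lemma DegData.dim_le_card [Fintype σ] {P : Ideal (MvPolynomial σ k)} {r δ b : ℕ}
    (h : DegData P r δ b) : r ≤ Fintype.card σ := by
  refine choose_growth_le (x := δ) (y := 1) (b := b) (a := 0) h.pos fun m => ?_
  have := (h.ge m).trans (HF_le_choose P (m + b))
  simpa using this

/-- degree data exist for every prime -/
theorem exists_degData [Infinite k] [Finite σ] (P : Ideal (MvPolynomial σ k)) [hP : P.IsPrime] :
    ∃ r δ b : ℕ, DegData P r δ b := by
  classical
  have := Fintype.ofFinite σ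
  let E := MvPolynomial σ k ⧸ P
  let z : σ → E := fun i => Ideal.Quotient.mk P (X i)
  have haeval : (aeval z : MvPolynomial σ k →ₐ[k] E) = Ideal.Quotient.mkₐ k P := by
    apply MvPolynomial.algHom_ext
    intro i
    rw [aeval_X]; rfl
  have hker : RingHom.ker (aeval z : MvPolynomial σ k →ₐ[k] E) = P := by
    rw [haeval]
    exact Ideal.Quotient.mkₐ_ker k P
  have hHF : ∀ m, HF P m = finrank k (U k z m) := by
    intro m
    have h1 := HF_ker_aeval (k := k) z m
    rwa [hker] at h1
  have hz : ∀ x : E, ∃ q, x ∈ U k z q := by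
    intro x
    obtain ⟨f, rfl⟩ := Ideal.Quotient.mk_surjective x
    refine ⟨f.totalDegree, mem_U.2 ⟨f, le_rfl, ?_⟩⟩
    rw [haeval]; rfl
  let e := Fintype.equivFin σ
  let θ : Fin (Fintype.card σ) → E := z ∘ e.symm
  have hθ : ∀ q, U k z q = U k θ q := by
    intro q
    apply le_antisymm
    · apply U_le_U
      intro i
      have : z i = θ (e i) := by simp [θ]
      rw [this]; exact self_mem_U θ _
    · apply U_le_U
      intro i
      exact self_mem_U z _
  obtain ⟨j, δ, b, h1, h2, h3, h4⟩ := dim_deg_proj (k := k) z hz θ {1} (Set.finite_singleton 1)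
    (fun q => by
      rw [hθ q]
      intro x hx
      rw [← one_mul x]
      exact Submodule.mul_mem_mul (Submodule.subset_span rfl) hx)
    (fun x => by
      obtain ⟨q, hq⟩ := hz x
      rw [hθ q] at hq
      exact ⟨1, one_ne_zero, ⟨0, one_mem_U θ 0⟩, q, by rwa [one_mul]⟩)
  refine ⟨j, δ, b, h1, fun m => ?_, fun m => ?_⟩
  · rw [hHF]; exact h3 m
  · rw [hHF, hθ]; exact h4 m

/-- variables algebraically independent modulo `P` -/
lemma le_HF_of_rename [Finite σ] {ι : Type*} [Fintype ι] {P : Ideal (MvPolynomial σ k)}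
    (j : ι → σ) (hj : ∀ f : MvPolynomial ι k, rename j f ∈ P → f = 0) (m : ℕ) :
    (m + Fintype.card ι).choose (Fintype.card ι) ≤ HF P m := by
  rw [← finrank_W (k := k) (σ := ι) m]
  let L : MvPolynomial ι k →ₗ[k] (MvPolynomial σ k ⧸ P.restrictScalars k) :=
    (P.restrictScalars k).mkQ ∘ₗ (rename j : MvPolynomial ι k →ₐ[k] MvPolynomial σ k).toLinearMap
  have hL : Function.Injective L := by
    rw [injective_iff_map_eq_zero]
    intro f hf
    apply hj
    simpa [L] using hf
  have h1 := finrank_map_of_injective L hL (W k ι m)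
  rw [← h1]
  apply Submodule.finrank_mono
  rw [Submodule.map_comp]
  apply Submodule.map_mono
  rintro _ ⟨f, hf, rfl⟩
  exact mem_W.2 ((totalDegree_rename_le _ _).trans (mem_W.1 hf))

lemma DegData.card_le_height_add [Fintype σ] {P : Ideal (MvPolynomial σ k)} [hP : P.IsPrime]
    {r δ b : ℕ} (h : DegData P r δ b) : (Fintype.card σ : ℕ∞) ≤ P.height + r := by
  obtain ⟨ι, hι, j, h1, h2⟩ := Crest.Agent.R003.card_le_height_add k σ P
  have := Fintype.ofFinite ι
  rw [Nat.card_eq_fintype_card, Nat.card_eq_fintype_card] at h2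
  have h3 : Fintype.card ι ≤ r := by
    refine choose_growth_le (x := 1) (y := δ) (b := 0) (a := 0) one_pos fun m => ?_
    have := (le_HF_of_rename j h1 m).trans (h.le m)
    simpa using this
  refine h2.trans ?_
  gcongr

/-- the dimension drops strictly -/
lemma DegData.dim_lt [Finite σ] {P Q : Ideal (MvPolynomial σ k)} (hQP : Q < P)
    (hQ : Q.IsPrime) {r δ b r' δ' b' : ℕ} (h : DegData P r δ b) (h' : DegData Q r' δ' b') :
    r + 1 ≤ r' := by
  obtain ⟨f, hfP, hfQ⟩ := SetLike.exists_of_lt hQP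
  have hnz : ∀ g, f * g ∈ Q → g ∈ Q := fun g hg => (hQ.mem_or_mem hg).resolve_left hfQ
  have h1 := cut_step (F := HF P) (G := HF Q) (d := f.totalDegree) (s := r) (b := b)
    (x := δ) (y := r.factorial) (fun m => HF_anti hQP.le m)
    (fun m => HF_cut hQP.le hfP le_rfl hnz m) (fun m => by
      calc δ * m ^ r ≤ δ * (r.factorial * (m + r).choose r) :=
            Nat.mul_le_mul_left _ (pow_le_factorial_choose m r)
        _ = r.factorial * (δ * (m + r).choose r) := by ring
        _ ≤ _ := Nat.mul_le_mul_left _ (h.ge m))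
  refine growth_le (x := δ) (y := ((r + 1) * f.totalDegree * r.factorial) * δ') (b := b + r')
    h.pos fun m => ?_
  calc δ * m ^ (r + 1) ≤ ((r + 1) * f.totalDegree * r.factorial) * HF Q (m + b) := h1 m
    _ ≤ ((r + 1) * f.totalDegree * r.factorial) * (δ' * (m + b + r') ^ r') :=
        Nat.mul_le_mul_left _ ((h'.le _).trans (Nat.mul_le_mul_left _ (choose_le_pow' _ _)))
    _ = _ := by rw [add_assoc]; ring

lemma DegData.add_height_le [Infinite k] [Fintype σ] {P : Ideal (MvPolynomial σ k)}
    [hP : P.IsPrime] {r δ b n : ℕ} (h : DegData P r δ b) (hn : (n : ℕ∞) ≤ P.height) :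
    n + r ≤ Fintype.card σ := by
  induction n generalizing P r δ b with
  | zero => simpa using h.dim_le_card
  | succ n ih =>
    have h0 : ((n + 1 : ℕ) : ℕ∞) ≤ Order.height (⟨P, hP⟩ : PrimeSpectrum (MvPolynomial σ k)) := by
      rw [← PrimeSpectrum.height_eq_orderHeight]; exact hn
    obtain ⟨p, hp1, hp2⟩ := Order.exists_series_of_le_height _ h0
    have hlt : n < p.length := by omega
    let Q := p ⟨n, by omega⟩
    have hQP : Q.asIdeal < P := by
      have h1 : Q < p.last := p.strictMono (by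
        rw [Fin.lt_def]; simp [Fin.last, hp2])
      rw [hp1] at h1
      exact h1
    have hQh : (n : ℕ∞) ≤ Q.asIdeal.height := by
      rw [PrimeSpectrum.height_eq_orderHeight]
      exact Order.index_le_height p ⟨n, by omega⟩
    have hQ := Q.isPrime
    obtain ⟨r', δ', b', h'⟩ := exists_degData Q.asIdeal
    have h2 := ih h' hQh
    have h3 := DegData.dim_lt hQP hQ h h'
    omega

/-- **Dimension formula** -/
theorem DegData.height_add [Infinite k] [Fintype σ] {P : Ideal (MvPolynomial σ k)}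
    [hP : P.IsPrime] {r δ b : ℕ} (h : DegData P r δ b) : P.height + r = Fintype.card σ := by
  refine le_antisymm ?_ h.card_le_height_add
  have hfin : P.height ≠ ⊤ := by
    intro htop
    have := h.add_height_le (n := Fintype.card σ + 1) (by rw [htop]; exact le_top)
    omega
  obtain ⟨n, hn⟩ := ENat.ne_top_iff_exists.1 hfin
  have := h.add_height_le (n := n) hn.le
  rw [← hn]
  exact_mod_cast this

lemma natCast_notMem [CharZero k] {P : Ideal (MvPolynomial σ k)} (hP : P.IsPrime) (n : ℕ)
    (hn : n ≠ 0) : (n : MvPolynomial σ k) ∉ P := by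
  intro h
  apply hP.ne_top
  rw [Ideal.eq_top_iff_one]
  have h1 := P.mul_mem_left (C ((n : k)⁻¹)) h
  have h2 : (n : MvPolynomial σ k) = C (n : k) := by simp
  rwa [h2, ← C_mul, inv_mul_cancel₀ (Nat.cast_ne_zero.2 hn), C_1] at h1

end Crest.Agent.R065.Mult496
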