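import Crest.Agent.R065.Growth_669

-- ▼ part R065/Asym_669
section

/-!
# Dimension and degree of prime ideals; asymptotics
-/

set_option autoImplicit false

open MvPolynomial Module Filter Topology
open scoped Pointwise Nat

namespace Crest.Agent.R065.HF669

/-! ### Elementary asymptotics of binomial coefficients -/

lemma pow_le_choose_mul (n r : ℕ) : (n + 1) ^ r ≤ (n + r).choose r * r ! := by
  have h1 := Nat.pow_sub_le_descFactorial (n + r) r
  have h2 : n + r + 1 - r = n + 1 := by omega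
  rw [h2, Nat.descFactorial_eq_factorial_mul_choose, mul_comm] at h1
  exact h1

lemma choose_mul_le_pow (n r : ℕ) : (n + r).choose r * r ! ≤ (n + r) ^ r := by
  have h1 := Nat.descFactorial_le_pow (n + r) r
  rwa [Nat.descFactorial_eq_factorial_mul_choose, mul_comm] at h1

lemma tendsto_add_div_one (a : ℕ) :
    Tendsto (fun m : ℕ => ((m : ℝ) + a) / m) atTop (𝓝 1) := by
  have h1 : Tendsto (fun m : ℕ => (1 : ℝ) + a / m) atTop (𝓝 (1 + 0)) :=
    tendsto_const_nhds.add (tendsto_const_div_atTop_nhds_zero_nat (a : ℝ))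
  rw [add_zero] at h1
  refine h1.congr' ?_
  filter_upwards [eventually_gt_atTop 0] with m hm
  have : (m : ℝ) ≠ 0 := by positivity
  field_simp

lemma tendsto_choose (r c : ℕ) :
    Tendsto (fun m : ℕ => (((m + c + r).choose r : ℕ) : ℝ) / (m : ℝ) ^ r) atTop
      (𝓝 (1 / (r ! : ℝ))) := by
  have hr : (0 : ℝ) < r ! := by exact_mod_cast Nat.factorial_pos r
  have h1 : Tendsto (fun m : ℕ => (((m : ℝ) + (c : ℕ)) / m) ^ r / (r ! : ℝ)) atTop
      (𝓝 (1 / (r ! : ℝ))) := by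
    have := ((tendsto_add_div_one c).pow r).div_const (r ! : ℝ)
    rwa [one_pow] at this
  have h2 : Tendsto (fun m : ℕ => (((m : ℝ) + (c + r : ℕ)) / m) ^ r / (r ! : ℝ)) atTop
      (𝓝 (1 / (r ! : ℝ))) := by
    have := ((tendsto_add_div_one (c + r)).pow r).div_const (r ! : ℝ)
    rwa [one_pow] at this
  refine tendsto_of_tendsto_of_tendsto_of_le_of_le' h1 h2 ?_ ?_
  · filter_upwards [eventually_gt_atTop 0] with m hm
    have hm' : (0 : ℝ) < (m : ℝ) ^ r := by positivity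
    rw [div_pow, div_div, mul_comm, ← div_div, div_le_div_iff_of_pos_right hm',
      div_le_iff₀ hr]
    have h3 := pow_le_choose_mul (m + c) r
    have h4 : (m + c) ^ r ≤ (m + c + 1) ^ r := Nat.pow_le_pow_left (by omega) r
    exact_mod_cast h4.trans h3
  · filter_upwards [eventually_gt_atTop 0] with m hm
    have hm' : (0 : ℝ) < (m : ℝ) ^ r := by positivity
    rw [div_pow, div_div, mul_comm, ← div_div, div_le_div_iff_of_pos_right hm',
      le_div_iff₀ hr]
    have h3 := choose_mul_le_pow (m + c) r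
    rw [add_assoc m c r] at *
    exact_mod_cast h3

/-- comparison of leading coefficients -/
lemma le_of_choose_le {δ₁ δ₂ r c₁ c₂ : ℕ}
    (h : ∀ᶠ m : ℕ in atTop, δ₁ * (m + c₁ + r).choose r ≤ δ₂ * (m + c₂ + r).choose r) :
    δ₁ ≤ δ₂ := by
  have hr : (0 : ℝ) < r ! := by exact_mod_cast Nat.factorial_pos r
  have h1 := (tendsto_choose r c₁).const_mul (δ₁ : ℝ)
  have h2 := (tendsto_choose r c₂).const_mul (δ₂ : ℝ)
  have h3 := le_of_tendsto_of_tendsto h1 h2 (by
    filter_upwards [h, eventually_gt_atTop 0] with m hm hm0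
    have hm' : (0 : ℝ) < (m : ℝ) ^ r := by positivity
    rw [← mul_div_assoc, ← mul_div_assoc, div_le_div_iff_of_pos_right hm']
    exact_mod_cast hm)
  have h4 : (δ₁ : ℝ) ≤ δ₂ := by
    rw [mul_one_div, mul_one_div, div_le_div_iff_of_pos_right hr] at h3
    exact h3
  exact_mod_cast h4

/-- comparison of exponents -/
lemma exp_le_of_choose_le {δ₁ δ₂ r₁ r₂ c₁ c₂ : ℕ} (h0 : 0 < δ₁)
    (h : ∀ᶠ m : ℕ in atTop, δ₁ * (m + c₁ + r₁).choose r₁ ≤ δ₂ * (m + c₂ + r₂).choose r₂) :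
    r₁ ≤ r₂ := by
  by_contra hlt
  push Not at hlt
  have hr : (0 : ℝ) < r₁ ! := by exact_mod_cast Nat.factorial_pos r₁
  have h1 := (tendsto_choose r₁ c₁).const_mul (δ₁ : ℝ)
  have h2 := (tendsto_choose r₂ c₂).const_mul (δ₂ : ℝ)
  have h5 : Tendsto (fun m : ℕ => ((m : ℝ) ^ (r₁ - r₂))⁻¹) atTop (𝓝 0) := by
    apply tendsto_inv_atTop_zero.comp
    exact (tendsto_pow_atTop (by omega)).comp tendsto_natCast_atTop_atTop
  have h6 := h2.mul h5
  rw [mul_zero] at h6
  have h3 := le_of_tendsto_of_tendsto h1 h6 (by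
    filter_upwards [h, eventually_gt_atTop 0] with m hm hm0
    have hm' : (0 : ℝ) < (m : ℝ) := by exact_mod_cast hm0
    have e : (m : ℝ) ^ r₁ = m ^ r₂ * m ^ (r₁ - r₂) := by rw [← pow_add]; congr 1; omega
    rw [e, ← mul_div_assoc, ← mul_div_assoc, ← div_eq_mul_inv, div_div,
      div_le_div_iff_of_pos_right (by positivity)]
    exact_mod_cast hm)
  have h4 : (0 : ℝ) < δ₁ * (1 / (r₁ ! : ℝ)) := by positivity
  linarith

end Crest.Agent.R065.HF669
end

-- ▼ part R065/Prime_669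

/-!
# Dimension `dimP P` and degree `degP P` of a prime ideal of a polynomial ring
-/

set_option autoImplicit false

open MvPolynomial Module Filter Topology
open scoped Pointwise Nat

namespace Crest.Agent.R065.HF669

variable {k : Type*} [Field k] {σ : Type*}

/-- the generators of the quotient -/
noncomputable def zq (P : Ideal (MvPolynomial σ k)) : σ → MvPolynomial σ k ⧸ P :=
  fun i => Ideal.Quotient.mk P (X i)

lemma aeval_zq (P : Ideal (MvPolynomial σ k)) (f : MvPolynomial σ k) :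
    aeval (zq P) f = Ideal.Quotient.mk P f := by
  have : (aeval (zq P) : MvPolynomial σ k →ₐ[k] _) = Ideal.Quotient.mkₐ k P := by
    apply MvPolynomial.algHom_ext
    intro i
    simp [zq]
  rw [this]; rfl

lemma exists_mem_U_zq (P : Ideal (MvPolynomial σ k)) (x : MvPolynomial σ k ⧸ P) :
    ∃ q, x ∈ U k (zq P) q := by
  obtain ⟨f, rfl⟩ := Ideal.Quotient.mk_surjective x
  exact ⟨f.totalDegree, mem_U.2 ⟨f, le_rfl, aeval_zq P f⟩⟩

lemma HF_eq_finrank_U [Finite σ] (P : Ideal (MvPolynomial σ k)) (m : ℕ) :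
    HF P m = finrank k (U k (zq P) m) := by
  rw [← HF_ker_aeval]
  congr 1
  ext f
  rw [RingHom.mem_ker]
  change _ ↔ aeval (zq P) f = 0
  rw [aeval_zq, Ideal.Quotient.eq_zero_iff_mem]

/-- `H` has dimension `r`, degree `δ` and satisfies the growth inequalities. -/
structure IsDimDeg (H : ℕ → ℕ) (r δ : ℕ) : Prop where
  pos : 0 < δ
  le : ∀ m, H m ≤ δ * (m + r).choose r
  ge : ∃ b, ∀ m, δ * (m + r).choose r ≤ H (m + b)
  growth : ∀ m, ∃ s, 0 < s ∧ s ≤ δ ∧ H m ≤ s * (m + r).choose r ∧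
    ∀ m', s * (m' + r).choose r ≤ H (m' + m)

theorem exists_isDimDeg [Infinite k] [Fintype σ] (P : Ideal (MvPolynomial σ k)) [P.IsPrime] :
    ∃ r δ, r ≤ Fintype.card σ ∧ IsDimDeg (HF P) r δ := by
  classical
  let e := (Fintype.equivFin σ).symm
  let θ : Fin (Fintype.card σ) → MvPolynomial σ k ⧸ P := fun i => zq P (e i)
  have hθU : ∀ i, θ i ∈ U k (zq P) 1 := fun i => self_mem_U _ _
  have hzU : ∀ i, zq P i ∈ U k θ 1 := fun i => by
    have := self_mem_U (k := k) θ (e.symm i)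
    simpa [θ] using this
  have hfin : ∀ q, U k (zq P) q ≤ Submodule.span k {1} * U k θ q := by
    intro q x hx
    have := Submodule.mul_mem_mul (Submodule.subset_span (R := k) (Set.mem_singleton
      (1 : MvPolynomial σ k ⧸ P))) (U_le_U hzU q hx)
    rwa [one_mul] at this
  obtain ⟨D, hDr, hDy⟩ := exists_NData (zq P) (exists_mem_U_zq P) θ {1} (Set.finite_singleton _)
    hfin
  have hy1 : ∀ i, D.y i ∈ U k (zq P) 1 := fun i => U_le_U hθU 1 (hDy i)
  have hle : ∀ m, HF P m ≤ D.δ * (m + D.r).choose D.r := by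
    intro m
    obtain ⟨s, _, hs, h1, _⟩ := D.growth hy1 m
    rw [HF_eq_finrank_U]
    exact h1.trans (Nat.mul_le_mul_right _ hs)
  refine ⟨D.r, D.δ, hDr, D.hδ, hle, ?_, ?_⟩
  · choose q hq using fun i => exists_mem_U_zq P (D.u i)
    refine ⟨∑ i, q i, fun m => ?_⟩
    have h1 := le_finrank_U (z := zq P) hy1 D.u (∑ i, q i) (fun i => U_mono _
      (Finset.single_le_sum (fun _ _ => Nat.zero_le _) (Finset.mem_univ i)) (hq i)) D.c2 m
    rw [HF_eq_finrank_U]
    simpa using h1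
  · intro m
    obtain ⟨s, hs0, hs, h1, h2⟩ := D.growth hy1 m
    refine ⟨s, hs0, hs, ?_, fun m' => ?_⟩
    · rw [HF_eq_finrank_U]; exact h1
    · rw [HF_eq_finrank_U]; exact h2 m'

/-- comparison of two functions with dimension and degree -/
lemma IsDimDeg.dim_le {H₁ H₂ : ℕ → ℕ} {r₁ δ₁ r₂ δ₂ c C : ℕ} (h₁ : IsDimDeg H₁ r₁ δ₁)
    (h₂ : IsDimDeg H₂ r₂ δ₂) (h : ∀ᶠ m in atTop, H₁ m ≤ C * H₂ (m + c)) : r₁ ≤ r₂ := by
  obtain ⟨b, hb⟩ := h₁.ge
  refine exp_le_of_choose_le (δ₁ := δ₁) (δ₂ := C * δ₂) (c₁ := 0) (c₂ := b + c) h₁.pos ?_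
  have h3 := (tendsto_add_atTop_nat b).eventually h
  filter_upwards [h3] with m hm
  have h4 := hb m
  have h5 := h₂.le (m + b + c)
  calc δ₁ * (m + 0 + r₁).choose r₁ ≤ H₁ (m + b) := by simpa using h4
    _ ≤ C * H₂ (m + b + c) := hm
    _ ≤ C * (δ₂ * (m + b + c + r₂).choose r₂) := Nat.mul_le_mul_left _ h5
    _ = C * δ₂ * (m + (b + c) + r₂).choose r₂ := by rw [mul_assoc, add_assoc m b c]

lemma IsDimDeg.deg_le {H₁ H₂ : ℕ → ℕ} {r δ₁ δ₂ c : ℕ} (h₁ : IsDimDeg H₁ r δ₁)
    (h₂ : IsDimDeg H₂ r δ₂) (h : ∀ᶠ m in atTop, H₁ m ≤ H₂ (m + c)) : δ₁ ≤ δ₂ := by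
  obtain ⟨b, hb⟩ := h₁.ge
  refine le_of_choose_le (r := r) (c₁ := 0) (c₂ := b + c) ?_
  have h3 := (tendsto_add_atTop_nat b).eventually h
  filter_upwards [h3] with m hm
  have h4 := hb m
  have h5 := h₂.le (m + b + c)
  calc δ₁ * (m + 0 + r).choose r ≤ H₁ (m + b) := by simpa using h4
    _ ≤ H₂ (m + b + c) := hm
    _ ≤ (δ₂ * (m + b + c + r).choose r) := h5
    _ = δ₂ * (m + (b + c) + r).choose r := by rw [add_assoc m b c]

lemma IsDimDeg.unique_dim {H : ℕ → ℕ} {r₁ δ₁ r₂ δ₂ : ℕ} (h₁ : IsDimDeg H r₁ δ₁)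
    (h₂ : IsDimDeg H r₂ δ₂) : r₁ = r₂ :=
  le_antisymm (h₁.dim_le (c := 0) (C := 1) h₂ (Eventually.of_forall fun m => by simp))
    (h₂.dim_le (c := 0) (C := 1) h₁ (Eventually.of_forall fun m => by simp))

lemma IsDimDeg.unique_deg {H : ℕ → ℕ} {r₁ δ₁ r₂ δ₂ : ℕ} (h₁ : IsDimDeg H r₁ δ₁)
    (h₂ : IsDimDeg H r₂ δ₂) : δ₁ = δ₂ := by
  obtain rfl := h₁.unique_dim h₂
  exact le_antisymm (h₁.deg_le (c := 0) h₂ (Eventually.of_forall fun m => by simp))
    (h₂.deg_le (c := 0) h₁ (Eventually.of_forall fun m => by simp))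

section defs

variable [Infinite k] [Fintype σ]

open Classical in
/-- dimension of (the zero set of) a prime ideal; junk value `0` if `P` is not prime -/
noncomputable def dimP (P : Ideal (MvPolynomial σ k)) : ℕ :=
  if _h : P.IsPrime then (exists_isDimDeg P).choose else 0

open Classical in
/-- degree of a prime ideal; junk value `0` if `P` is not prime -/
noncomputable def degP (P : Ideal (MvPolynomial σ k)) : ℕ :=
  if _h : P.IsPrime then (exists_isDimDeg P).choose_spec.choose else 0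

variable (P : Ideal (MvPolynomial σ k)) [hP : P.IsPrime]

lemma isDimDeg : IsDimDeg (HF P) (dimP P) (degP P) := by
  unfold dimP degP
  rw [dif_pos hP, dif_pos hP]
  exact (exists_isDimDeg P).choose_spec.choose_spec.2

lemma dimP_le_card : dimP P ≤ Fintype.card σ := by
  unfold dimP
  rw [dif_pos hP]
  exact (exists_isDimDeg P).choose_spec.choose_spec.1

lemma degP_pos : 0 < degP P := (isDimDeg P).pos

lemma HF_le_degP (m : ℕ) : HF P m ≤ degP P * (m + dimP P).choose (dimP P) := (isDimDeg P).le m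

variable {P}

lemma dimP_eq_of {r δ : ℕ} (h : IsDimDeg (HF P) r δ) : dimP P = r := (isDimDeg P).unique_dim h

lemma degP_eq_of {r δ : ℕ} (h : IsDimDeg (HF P) r δ) : degP P = δ := (isDimDeg P).unique_deg h

/-- monotonicity of dimension -/
lemma dimP_anti {Q : Ideal (MvPolynomial σ k)} [Q.IsPrime] (h : P ≤ Q) : dimP Q ≤ dimP P :=
  (isDimDeg Q).dim_le (c := 0) (C := 1) (isDimDeg P)
    (Eventually.of_forall fun m => by simpa using HF_anti h m)

/-- a cut by a nonzerodivisor drops the exponent -/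
lemma exists_choose_bound {J : Ideal (MvPolynomial σ k)} (h : P ≤ J) {f : MvPolynomial σ k}
    (hf : f ∈ J) (hfP : f ∉ P) (m : ℕ) :
    m * HF J m ≤ f.totalDegree * (degP P * (2 * m + dimP P).choose (dimP P)) :=
  (HF_cut_avg h hf le_rfl (fun _ hg => (hP.mem_or_mem hg).resolve_left hfP) m).trans
    (Nat.mul_le_mul_left _ (HF_le_degP P _))

/-- strict drop of dimension -/
theorem dimP_lt {Q : Ideal (MvPolynomial σ k)} [Q.IsPrime] (h : P < Q) : dimP Q < dimP P := by
  obtain ⟨f, hfQ, hfP⟩ := SetLike.exists_of_lt h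
  have hcut := exists_choose_bound h.le hfQ hfP
  obtain ⟨b, hb⟩ := (isDimDeg Q).ge
  set r := dimP P with hr
  set r' := dimP Q with hr'
  set δ := degP P
  set δ' := degP Q
  -- real asymptotics
  by_contra hlt
  push Not at hlt
  have h1 := (tendsto_choose r' 0).const_mul (δ' : ℝ)
  have hδ' : (0 : ℝ) < δ' := by exact_mod_cast degP_pos Q
  have hδ : (0 : ℝ) < δ := by exact_mod_cast degP_pos P
  -- choose(2m'+r) ≤ (2m'+r)^r with m' = m + b
  have key : ∀ᶠ m : ℕ in atTop, (δ' : ℝ) * (((m + 0 + r').choose r' : ℕ) / (m : ℝ) ^ r') ≤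
      (f.totalDegree * δ) * (((2 : ℝ) * m + 2 * b + r) / m) ^ r * (m : ℝ)⁻¹ := by
    filter_upwards [eventually_gt_atTop 0] with m hm
    have hm' : (0 : ℝ) < m := by exact_mod_cast hm
    have h2 := hcut (m + b)
    have h3 := hb m
    have h4 : (2 * (m + b) + r).choose r ≤ (2 * (m + b) + r) ^ r := Nat.choose_le_pow _ _
    have h5 : m * (δ' * (m + r').choose r') ≤ f.totalDegree * (δ * (2 * (m + b) + r) ^ r) := by
      calc m * (δ' * (m + r').choose r') ≤ (m + b) * HF Q (m + b) :=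
            Nat.mul_le_mul (Nat.le_add_right _ _) h3
        _ ≤ _ := h2
        _ ≤ _ := Nat.mul_le_mul_left _ (Nat.mul_le_mul_left _ h4)
    have h6 : (m : ℝ) * (δ' * ((m + r').choose r' : ℕ)) ≤
        f.totalDegree * (δ * (2 * (m + b) + r) ^ r) := by exact_mod_cast h5
    have h7 : (m : ℝ) ^ r ≤ m ^ r' := pow_le_pow_right₀ (by exact_mod_cast hm) hlt
    rw [add_zero, div_pow, ← div_eq_mul_inv, ← mul_div_assoc, ← mul_div_assoc, div_div,
      div_le_div_iff₀ (by positivity) (by positivity)]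
    calc (δ' : ℝ) * ((m + r').choose r' : ℕ) * (m ^ r * m)
        = (m : ℝ) * (δ' * ((m + r').choose r' : ℕ)) * m ^ r := by ring
      _ ≤ f.totalDegree * (δ * (2 * (m + b) + r) ^ r) * m ^ r := by gcongr
      _ ≤ f.totalDegree * (δ * (2 * (m + b) + r) ^ r) * m ^ r' := by gcongr
      _ = _ := by ring
  have h8 : Tendsto (fun m : ℕ => ((f.totalDegree : ℝ) * δ) * (((2 : ℝ) * m + 2 * b + r) / m) ^ r
      * (m : ℝ)⁻¹) atTop (𝓝 ((f.totalDegree * δ) * (2 * 1) ^ r * 0)) := by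
    refine Tendsto.mul (Tendsto.const_mul _ (Tendsto.pow ?_ r)) tendsto_inv_atTop_nhds_zero_nat
    have h9 := (tendsto_add_div_one (2 * b + r)).const_mul (2 : ℝ)
    have h10 : Tendsto (fun m : ℕ => (2 : ℝ) * ((m + (2 * b + r : ℕ)) / m) -
        ((2 * b + r : ℕ) : ℝ) / m) atTop (𝓝 (2 * 1 - 0)) :=
      h9.sub (tendsto_const_div_atTop_nhds_zero_nat _)
    rw [sub_zero] at h10
    refine h10.congr' ?_
    filter_upwards [eventually_gt_atTop 0] with m hm
    have hm' : (m : ℝ) ≠ 0 := by positivity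
    push_cast
    field_simp
    ring
  rw [mul_zero] at h8
  have h11 := le_of_tendsto_of_tendsto h1 h8 key
  have h12 : (0 : ℝ) < δ' * (1 / (r' ! : ℝ)) := by positivity
  linarith

lemma eq_of_le_of_dimP_le {Q : Ideal (MvPolynomial σ k)} [Q.IsPrime] (h : P ≤ Q)
    (hd : dimP P ≤ dimP Q) : P = Q := by
  rcases h.lt_or_eq with h' | h'
  · have := dimP_lt h'; omega
  · exact h'

end defs

end Crest.Agent.R065.HF669
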