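import Crest.Agent.R065.Flags_669

-- ▼ part R065/DimFormula_669
section

/-!
# The dimension formula `dimP P + P.height = card σ`
-/

set_option autoImplicit false

open MvPolynomial Module Filter Topology
open scoped Pointwise Nat

namespace Crest.Agent.R065.HF669

variable {k : Type*} [Field k] {σ τ : Type*}

/-- the Hilbert function of the kernel of an evaluation, in terms of `U` -/
lemma HF_eq_of_mem_iff [Finite σ] {E : Type*} [CommRing E] [Algebra k E] (z : σ → E)
    (P : Ideal (MvPolynomial σ k)) (h : ∀ f, f ∈ P ↔ aeval z f = 0) (m : ℕ) :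
    HF P m = finrank k (U k z m) := by
  rw [← HF_ker_aeval]
  congr 1
  ext f
  rw [h, RingHom.mem_ker]

lemma U_comp_equiv {E : Type*} [CommRing E] [Algebra k E] (z : σ → E) (e : τ ≃ σ) (m : ℕ) :
    U k (z ∘ e) m = U k z m := by
  apply le_antisymm
  · exact U_le_U (fun i => self_mem_U z (e i)) m
  · refine U_le_U (fun i => ?_) m
    have := self_mem_U (k := k) (z ∘ e) (e.symm i)
    simpa using this

lemma HF_comap_rename [Finite σ] [Finite τ] (P : Ideal (MvPolynomial σ k)) (e : τ ≃ σ) (m : ℕ) :
    HF (P.comap (rename e : MvPolynomial τ k →ₐ[k] MvPolynomial σ k)) m = HF P m := by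
  rw [HF_eq_finrank_U P, HF_eq_of_mem_iff (zq P ∘ e), U_comp_equiv]
  intro f
  rw [Ideal.mem_comap, ← Ideal.Quotient.eq_zero_iff_mem]
  change Ideal.Quotient.mk P (rename e f) = 0 ↔ _
  rw [← aeval_zq, aeval_rename]

/-- heights: `≤` -/
lemma height_le [Infinite k] [Fintype σ] (P : Ideal (MvPolynomial σ k)) [hP : P.IsPrime] :
    P.height ≤ ((Fintype.card σ - dimP P : ℕ) : ℕ∞) := by
  let f : PrimeSpectrum (MvPolynomial σ k) → ℕ := fun Q =>
    Fintype.card σ - dimP Q.asIdeal
  have hf : StrictMono f := by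
    intro Q Q' hlt
    have hlt' : Q.asIdeal < Q'.asIdeal := hlt
    have h1 := dimP_lt hlt'
    have h2 := dimP_le_card Q.asIdeal
    have h3 := dimP_le_card Q'.asIdeal
    simp only [f]
    omega
  have h1 := Order.height_le_height_apply_of_strictMono f hf ⟨P, hP⟩
  rw [Order.height_nat, ← PrimeSpectrum.height_eq_orderHeight] at h1
  exact h1

section step

variable {n : ℕ} (b : Fin (n + 1) → k) (l : Fin (n + 1)) (hl : b l ≠ 0)

/-- the images of the variables in `A₁[T]` -/
noncomputable def vImg : Fin (n + 1) → Polynomial (MvPolynomial (Fin n) k) :=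
  l.insertNth (Polynomial.C (C (b l)) * Polynomial.X)
    (fun i => Polynomial.C (X i) + Polynomial.C (C (b (l.succAbove i))) * Polynomial.X)

lemma vImg_same : vImg b l l = Polynomial.C (C (b l)) * Polynomial.X := by
  simp [vImg]

lemma vImg_succAbove (i : Fin n) : vImg b l (l.succAbove i) =
    Polynomial.C (X i) + Polynomial.C (C (b (l.succAbove i))) * Polynomial.X := by
  simp [vImg]

/-- `t = (b l)⁻¹ X_l` -/
noncomputable def tImg : MvPolynomial (Fin (n + 1)) k := C (b l)⁻¹ * X l

/-- `z'_i = X_{l.succAbove i} - b_{..} t` -/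
noncomputable def zImg : Fin n → MvPolynomial (Fin (n + 1)) k := fun i =>
  X (l.succAbove i) - C (b (l.succAbove i)) * tImg b l

/-- `R → A₁[T]` -/
noncomputable def toPol : MvPolynomial (Fin (n + 1)) k →+* Polynomial (MvPolynomial (Fin n) k) :=
  eval₂Hom (Polynomial.C.comp C) (vImg b l)

/-- `A₁[T] → R` -/
noncomputable def ofPol : Polynomial (MvPolynomial (Fin n) k) →+* MvPolynomial (Fin (n + 1)) k :=
  Polynomial.eval₂RingHom (aeval (zImg b l)).toRingHom (tImg b l)

include hl in
lemma toPol_ofPol : (toPol b l).comp (ofPol b l) = RingHom.id _ := by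
  apply Polynomial.ringHom_ext'
  · apply MvPolynomial.ringHom_ext
    · intro r
      simp [toPol, ofPol]
    · intro i
      simp only [toPol, ofPol, RingHom.comp_apply, Polynomial.coe_eval₂RingHom,
        Polynomial.eval₂_C, AlgHom.toRingHom_eq_coe, RingHom.coe_coe, aeval_X, RingHom.id_apply,
        zImg, tImg, map_sub, map_mul, eval₂Hom_X', eval₂Hom_C, vImg_same, vImg_succAbove]
      rw [← mul_assoc (Polynomial.C (C (b l)⁻¹) : Polynomial (MvPolynomial (Fin n) k)),
        ← Polynomial.C_mul, ← C_mul, inv_mul_cancel₀ hl]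
      simp
  · simp only [toPol, ofPol, RingHom.comp_apply, Polynomial.coe_eval₂RingHom,
        Polynomial.eval₂_X, RingHom.id_apply, tImg, map_mul, eval₂Hom_X', eval₂Hom_C, vImg_same]
    rw [← mul_assoc (Polynomial.C (C (b l)⁻¹) : Polynomial (MvPolynomial (Fin n) k)),
        ← Polynomial.C_mul, ← C_mul, inv_mul_cancel₀ hl]
    simp

include hl in
lemma ofPol_toPol : (ofPol b l).comp (toPol b l) = RingHom.id _ := by
  apply MvPolynomial.ringHom_ext
  · intro r
    simp [toPol, ofPol]
  · intro j
    have hCt : (C (b l) : MvPolynomial (Fin (n + 1)) k) * tImg b l = X l := by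
      unfold tImg
      rw [← mul_assoc, ← C_mul, mul_inv_cancel₀ hl, C_1, one_mul]
    rcases Fin.eq_self_or_eq_succAbove l j with rfl | ⟨i, rfl⟩
    · simp only [toPol, ofPol, RingHom.comp_apply, Polynomial.coe_eval₂RingHom,
        RingHom.id_apply, eval₂Hom_X', vImg_same, Polynomial.eval₂_mul, Polynomial.eval₂_C,
        Polynomial.eval₂_X, AlgHom.toRingHom_eq_coe, RingHom.coe_coe]
      rw [MvPolynomial.algHom_C, algebraMap_eq, hCt]
    · simp only [toPol, ofPol, RingHom.comp_apply, Polynomial.coe_eval₂RingHom,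
        RingHom.id_apply, eval₂Hom_X', vImg_succAbove, Polynomial.eval₂_mul, Polynomial.eval₂_C,
        Polynomial.eval₂_X, Polynomial.eval₂_add, AlgHom.toRingHom_eq_coe, RingHom.coe_coe,
        aeval_X, zImg]
      rw [MvPolynomial.algHom_C, algebraMap_eq]
      ring

/-- `A₁[T] ≃ R` -/
noncomputable def polEquiv : Polynomial (MvPolynomial (Fin n) k) ≃+* MvPolynomial (Fin (n + 1)) k :=
  RingEquiv.ofRingHom (ofPol b l) (toPol b l) (ofPol_toPol b l hl) (toPol_ofPol b l hl)

lemma polEquiv_C (f : MvPolynomial (Fin n) k) :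
    polEquiv b l hl (Polynomial.C f) = aeval (zImg b l) f := by
  change ofPol b l (Polynomial.C f) = _
  simp [ofPol]

include hl in
/-- height increases by at least one -/
lemma height_step (P : Ideal (MvPolynomial (Fin (n + 1)) k)) [hP : P.IsPrime]
    (hne : ∃ p : Polynomial (MvPolynomial (Fin n) k), p.Monic ∧ ofPol b l p ∈ P) :
    (P.comap (aeval (zImg b l) : MvPolynomial (Fin n) k →ₐ[k] _)).height + 1 ≤ P.height := by
  set Q := P.comap (aeval (zImg b l) : MvPolynomial (Fin n) k →ₐ[k] _) with hQ
  have hQP : Q.IsPrime := Ideal.comap_isPrime _ _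
  set P' := P.comap (polEquiv b l hl) with hP'
  have hP'prime : P'.IsPrime := Ideal.comap_isPrime _ _
  have hPP' : P'.height = P.height := RingEquiv.height_comap _ _
  have hmem : ∀ f : MvPolynomial (Fin n) k, Polynomial.C f ∈ P' ↔ f ∈ Q := by
    intro f
    rw [hP', hQ, Ideal.mem_comap, Ideal.mem_comap, polEquiv_C]
  have hle : Q.map (Polynomial.C : _ →+* Polynomial (MvPolynomial (Fin n) k)) ≤ P' := by
    rw [Ideal.map_le_iff_le_comap]
    intro f hf
    exact (hmem f).2 hf
  have hmapprime : (Q.map (Polynomial.C : _ →+* Polynomial (MvPolynomial (Fin n) k))).IsPrime :=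
    Ideal.isPrime_map_C_of_isPrime
  have hne' : Q.map (Polynomial.C : _ →+* Polynomial (MvPolynomial (Fin n) k)) ≠ P' := by
    intro heq
    obtain ⟨p, hpm, hp⟩ := hne
    have h1 : p ∈ P' := hp
    rw [← heq, Ideal.mem_map_C_iff] at h1
    have h2 := h1 p.natDegree
    rw [hpm.coeff_natDegree] at h2
    exact hQP.ne_top (Ideal.eq_top_iff_one _ |>.2 h2)
  have hlt := lt_of_le_of_ne hle hne'
  have h1 := Ideal.height_add_one_le_of_lt_of_isPrime hlt
  rw [hPP'] at h1
  refine le_trans (add_le_add_left ?_ 1) h1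
  have hlies : (Q.map (Polynomial.C : _ →+* Polynomial (MvPolynomial (Fin n) k))).LiesOver Q := by
    refine ⟨?_⟩
    ext f
    change f ∈ Q ↔ Polynomial.C f ∈ Q.map (Polynomial.C : _ →+* Polynomial (MvPolynomial (Fin n) k))
    rw [Ideal.mem_map_C_iff]
    constructor
    · intro hf i
      rw [Polynomial.coeff_C]
      split_ifs
      · exact hf
      · exact Q.zero_mem
    · intro h
      simpa using h 0
  rw [Ideal.height_eq_height_add_of_liesOver_of_hasGoingDown Q
    (Q.map (Polynomial.C : _ →+* Polynomial (MvPolynomial (Fin n) k)))]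
  exact le_self_add

end step

/-- elements of `TT` are polynomials in `t` of degree `< g` over the image of `z'` -/
lemma exists_polynomial_of_mem_TT {E : Type*} [CommRing E] [Algebra k E] {t : E} {z' : τ → E}
    {g q : ℕ} {x : E} (hx : x ∈ TT k t z' g q) :
    ∃ p : Polynomial (MvPolynomial τ k), p.degree < (g : WithBot ℕ) ∧
      Polynomial.eval₂ (aeval z' : MvPolynomial τ k →ₐ[k] E).toRingHom t p = x := by
  let S : Submodule k E :=
    { carrier := {x | ∃ p : Polynomial (MvPolynomial τ k), p.degree < (g : WithBot ℕ) ∧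
        Polynomial.eval₂ (aeval z' : MvPolynomial τ k →ₐ[k] E).toRingHom t p = x}
      zero_mem' := ⟨0, by rw [Polynomial.degree_zero]; exact WithBot.bot_lt_coe g, by simp⟩
      add_mem' := by
        rintro _ _ ⟨p, hp, rfl⟩ ⟨q, hq, rfl⟩
        exact ⟨p + q, lt_of_le_of_lt (Polynomial.degree_add_le _ _) (max_lt hp hq),
          Polynomial.eval₂_add _ _⟩
      smul_mem' := by
        rintro c _ ⟨p, hp, rfl⟩
        refine ⟨Polynomial.C (C c) * p, lt_of_le_of_lt ?_ hp, ?_⟩
        · rw [← Polynomial.smul_eq_C_mul]; exact Polynomial.degree_smul_le _ _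
        · rw [Polynomial.eval₂_mul, Polynomial.eval₂_C, Algebra.smul_def]
          congr 1
          simp }
  have h : TT k t z' g q ≤ S := by
    apply TT_le
    intro i r u hu hi hr
    obtain ⟨f, hf, rfl⟩ := mem_U.1 hu
    refine ⟨Polynomial.C f * Polynomial.X ^ i, lt_of_le_of_lt
      (Polynomial.degree_C_mul_X_pow_le _ _) (by exact_mod_cast hi), ?_⟩
    rw [Polynomial.eval₂_mul, Polynomial.eval₂_C, Polynomial.eval₂_X_pow, mul_comm]
    rfl
  exact h hx

theorem le_height_fin [Infinite k] (n : ℕ) (P : Ideal (MvPolynomial (Fin n) k)) [hP : P.IsPrime] :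
    ((n - dimP P : ℕ) : ℕ∞) ≤ P.height := by
  induction n with
  | zero => simp
  | succ n ih =>
    by_cases hbot : P = ⊥
    · subst hbot
      have h1 := dimP_bot (k := k) (σ := Fin (n + 1))
      rw [Fintype.card_fin] at h1
      rw [h1]; simp
    · obtain ⟨G, hGP, hG0⟩ := Submodule.exists_mem_ne_zero_of_ne_bot hbot
      set z := zq P with hz
      have hG : aeval z G = 0 := by
        rw [hz, aeval_zq, Ideal.Quotient.eq_zero_iff_mem]; exact hGP
      have hg : 0 < G.totalDegree := by
        by_contra hcon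
        have h0 : G.totalDegree = 0 := by omega
        rw [totalDegree_eq_zero_iff_eq_C] at h0
        apply hP.ne_top
        refine Ideal.eq_top_of_isUnit_mem _ hGP ?_
        rw [h0]
        refine (IsUnit.mk0 _ ?_).map C
        intro hc
        rw [hc, map_zero] at h0
        exact hG0 h0
      have hcomp : homogeneousComponent G.totalDegree G ≠ 0 := by
        intro h0
        obtain ⟨m, hm, hm'⟩ : ∃ m ∈ G.support, m.degree = G.totalDegree := by
          obtain ⟨m, hm, hm'⟩ := Finset.exists_mem_eq_sup G.support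
            (support_nonempty.2 hG0) (fun s => s.sum fun _ e => e)
          exact ⟨m, hm, by rw [totalDegree, hm', Finsupp.degree_apply]; rfl⟩
        have := congrArg (coeff m) h0
        rw [coeff_homogeneousComponent, if_pos hm', coeff_zero] at this
        exact (mem_support_iff.1 hm) this
      obtain ⟨b, hb⟩ : ∃ b, eval b (homogeneousComponent G.totalDegree G) ≠ 0 := by
        by_contra hcon
        push Not at hcon
        exact hcomp (MvPolynomial.funext fun b => by rw [hcon b, map_zero])
      obtain ⟨l, hl⟩ : ∃ l, b l ≠ 0 := by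
        by_contra hcon
        push Not at hcon
        have hb0 : b = 0 := funext hcon
        apply hb
        rw [hb0, MvPolynomial.eval_zero, constantCoeff_eq, coeff_homogeneousComponent, if_neg]
        simpa using hg.ne
      let mk := Ideal.Quotient.mk P
      let t : MvPolynomial (Fin (n + 1)) k ⧸ P := mk (tImg b l)
      let z' : Fin n → MvPolynomial (Fin (n + 1)) k ⧸ P := fun i => mk (zImg b l i)
      have ht : t = (b l)⁻¹ • z l := by
        simp only [t, mk, tImg, hz, zq]
        rw [C_mul']; rfl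
      have hz' : ∀ i, z' i = z (l.succAbove i) - b (l.succAbove i) • t := by
        intro i
        simp only [z', mk, zImg, t, hz, zq]
        rw [C_mul', map_sub]; rfl
      have hzz : ∀ i, z i - b i • t ∈ U k z' 1 := by
        intro i
        by_cases hi : i = l
        · subst hi
          rw [ht, smul_smul, mul_inv_cancel₀ hl, one_smul, sub_self]
          exact Submodule.zero_mem _
        · obtain ⟨i', rfl⟩ := Fin.exists_succAbove_eq hi
          rw [← hz' i']
          exact self_mem_U z' i'
      have htU : t ∈ U k z 1 := by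
        rw [ht]; exact Submodule.smul_mem _ _ (self_mem_U z l)
      have hz'U : ∀ i, z' i ∈ U k z 1 := fun i => by
        rw [hz' i]
        exact Submodule.sub_mem _ (self_mem_U z _) (Submodule.smul_mem _ _ htU)
      have hint := pow_mem_TT_of_relation G hG b hb t z' hzz
      set Q := P.comap (aeval (zImg b l) : MvPolynomial (Fin n) k →ₐ[k] _) with hQ
      have hQP : Q.IsPrime := Ideal.comap_isPrime _ _
      -- `mk ∘ aeval zImg = aeval z'`
      have hmk : ∀ f : MvPolynomial (Fin n) k, mk (aeval (zImg b l) f) = aeval z' f := by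
        intro f
        have : ((Ideal.Quotient.mkₐ k P).comp (aeval (zImg b l))) =
            (aeval z' : MvPolynomial (Fin n) k →ₐ[k] _) := by
          apply MvPolynomial.algHom_ext
          intro i
          simp [z', mk]
        exact congrArg (fun g : MvPolynomial (Fin n) k →ₐ[k] _ => g f) this
      have hHFQ : ∀ m, HF Q m = finrank k (U k z' m) := by
        intro m
        apply HF_eq_of_mem_iff
        intro f
        rw [← hmk, Ideal.Quotient.eq_zero_iff_mem]; rfl
      have hdim : dimP Q ≤ dimP P := by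
        refine (isDimDeg Q).dim_le (c := 0) (C := 1) (isDimDeg P)
          (Eventually.of_forall fun m => ?_)
        rw [HF_eq_finrank_U P, add_zero, hHFQ, one_mul]
        exact Submodule.finrank_mono (U_le_U hz'U m)
      -- the monic polynomial
      obtain ⟨p, hp, hp'⟩ := exists_polynomial_of_mem_TT hint
      have hmonic : ((Polynomial.X ^ G.totalDegree - p) :
          Polynomial (MvPolynomial (Fin n) k)).Monic := by
        rw [sub_eq_add_neg]
        exact Polynomial.monic_X_pow_add (by rwa [Polynomial.degree_neg])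
      have hstep := height_step b l hl P ⟨_, hmonic, by
        rw [← Ideal.Quotient.eq_zero_iff_mem]
        have h1 : ∀ p : Polynomial (MvPolynomial (Fin n) k), Ideal.Quotient.mk P (ofPol b l p) =
            Polynomial.eval₂ (aeval z' : MvPolynomial (Fin n) k →ₐ[k] _).toRingHom t p := by
          intro p
          simp only [ofPol, Polynomial.coe_eval₂RingHom]
          rw [Polynomial.hom_eval₂]
          congr 1
          ext f
          · simp; rfl
          · simp [z', mk]
        rw [h1, Polynomial.eval₂_sub, hp']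
        simp⟩
      have hih := ih Q
      rw [← hQ] at hstep
      refine le_trans ?_ hstep
      have h5 : ((n + 1 - dimP P : ℕ) : ℕ∞) ≤ ((n - dimP Q : ℕ) : ℕ∞) + 1 := by
        have h6 : dimP Q ≤ n := by
          have := dimP_le_card Q
          rwa [Fintype.card_fin] at this
        have h7 : n + 1 - dimP P ≤ (n - dimP Q) + 1 := by omega
        exact_mod_cast h7
      exact h5.trans (add_le_add hih le_rfl)

lemma dimP_comap_rename [Infinite k] [Fintype σ] [Fintype τ] (P : Ideal (MvPolynomial σ k))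
    [hP : P.IsPrime] (e : τ ≃ σ) :
    dimP (P.comap (rename e : MvPolynomial τ k →ₐ[k] MvPolynomial σ k)) = dimP P := by
  have hprime : (P.comap (rename e : MvPolynomial τ k →ₐ[k] MvPolynomial σ k)).IsPrime :=
    Ideal.comap_isPrime _ _
  apply dimP_eq_of (δ := degP P)
  have : HF (P.comap (rename e : MvPolynomial τ k →ₐ[k] MvPolynomial σ k)) = HF P :=
    funext fun m => HF_comap_rename P e m
  rw [this]
  exact isDimDeg P

theorem le_height [Infinite k] [Fintype σ] (P : Ideal (MvPolynomial σ k)) [hP : P.IsPrime] :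
    ((Fintype.card σ - dimP P : ℕ) : ℕ∞) ≤ P.height := by
  let e := (Fintype.equivFin σ).symm
  have hprime : (P.comap (rename e : MvPolynomial _ k →ₐ[k] MvPolynomial σ k)).IsPrime :=
    Ideal.comap_isPrime _ _
  have h1 := le_height_fin (Fintype.card σ)
    (P.comap (rename e : MvPolynomial _ k →ₐ[k] MvPolynomial σ k))
  rw [dimP_comap_rename] at h1
  refine h1.trans (le_of_eq ?_)
  exact RingEquiv.height_comap (renameEquiv k e).toRingEquiv P

/-- **Dimension formula.** -/
theorem height_eq [Infinite k] [Fintype σ] (P : Ideal (MvPolynomial σ k)) [hP : P.IsPrime] :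
    P.height = ((Fintype.card σ - dimP P : ℕ) : ℕ∞) :=
  le_antisymm (height_le P) (le_height P)

theorem dimP_add_height [Infinite k] [Fintype σ] (P : Ideal (MvPolynomial σ k))
    [hP : P.IsPrime] : (dimP P : ℕ∞) + P.height = (Fintype.card σ : ℕ∞) := by
  rw [height_eq]
  have := dimP_le_card P
  have h : dimP P + (Fintype.card σ - dimP P) = Fintype.card σ := by omega
  exact_mod_cast h

end Crest.Agent.R065.HF669
end

-- ▼ part R065/Cut_477

/-!
# The cut inequality with Krull's theorem

For a prime `P` of a polynomial ring over an infinite field and `g ∉ P`, every minimal prime of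
`P + (g)` has dimension `dimP P - 1`, and the sum of the degrees of distinct primes of that
dimension containing `P + (g)` is at most `deg g * degP P`.
-/

set_option autoImplicit false

open MvPolynomial Module Filter Topology
open scoped Pointwise

namespace Crest.Agent.R065.Cut477

open Crest.Agent.R065.HF669

section prod

variable {k : Type*} [Field k] {E : Type*} [CommRing E] [Algebra k E]

/-- dimension of a product of a finite span with a finite dimensional space -/
lemma finrank_le_of_le_span_mul (B : Finset E) (V V' : Submodule k E) [Module.Finite k V]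
    (h : V' ≤ Submodule.span k (B : Set E) * V) : finrank k V' ≤ B.card * finrank k V := by
  classical
  let L : (B → V) →ₗ[k] E :=
    { toFun := fun c => ∑ b : B, (b : E) * (c b : E)
      map_add' := by intro c c'; simp [mul_add, Finset.sum_add_distrib]
      map_smul' := by intro r c; simp [Finset.smul_sum] }
  have h1 : (Submodule.span k (B : Set E) * V : Submodule k E) ≤ LinearMap.range L := by
    rw [Submodule.mul_le]
    intro s hs v hv
    induction hs using Submodule.span_induction with
    | mem b hb =>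
      refine ⟨Pi.single (⟨b, hb⟩ : B) ⟨v, hv⟩, ?_⟩
      change ∑ b' : B, (b' : E) * ((Pi.single (⟨b, hb⟩ : B) (⟨v, hv⟩ : V) : B → V) b' : E) = b * v
      rw [Finset.sum_eq_single (⟨b, hb⟩ : B)]
      · simp
      · intro b' _ hb'
        rw [Pi.single_eq_of_ne hb']; simp
      · intro h; exact absurd (Finset.mem_univ _) h
    | zero => rw [zero_mul]; exact Submodule.zero_mem _
    | add x y _ _ hx hy => rw [add_mul]; exact Submodule.add_mem _ hx hy
    | smul c x _ hx => rw [smul_mul_assoc]; exact Submodule.smul_mem _ _ hx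
  refine (Submodule.finrank_mono (h.trans h1)).trans ((LinearMap.finrank_range_le L).trans ?_)
  rw [Module.finrank_pi_fintype]
  simp

end prod

section quot

variable {k : Type*} [Field k] {E : Type*} [CommRing E] [Algebra k E] {σ : Type*}

lemma aeval_mk (Q : Ideal E) (z : σ → E) (f : MvPolynomial σ k) :
    (aeval (fun i => Ideal.Quotient.mk Q (z i)) : MvPolynomial σ k →ₐ[k] E ⧸ Q) f =
      Ideal.Quotient.mk Q (aeval z f) := by
  have h := MvPolynomial.comp_aeval (R := k) (φ := (Ideal.Quotient.mkₐ k Q)) z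
  exact (DFunLike.congr_fun h f).symm

lemma mem_ker_aeval_mk (Q : Ideal E) (z : σ → E) (f : MvPolynomial σ k) :
    f ∈ RingHom.ker (aeval (fun i => Ideal.Quotient.mk Q (z i)) : MvPolynomial σ k →ₐ[k] E ⧸ Q) ↔
      aeval z f ∈ Q := by
  rw [RingHom.mem_ker]
  change (aeval (fun i => Ideal.Quotient.mk Q (z i)) : MvPolynomial σ k →ₐ[k] E ⧸ Q) f = 0 ↔ _
  rw [aeval_mk, Ideal.Quotient.eq_zero_iff_mem]

end quot

section abs

variable {k : Type*} [Field k] [Infinite k] {E : Type*} [CommRing E] [IsDomain E] [Algebra k E]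

/-- abstract half: a prime of height at most one of an affine domain -/
lemma exists_contraction [IsNoetherianRing E] {N : ℕ} (z : Fin N → E)
    (hz : ∀ x : E, ∃ q, x ∈ U k z q) (Q : Ideal E) [hQ : Q.IsPrime] (hh : Q.height ≤ 1) :
    ∃ j C : ℕ, (∀ m, finrank k (U k z m) ≤ C * (m + j).choose j) ∧
      ∃ p : Ideal (MvPolynomial (Fin j) k), p.IsPrime ∧ j ≤ dimP p + 1 ∧
        ∀ m, HF p m ≤ finrank k (U k (fun i => Ideal.Quotient.mk Q (z i)) m) := by
  classical
  obtain ⟨j, y, Bs, -, hy1, hy, hBf, -, hU⟩ := noether_normalisation (k := k) N z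
  refine ⟨j, hBf.toFinset.card, ?_, ?_⟩
  · intro m
    refine (finrank_le_of_le_span_mul hBf.toFinset (U k y m) _ (by
      rw [Set.Finite.coe_toFinset]; exact hU m)).trans ?_
    refine Nat.mul_le_mul_left _ ?_
    have h2 : finrank k (U k y m) ≤ finrank k (W k (Fin j) m) := Submodule.finrank_map_le _ _
    rw [finrank_W, Fintype.card_fin] at h2
    exact h2
  -- the finite extension
  let φ : MvPolynomial (Fin j) k →ₐ[k] E := aeval y
  have hφ : Function.Injective φ := hy
  let _ : Algebra (MvPolynomial (Fin j) k) E := φ.toRingHom.toAlgebra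
  have hsmul : ∀ (f : MvPolynomial (Fin j) k) (x : E), f • x = φ f * x := fun f x => rfl
  have hfin : Module.Finite (MvPolynomial (Fin j) k) E := by
    refine ⟨⟨hBf.toFinset, ?_⟩⟩
    rw [eq_top_iff]
    intro x _
    obtain ⟨q, hq⟩ := hz x
    have h1 := hU q hq
    have htower : IsScalarTower k (MvPolynomial (Fin j) k) E := by
      refine ⟨fun c f x => ?_⟩
      rw [hsmul, hsmul, map_smul, smul_mul_assoc]
    have h2 : Submodule.span k Bs * U k y q ≤
        (Submodule.span (MvPolynomial (Fin j) k) (hBf.toFinset : Set E)).restrictScalars k := by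
      rw [Submodule.mul_le]
      intro s hs t ht
      obtain ⟨f, -, rfl⟩ := mem_U.1 ht
      induction hs using Submodule.span_induction with
      | mem b hb =>
        change b * aeval y f ∈ Submodule.span (MvPolynomial (Fin j) k) (hBf.toFinset : Set E)
        have e' : b * aeval y f = f • b := by
          rw [hsmul]; change b * φ f = φ f * b; ring
        rw [e']
        exact Submodule.smul_mem _ _ (Submodule.subset_span (by simpa using hb))
      | zero => rw [zero_mul]; exact Submodule.zero_mem _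
      | add x y _ _ hx hy => rw [add_mul]; exact Submodule.add_mem _ hx hy
      | smul c x _ hx => rw [smul_mul_assoc]; exact Submodule.smul_mem _ _ hx
    exact h2 h1
  have hinj : FaithfulSMul (MvPolynomial (Fin j) k) E :=
    (faithfulSMul_iff_algebraMap_injective _ _).2 hφ
  let p : Ideal (MvPolynomial (Fin j) k) := Q.comap (algebraMap _ _)
  have hp : p.IsPrime := Ideal.IsPrime.comap _
  have hlies : Q.LiesOver p := ⟨rfl⟩
  have hph : p.height ≤ 1 := by
    refine le_trans ?_ hh
    rw [Ideal.height_eq_height_add_of_liesOver_of_hasGoingDown p Q]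
    exact le_self_add
  refine ⟨p, hp, ?_, ?_⟩
  · have h1 := dimP_add_height p
    rw [Fintype.card_fin] at h1
    have h2 : (j : ℕ∞) ≤ dimP p + 1 := by
      rw [← h1]
      exact add_le_add le_rfl hph
    exact_mod_cast h2
  · intro m
    have hker : p = RingHom.ker (aeval (fun i => Ideal.Quotient.mk Q (y i)) :
        MvPolynomial (Fin j) k →ₐ[k] E ⧸ Q) := by
      ext f
      rw [mem_ker_aeval_mk]
      rfl
    rw [hker, HF_ker_aeval]
    refine Submodule.finrank_mono (U_le_U (fun i => ?_) m)
    -- `mk (y i) ∈ U (mk z) 1`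
    obtain ⟨f, hf, hfy⟩ := mem_U.1 (hy1 i)
    refine mem_U.2 ⟨f, hf, ?_⟩
    rw [← hfy]
    exact aeval_mk Q z f

end abs

section main

variable {k : Type*} [Field k] [Infinite k] {σ : Type*} [Fintype σ]

/-- **Krull's principal ideal theorem and catenarity**: a minimal prime of `P + (g)` has dimension
at least `dimP P - 1`. -/
theorem dimP_le_succ {P Q : Ideal (MvPolynomial σ k)} [hP : P.IsPrime]
    {g : MvPolynomial σ k} (hQ : Q ∈ (P ⊔ Ideal.span {g}).minimalPrimes) :
    dimP P ≤ dimP Q + 1 := by
  classical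
  have hQp : Q.IsPrime := hQ.1.1
  have hPQ : P ≤ Q := le_sup_left.trans hQ.1.2
  let e := (Fintype.equivFin σ).symm
  let θ : Fin (Fintype.card σ) → MvPolynomial σ k ⧸ P := fun i => zq P (e i)
  have hθU : ∀ i, θ i ∈ U k (zq P) 1 := fun i => self_mem_U _ _
  have hzU : ∀ i, zq P i ∈ U k θ 1 := fun i => by
    have := self_mem_U (k := k) θ (e.symm i)
    simpa [θ] using this
  have hUz : ∀ m, U k (zq P) m ≤ U k θ m := fun m => U_le_U hzU m
  let q : Ideal (MvPolynomial σ k ⧸ P) := Q.map (Ideal.Quotient.mk P)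
  have hq : q.IsPrime := Ideal.map_isPrime_of_surjective Ideal.Quotient.mk_surjective (by
    rw [Ideal.mk_ker]; exact hPQ)
  have hqh : q.height ≤ 1 := Ideal.map_height_le_one_of_mem_minimalPrimes hQ
  have hcq : q.comap (Ideal.Quotient.mk P) = Q := by
    rw [Ideal.comap_map_of_surjective' _ Ideal.Quotient.mk_surjective, Ideal.mk_ker]
    exact sup_eq_left.2 hPQ
  obtain ⟨j, C, h1, p, hp, h2, h3⟩ := exists_contraction (k := k) θ (fun x => by
    obtain ⟨m, hm⟩ := exists_mem_U_zq P x
    exact ⟨m, hUz m hm⟩) q hqh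
  have hj : dimP P ≤ j := by
    obtain ⟨b, hb⟩ := (isDimDeg P).ge
    refine exp_le_of_choose_le (δ₁ := degP P) (δ₂ := C) (c₁ := 0) (c₂ := b)
      (degP_pos P) (Eventually.of_forall fun m => ?_)
    rw [add_zero]
    refine (hb m).trans ?_
    rw [HF_eq_finrank_U]
    exact (Submodule.finrank_mono (hUz _)).trans (h1 _)
  have hcomp : ∀ m, HF p m ≤ HF Q m := by
    intro m
    refine (h3 m).trans ?_
    have hker : RingHom.ker (aeval (fun i => Ideal.Quotient.mk q (zq P i)) :
        MvPolynomial σ k →ₐ[k] (MvPolynomial σ k ⧸ P) ⧸ q) = Q := by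
      ext f
      have h5 := mem_ker_aeval_mk (k := k) q (zq P) f
      rw [aeval_zq, ← Ideal.mem_comap, hcq] at h5
      exact h5
    have h4 := HF_ker_aeval (k := k) (fun i => Ideal.Quotient.mk q (zq P i)) m
    rw [hker] at h4
    rw [h4]
    refine Submodule.finrank_mono (U_le_U (fun i => ?_) m)
    exact self_mem_U (k := k) (fun i => Ideal.Quotient.mk q (zq P i)) (e i)
  have hle : dimP p ≤ dimP Q := (isDimDeg p).dim_le (c := 0) (C := 1) (isDimDeg Q)
    (Eventually.of_forall fun m => by simpa using hcomp m)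
  omega

/-- minimal primes of a proper cut have dimension exactly one less -/
theorem dimP_succ_eq {P Q : Ideal (MvPolynomial σ k)} [hP : P.IsPrime]
    {g : MvPolynomial σ k} (hg : g ∉ P) (hQ : Q ∈ (P ⊔ Ideal.span {g}).minimalPrimes) :
    dimP Q + 1 = dimP P := by
  have hQp : Q.IsPrime := hQ.1.1
  have hPQ : P < Q := by
    refine lt_of_le_of_ne (le_sup_left.trans hQ.1.2) ?_
    rintro rfl
    exact hg (hQ.1.2 (Submodule.mem_sup_right (Ideal.mem_span_singleton_self g)))
  have h1 := dimP_lt hPQ
  have h2 := dimP_le_succ hQ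
  omega

omit [Infinite k] in
/-- incomparable primes: the Hilbert functions add up -/
theorem sum_HF_le (S : Finset (Ideal (MvPolynomial σ k))) (hp : ∀ Q ∈ S, Q.IsPrime)
    (hinc : ∀ Q ∈ S, ∀ Q' ∈ S, Q ≤ Q' → Q = Q') :
    ∃ a, ∀ m, ∑ Q ∈ S, HF Q m ≤ HF (S.inf id) (m + a) := by
  classical
  induction S using Finset.induction_on with
  | empty => exact ⟨0, fun m => by simp⟩
  | insert Q0 S hQ0 ih =>
    obtain ⟨a, ha⟩ := ih (fun Q hQ => hp Q (Finset.mem_insert_of_mem hQ))
      (fun Q hQ Q' hQ' h => hinc Q (Finset.mem_insert_of_mem hQ) Q'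
        (Finset.mem_insert_of_mem hQ') h)
    have hQ0p : Q0.IsPrime := hp Q0 (Finset.mem_insert_self _ _)
    have hnot : ¬ S.inf id ≤ Q0 := by
      intro h
      obtain ⟨Q, hQ, hle⟩ := (hQ0p.inf_le').1 h
      exact hQ0 (by rw [← hinc Q (Finset.mem_insert_of_mem hQ) Q0 (Finset.mem_insert_self _ _) hle]
                    exact hQ)
    obtain ⟨u, hu, huQ⟩ := Set.not_subset.1 hnot
    obtain ⟨I, hI⟩ : ∃ I, I = S.inf id := ⟨_, rfl⟩
    rw [← hI] at ha hnot hu
    set e := u.totalDegree with he
    refine ⟨a + e, fun m => ?_⟩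
    rw [Finset.sum_insert hQ0, Finset.inf_insert, id_eq, ← hI, inf_comm]
    have h1 := HF_add_col_le (I := I ⊓ Q0) (J := I) inf_le_left (f := u) hu le_rfl (m + a)
    rw [col_inf, col_eq_top hu, col_of_prime hQ0p huQ, top_inf_eq] at h1
    have h2 := ha (m + e)
    have e1 : m + a + u.totalDegree = m + e + a := by rw [← he]; ring
    have e2 : m + (a + e) = m + e + a := by ring
    rw [e1] at h1
    rw [e2]
    have h3 : ∑ Q ∈ S, HF Q m ≤ ∑ Q ∈ S, HF Q (m + e) :=
      Finset.sum_le_sum fun Q _ => HF_mono Q (by omega)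
    have h4 : HF Q0 m ≤ HF Q0 (m + a) := HF_mono Q0 (by omega)
    omega

/-- distinct primes of the same dimension: the degrees add up -/
theorem sum_degP_le (S : Finset (Ideal (MvPolynomial σ k))) (r : ℕ)
    (hp : ∀ Q ∈ S, Q.IsPrime ∧ dimP Q = r) (J : Ideal (MvPolynomial σ k)) (hJ : ∀ Q ∈ S, J ≤ Q) :
    ∃ a, ∀ m, (∑ Q ∈ S, degP Q) * (m + r).choose r ≤ HF J (m + a) := by
  classical
  obtain ⟨a, ha⟩ := sum_HF_le S (fun Q hQ => (hp Q hQ).1) (by
    intro Q hQ Q' hQ' h
    have := (hp Q hQ).1
    have := (hp Q' hQ').1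
    exact eq_of_le_of_dimP_le h (by rw [(hp Q hQ).2, (hp Q' hQ').2]))
  have hb : ∀ Q : Ideal (MvPolynomial σ k), ∃ b, Q ∈ S → ∀ m, degP Q * (m + r).choose r ≤
      HF Q (m + b) := by
    intro Q
    by_cases hQ : Q ∈ S
    · have := (hp Q hQ).1
      obtain ⟨b, hb⟩ := (isDimDeg Q).ge
      rw [(hp Q hQ).2] at hb
      exact ⟨b, fun _ => hb⟩
    · exact ⟨0, fun h => absurd h hQ⟩
  choose b hb using hb
  refine ⟨S.sup b + a, fun m => ?_⟩
  rw [Finset.sum_mul, ← add_assoc]
  have h1 : ∑ Q ∈ S, degP Q * (m + r).choose r ≤ ∑ Q ∈ S, HF Q (m + S.sup b) :=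
    Finset.sum_le_sum fun Q hQ => (hb Q hQ m).trans
      (HF_mono Q (Nat.add_le_add_left (Finset.le_sup (f := b) hQ) _))
  refine h1.trans ((ha _).trans (HF_anti ?_ _))
  exact Finset.le_inf fun Q hQ => hJ Q hQ

/-- difference of binomial coefficients -/
lemma choose_diff (N w r : ℕ) :
    (N + w + (r + 1)).choose (r + 1) ≤ (N + (r + 1)).choose (r + 1) +
      w * (N + w + r).choose r := by
  induction w with
  | zero => simp
  | succ w ih =>
    have h1 : (N + (w + 1) + (r + 1)).choose (r + 1) =
        (N + w + (r + 1)).choose r + (N + w + (r + 1)).choose (r + 1) := by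
      have : N + (w + 1) + (r + 1) = N + w + (r + 1) + 1 := by ring
      rw [this, Nat.choose_succ_succ]
    have h2 : (N + w + (r + 1)).choose r = (N + (w + 1) + r).choose r := by
      congr 1; ring
    have h3 : (N + w + r).choose r ≤ (N + (w + 1) + r).choose r :=
      Nat.choose_le_choose _ (by omega)
    rw [h1, h2]
    calc (N + (w + 1) + r).choose r + (N + w + (r + 1)).choose (r + 1)
        ≤ (N + (w + 1) + r).choose r + ((N + (r + 1)).choose (r + 1) +
          w * (N + w + r).choose r) := Nat.add_le_add_left ih _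
      _ ≤ (N + (w + 1) + r).choose r + ((N + (r + 1)).choose (r + 1) +
          w * (N + (w + 1) + r).choose r) := by gcongr
      _ = _ := by ring

/-- **The cut inequality.** -/
theorem cut {P : Ideal (MvPolynomial σ k)} [hP : P.IsPrime] {g : MvPolynomial σ k} (hg : g ∉ P)
    {e : ℕ} (he : g.totalDegree ≤ e) (S : Finset (Ideal (MvPolynomial σ k)))
    (hS : ∀ Q ∈ S, Q.IsPrime ∧ P ≤ Q ∧ g ∈ Q ∧ dimP Q + 1 = dimP P) :
    ∑ Q ∈ S, degP Q ≤ e * degP P := by
  classical
  rcases S.eq_empty_or_nonempty with rfl | ⟨Q1, hQ1⟩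
  · simp
  obtain ⟨r, hr⟩ : ∃ r, dimP P = r + 1 := ⟨dimP Q1, (hS Q1 hQ1).2.2.2.symm⟩
  set J : Ideal (MvPolynomial σ k) := P ⊔ Ideal.span {g} with hJ
  have hgJ : g ∈ J := Submodule.mem_sup_right (Ideal.mem_span_singleton_self g)
  obtain ⟨a, ha⟩ := sum_degP_le S r (fun Q hQ => ⟨(hS Q hQ).1, by
    have := (hS Q hQ).2.2.2; omega⟩) J (fun Q hQ => sup_le (hS Q hQ).2.1
      ((Ideal.span_singleton_le_iff_mem _).2 (hS Q hQ).2.2.1))
  obtain ⟨b, hb⟩ := (isDimDeg P).ge
  have hle := fun m => HF_le_degP P m
  rw [hr] at hb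
  simp only [hr] at hle
  set D := ∑ Q ∈ S, degP Q with hD
  set δ := degP P with hδ
  have key : ∀ s, s * D ≤ δ * (b + s * e) := by
    intro s
    refine le_of_choose_le (r := r) (c₁ := 0) (c₂ := a + b + s * e)
      (Eventually.of_forall fun n => ?_)
    rw [add_zero]
    have h1 := sum_HF_cut (le_sup_left : P ≤ J) hgJ he
      (fun u hu => (hP.mem_or_mem hu).resolve_left hg) (n + a + b) s
    have h2 : s * (D * (n + r).choose r) ≤
        ∑ i ∈ Finset.range s, HF J (n + a + b + (i + 1) * e) := by
      have : ∑ _i ∈ Finset.range s, D * (n + r).choose r = s * (D * (n + r).choose r) := by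
        rw [Finset.sum_const, Finset.card_range, smul_eq_mul]
      rw [← this]
      exact Finset.sum_le_sum fun i _ => (ha n).trans (HF_mono J (by omega))
    have h3 : δ * (n + a + (r + 1)).choose (r + 1) ≤ HF P (n + a + b) := hb (n + a)
    have h4 := hle (n + a + b + s * e)
    have h5 := choose_diff (n + a) (b + s * e) r
    have e1 : n + a + (b + s * e) = n + a + b + s * e := by ring
    rw [e1] at h5
    have e2 : n + (a + b + s * e) = n + a + b + s * e := by ring
    rw [e2]
    have h6 : s * (D * (n + r).choose r) + δ * (n + a + (r + 1)).choose (r + 1) ≤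
        δ * (n + a + b + s * e + (r + 1)).choose (r + 1) :=
      (add_le_add h2 h3).trans (h1.trans h4)
    have h7 : δ * (n + a + b + s * e + (r + 1)).choose (r + 1) ≤
        δ * (n + a + (r + 1)).choose (r + 1) +
          δ * ((b + s * e) * (n + a + b + s * e + r).choose r) := by
      rw [← mul_add]; exact Nat.mul_le_mul_left _ h5
    have h8 : s * (D * (n + r).choose r) ≤
        δ * ((b + s * e) * (n + a + b + s * e + r).choose r) := by omega
    calc s * D * (n + r).choose r = s * (D * (n + r).choose r) := by ring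
      _ ≤ _ := h8
      _ = _ := by ring
  by_contra hcon
  push Not at hcon
  have h1 := key (δ * b + 1)
  have h2 : (δ * b + 1) * (e * δ + 1) ≤ (δ * b + 1) * D := Nat.mul_le_mul_left _ hcon
  have h3 : (δ * b + 1) * (e * δ + 1) = δ * (b + (δ * b + 1) * e) + 1 := by ring
  omega

/-- **The cut inequality in existence form**: the minimal primes of `P + (g)`. -/
theorem exists_cut {P : Ideal (MvPolynomial σ k)} [hP : P.IsPrime] {g : MvPolynomial σ k}
    (hg : g ∉ P) {e : ℕ} (he : g.totalDegree ≤ e) :
    ∃ S : Finset (Ideal (MvPolynomial σ k)),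
      (∀ Q ∈ S, Q.IsPrime ∧ P ≤ Q ∧ g ∈ Q ∧ dimP Q + 1 = dimP P) ∧
      (∀ Q : Ideal (MvPolynomial σ k), Q.IsPrime → P ≤ Q → g ∈ Q → ∃ Q' ∈ S, Q' ≤ Q) ∧
      (∀ a ∈ ZV P, eval a g = 0 → ∃ Q ∈ S, a ∈ ZV Q) ∧ ∑ Q ∈ S, degP Q ≤ e * degP P := by
  classical
  set J : Ideal (MvPolynomial σ k) := P ⊔ Ideal.span {g} with hJ
  have hfin : J.minimalPrimes.Finite := Ideal.finite_minimalPrimes_of_isNoetherianRing _ J
  have hmem : ∀ Q, Q ∈ hfin.toFinset ↔ Q ∈ J.minimalPrimes := fun Q => hfin.mem_toFinset
  have hS : ∀ Q ∈ hfin.toFinset, Q.IsPrime ∧ P ≤ Q ∧ g ∈ Q ∧ dimP Q + 1 = dimP P := by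
    intro Q hQ
    rw [hmem] at hQ
    exact ⟨hQ.1.1, le_sup_left.trans hQ.1.2,
      hQ.1.2 (Submodule.mem_sup_right (Ideal.mem_span_singleton_self g)), dimP_succ_eq hg hQ⟩
  have hmin : ∀ Q : Ideal (MvPolynomial σ k), Q.IsPrime → P ≤ Q → g ∈ Q →
      ∃ Q' ∈ hfin.toFinset, Q' ≤ Q := by
    intro Q hQ hPQ hgQ
    have hJQ : J ≤ Q := sup_le hPQ ((Ideal.span_singleton_le_iff_mem _).2 hgQ)
    obtain ⟨Q', hQ', hle⟩ := Ideal.exists_minimalPrimes_le hJQ
    exact ⟨Q', (hmem Q').2 hQ', hle⟩
  refine ⟨hfin.toFinset, hS, hmin, ?_, cut hg he _ hS⟩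
  intro a ha hga
  have hIVp : (IV {a} : Ideal (MvPolynomial σ k)).IsPrime := by
    refine ⟨IV_ne_top (Set.singleton_nonempty a), ?_⟩
    intro x y hxy
    have h1 := hxy a rfl
    rw [map_mul] at h1
    rcases mul_eq_zero.1 h1 with h | h
    · left; rintro b rfl; exact h
    · right; rintro b rfl; exact h
  obtain ⟨Q', hQ', hle⟩ := hmin (IV {a}) hIVp
    (by rintro x hx b rfl; exact ha x hx) (by rintro b rfl; exact hga)
  exact ⟨Q', hQ', fun x hx => hle hx a rfl⟩

end main

end Crest.Agent.R065.Cut477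

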