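import Crest.Agent.R065.D3defs_235

/-!
# Row 65, d = 3: consequences (1.2)-(1.5) of regularity
-/

set_option autoImplicit false

namespace Crest.Agent.R065.D3cons275

open Finset Crest.Agent.R065.D3

/-- a line meets a sphere in at most two points -/
lemma line_sphere {x y w p : EuclideanSpace ℝ (Fin 3)}
    (h : Collinear ℝ ({x, y, w} : Set (EuclideanSpace ℝ (Fin 3))))
    (h1 : dist x p = dist y p) (h2 : dist x p = dist w p) : x = y ∨ x = w ∨ y = w := by
  by_contra hc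
  push Not at hc
  obtain ⟨h12, h13, h23⟩ := hc
  have hs : EuclideanGeometry.Cospherical ({x, y, w} : Set (EuclideanSpace ℝ (Fin 3))) := by
    refine ⟨p, dist x p, ?_⟩
    intro q hq
    simp only [Set.mem_insert_iff, Set.mem_singleton_iff] at hq
    rcases hq with rfl | rfl | rfl
    · rfl
    · exact h1.symm
    · exact h2.symm
  have := hs.affineIndependent_of_ne h12 h13 h23
  rw [affineIndependent_iff_not_collinear_set] at this
  exact this h

/-- if all points of `T` have the same distances to a non-collinear set, `T` is collinear -/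
lemma spheres_collinear {S T : Set (EuclideanSpace ℝ (Fin 3))}
    (h : ∀ p ∈ T, ∀ q ∈ T, ∀ a ∈ S, dist p a = dist q a) (hS : ¬ Collinear ℝ S) :
    Collinear ℝ T := by
  rw [collinear_iff_finrank_le_one] at *
  have hort : vectorSpan ℝ T ⟂ vectorSpan ℝ S := by
    rw [vectorSpan_def, vectorSpan_def, Submodule.isOrtho_span]
    rintro v ⟨p, hp, q, hq, rfl⟩ u ⟨a, ha, b, hb, rfl⟩
    have h1 := h p hp q hq a ha
    have h2 := h p hp q hq b hb
    have h1' : ‖p - a‖ ^ 2 = ‖q - a‖ ^ 2 := by rw [← dist_eq_norm, ← dist_eq_norm, h1]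
    have h2' : ‖p - b‖ ^ 2 = ‖q - b‖ ^ 2 := by rw [← dist_eq_norm, ← dist_eq_norm, h2]
    rw [@norm_sub_sq_real, @norm_sub_sq_real] at h1' h2'
    simp only [vsub_eq_sub, inner_sub_left, inner_sub_right]
    linarith
  have h1 : vectorSpan ℝ T ≤ (vectorSpan ℝ S)ᗮ := hort
  have h2 := Submodule.finrank_add_finrank_orthogonal (vectorSpan ℝ S)
  have h3 := Submodule.finrank_mono h1
  rw [finrank_euclideanSpace_fin] at h2
  omega

/-- three spheres with non-collinear centres meet in at most two points -/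
lemma three_spheres {a1 a2 a3 x y w : EuclideanSpace ℝ (Fin 3)}
    (h : ¬ Collinear ℝ ({a1, a2, a3} : Set (EuclideanSpace ℝ (Fin 3))))
    (hxy1 : dist x a1 = dist y a1) (hxy2 : dist x a2 = dist y a2) (hxy3 : dist x a3 = dist y a3)
    (hxw1 : dist x a1 = dist w a1) (hxw2 : dist x a2 = dist w a2) (hxw3 : dist x a3 = dist w a3) :
    x = y ∨ x = w ∨ y = w := by
  refine line_sphere (p := a1) (spheres_collinear (S := {a1, a2, a3}) ?_ h) hxy1 hxw1
  intro p hp q hq a ha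
  simp only [Set.mem_insert_iff, Set.mem_singleton_iff] at hp hq ha
  have e1 : dist p a = dist x a := by
    rcases hp with rfl | rfl | rfl <;> rcases ha with rfl | rfl | rfl <;> first | rfl | (symm; assumption)
  have e2 : dist q a = dist x a := by
    rcases hq with rfl | rfl | rfl <;> rcases ha with rfl | rfl | rfl <;> first | rfl | (symm; assumption)
  rw [e1, e2]

lemma card_le_two_mul_image {γ δ : Type*} [DecidableEq δ] (W : Finset γ) (f : γ → δ)
    (h : ∀ x ∈ W, ∀ y ∈ W, ∀ w ∈ W, f x = f y → f x = f w → x = y ∨ x = w ∨ y = w) :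
    W.card ≤ 2 * (W.image f).card := by
  classical
  refine card_le_mul_card_image W 2 fun b hb => ?_
  by_contra hc
  push Not at hc
  rw [two_lt_card] at hc
  obtain ⟨x, hx, y, hy, w, hw, h12, h13, h23⟩ := hc
  rw [mem_filter] at hx hy hw
  rcases h x hx.1 y hy.1 w hw.1 (hx.2.trans hy.2.symm) (hx.2.trans hw.2.symm) with h|h|h
  · exact h12 h
  · exact h13 h
  · exact h23 h

section perp

variable {p1 p2 p3 : PP} {W : Finset PP}

open scoped Classical in
theorem perp_le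
    (hn : ¬ Collinear ℝ ({p1.1, p2.1, p3.1} : Set (EuclideanSpace ℝ (Fin 3))))
    (h1 : ∀ w ∈ W, dist w.1 p1.1 = dist w.2 p1.2) (h2 : ∀ w ∈ W, dist w.1 p2.1 = dist w.2 p2.2)
    (h3 : ∀ w ∈ W, dist w.1 p3.1 = dist w.2 p3.2) :
    W.card ≤ 2 * (W.image Prod.snd).card := by
  refine card_le_two_mul_image W Prod.snd fun x hx y hy w hw hxy hxw => ?_
  have := three_spheres (x := x.1) (y := y.1) (w := w.1) hn
    (by rw [h1 x hx, h1 y hy, hxy]) (by rw [h2 x hx, h2 y hy, hxy]) (by rw [h3 x hx, h3 y hy, hxy])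
    (by rw [h1 x hx, h1 w hw, hxw]) (by rw [h2 x hx, h2 w hw, hxw]) (by rw [h3 x hx, h3 w hw, hxw])
  rcases this with h | h | h
  · exact Or.inl (Prod.ext h hxy)
  · exact Or.inr (Or.inl (Prod.ext h hxw))
  · exact Or.inr (Or.inr (Prod.ext h (hxy.symm.trans hxw)))

open scoped Classical in
theorem perp_le_snd
    (hn : ¬ Collinear ℝ ({p1.2, p2.2, p3.2} : Set (EuclideanSpace ℝ (Fin 3))))
    (h1 : ∀ w ∈ W, dist w.1 p1.1 = dist w.2 p1.2) (h2 : ∀ w ∈ W, dist w.1 p2.1 = dist w.2 p2.2)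
    (h3 : ∀ w ∈ W, dist w.1 p3.1 = dist w.2 p3.2) :
    W.card ≤ 2 * (W.image Prod.fst).card := by
  refine card_le_two_mul_image W Prod.fst fun x hx y hy w hw hxy hxw => ?_
  have := three_spheres (x := x.2) (y := y.2) (w := w.2) hn
    (by rw [← h1 x hx, ← h1 y hy, hxy]) (by rw [← h2 x hx, ← h2 y hy, hxy])
    (by rw [← h3 x hx, ← h3 y hy, hxy])
    (by rw [← h1 x hx, ← h1 w hw, hxw]) (by rw [← h2 x hx, ← h2 w hw, hxw])
    (by rw [← h3 x hx, ← h3 w hw, hxw])
  rcases this with h | h | h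
  · exact Or.inl (Prod.ext hxy h)
  · exact Or.inr (Or.inl (Prod.ext hxw h))
  · exact Or.inr (Or.inr (Prod.ext (hxy.symm.trans hxw) h))

lemma card_image_fst_le {Z : Finset PP} [DecidableEq (EuclideanSpace ℝ (Fin 3))] (h : W ⊆ Z) :
    (W.image Prod.fst).card ≤ ss Z := by
  classical
  unfold ss
  refine (card_le_card (image_subset_image h)).trans ?_
  refine le_trans (le_of_eq ?_) (Nat.le_add_right _ _)
  congr!

lemma card_image_snd_le {Z : Finset PP} [DecidableEq (EuclideanSpace ℝ (Fin 3))] (h : W ⊆ Z) :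
    (W.image Prod.snd).card ≤ ss Z := by
  classical
  unfold ss
  refine (card_le_card (image_subset_image h)).trans ?_
  refine le_trans (le_of_eq ?_) (Nat.le_add_left _ _)
  congr!

theorem perp_le_ss {Z : Finset PP} (hW : W ⊆ Z)
    (hn : ¬ Collinear ℝ ({p1.1, p2.1, p3.1} : Set (EuclideanSpace ℝ (Fin 3))) ∨
      ¬ Collinear ℝ ({p1.2, p2.2, p3.2} : Set (EuclideanSpace ℝ (Fin 3))))
    (h1 : ∀ w ∈ W, dist w.1 p1.1 = dist w.2 p1.2) (h2 : ∀ w ∈ W, dist w.1 p2.1 = dist w.2 p2.2)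
    (h3 : ∀ w ∈ W, dist w.1 p3.1 = dist w.2 p3.2) :
    W.card ≤ 2 * ss Z := by
  classical
  rcases hn with hn | hn
  · exact (perp_le hn h1 h2 h3).trans (Nat.mul_le_mul_left 2 (card_image_snd_le hW))
  · exact (perp_le_snd hn h1 h2 h3).trans (Nat.mul_le_mul_left 2 (card_image_fst_le hW))

end perp

section conic

variable {z : PP} {W : Finset PP}

open scoped Classical in
/-- points of `W` at equal distances from `z`, second coordinates on a line -/
theorem conic (h : ∀ w ∈ W, dist w.1 z.1 = dist w.2 z.2)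
    (hc : Collinear ℝ ((W.image Prod.snd : Finset _) : Set (EuclideanSpace ℝ (Fin 3)))) :
    W.card ≤ 2 * (W.image Prod.fst).card := by
  refine card_le_two_mul_image W Prod.fst fun x hx y hy w hw hxy hxw => ?_
  have hcol : Collinear ℝ ({x.2, y.2, w.2} : Set (EuclideanSpace ℝ (Fin 3))) := by
    refine hc.subset ?_
    intro q hq
    simp only [Set.mem_insert_iff, Set.mem_singleton_iff] at hq
    rw [mem_coe]
    rcases hq with rfl | rfl | rfl
    · exact mem_image_of_mem _ hx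
    · exact mem_image_of_mem _ hy
    · exact mem_image_of_mem _ hw
  rcases line_sphere (p := z.2) hcol (by rw [← h x hx, ← h y hy, hxy])
    (by rw [← h x hx, ← h w hw, hxw]) with e | e | e
  · exact Or.inl (Prod.ext hxy e)
  · exact Or.inr (Or.inl (Prod.ext hxw e))
  · exact Or.inr (Or.inr (Prod.ext (hxy.symm.trans hxw) e))

open scoped Classical in
/-- points of `W` at equal distances from `z`, first coordinates on a line -/
theorem conic_snd (h : ∀ w ∈ W, dist w.1 z.1 = dist w.2 z.2)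
    (hc : Collinear ℝ ((W.image Prod.fst : Finset _) : Set (EuclideanSpace ℝ (Fin 3)))) :
    W.card ≤ 2 * (W.image Prod.snd).card := by
  refine card_le_two_mul_image W Prod.snd fun x hx y hy w hw hxy hxw => ?_
  have hcol : Collinear ℝ ({x.1, y.1, w.1} : Set (EuclideanSpace ℝ (Fin 3))) := by
    refine hc.subset ?_
    intro q hq
    simp only [Set.mem_insert_iff, Set.mem_singleton_iff] at hq
    rw [mem_coe]
    rcases hq with rfl | rfl | rfl
    · exact mem_image_of_mem _ hx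
    · exact mem_image_of_mem _ hy
    · exact mem_image_of_mem _ hw
  rcases line_sphere (p := z.1) hcol (by rw [h x hx, h y hy, hxy])
    (by rw [h x hx, h w hw, hxw]) with e | e | e
  · exact Or.inl (Prod.ext e hxy)
  · exact Or.inr (Or.inl (Prod.ext e hxw))
  · exact Or.inr (Or.inr (Prod.ext e (hxy.symm.trans hxw)))

end conic

section reg

variable {C0 B L : ℝ} {Z : Finset PP}

lemma card_pos' (h : Reg Nul C0 B Z L) : (0 : ℝ) < Z.card := by
  exact_mod_cast card_pos.2 h.ne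

lemma one_le_C0 (h : Reg Nul C0 B Z L) : 1 ≤ C0 := by
  obtain ⟨z, hz⟩ := h.ne
  have h1 := (h.deg_ge z hz).trans (h.deg_le z hz)
  have := h.L_pos
  by_contra hc
  push Not at hc
  nlinarith

lemma L_le_card (h : Reg Nul C0 B Z L) : L ≤ Z.card := by
  obtain ⟨z, hz⟩ := h.ne
  refine (h.deg_ge z hz).trans ?_
  exact_mod_cast deg_le_card Z z

/-- (1.2) -/
lemma B_sq_le (h : Reg Nul C0 B Z L) : B * (ss Z : ℝ) ^ 2 ≤ L ^ 2 := by
  have h1 := h.big
  have h2 := L_le_card h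
  have h3 := card_pos' h
  have h4 := h.L_pos
  have h5 : L ^ 3 ≤ Z.card * L ^ 2 := by nlinarith [sq_nonneg L]
  have h6 : (Z.card : ℝ) * (B * (ss Z : ℝ) ^ 2) ≤ Z.card * L ^ 2 := by
    calc (Z.card : ℝ) * (B * (ss Z : ℝ) ^ 2) = B * Z.card * (ss Z : ℝ) ^ 2 := by ring
      _ ≤ _ := h1.trans h5
  exact le_of_mul_le_mul_left h6 h3

lemma ss_le_L (h : Reg Nul C0 B Z L) (hB : 1 ≤ B) : (ss Z : ℝ) ≤ L := by
  have h1 := B_sq_le h
  have h2 := h.L_pos
  have h3 : (0 : ℝ) ≤ ss Z := Nat.cast_nonneg _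
  have h4 : (ss Z : ℝ) ^ 2 ≤ L ^ 2 := by nlinarith [sq_nonneg (ss Z : ℝ)]
  exact abs_le_of_sq_le_sq' h4 h2.le |>.2


open scoped Classical in
/-- (1.4), first coordinates -/
theorem fst_line (h : Reg Nul C0 B Z L) {A : Finset (EuclideanSpace ℝ (Fin 3))}
    (hA : A ⊆ Z.image Prod.fst)
    (hcol : Collinear ℝ (A : Set (EuclideanSpace ℝ (Fin 3)))) :
    (A.card : ℝ) * L ≤ 2 * C0 * (ss Z : ℝ) ^ 2 := by
  have hC0 := one_le_C0 h
  have hZ := card_pos' h
  -- total count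
  have hup : EE Nul (Z.filter fun z => z.1 ∈ A) Z ≤ 2 * ss Z * Z.card := by
    rw [EE_comm nul_symm]
    unfold EE
    calc ∑ w ∈ Z, deg Nul (Z.filter fun z => z.1 ∈ A) w ≤ ∑ _w ∈ Z, 2 * ss Z := by
          refine sum_le_sum fun w _ => ?_
          refine (conic_snd (z := w) (W := nb Nul (Z.filter fun z => z.1 ∈ A) w) ?_ ?_).trans
            (Nat.mul_le_mul_left 2 (card_image_snd_le ?_))
          · intro x hx
            rw [mem_nb] at hx
            rw [dist_comm, hx.2.1, dist_comm]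
          · refine hcol.subset ?_
            intro q hq
            rw [mem_coe, mem_image] at hq
            obtain ⟨x, hx, rfl⟩ := hq
            rw [mem_nb, mem_filter] at hx
            exact hx.1.2
          · intro x hx
            rw [mem_nb, mem_filter] at hx
            exact hx.1.1
      _ = 2 * ss Z * Z.card := by rw [sum_const, smul_eq_mul, mul_comm]
  have hsum : (EE Nul (Z.filter fun z => z.1 ∈ A) Z) =
      ∑ a ∈ A, EE Nul (Z.filter fun z => z.1 = a) Z := by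
    unfold EE
    rw [← sum_fiberwise_of_maps_to (s := Z.filter fun z => z.1 ∈ A) (t := A) (g := Prod.fst)
      (fun z hz => (mem_filter.1 hz).2)]
    refine sum_congr rfl fun a ha => ?_
    rw [filter_filter]
    refine sum_congr ?_ fun _ _ => rfl
    ext z
    simp only [mem_filter]
    constructor
    · rintro ⟨h1, h2, h3⟩; exact ⟨h1, h3⟩
    · rintro ⟨h1, h2⟩; exact ⟨h1, h2 ▸ ha, h2⟩
  have hlow : ∀ a ∈ A, L * Z.card ≤ C0 * ss Z * EE Nul (Z.filter fun z => z.1 = a) Z := by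
    intro a ha
    refine h.fst_ge a _ (fun z => by rw [mem_filter]) ?_
    obtain ⟨z, hz, hza⟩ := mem_image.1 (hA ha)
    exact ⟨z, mem_filter.2 ⟨hz, hza⟩⟩
  have h1 : (A.card : ℝ) * (L * Z.card) ≤ C0 * ss Z * (EE Nul (Z.filter fun z => z.1 ∈ A) Z : ℕ) := by
    rw [hsum]
    push_cast
    rw [mul_sum, ← nsmul_eq_mul, ← sum_const]
    exact sum_le_sum hlow
  have h2 : ((EE Nul (Z.filter fun z => z.1 ∈ A) Z : ℕ) : ℝ) ≤ 2 * ss Z * Z.card := by
    exact_mod_cast hup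
  have h3 : C0 * ss Z * ((EE Nul (Z.filter fun z => z.1 ∈ A) Z : ℕ) : ℝ) ≤
      C0 * ss Z * (2 * ss Z * Z.card) := mul_le_mul_of_nonneg_left h2 (by positivity)
  have h4 : (Z.card : ℝ) * ((A.card : ℝ) * L) ≤ Z.card * (2 * C0 * (ss Z : ℝ) ^ 2) := by
    calc (Z.card : ℝ) * ((A.card : ℝ) * L) = (A.card : ℝ) * (L * Z.card) := by ring
      _ ≤ _ := h1.trans h3
      _ = _ := by ring
  exact le_of_mul_le_mul_left h4 hZ


lemma collinear_filter {s : Set (EuclideanSpace ℝ (Fin 3))} {a b : EuclideanSpace ℝ (Fin 3)}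
    (hab : a ≠ b) (h : ∀ x ∈ s, Collinear ℝ ({a, b, x} : Set (EuclideanSpace ℝ (Fin 3)))) :
    Collinear ℝ s := by
  refine (collinear_iff_exists_forall_eq_smul_vadd (k := ℝ) s).2 ⟨a, b - a, ?_⟩
  intro x hx
  have := (h x hx).mem_affineSpan_of_mem_of_ne (p₁ := a) (p₂ := b) (p₃ := x)
    (by simp) (by simp) (by simp) hab
  rw [mem_affineSpan_pair_iff_exists_lineMap_eq] at this
  obtain ⟨r, hr⟩ := this
  refine ⟨r, ?_⟩
  rw [← hr, AffineMap.lineMap_apply, vsub_eq_sub]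

open scoped Classical in
theorem fst_line' (h : Reg Nul C0 B Z L) :
    ∀ a b : EuclideanSpace ℝ (Fin 3), a ≠ b →
      (((Z.image Prod.fst).filter fun x =>
        Collinear ℝ ({a, b, x} : Set (EuclideanSpace ℝ (Fin 3)))).card : ℝ) * L ≤
        2 * C0 * (ss Z : ℝ) ^ 2 := by
  intro a b hab
  refine fst_line h (filter_subset _ _) (collinear_filter hab ?_)
  intro x hx
  rw [mem_coe, mem_filter] at hx
  exact hx.2


open scoped Classical in
/-- conic of `l1 × l2` -/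
theorem conic_reg (h : Reg Nul C0 B Z L) {z : PP} {W : Finset PP} (hW : W ⊆ Z)
    (hd : ∀ w ∈ W, dist w.1 z.1 = dist w.2 z.2)
    (h1 : Collinear ℝ ((W.image Prod.fst : Finset _) : Set (EuclideanSpace ℝ (Fin 3))))
    (h2 : Collinear ℝ ((W.image Prod.snd : Finset _) : Set (EuclideanSpace ℝ (Fin 3)))) :
    (W.card : ℝ) * L ≤ 4 * C0 * (ss Z : ℝ) ^ 2 := by
  have e1 := fst_line h (image_subset_image hW) h1
  have e2 : (W.card : ℝ) ≤ 2 * (W.image Prod.fst).card := by exact_mod_cast conic hd h2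
  have := h.L_pos
  nlinarith

/-- non-collinear first or second coordinates -/
def good (y1 y2 y3 : PP) : Prop :=
  ¬ Collinear ℝ ({y1.1, y2.1, y3.1} : Set (EuclideanSpace ℝ (Fin 3))) ∨
    ¬ Collinear ℝ ({y1.2, y2.2, y3.2} : Set (EuclideanSpace ℝ (Fin 3)))

open scoped Classical in
lemma good_sum (Z : Finset PP) :
    ∑ z ∈ Z, ∑ q ∈ nb Nul Z z ×ˢ nb Nul Z z, ((nb Nul Z z).filter fun y => good q.1 q.2 y).card ≤
      2 * ss Z * Z.card ^ 3 := by
  have e1 : ∀ z ∈ Z, ∑ q ∈ nb Nul Z z ×ˢ nb Nul Z z,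
      ((nb Nul Z z).filter fun y => good q.1 q.2 y).card =
      (((Z ×ˢ Z) ×ˢ Z).filter fun p => Nul z p.1.1 ∧ Nul z p.1.2 ∧ Nul z p.2 ∧
        good p.1.1 p.1.2 p.2).card := by
    intro z hz
    have : (((Z ×ˢ Z) ×ˢ Z).filter fun p => Nul z p.1.1 ∧ Nul z p.1.2 ∧ Nul z p.2 ∧
        good p.1.1 p.1.2 p.2) = (((nb Nul Z z ×ˢ nb Nul Z z) ×ˢ nb Nul Z z).filter fun p =>
          good p.1.1 p.1.2 p.2) := by
      ext p
      simp only [mem_filter, mem_product, mem_nb]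
      tauto
    rw [this, card_filter, sum_product (nb Nul Z z ×ˢ nb Nul Z z) (nb Nul Z z)]
    refine sum_congr rfl fun q hq => ?_
    rw [card_filter]
  rw [sum_congr rfl e1]
  simp only [card_filter]
  rw [sum_comm]
  calc ∑ p ∈ (Z ×ˢ Z) ×ˢ Z, ∑ z ∈ Z, (if Nul z p.1.1 ∧ Nul z p.1.2 ∧ Nul z p.2 ∧
        good p.1.1 p.1.2 p.2 then 1 else 0) ≤ ∑ _p ∈ (Z ×ˢ Z) ×ˢ Z, 2 * ss Z := by
        refine sum_le_sum fun p hp => ?_
        rw [← card_filter]
        by_cases hg : good p.1.1 p.1.2 p.2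
        · refine perp_le_ss (p1 := p.1.1) (p2 := p.1.2) (p3 := p.2) (filter_subset _ _) hg ?_ ?_ ?_
          · intro w hw
            exact (mem_filter.1 hw).2.1.1
          · intro w hw
            exact (mem_filter.1 hw).2.2.1.1
          · intro w hw
            exact (mem_filter.1 hw).2.2.2.1.1
        · rw [filter_false_of_mem]
          · simp
          · intro z hz h
            exact hg h.2.2.2
    _ = 2 * ss Z * Z.card ^ 3 := by
        rw [sum_const, smul_eq_mul, card_product, card_product]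
        ring

open scoped Classical in
lemma bad_sum (h : Reg Nul C0 B Z L) (z : PP) :
    ((∑ q ∈ nb Nul Z z ×ˢ nb Nul Z z,
      ((nb Nul Z z).filter fun y => ¬ good q.1 q.2 y).card : ℕ) : ℝ) * L ≤
      (deg Nul Z z : ℝ) ^ 2 * (ss Z * L + 4 * C0 * (ss Z : ℝ) ^ 2) := by
  have hL := h.L_pos
  have hC0 := one_le_C0 h
  set N := nb Nul Z z with hN
  have hNZ : N ⊆ Z := fun w hw => (mem_nb.1 hw).1
  have hNd : ∀ w ∈ N, dist w.1 z.1 = dist w.2 z.2 := fun w hw => by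
    have := (mem_nb.1 hw).2.1
    rw [dist_comm, this, dist_comm]
  have hdeg : deg Nul Z z = N.card := rfl
  rw [hdeg]
  -- each term
  have e1 : ∀ q ∈ N ×ˢ N, (((N.filter fun y => ¬ good q.1 q.2 y).card : ℕ) : ℝ) * L ≤
      (if q.1.1 = q.2.1 ∨ q.1.2 = q.2.2 then (N.card : ℝ) * L else 0) + 4 * C0 * (ss Z : ℝ) ^ 2 := by
    intro q hq
    rw [mem_product] at hq
    by_cases hc : q.1.1 = q.2.1 ∨ q.1.2 = q.2.2
    · rw [if_pos hc]
      have : (((N.filter fun y => ¬ good q.1 q.2 y).card : ℕ) : ℝ) ≤ N.card := by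
        exact_mod_cast card_filter_le _ _
      have h2 : (0 : ℝ) ≤ 4 * C0 * (ss Z : ℝ) ^ 2 := by positivity
      nlinarith
    · rw [if_neg hc, zero_add]
      push Not at hc
      refine conic_reg h (z := z) ((filter_subset _ _).trans hNZ)
        (fun w hw => hNd w (mem_filter.1 hw).1) ?_ ?_
      · refine collinear_filter hc.1 fun x hx => ?_
        rw [mem_coe, mem_image] at hx
        obtain ⟨y, hy, rfl⟩ := hx
        have := (mem_filter.1 hy).2
        unfold good at this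
        push Not at this
        exact this.1
      · refine collinear_filter hc.2 fun x hx => ?_
        rw [mem_coe, mem_image] at hx
        obtain ⟨y, hy, rfl⟩ := hx
        have := (mem_filter.1 hy).2
        unfold good at this
        push Not at this
        exact this.2
  have e2 : ((N ×ˢ N).filter fun q => q.1.1 = q.2.1 ∨ q.1.2 = q.2.2).card ≤ N.card * ss Z := by
    rw [card_filter, sum_product, ← smul_eq_mul, ← sum_const]
    refine sum_le_sum fun y hy => ?_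
    rw [← card_filter]
    rw [filter_or]
    refine (card_union_le _ _).trans ?_
    have h1 : (N.filter fun w => y.1 = w.1).card ≤ (Z.image Prod.snd).card := by
      refine card_le_card_of_injOn Prod.snd (fun w hw => ?_) ?_
      · rw [mem_coe, mem_filter] at hw
        exact mem_image_of_mem _ (hNZ hw.1)
      · intro w hw w' hw' e
        rw [mem_coe, mem_filter] at hw hw'
        exact Prod.ext (hw.2.symm.trans hw'.2) e
    have h2 : (N.filter fun w => y.2 = w.2).card ≤ (Z.image Prod.fst).card := by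
      refine card_le_card_of_injOn Prod.fst (fun w hw => ?_) ?_
      · rw [mem_coe, mem_filter] at hw
        exact mem_image_of_mem _ (hNZ hw.1)
      · intro w hw w' hw' e
        rw [mem_coe, mem_filter] at hw hw'
        exact Prod.ext e (hw.2.symm.trans hw'.2)
    unfold ss
    rw [mul_comm] at *
    refine (add_le_add h1 h2).trans (le_of_eq ?_)
    rw [add_comm]
    congr!
  have e3 : (∑ q ∈ N ×ˢ N, if q.1.1 = q.2.1 ∨ q.1.2 = q.2.2 then (N.card : ℝ) * L else 0) ≤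
      (N.card : ℝ) ^ 2 * (ss Z * L) := by
    rw [← sum_filter, sum_const, nsmul_eq_mul]
    have : (((N ×ˢ N).filter fun q => q.1.1 = q.2.1 ∨ q.1.2 = q.2.2).card : ℝ) ≤
        N.card * ss Z := by exact_mod_cast e2
    calc _ ≤ ((N.card : ℝ) * ss Z) * (N.card * L) := mul_le_mul_of_nonneg_right this (by positivity)
      _ = _ := by ring
  push_cast
  rw [sum_mul]
  refine (sum_le_sum e1).trans ?_
  rw [sum_add_distrib, sum_const, nsmul_eq_mul, card_product]
  push_cast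
  nlinarith [e3]

/-- (1.5) in the explicit form -/
theorem h15_aux (h : Reg Nul C0 B Z L) (hB : 1 ≤ B) :
    L ^ 3 ≤ (2 + C0 ^ 2 + 4 * C0 ^ 3) * ss Z * (Z.card : ℝ) ^ 2 := by
  classical
  have hL := h.L_pos
  have hC0 := one_le_C0 h
  have hZ := card_pos' h
  have hLZ := L_le_card h
  have hsL := ss_le_L h hB
  have hs : (0 : ℝ) ≤ ss Z := Nat.cast_nonneg _
  have e1 : (Z.card : ℝ) * L ^ 3 ≤ ∑ z ∈ Z, (deg Nul Z z : ℝ) ^ 3 := by
    rw [← nsmul_eq_mul, ← sum_const]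
    refine sum_le_sum fun z hz => ?_
    exact pow_le_pow_left₀ hL.le (h.deg_ge z hz) 3
  have e2 : ∀ z ∈ Z, (deg Nul Z z : ℝ) ^ 3 =
      ((∑ q ∈ nb Nul Z z ×ˢ nb Nul Z z,
        ((nb Nul Z z).filter fun y => good q.1 q.2 y).card : ℕ) : ℝ) +
      ((∑ q ∈ nb Nul Z z ×ˢ nb Nul Z z,
        ((nb Nul Z z).filter fun y => ¬ good q.1 q.2 y).card : ℕ) : ℝ) := by
    intro z hz
    rw [← Nat.cast_add, ← sum_add_distrib]
    have : ∀ q ∈ nb Nul Z z ×ˢ nb Nul Z z,
        ((nb Nul Z z).filter fun y => good q.1 q.2 y).card +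
        ((nb Nul Z z).filter fun y => ¬ good q.1 q.2 y).card = deg Nul Z z := by
      intro q hq
      rw [card_filter_add_card_filter_not]
      rfl
    rw [sum_congr rfl this, sum_const, card_product, smul_eq_mul]
    have hd : (nb Nul Z z).card = deg Nul Z z := rfl
    rw [hd]
    push_cast
    ring
  have e3 : ((∑ z ∈ Z, ∑ q ∈ nb Nul Z z ×ˢ nb Nul Z z,
      ((nb Nul Z z).filter fun y => good q.1 q.2 y).card : ℕ) : ℝ) ≤
      2 * ss Z * (Z.card : ℝ) ^ 3 := by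
    exact_mod_cast good_sum Z
  have e4 : ∀ z ∈ Z, ((∑ q ∈ nb Nul Z z ×ˢ nb Nul Z z,
      ((nb Nul Z z).filter fun y => ¬ good q.1 q.2 y).card : ℕ) : ℝ) * L ≤
      C0 ^ 2 * L ^ 2 * (ss Z * L + 4 * C0 * (ss Z : ℝ) ^ 2) := by
    intro z hz
    refine (bad_sum h z).trans ?_
    refine mul_le_mul_of_nonneg_right ?_ (by positivity)
    rw [← mul_pow]
    exact pow_le_pow_left₀ (Nat.cast_nonneg _) (h.deg_le z hz) 2
  have e5 : (Z.card : ℝ) * L ^ 3 * L ≤ 2 * ss Z * (Z.card : ℝ) ^ 3 * L +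
      Z.card * (C0 ^ 2 * L ^ 2 * (ss Z * L + 4 * C0 * (ss Z : ℝ) ^ 2)) := by
    calc (Z.card : ℝ) * L ^ 3 * L ≤ (∑ z ∈ Z, (deg Nul Z z : ℝ) ^ 3) * L :=
          mul_le_mul_of_nonneg_right e1 hL.le
      _ = ((∑ z ∈ Z, ∑ q ∈ nb Nul Z z ×ˢ nb Nul Z z,
            ((nb Nul Z z).filter fun y => good q.1 q.2 y).card : ℕ) : ℝ) * L +
          ∑ z ∈ Z, ((∑ q ∈ nb Nul Z z ×ˢ nb Nul Z z,
            ((nb Nul Z z).filter fun y => ¬ good q.1 q.2 y).card : ℕ) : ℝ) * L := by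
          rw [sum_congr rfl e2, sum_add_distrib, add_mul]
          congr 1
          · push_cast
            rfl
          · rw [sum_mul]
      _ ≤ _ := by
          refine add_le_add (mul_le_mul_of_nonneg_right e3 hL.le) ?_
          rw [← nsmul_eq_mul, ← sum_const]
          exact sum_le_sum e4
  -- divide by |Z| L
  have e6 : (Z.card * L) * L ^ 3 ≤ (Z.card * L) * (2 * ss Z * (Z.card : ℝ) ^ 2 +
      C0 ^ 2 * (ss Z * L ^ 2) + 4 * C0 ^ 3 * ((ss Z : ℝ) ^ 2 * L)) := by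
    calc (Z.card * L) * L ^ 3 = (Z.card : ℝ) * L ^ 3 * L := by ring
      _ ≤ _ := e5
      _ = _ := by ring
  have e7 := le_of_mul_le_mul_left e6 (by positivity)
  have e8 : (ss Z : ℝ) * L ^ 2 ≤ ss Z * (Z.card : ℝ) ^ 2 :=
    mul_le_mul_of_nonneg_left (pow_le_pow_left₀ hL.le hLZ 2) hs
  have e9 : (ss Z : ℝ) ^ 2 * L ≤ ss Z * (Z.card : ℝ) ^ 2 := by
    calc (ss Z : ℝ) ^ 2 * L = ss Z * (ss Z * L) := by ring
      _ ≤ ss Z * (L * L) := mul_le_mul_of_nonneg_left (mul_le_mul_of_nonneg_right hsL hL.le) hs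
      _ = ss Z * L ^ 2 := by ring
      _ ≤ _ := e8
  calc L ^ 3 ≤ _ := e7
    _ ≤ 2 * ss Z * (Z.card : ℝ) ^ 2 + C0 ^ 2 * (ss Z * (Z.card : ℝ) ^ 2) +
        4 * C0 ^ 3 * (ss Z * (Z.card : ℝ) ^ 2) := by
        have := mul_le_mul_of_nonneg_left e8 (by positivity : (0 : ℝ) ≤ C0 ^ 2)
        have := mul_le_mul_of_nonneg_left e9 (by positivity : (0 : ℝ) ≤ 4 * C0 ^ 3)
        linarith
    _ = _ := by ring

end reg

/-- (1.5) -/
theorem h15 : ∀ C0 : ℝ, ∃ K : ℝ, 1 ≤ K ∧ ∀ (B : ℝ) (Z : Finset PP) (L : ℝ), 1 ≤ B →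
    Reg Nul C0 B Z L → L ^ 3 ≤ K * ss Z * (Z.card : ℝ) ^ 2 := by
  intro C0
  by_cases hC0 : 1 ≤ C0
  · refine ⟨2 + C0 ^ 2 + 4 * C0 ^ 3, ?_, fun B Z L hB h => h15_aux h hB⟩
    have : 0 ≤ C0 ^ 2 + 4 * C0 ^ 3 := by positivity
    linarith
  · exact ⟨1, le_rfl, fun B Z L hB h => absurd (one_le_C0 h) hC0⟩

/-- `t = |Z|/L` is large -/
theorem t_large : ∀ C0 M : ℝ, ∃ B0 : ℝ, ∀ (B : ℝ) (Z : Finset PP) (L : ℝ), B0 ≤ B →
    Reg Nul C0 B Z L → M * L ≤ Z.card := by
  intro C0 M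
  obtain ⟨K, hK1, hK⟩ := h15 C0
  refine ⟨max 1 (K ^ 2 * |M| ^ 3), fun B Z L hB h => ?_⟩
  have hB1 : 1 ≤ B := (le_max_left _ _).trans hB
  have hB2 : K ^ 2 * |M| ^ 3 ≤ B := (le_max_right _ _).trans hB
  have hL := h.L_pos
  have hZ := card_pos' h
  have hs : (0 : ℝ) < ss Z := by exact_mod_cast ss_pos h.ne
  have h1 := hK B Z L hB1 h
  have h2 := h.big
  -- L^6 ≤ K² s² Z⁴,  B Z s² ≤ L³  ⟹  B L^6 ≤ K² Z³ L³
  have h3 : L ^ 6 ≤ K ^ 2 * (ss Z : ℝ) ^ 2 * (Z.card : ℝ) ^ 4 := by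
    calc L ^ 6 = (L ^ 3) ^ 2 := by ring
      _ ≤ (K * ss Z * (Z.card : ℝ) ^ 2) ^ 2 := pow_le_pow_left₀ (by positivity) h1 2
      _ = _ := by ring
  have h4 : B * L ^ 6 ≤ K ^ 2 * (Z.card : ℝ) ^ 3 * L ^ 3 := by
    calc B * L ^ 6 ≤ B * (K ^ 2 * (ss Z : ℝ) ^ 2 * (Z.card : ℝ) ^ 4) :=
          mul_le_mul_of_nonneg_left h3 (by linarith)
      _ = K ^ 2 * (Z.card : ℝ) ^ 3 * (B * Z.card * (ss Z : ℝ) ^ 2) := by ring
      _ ≤ K ^ 2 * (Z.card : ℝ) ^ 3 * L ^ 3 := mul_le_mul_of_nonneg_left h2 (by positivity)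
  have h5 : L ^ 3 * (B * L ^ 3) ≤ L ^ 3 * (K ^ 2 * (Z.card : ℝ) ^ 3) := by
    calc L ^ 3 * (B * L ^ 3) = B * L ^ 6 := by ring
      _ ≤ _ := h4
      _ = _ := by ring
  have h6 : B * L ^ 3 ≤ K ^ 2 * (Z.card : ℝ) ^ 3 := le_of_mul_le_mul_left h5 (by positivity)
  have h7 : K ^ 2 * |M| ^ 3 * L ^ 3 ≤ K ^ 2 * (Z.card : ℝ) ^ 3 :=
    (mul_le_mul_of_nonneg_right hB2 (by positivity)).trans h6
  have h8 : K ^ 2 * (|M| * L) ^ 3 ≤ K ^ 2 * (Z.card : ℝ) ^ 3 := by
    calc K ^ 2 * (|M| * L) ^ 3 = K ^ 2 * |M| ^ 3 * L ^ 3 := by ring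
      _ ≤ _ := h7
  have h9 : (|M| * L) ^ 3 ≤ (Z.card : ℝ) ^ 3 := le_of_mul_le_mul_left h8 (by positivity)
  have h10 : |M| * L ≤ Z.card := le_of_pow_le_pow_left₀ (by norm_num) hZ.le h9
  exact (mul_le_mul_of_nonneg_right (le_abs_self M) hL.le).trans h10

end Crest.Agent.R065.D3cons275
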