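import Crest.Agent.R065.Prime_669
import Crest.Agent.R065.Pins_348
import Crest.Agent.R065.D3defs_235

/-!
# Row 65, d = 3: O1 for primes (r65_d3, section 4)

`Z` a finite set of pairs of points of Euclidean 3-space, every element with at least `L` null
partners.  Prime ideals `P` of dimension 0, 1, 2 contain few elements of `Z`, with the only
exception of curves contained in a product of two lines.
-/

set_option autoImplicit false

open MvPolynomial Module Finset

namespace Crest.Agent.R065.D3d477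

open Crest.Agent.R065.HF669 Crest.Agent.R065.Base348 Crest.Agent.R065.Top348
  Crest.Agent.R065.Pins348 Crest.Agent.R065.D3

/-- Euclidean 3-space -/
abbrev E3 : Type := EuclideanSpace ℝ (Fin 3)

/-! ### geometry -/

open scoped RealInnerProductSpace in
lemma inner_of_dist {a b c : E3} (h : dist a b = dist a c) :
    2 * ⟪a - b, c - b⟫ = ⟪c - b, c - b⟫ := by
  rw [dist_eq_norm, dist_eq_norm] at h
  have h1 : a - c = (a - b) - (c - b) := by abel
  have h2 : ‖a - b‖ ^ 2 = ‖(a - b) - (c - b)‖ ^ 2 := by rw [h, h1]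
  rw [norm_sub_sq_real (a - b) (c - b)] at h2
  rw [real_inner_self_eq_norm_sq]
  linarith

open scoped RealInnerProductSpace in
/-- three non collinear points and the distances to them determine a point up to two choices -/
lemma two_of_three {a0 a1 a2 : E3} (h : ¬ Collinear ℝ {a0, a1, a2}) {b c d : E3}
    (hc0 : dist a0 b = dist a0 c) (hc1 : dist a1 b = dist a1 c) (hc2 : dist a2 b = dist a2 c)
    (hd0 : dist a0 b = dist a0 d) (hd1 : dist a1 b = dist a1 d) (hd2 : dist a2 b = dist a2 d) :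
    b = c ∨ b = d ∨ c = d := by
  by_cases hbc : b = c
  · exact Or.inl hbc
  by_cases hbd : b = d
  · exact Or.inr (Or.inl hbd)
  right; right
  set u := c - b with hu
  set v := d - b with hv
  have hu0 : u ≠ 0 := sub_ne_zero.2 (Ne.symm hbc)
  set p := a1 - a0 with hp
  set q := a2 - a0 with hq
  have c0 := inner_of_dist hc0
  have c1 := inner_of_dist hc1
  have c2 := inner_of_dist hc2
  have d0 := inner_of_dist hd0
  have d1 := inner_of_dist hd1
  have d2 := inner_of_dist hd2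
  rw [← hu] at c0 c1 c2
  rw [← hv] at d0 d1 d2
  have hpu : ⟪p, u⟫ = 0 := by
    have : p = (a1 - b) - (a0 - b) := by rw [hp]; abel
    rw [this, inner_sub_left]; linarith
  have hqu : ⟪q, u⟫ = 0 := by
    have : q = (a2 - b) - (a0 - b) := by rw [hq]; abel
    rw [this, inner_sub_left]; linarith
  have hpv : ⟪p, v⟫ = 0 := by
    have : p = (a1 - b) - (a0 - b) := by rw [hp]; abel
    rw [this, inner_sub_left]; linarith
  have hqv : ⟪q, v⟫ = 0 := by
    have : q = (a2 - b) - (a0 - b) := by rw [hq]; abel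
    rw [this, inner_sub_left]; linarith
  -- `p, q` are independent
  have hli : LinearIndependent ℝ ![p, q] := by
    have h1 := affineIndependent_iff_not_collinear_set.2 h
    rw [affineIndependent_iff_linearIndependent_vsub ℝ _ (0 : Fin 3)] at h1
    have h2 := h1.comp (fun i : Fin 2 => (⟨i.succ, by simp⟩ : {x : Fin 3 // x ≠ 0})) (by
      intro i j hij
      have := congrArg Subtype.val hij
      exact Fin.succ_injective _ this)
    have h3 : ![p, q] = (fun i : {x : Fin 3 // x ≠ 0} => (![a0, a1, a2] ↑i -ᵥ ![a0, a1, a2] 0 : E3)) ∘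
        (fun i : Fin 2 => (⟨i.succ, by simp⟩ : {x : Fin 3 // x ≠ 0})) := by
      funext i
      fin_cases i <;> simp [hp, hq]
    rw [h3]
    exact h2
  set K : Submodule ℝ E3 := Submodule.span ℝ (Set.range ![p, q]) with hK
  have hKr : finrank ℝ K = 2 := by
    rw [hK, finrank_span_eq_card hli]; simp
  have hKo : finrank ℝ Kᗮ = 1 := by
    have := Submodule.finrank_add_finrank_orthogonal K
    rw [hKr] at this
    have h3 : finrank ℝ E3 = 3 := by simp
    omega
  have memK : ∀ x : E3, ⟪p, x⟫ = 0 → ⟪q, x⟫ = 0 → x ∈ Kᗮ := by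
    intro x h1 h2
    rw [Submodule.mem_orthogonal]
    intro y hy
    rw [hK] at hy
    refine Submodule.span_induction (p := fun y _ => ⟪y, x⟫ = 0) ?_ ?_ ?_ ?_ hy
    · rintro _ ⟨i, rfl⟩
      fin_cases i
      · simpa using h1
      · simpa using h2
    · simp
    · intro y z _ _ hy hz; rw [inner_add_left, hy, hz, add_zero]
    · intro r y _ hy; rw [real_inner_smul_left, hy, mul_zero]
  have hne : (⟨u, memK u hpu hqu⟩ : Kᗮ) ≠ 0 := fun h0 => hu0 (congrArg Subtype.val h0)
  obtain ⟨γ, hγ⟩ := (finrank_eq_one_iff_of_nonzero' _ hne).1 hKo ⟨v, memK v hpv hqv⟩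
  have hγ' : γ • u = v := congrArg Subtype.val hγ
  have huu : 0 < ⟪u, u⟫ := real_inner_self_pos.2 hu0
  have e1 : γ * (1 - γ) = 0 := by
    rw [← hγ', inner_smul_right, inner_smul_right, real_inner_smul_left] at d0
    have : γ * (1 - γ) * ⟪u, u⟫ = 0 := by linear_combination d0 - γ * c0
    rcases mul_eq_zero.1 this with h' | h'
    · exact h'
    · exact absurd h' huu.ne'
  rcases mul_eq_zero.1 e1 with h' | h'
  · exfalso
    rw [h', zero_smul] at hγ'
    exact hbd (sub_eq_zero.1 hγ'.symm).symm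
  · have : γ = 1 := by linarith
    rw [this, one_smul] at hγ'
    exact sub_left_injective hγ'

/-- a set of points without non collinear triples is collinear -/
lemma collinear_of_triples {S : Set E3}
    (h : ∀ a ∈ S, ∀ b ∈ S, ∀ c ∈ S, Collinear ℝ {a, b, c}) : Collinear ℝ S := by
  rcases S.eq_empty_or_nonempty with rfl | ⟨p, hp⟩
  · exact collinear_empty ℝ E3
  by_cases hall : ∀ x ∈ S, x = p
  · exact (collinear_singleton ℝ p).subset fun x hx => hall x hx
  push Not at hall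
  obtain ⟨r, hr, hrp⟩ := hall
  rw [collinear_iff_of_mem hp]
  refine ⟨r - p, fun x hx => ?_⟩
  have h1 := h p hp r hr x hx
  rw [collinear_iff_of_mem (Set.mem_insert p _)] at h1
  obtain ⟨v, hv⟩ := h1
  obtain ⟨s, hs⟩ := hv r (by simp)
  obtain ⟨t, ht⟩ := hv x (by simp)
  have hs0 : s ≠ 0 := by
    rintro rfl
    simp at hs
    exact hrp hs
  refine ⟨t / s, ?_⟩
  rw [ht, hs]
  simp only [vadd_eq_add, add_sub_cancel_right, smul_smul]
  rw [div_mul_cancel₀ _ hs0]

/-- a collinear set on a sphere has at most two points -/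
lemma card_le_two {A : Finset E3} (hA : Collinear ℝ (A : Set E3)) {e : E3} {r : ℝ}
    (hr : ∀ a ∈ A, dist a e = r) : A.card ≤ 2 := by
  classical
  by_contra hcon
  push Not at hcon
  obtain ⟨a, ha, b, hb, c, hc, hab, hac, hbc⟩ := Finset.two_lt_card.1 hcon
  have hco : EuclideanGeometry.Cospherical (A : Set E3) := ⟨e, r, fun p hp => hr p hp⟩
  have h1 := hco.affineIndependent_of_mem_of_ne (p₁ := a) (p₂ := b) (p₃ := c) ha hb hc hab hac hbc
  rw [affineIndependent_iff_not_collinear_set] at h1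
  exact h1 (hA.subset (by
    intro x hx
    simp only [Set.mem_insert_iff, Set.mem_singleton_iff] at hx
    rcases hx with rfl | rfl | rfl
    · exact ha
    · exact hb
    · exact hc))

/-! ### finite sets of zeros of primes of dimension 0 and of cuts of primes of dimension 1 -/

section alg

variable {k : Type*} [Field k] {σ : Type*}

/-- a finite set is separated -/
lemma sep_finset (A : Finset (σ → k)) : Sep (A : Set (σ → k)) A.card := by
  classical
  apply sep_of_ne_zero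
  intro a ha
  have ha' : a ∈ A := ha
  have hex : ∀ b ∈ A.erase a, ∃ f : MvPolynomial σ k, f ∈ W k σ 1 ∧ eval a f ≠ 0 ∧
      eval b f = 0 := by
    intro b hb
    obtain ⟨i, hi⟩ : ∃ i, b i ≠ a i := by
      by_contra hcon
      push Not at hcon
      exact (Finset.mem_erase.1 hb).1 (funext hcon)
    refine ⟨X i - C (b i), Submodule.sub_mem _ (X_mem_W i le_rfl) (C_mem_W _ _), ?_, ?_⟩
    · simp only [map_sub, eval_X, eval_C]
      exact sub_ne_zero.2 (Ne.symm hi)
    · simp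
  choose! F h1 h2 h3 using hex
  refine ⟨∏ b ∈ A.erase a, F b, ?_, ?_, ?_⟩
  · have := prod_mem_W (A.erase a) F (fun _ => 1) h1
    rw [Finset.sum_const, smul_eq_mul, mul_one] at this
    exact (mem_W.1 this).trans (Finset.card_le_card (Finset.erase_subset _ _))
  · rw [map_prod, Finset.prod_ne_zero_iff]
    exact h2
  · intro b hb hba
    rw [map_prod]
    exact Finset.prod_eq_zero (Finset.mem_erase.2 ⟨hba, hb⟩)
      (h3 b (Finset.mem_erase.2 ⟨hba, hb⟩))

variable [Infinite k] [Fintype σ]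

/-- points on a prime of dimension `0` -/
lemma card_dim_zero {P : Ideal (MvPolynomial σ k)} [P.IsPrime] (hP : dimP P = 0)
    {A : Finset (σ → k)} (hA : (A : Set (σ → k)) ⊆ ZV P) : A.card ≤ degP P := by
  have h1 := card_le_HF hA (sep_finset A)
  have h2 := HF_le_degP P A.card
  rw [hP] at h2
  simpa using h1.trans h2

/-- zeros of a polynomial of degree `≤ e` on a curve -/
lemma card_cut {P : Ideal (MvPolynomial σ k)} [hPp : P.IsPrime] (hP : dimP P = 1)
    {g : MvPolynomial σ k} (hg : g ∉ P) {e : ℕ} (he : g.totalDegree ≤ e)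
    {A : Finset (σ → k)} (hA : (A : Set (σ → k)) ⊆ ZV P) (hA0 : ∀ a ∈ A, eval a g = 0) :
    A.card ≤ e * degP P := by
  set J : Ideal (MvPolynomial σ k) := P ⊔ Ideal.span {g} with hJ
  have hAJ : (A : Set (σ → k)) ⊆ ZV J := fun a ha => mem_ZV_sup (hA ha) (hA0 a ha)
  have hm : ∀ m, A.card ≤ m → A.card ≤ HF J m := fun m hm =>
    card_le_HF hAJ ((sep_finset A).mono hm)
  have hgJ : g ∈ J := Submodule.mem_sup_right (Ideal.mem_span_singleton_self g)
  by_contra hcon
  push Not at hcon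
  set m := A.card with hmA
  set δ := degP P
  set s := δ * (m + 1) + 1 with hs
  have h1 := sum_HF_cut (le_sup_left : P ≤ J) hgJ he
    (fun u hu => (hPp.mem_or_mem hu).resolve_left hg) m s
  have h2 : s * A.card ≤ ∑ i ∈ Finset.range s, HF J (m + (i + 1) * e) := by
    rw [← smul_eq_mul, ← Finset.card_range s, ← Finset.sum_const, Finset.card_range]
    exact Finset.sum_le_sum fun i _ => hm _ (by omega)
  have h3 := HF_le_degP P (m + s * e)
  rw [hP, Nat.choose_one_right] at h3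
  have h4 : s * A.card ≤ δ * (m + s * e + 1) :=
    h2.trans ((Nat.le_add_right _ _).trans (h1.trans h3))
  have h5 : s * (e * δ + 1) ≤ s * A.card := Nat.mul_le_mul_left _ hcon
  have h6 : s * (e * δ + 1) ≤ δ * (m + s * e + 1) := h5.trans h4
  have h7 : s * (e * δ + 1) = δ * (s * e) + s := by ring
  have h8 : δ * (m + s * e + 1) = δ * (s * e) + δ * (m + 1) := by ring
  omega

end alg

/-! ### the elements of `Z` on a prime and their common null partners -/

open scoped Classical in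
/-- the elements of `Z` on the zero set of `P` -/
noncomputable def ZP (Z : Finset PP) (P : Ideal (MvPolynomial (Fin 3 ⊕ Fin 3) ℂ)) : Finset PP :=
  Z.filter fun z => toFn (zc z.1 z.2) ∈ ZV P

lemma mem_ZP {Z : Finset PP} {P : Ideal (MvPolynomial (Fin 3 ⊕ Fin 3) ℂ)} {z : PP} :
    z ∈ ZP Z P ↔ z ∈ Z ∧ toFn (zc z.1 z.2) ∈ ZV P := by
  classical
  simp [ZP]

lemma ZP_subset (Z : Finset PP) (P : Ideal (MvPolynomial (Fin 3 ⊕ Fin 3) ℂ)) : ZP Z P ⊆ Z :=
  fun _ hz => (mem_ZP.1 hz).1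

/-- the quadratic polynomial cutting out the null cone at `w` -/
noncomputable def gw (w : PP) : MvPolynomial (Fin 3 ⊕ Fin 3) ℂ := QP 1 w.2 - QP (-1) w.1

lemma gw_deg (w : PP) : (gw w).totalDegree ≤ 2 :=
  mem_W.1 (Submodule.sub_mem _ (QP_mem_W _ _) (QP_mem_W _ _))

lemma eval_gw (z w : PP) : eval (toFn (zc z.1 z.2)) (gw w) = 0 ↔ dist z.1 w.1 = dist z.2 w.2 := by
  unfold gw
  rw [map_sub, eval_QP_pos, eval_QP_neg, sub_eq_zero]
  constructor
  · intro h
    have h' : dist w.2 z.2 ^ 2 = dist w.1 z.1 ^ 2 := by exact_mod_cast h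
    rw [dist_comm z.1, dist_comm z.2]
    exact ((sq_eq_sq₀ dist_nonneg dist_nonneg).1 h').symm
  · intro h
    rw [dist_comm w.2, dist_comm w.1, h]

open scoped Classical in
/-- elements of `Z` null to the whole zero set of `P` -/
noncomputable def Zperp (Z : Finset PP) (P : Ideal (MvPolynomial (Fin 3 ⊕ Fin 3) ℂ)) :
    Finset PP := Z.filter fun w => gw w ∈ P

lemma mem_Zperp {Z : Finset PP} {P : Ideal (MvPolynomial (Fin 3 ⊕ Fin 3) ℂ)} {w : PP} :
    w ∈ Zperp Z P ↔ w ∈ Z ∧ gw w ∈ P := by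
  classical
  simp [Zperp]

lemma dist_of_perp {Z : Finset PP} {P : Ideal (MvPolynomial (Fin 3 ⊕ Fin 3) ℂ)} {z w : PP}
    (hw : w ∈ Zperp Z P) (hz : z ∈ ZP Z P) : dist z.1 w.1 = dist z.2 w.2 :=
  (eval_gw z w).1 ((mem_ZP.1 hz).2 _ (mem_Zperp.1 hw).2)

open scoped Classical in
/-- the basic double count -/
lemma count {Z : Finset PP} {L : ℝ} (hdeg : ∀ z ∈ Z, L ≤ deg Nul Z z)
    (P : Ideal (MvPolynomial (Fin 3 ⊕ Fin 3) ℂ)) {K : ℝ} (hK0 : 0 ≤ K)
    (hK : ∀ w ∈ Z, gw w ∉ P →
      (((ZP Z P).filter fun z => eval (toFn (zc z.1 z.2)) (gw w) = 0).card : ℝ) ≤ K) :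
    L * (ZP Z P).card ≤ Z.card * K + (Zperp Z P).card * (ZP Z P).card := by
  set N := ZP Z P with hN
  have h1 : L * N.card ≤ ∑ z ∈ N, (deg Nul Z z : ℝ) := by
    calc L * N.card = ∑ _z ∈ N, L := by rw [sum_const, nsmul_eq_mul, mul_comm]
      _ ≤ _ := sum_le_sum fun z hz => hdeg z (ZP_subset _ _ hz)
  have h2 : (∑ z ∈ N, deg Nul Z z : ℕ) = ∑ w ∈ Z, deg Nul N w := EE_comm nul_symm N Z
  have h3 : (∑ z ∈ N, (deg Nul Z z : ℝ)) = ∑ w ∈ Z, (deg Nul N w : ℝ) := by exact_mod_cast h2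
  rw [h3] at h1
  refine h1.trans ?_
  have h4 : ∀ w ∈ Z, (deg Nul N w : ℝ) ≤ K + if gw w ∈ P then (N.card : ℝ) else 0 := by
    intro w hw
    by_cases hP : gw w ∈ P
    · rw [if_pos hP]
      have : (deg Nul N w : ℝ) ≤ N.card := by exact_mod_cast deg_le_card N w
      linarith
    · rw [if_neg hP, add_zero]
      refine le_trans ?_ (hK w hw hP)
      have : nb Nul N w ⊆ N.filter fun z => eval (toFn (zc z.1 z.2)) (gw w) = 0 := by
        intro z hz
        rw [mem_nb] at hz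
        rw [mem_filter]
        exact ⟨hz.1, (eval_gw z w).2 hz.2.symm.1⟩
      exact_mod_cast card_le_card this
  refine (sum_le_sum h4).trans ?_
  rw [sum_add_distrib, sum_const, nsmul_eq_mul, ← sum_filter, sum_const, nsmul_eq_mul]
  exact le_rfl

lemma card_image_fst_le [DecidableEq E3] (Z : Finset PP) : (Z.image Prod.fst).card ≤ ss Z := by
  unfold ss
  convert Nat.le_add_right _ _

lemma card_image_snd_le [DecidableEq E3] (Z : Finset PP) : (Z.image Prod.snd).card ≤ ss Z := by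
  unfold ss
  convert Nat.le_add_left _ _

/-- points with non collinear first coordinates have few common null partners -/
lemma card_perp_fst {Z : Finset PP} {P : Ideal (MvPolynomial (Fin 3 ⊕ Fin 3) ℂ)}
    (h : ¬ Collinear ℝ (Prod.fst '' (ZP Z P : Set PP))) : (Zperp Z P).card ≤ 2 * ss Z := by
  classical
  have h1 : ∃ a0 ∈ Prod.fst '' (ZP Z P : Set PP), ∃ a1 ∈ Prod.fst '' (ZP Z P : Set PP),
      ∃ a2 ∈ Prod.fst '' (ZP Z P : Set PP), ¬ Collinear ℝ {a0, a1, a2} := by
    by_contra hcon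
    push Not at hcon
    exact h (collinear_of_triples hcon)
  obtain ⟨a0, ⟨z0, hz0, rfl⟩, a1, ⟨z1, hz1, rfl⟩, a2, ⟨z2, hz2, rfl⟩, hnc⟩ := h1
  have h2 : (Zperp Z P).card ≤ 2 * ((Zperp Z P).image Prod.snd).card := by
    refine card_le_mul_card_image _ 2 ?_
    intro e he
    by_contra hcon
    push Not at hcon
    obtain ⟨b, hb, c, hc, d, hd, hbc, hbd, hcd⟩ := Finset.two_lt_card.1 hcon
    rw [mem_filter] at hb hc hd
    have key : ∀ z ∈ ZP Z P, ∀ w ∈ Zperp Z P, w.2 = e → dist z.1 w.1 = dist z.2 e := by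
      intro z hz w hw hwe
      rw [← hwe]; exact dist_of_perp hw hz
    have := two_of_three hnc (b := b.1) (c := c.1) (d := d.1)
      ((key z0 hz0 b hb.1 hb.2).trans (key z0 hz0 c hc.1 hc.2).symm)
      ((key z1 hz1 b hb.1 hb.2).trans (key z1 hz1 c hc.1 hc.2).symm)
      ((key z2 hz2 b hb.1 hb.2).trans (key z2 hz2 c hc.1 hc.2).symm)
      ((key z0 hz0 b hb.1 hb.2).trans (key z0 hz0 d hd.1 hd.2).symm)
      ((key z1 hz1 b hb.1 hb.2).trans (key z1 hz1 d hd.1 hd.2).symm)
      ((key z2 hz2 b hb.1 hb.2).trans (key z2 hz2 d hd.1 hd.2).symm)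
    rcases this with h' | h' | h'
    · exact hbc (Prod.ext h' (hb.2.trans hc.2.symm))
    · exact hbd (Prod.ext h' (hb.2.trans hd.2.symm))
    · exact hcd (Prod.ext h' (hc.2.trans hd.2.symm))
  refine h2.trans (Nat.mul_le_mul_left 2 ?_)
  refine (card_le_card (image_subset_image (filter_subset _ _))).trans ?_
  exact card_image_snd_le Z

/-- points with non collinear second coordinates have few common null partners -/
lemma card_perp_snd {Z : Finset PP} {P : Ideal (MvPolynomial (Fin 3 ⊕ Fin 3) ℂ)}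
    (h : ¬ Collinear ℝ (Prod.snd '' (ZP Z P : Set PP))) : (Zperp Z P).card ≤ 2 * ss Z := by
  classical
  have h1 : ∃ a0 ∈ Prod.snd '' (ZP Z P : Set PP), ∃ a1 ∈ Prod.snd '' (ZP Z P : Set PP),
      ∃ a2 ∈ Prod.snd '' (ZP Z P : Set PP), ¬ Collinear ℝ {a0, a1, a2} := by
    by_contra hcon
    push Not at hcon
    exact h (collinear_of_triples hcon)
  obtain ⟨a0, ⟨z0, hz0, rfl⟩, a1, ⟨z1, hz1, rfl⟩, a2, ⟨z2, hz2, rfl⟩, hnc⟩ := h1
  have h2 : (Zperp Z P).card ≤ 2 * ((Zperp Z P).image Prod.fst).card := by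
    refine card_le_mul_card_image _ 2 ?_
    intro e he
    by_contra hcon
    push Not at hcon
    obtain ⟨b, hb, c, hc, d, hd, hbc, hbd, hcd⟩ := Finset.two_lt_card.1 hcon
    rw [mem_filter] at hb hc hd
    have key : ∀ z ∈ ZP Z P, ∀ w ∈ Zperp Z P, w.1 = e → dist z.2 w.2 = dist z.1 e := by
      intro z hz w hw hwe
      rw [← hwe]; exact (dist_of_perp hw hz).symm
    have := two_of_three hnc (b := b.2) (c := c.2) (d := d.2)
      ((key z0 hz0 b hb.1 hb.2).trans (key z0 hz0 c hc.1 hc.2).symm)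
      ((key z1 hz1 b hb.1 hb.2).trans (key z1 hz1 c hc.1 hc.2).symm)
      ((key z2 hz2 b hb.1 hb.2).trans (key z2 hz2 c hc.1 hc.2).symm)
      ((key z0 hz0 b hb.1 hb.2).trans (key z0 hz0 d hd.1 hd.2).symm)
      ((key z1 hz1 b hb.1 hb.2).trans (key z1 hz1 d hd.1 hd.2).symm)
      ((key z2 hz2 b hb.1 hb.2).trans (key z2 hz2 d hd.1 hd.2).symm)
    rcases this with h' | h' | h'
    · exact hbc (Prod.ext (hb.2.trans hc.2.symm) h')
    · exact hbd (Prod.ext (hb.2.trans hd.2.symm) h')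
    · exact hcd (Prod.ext (hc.2.trans hd.2.symm) h')
  refine h2.trans (Nat.mul_le_mul_left 2 ?_)
  refine (card_le_card (image_subset_image (filter_subset _ _))).trans ?_
  exact card_image_fst_le Z

/-- a set of pairs null to one pair, with collinear second coordinates -/
lemma card_conic [DecidableEq E3] {A : Finset PP} {w : PP}
    (h1 : ∀ z ∈ A, dist z.1 w.1 = dist z.2 w.2)
    (h2 : Collinear ℝ (Prod.snd '' (A : Set PP))) : A.card ≤ 2 * (A.image Prod.fst).card := by
  refine card_le_mul_card_image _ 2 ?_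
  intro a _
  have h3 : ((A.filter fun z => z.1 = a).image Prod.snd).card =
      (A.filter fun z => z.1 = a).card := by
    refine card_image_of_injOn ?_
    intro x hx y hy hxy
    rw [mem_coe, mem_filter] at hx hy
    exact Prod.ext (hx.2.trans hy.2.symm) hxy
  rw [← h3]
  refine card_le_two (e := w.2) (r := dist a w.1) (h2.subset ?_) ?_
  · intro x hx
    rw [mem_coe, mem_image] at hx
    obtain ⟨z, hz, rfl⟩ := hx
    exact ⟨z, (mem_filter.1 hz).1, rfl⟩
  · intro x hx
    rw [mem_image] at hx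
    obtain ⟨z, hz, rfl⟩ := hx
    rw [mem_filter] at hz
    rw [← h1 z hz.1, hz.2]

/-! ### consequences of regularity used here -/

section reg

variable {C0 B L : ℝ} {Z : Finset PP}

lemma one_le_t (hR : Reg Nul C0 B Z L) : 1 ≤ (Z.card : ℝ) / L := by
  obtain ⟨z, hz⟩ := hR.ne
  rw [le_div_iff₀ hR.L_pos, one_mul]
  refine (hR.deg_ge z hz).trans ?_
  exact_mod_cast deg_le_card Z z

lemma eight_ss_le (hR : Reg Nul C0 B Z L) (hB : 64 ≤ B) : 8 * (ss Z : ℝ) ≤ L := by
  have h1 := one_le_t hR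
  rw [le_div_iff₀ hR.L_pos, one_mul] at h1
  have hZ : (0 : ℝ) < Z.card := by exact_mod_cast card_pos.2 hR.ne
  have hL := hR.L_pos
  have h2 := hR.big
  have h3 : L ^ 3 ≤ Z.card * L ^ 2 := by nlinarith [sq_nonneg L]
  have h4 : B * (ss Z : ℝ) ^ 2 ≤ L ^ 2 := by
    have h5 : Z.card * (B * (ss Z : ℝ) ^ 2) ≤ Z.card * L ^ 2 := by nlinarith
    exact le_of_mul_le_mul_left h5 hZ
  have h6 : (8 * (ss Z : ℝ)) ^ 2 ≤ L ^ 2 := by nlinarith [sq_nonneg (ss Z : ℝ)]
  exact le_of_sq_le_sq h6 hL.le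

/-- (1.4) in the form used here: collinear subsets of the first projection are small -/
def LineBd (C0 L : ℝ) (Z : Finset PP) : Prop :=
  ∀ A : Finset E3, (∀ a ∈ A, ∃ z ∈ Z, z.1 = a) → Collinear ℝ (A : Set E3) →
    (A.card : ℝ) * L ≤ 2 * C0 * (ss Z : ℝ) ^ 2

open scoped Classical in
lemma lineBd_of (h : ∀ a b : E3, a ≠ b →
    (((Z.image Prod.fst).filter fun x => Collinear ℝ {a, b, x}).card : ℝ) * L ≤
      2 * C0 * (ss Z : ℝ) ^ 2) (hL : 0 ≤ L) : LineBd C0 L Z := by
  intro A hA hc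
  have key : ∀ a b : E3, a ≠ b → (∀ x ∈ A, Collinear ℝ {a, b, x}) →
      (A.card : ℝ) * L ≤ 2 * C0 * (ss Z : ℝ) ^ 2 := by
    intro a b hab hx
    refine le_trans ?_ (h a b hab)
    refine mul_le_mul_of_nonneg_right ?_ hL
    have : A ⊆ (Z.image Prod.fst).filter fun x => Collinear ℝ {a, b, x} := by
      intro x hxA
      rw [mem_filter, mem_image]
      exact ⟨hA x hxA, hx x hxA⟩
    exact_mod_cast card_le_card this
  by_cases h1 : A.card ≤ 1
  · obtain ⟨a, ha⟩ : ∃ a : E3, ∀ x ∈ A, x = a := by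
      rcases A.eq_empty_or_nonempty with rfl | ⟨a, ha⟩
      · exact ⟨0, by simp⟩
      · exact ⟨a, fun x hx => card_le_one.1 h1 x hx a ha⟩
    obtain ⟨b, hb⟩ : ∃ b : E3, b ≠ a := exists_ne a
    refine key a b hb.symm fun x hx => ?_
    rw [ha x hx]
    have : ({a, b, a} : Set E3) = {b, a} := by
      ext y; simp only [Set.mem_insert_iff, Set.mem_singleton_iff]; tauto
    rw [this]
    exact collinear_pair ℝ b a
  · push Not at h1
    obtain ⟨a, ha, b, hb, hab⟩ := one_lt_card.1 h1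
    refine key a b hab fun x hx => hc.subset ?_
    intro y hy
    simp only [Set.mem_insert_iff, Set.mem_singleton_iff] at hy
    rcases hy with rfl | rfl | rfl
    · exact ha
    · exact hb
    · exact hx

open scoped Classical in
/-- conversion: finite sets of pairs as finite sets of points of `ℂ⁶` -/
lemma card_image_toFn (A : Finset PP) :
    (A.image fun z : PP => toFn (zc z.1 z.2)).card = A.card := by
  refine card_image_of_injective _ fun z w h => ?_
  obtain ⟨h1, h2⟩ := zc_injective (toFn_injective h)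
  exact Prod.ext h1 h2

/-- O1, dimension 0 -/
theorem points (Z : Finset PP) (P : Ideal (MvPolynomial (Fin 3 ⊕ Fin 3) ℂ)) [P.IsPrime]
    (hP : dimP P = 0) : (ZP Z P).card ≤ degP P := by
  classical
  rw [← card_image_toFn]
  refine card_dim_zero hP ?_
  intro x hx
  rw [mem_coe, mem_image] at hx
  obtain ⟨z, hz, rfl⟩ := hx
  exact (mem_ZP.1 hz).2

open scoped Classical in
lemma cut_curve (Z : Finset PP) (P : Ideal (MvPolynomial (Fin 3 ⊕ Fin 3) ℂ)) [P.IsPrime]
    (hP : dimP P = 1) (w : PP) (hw : gw w ∉ P) :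
    ((ZP Z P).filter fun z => eval (toFn (zc z.1 z.2)) (gw w) = 0).card ≤ 2 * degP P := by
  rw [← card_image_toFn]
  refine card_cut hP hw (gw_deg w) ?_ ?_
  · intro x hx
    rw [mem_coe, mem_image] at hx
    obtain ⟨z, hz, rfl⟩ := hx
    exact (mem_ZP.1 (mem_filter.1 hz).1).2
  · intro x hx
    rw [mem_image] at hx
    obtain ⟨z, hz, rfl⟩ := hx
    exact (mem_filter.1 hz).2

/-- many common null partners force a product of two lines -/
lemma of_large_perp (hL : 0 ≤ L) (hl : LineBd C0 L Z)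
    (P : Ideal (MvPolynomial (Fin 3 ⊕ Fin 3) ℂ)) (h : 2 * ss Z < (Zperp Z P).card) :
    Collinear ℝ (Prod.fst '' (ZP Z P : Set PP)) ∧ Collinear ℝ (Prod.snd '' (ZP Z P : Set PP)) ∧
      (ZP Z P).card * L ≤ 4 * C0 * (ss Z : ℝ) ^ 2 := by
  classical
  have h1 : Collinear ℝ (Prod.fst '' (ZP Z P : Set PP)) := by
    by_contra hc
    have := card_perp_fst hc
    omega
  have h2 : Collinear ℝ (Prod.snd '' (ZP Z P : Set PP)) := by
    by_contra hc
    have := card_perp_snd hc
    omega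
  refine ⟨h1, h2, ?_⟩
  obtain ⟨w, hw⟩ : (Zperp Z P).Nonempty := card_pos.1 (by omega)
  have h3 := card_conic (A := ZP Z P) (w := w) (fun z hz => dist_of_perp hw hz) h2
  have h4 := hl ((ZP Z P).image Prod.fst) (by
    intro a ha
    rw [mem_image] at ha
    obtain ⟨z, hz, rfl⟩ := ha
    exact ⟨z, ZP_subset _ _ hz, rfl⟩) (by rwa [coe_image])
  have h5 : ((ZP Z P).card : ℝ) ≤ 2 * (((ZP Z P).image Prod.fst).card : ℝ) := by exact_mod_cast h3
  nlinarith

/-- **Lemma 4.1** (O1, dimension 1): a curve contains few elements of `Z`, unless they lie on a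
product of two lines. -/
theorem curves (hR : Reg Nul C0 B Z L) (hB : 64 ≤ B) (hl : LineBd C0 L Z)
    (P : Ideal (MvPolynomial (Fin 3 ⊕ Fin 3) ℂ)) [P.IsPrime] (hP : dimP P = 1)
    (hbig : 8 * ((Z.card : ℝ) / L) * degP P < (ZP Z P).card) :
    Collinear ℝ (Prod.fst '' (ZP Z P : Set PP)) ∧ Collinear ℝ (Prod.snd '' (ZP Z P : Set PP)) ∧
      (ZP Z P).card * L ≤ 4 * C0 * (ss Z : ℝ) ^ 2 := by
  classical
  have hL := hR.L_pos
  refine of_large_perp hL.le hl P ?_
  have h1 := count hR.deg_ge P (K := 2 * degP P) (by positivity) (fun w _ hw => by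
    exact_mod_cast cut_curve Z P hP w hw)
  have h2 := eight_ss_le hR hB
  have hs : (0 : ℝ) < ss Z := by exact_mod_cast ss_pos hR.ne
  have h3 : 8 * (Z.card : ℝ) * degP P < (ZP Z P).card * L := by
    have := mul_lt_mul_of_pos_right hbig hL
    calc 8 * (Z.card : ℝ) * degP P = 8 * ((Z.card : ℝ) / L) * degP P * L := by
          field_simp
      _ < _ := this
  have hN : (0 : ℝ) < (ZP Z P).card := by
    refine lt_of_le_of_lt ?_ hbig
    have := one_le_t hR
    positivity
  have h4 : (3 / 4 * L) * (ZP Z P).card < (Zperp Z P).card * (ZP Z P).card := by nlinarith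
  have h5 : 3 / 4 * L < (Zperp Z P).card := lt_of_mul_lt_mul_right h4 hN.le
  have h6 : (2 : ℝ) * ss Z < (Zperp Z P).card := by linarith
  exact_mod_cast h6

/-- `τ₁`: bound per degree for primes of dimension at most 1 -/
noncomputable def tau1 (C0 L : ℝ) (Z : Finset PP) : ℝ :=
  max (8 * ((Z.card : ℝ) / L)) (4 * C0 * (ss Z : ℝ) ^ 2 / L)

lemma one_le_tau1 (hR : Reg Nul C0 B Z L) : 1 ≤ tau1 C0 L Z := by
  have h1 := one_le_t hR
  have h2 : 8 * ((Z.card : ℝ) / L) ≤ tau1 C0 L Z := le_max_left _ _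
  linarith

lemma card_ZP_le_tau1 (hR : Reg Nul C0 B Z L) (hB : 64 ≤ B) (hl : LineBd C0 L Z)
    (P : Ideal (MvPolynomial (Fin 3 ⊕ Fin 3) ℂ)) [P.IsPrime] (hP : dimP P ≤ 1) :
    ((ZP Z P).card : ℝ) ≤ tau1 C0 L Z * degP P := by
  have h1 := one_le_tau1 hR
  have hd : (1 : ℝ) ≤ degP P := by exact_mod_cast degP_pos P
  rcases Nat.lt_or_ge (dimP P) 1 with h0 | h0
  · have h2 : ((ZP Z P).card : ℝ) ≤ degP P := by exact_mod_cast points Z P (by omega)
    nlinarith
  · have hP1 : dimP P = 1 := le_antisymm hP h0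
    rcases le_or_gt ((ZP Z P).card : ℝ) (8 * ((Z.card : ℝ) / L) * degP P) with h | h
    · refine h.trans (mul_le_mul_of_nonneg_right (le_max_left _ _) (by linarith))
    · obtain ⟨_, _, h3⟩ := curves hR hB hl P hP1 h
      have h4 : ((ZP Z P).card : ℝ) ≤ 4 * C0 * (ss Z : ℝ) ^ 2 / L := by
        rw [le_div_iff₀ hR.L_pos]; exact h3
      have h5 : ((ZP Z P).card : ℝ) ≤ tau1 C0 L Z := h4.trans (le_max_right _ _)
      nlinarith

/-- the cut inequality for quadrics on a prime of dimension 2, in the form used here -/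
def Cut2 (P : Ideal (MvPolynomial (Fin 3 ⊕ Fin 3) ℂ)) : Prop :=
  ∀ g : MvPolynomial (Fin 3 ⊕ Fin 3) ℂ, g ∉ P → g.totalDegree ≤ 2 →
    ∃ S : Finset (Ideal (MvPolynomial (Fin 3 ⊕ Fin 3) ℂ)),
      (∀ Q ∈ S, Q.IsPrime ∧ dimP Q ≤ 1) ∧
      (∀ a ∈ ZV P, eval a g = 0 → ∃ Q ∈ S, a ∈ ZV Q) ∧ ∑ Q ∈ S, degP Q ≤ 2 * degP P

open scoped Classical in
/-- **Lemma 4.2** (O1, dimension 2) -/
theorem surfaces (hR : Reg Nul C0 B Z L) (hB : 64 ≤ B) (hl : LineBd C0 L Z)
    (P : Ideal (MvPolynomial (Fin 3 ⊕ Fin 3) ℂ)) [P.IsPrime] (hcut : Cut2 P) :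
    ((ZP Z P).card : ℝ) ≤ 3 * ((Z.card : ℝ) / L) * tau1 C0 L Z * degP P := by
  have hL := hR.L_pos
  have hτ := one_le_tau1 hR
  have ht := one_le_t hR
  have hd : (1 : ℝ) ≤ degP P := by exact_mod_cast degP_pos P
  have hK : ∀ w ∈ Z, gw w ∉ P →
      (((ZP Z P).filter fun z => eval (toFn (zc z.1 z.2)) (gw w) = 0).card : ℝ) ≤
        2 * tau1 C0 L Z * degP P := by
    intro w _ hw
    obtain ⟨S, hS1, hS2, hS3⟩ := hcut (gw w) hw (gw_deg w)
    have h1 : ((ZP Z P).filter fun z => eval (toFn (zc z.1 z.2)) (gw w) = 0) ⊆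
        S.biUnion fun Q => ZP Z Q := by
      intro z hz
      rw [mem_filter] at hz
      obtain ⟨Q, hQ, hzQ⟩ := hS2 _ (mem_ZP.1 hz.1).2 hz.2
      rw [mem_biUnion]
      exact ⟨Q, hQ, mem_ZP.2 ⟨(mem_ZP.1 hz.1).1, hzQ⟩⟩
    have h2 : (((ZP Z P).filter fun z => eval (toFn (zc z.1 z.2)) (gw w) = 0).card : ℝ) ≤
        ∑ Q ∈ S, ((ZP Z Q).card : ℝ) := by
      exact_mod_cast (card_le_card h1).trans card_biUnion_le
    refine h2.trans ?_
    have h3 : ∑ Q ∈ S, ((ZP Z Q).card : ℝ) ≤ ∑ Q ∈ S, tau1 C0 L Z * (degP Q : ℝ) := by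
      refine sum_le_sum fun Q hQ => ?_
      have := (hS1 Q hQ).1
      exact card_ZP_le_tau1 hR hB hl Q (hS1 Q hQ).2
    refine h3.trans ?_
    rw [← mul_sum]
    have h4 : (∑ Q ∈ S, (degP Q : ℝ)) ≤ 2 * degP P := by exact_mod_cast hS3
    nlinarith
  have h1 := count hR.deg_ge P (K := 2 * tau1 C0 L Z * degP P) (by positivity) hK
  have h2 := eight_ss_le hR hB
  have hN : (0 : ℝ) ≤ (ZP Z P).card := Nat.cast_nonneg _
  by_cases hp : 2 * ss Z < (Zperp Z P).card
  · obtain ⟨_, _, h3⟩ := of_large_perp hL.le hl P hp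
    have h4 : ((ZP Z P).card : ℝ) ≤ 4 * C0 * (ss Z : ℝ) ^ 2 / L := by
      rw [le_div_iff₀ hL]; exact h3
    have h5 : ((ZP Z P).card : ℝ) ≤ tau1 C0 L Z := h4.trans (le_max_right _ _)
    have h6 : (1 : ℝ) ≤ 3 * ((Z.card : ℝ) / L) * degP P := by
      have : (1 : ℝ) * 1 ≤ (Z.card : ℝ) / L * degP P := mul_le_mul ht hd zero_le_one (by linarith)
      linarith
    calc ((ZP Z P).card : ℝ) ≤ tau1 C0 L Z := h5
      _ ≤ tau1 C0 L Z * (3 * ((Z.card : ℝ) / L) * degP P) := by
          exact le_mul_of_one_le_right (by linarith) h6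
      _ = _ := by ring
  · push Not at hp
    have h3 : ((Zperp Z P).card : ℝ) ≤ 2 * ss Z := by exact_mod_cast hp
    have h4 : ((Zperp Z P).card : ℝ) * (ZP Z P).card ≤ L / 4 * (ZP Z P).card := by
      refine mul_le_mul_of_nonneg_right ?_ hN
      linarith
    have h5 : 3 / 4 * L * (ZP Z P).card ≤ Z.card * (2 * tau1 C0 L Z * degP P) := by linarith
    have h6 : ((ZP Z P).card : ℝ) ≤ 8 / 3 * ((Z.card : ℝ) / L) * tau1 C0 L Z * degP P := by
      have e : 8 / 3 * ((Z.card : ℝ) / L) * tau1 C0 L Z * degP P =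
          (8 / 3 * (Z.card * tau1 C0 L Z * degP P)) / L := by field_simp
      rw [e, le_div_iff₀ hL]
      linarith
    refine h6.trans ?_
    have h7 : 0 ≤ (Z.card : ℝ) / L * tau1 C0 L Z * degP P := by positivity
    nlinarith




end reg

end Crest.Agent.R065.D3d477
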