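import Mathlib
import Crest.Agent.R065.D3defs_235

/-!
# Row 65, case d = 3 (r65_d3 section 5): the sampling lemma
Part 1: Bernoulli sampling of a finite set, by pure finite sums.
-/

set_option autoImplicit false

namespace Crest.Agent.R065.D3samp789

open Finset

section Prob

variable {α : Type*} [DecidableEq α]

/-- the Bernoulli(q) weight of the subset `T` of `Z` -/
noncomputable def wt (Z : Finset α) (q : ℝ) (T : Finset α) : ℝ :=
  q ^ T.card * (1 - q) ^ (Z \ T).card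

/-- expectation over random subsets of `Z` -/
noncomputable def EE (Z : Finset α) (q : ℝ) (g : Finset α → ℝ) : ℝ :=
  ∑ T ∈ Z.powerset, wt Z q T * g T

















end Prob

section Geo

variable {V : Type*} [NormedAddCommGroup V] [InnerProductSpace ℝ V]


/-- `x` lies on the line `ab` -/
lemma onL_iff {a b x : V} (hab : a ≠ b) :
    Collinear ℝ ({a, b, x} : Set V) ↔ x ∈ line[ℝ, a, b] := by
  constructor
  · intro h
    exact h.mem_affineSpan_of_mem_of_ne (p₁ := a) (p₂ := b) (p₃ := x) (by simp) (by simp)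
      (by simp) hab
  · intro h
    exact collinear_triple_of_mem_affineSpan_pair (left_mem_affineSpan_pair ℝ a b)
      (right_mem_affineSpan_pair ℝ a b) h



lemma det_point {z1 w1 y1 z2 w2 y2 : V} {r : ℝ} (hy : y1 = z1 + r • (w1 - z1))
    (hzw : dist z1 w1 = dist z2 w2) (h1 : dist z1 y1 = dist z2 y2)
    (h2 : dist w1 y1 = dist w2 y2) : y2 = z2 + r • (w2 - z2) := by
  set U := w1 - z1 with hU
  set u := w2 - z2 with hu
  set v := y2 - z2 with hv
  have e1 : ‖u‖ = ‖U‖ := by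
    rw [hu, hU, ← dist_eq_norm, ← dist_eq_norm, dist_comm, ← hzw, dist_comm]
  have e2 : ‖v‖ = ‖r • U‖ := by
    have : ‖r • U‖ = dist z1 y1 := by
      rw [hy, dist_comm, dist_eq_norm]; congr 1; abel
    rw [this, h1, dist_comm, dist_eq_norm]
  have e3 : ‖v - u‖ = ‖r • U - U‖ := by
    have h3 : ‖r • U - U‖ = dist w1 y1 := by
      rw [hy, dist_comm, dist_eq_norm]; congr 1; rw [hU]; abel
    rw [h3, h2, dist_comm, dist_eq_norm]; congr 1; rw [hv, hu]; abel
  have e4 : ‖v - r • u‖ ^ 2 = 0 := by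
    have a1 := norm_sub_sq_real v u
    have a2 := norm_sub_sq_real v (r • u)
    have a3 := norm_sub_sq_real (r • U) U
    rw [e3, e2, e1] at a1
    rw [e2] at a2
    rw [norm_smul, Real.norm_eq_abs, mul_pow, sq_abs] at a1 a2 a3
    rw [norm_smul, Real.norm_eq_abs, mul_pow, sq_abs, e1] at a2
    rw [inner_smul_right] at a2
    rw [real_inner_smul_left, real_inner_self_eq_norm_sq] at a3
    have : inner ℝ v u = r * ‖U‖ ^ 2 := by linarith
    rw [a2, this]; ring
  have e5 : v - r • u = 0 := by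
    rw [← norm_eq_zero]
    exact pow_eq_zero_iff (two_ne_zero) |>.1 e4
  have e6 : v = r • u := sub_eq_zero.1 e5
  rw [← e6, hv]; abel

lemma det_unique {z1 w1 z2 w2 y1 y2 y2' : V} (hne : z1 ≠ w1)
    (hc : Collinear ℝ ({z1, w1, y1} : Set V)) (hzw : dist z1 w1 = dist z2 w2)
    (h1 : dist z1 y1 = dist z2 y2) (h2 : dist w1 y1 = dist w2 y2)
    (h1' : dist z1 y1 = dist z2 y2') (h2' : dist w1 y1 = dist w2 y2') : y2 = y2' := by
  have hm := (onL_iff hne).1 hc
  rw [mem_affineSpan_pair_iff_exists_lineMap_eq] at hm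
  obtain ⟨r, hr⟩ := hm
  have hy : y1 = z1 + r • (w1 - z1) := by
    rw [← hr, AffineMap.lineMap_apply]
    simp only [vsub_eq_sub, vadd_eq_add]
    abel
  rw [det_point hy hzw h1 h2, det_point hy hzw h1' h2']

end Geo

section Num

lemma tail_bound {n r : ℕ} {M q x : ℝ} (hr : 1 ≤ r) (hM : 0 < M) (hn : (n : ℝ) ≤ M)
    (hq : 0 ≤ q) (hx : Real.exp 1 * M * q ≤ x * r) :
    (n.choose r : ℝ) * q ^ r ≤ n / M * x ^ r := by
  have h1 : (n.choose r : ℝ) ≤ (n : ℝ) ^ r / r.factorial := Nat.choose_le_pow_div r n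
  have h2 : (r : ℝ) ^ r / r.factorial ≤ Real.exp r :=
    Real.pow_div_factorial_le_exp _ (by positivity) r
  have hexp : Real.exp (r : ℝ) = Real.exp 1 ^ r := by rw [← Real.exp_nat_mul, mul_one]
  have hf : (0 : ℝ) < r.factorial := by exact_mod_cast r.factorial_pos
  have hr0 : (0 : ℝ) < r := by exact_mod_cast hr
  have hx0 : 0 ≤ x := by
    have : 0 ≤ Real.exp 1 * M * q := by positivity
    exact nonneg_of_mul_nonneg_left (this.trans hx) hr0
  have h3 : (M * q) ^ r ≤ x ^ r * r.factorial := by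
    have e1 : (Real.exp 1 * M * q) ^ r ≤ (x * r) ^ r := pow_le_pow_left₀ (by positivity) hx r
    have e2 : (r : ℝ) ^ r ≤ Real.exp 1 ^ r * r.factorial := by
      rw [← hexp]
      rw [div_le_iff₀ hf] at h2
      exact h2
    have e3 : Real.exp 1 ^ r * (M * q) ^ r ≤ Real.exp 1 ^ r * (x ^ r * r.factorial) := by
      calc Real.exp 1 ^ r * (M * q) ^ r = (Real.exp 1 * M * q) ^ r := by
            rw [← mul_pow]; congr 1; ring
        _ ≤ (x * r) ^ r := e1
        _ = x ^ r * (r : ℝ) ^ r := mul_pow _ _ _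
        _ ≤ x ^ r * (Real.exp 1 ^ r * r.factorial) :=
            mul_le_mul_of_nonneg_left e2 (by positivity)
        _ = Real.exp 1 ^ r * (x ^ r * r.factorial) := by ring
    exact le_of_mul_le_mul_left e3 (by positivity)
  have h4 : ((n : ℝ) / M) ^ r ≤ (n : ℝ) / M :=
    pow_le_of_le_one (by positivity) ((div_le_one hM).2 hn) (by omega)
  calc (n.choose r : ℝ) * q ^ r ≤ (n : ℝ) ^ r / r.factorial * q ^ r :=
        mul_le_mul_of_nonneg_right h1 (by positivity)
    _ = ((n : ℝ) / M) ^ r * ((M * q) ^ r / r.factorial) := by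
        rw [div_pow, mul_pow]; field_simp
    _ ≤ ((n : ℝ) / M) * x ^ r := by
        apply mul_le_mul h4 _ (by positivity) (by positivity)
        rw [div_le_iff₀ hf]; exact h3

lemma sum_tail {α : Type*} [DecidableEq α] (DD : Finset (Finset α)) (gen : Finset α → Finset α)
    (Nz : Finset α) {r : ℕ} {M q x : ℝ} (hr : 1 ≤ r) (hM : 0 < M) (hq : 0 ≤ q) (hx0 : 0 ≤ x)
    (hx : Real.exp 1 * M * q ≤ x * r) (h1 : ∀ D ∈ DD, r ≤ D.card → (D.card : ℝ) ≤ M)
    (h2 : ∀ D ∈ DD, r ≤ D.card → D.card ≤ 2 * (gen D).card) (h3 : ∀ D ∈ DD, gen D ⊆ Nz)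
    (h4 : ∀ D ∈ DD, ∀ D' ∈ DD, D ≠ D' → Disjoint (gen D) (gen D')) :
    ∑ D ∈ DD, (D.card.choose r : ℝ) * q ^ r ≤ 2 * Nz.card / M * x ^ r := by
  have h5 : ∀ D ∈ DD, (D.card.choose r : ℝ) * q ^ r ≤ (2 / M * x ^ r) * (gen D).card := by
    intro D hD
    by_cases hrD : r ≤ D.card
    · refine (tail_bound hr hM (h1 D hD hrD) hq hx).trans ?_
      have h6 : (D.card : ℝ) ≤ 2 * (gen D).card := by exact_mod_cast h2 D hD hrD
      calc (D.card : ℝ) / M * x ^ r ≤ (2 * (gen D).card) / M * x ^ r := by gcongr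
        _ = (2 / M * x ^ r) * (gen D).card := by ring
    · rw [Nat.choose_eq_zero_of_lt (not_le.1 hrD)]
      simp only [Nat.cast_zero, zero_mul]
      positivity
  refine (Finset.sum_le_sum h5).trans ?_
  rw [← Finset.mul_sum]
  have h6 : ∑ D ∈ DD, (gen D).card ≤ Nz.card := by
    rw [← Finset.card_biUnion]
    · apply Finset.card_le_card
      intro x hx
      obtain ⟨D, hD, hxD⟩ := Finset.mem_biUnion.1 hx
      exact h3 D hD hxD
    · intro D hD D' hD' hne
      exact h4 D hD D' hD' hne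
  have h7 : (∑ D ∈ DD, ((gen D).card : ℝ)) ≤ Nz.card := by exact_mod_cast h6
  calc 2 / M * x ^ r * ∑ D ∈ DD, ((gen D).card : ℝ) ≤ 2 / M * x ^ r * Nz.card :=
        mul_le_mul_of_nonneg_left h7 (by positivity)
    _ = 2 * Nz.card / M * x ^ r := by ring





lemma exists_pow_exp (n : ℕ) (A δ : ℝ) (hδ : 0 < δ) :
    ∃ X : ℝ, ∀ x, X ≤ x → A * (x ^ n * Real.exp (-x)) ≤ δ := by
  have h := (Real.tendsto_pow_mul_exp_neg_atTop_nhds_zero n).const_mul A
  rw [mul_zero] at h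
  have h2 := h.eventually (gt_mem_nhds hδ)
  obtain ⟨X, hX⟩ := Filter.eventually_atTop.1 h2
  exact ⟨X, fun x hx => (hX x hx).le⟩




end Num

section Main

open Crest.Agent.R065.D3



/-- points of `Z` over the line `z.1 w.1`, with the right distances -/
noncomputable def Rz (Z : Finset PP) (z w : PP) : Finset PP :=
  open scoped Classical in
  Z.filter fun y => Collinear ℝ ({z.1, w.1, y.1} : Set (EuclideanSpace ℝ (Fin 3))) ∧
    dist z.1 y.1 = dist z.2 y.2 ∧ dist w.1 y.1 = dist w.2 y.2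

lemma mem_Rz {Z : Finset PP} {z w y : PP} : y ∈ Rz Z z w ↔ y ∈ Z ∧
    Collinear ℝ ({z.1, w.1, y.1} : Set (EuclideanSpace ℝ (Fin 3))) ∧
    dist z.1 y.1 = dist z.2 y.2 ∧ dist w.1 y.1 = dist w.2 y.2 := by
  unfold Rz; simp



/-- hypothesis: no line contains too many first coordinates -/
def LineBd (Z : Finset PP) (M : ℝ) : Prop :=
  ∀ a b : EuclideanSpace ℝ (Fin 3), a ≠ b → ∀ W : Finset (EuclideanSpace ℝ (Fin 3)),
    (∀ x ∈ W, (∃ z ∈ Z, z.1 = x) ∧ Collinear ℝ ({a, b, x} : Set (EuclideanSpace ℝ (Fin 3)))) →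
    (W.card : ℝ) ≤ M


lemma card_Rz {Z : Finset PP} {M : ℝ} (hl : LineBd Z M) {z w : PP} (h : Nul z w) :
    ((Rz Z z w).card : ℝ) ≤ M := by
  classical
  have h1 : ((Rz Z z w).image Prod.fst).card = (Rz Z z w).card := by
    apply Finset.card_image_of_injOn
    intro x hx y hy hxy
    have hx' := mem_Rz.1 (Finset.mem_coe.1 hx)
    have hy' := mem_Rz.1 (Finset.mem_coe.1 hy)
    refine Prod.ext hxy ?_
    have hxy' : x.1 = y.1 := hxy
    exact det_unique h.2 hx'.2.1 h.1 hx'.2.2.1 hx'.2.2.2 (by rw [hxy']; exact hy'.2.2.1)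
      (by rw [hxy']; exact hy'.2.2.2)
  rw [← h1]
  apply hl z.1 w.1 h.2
  intro x hx
  obtain ⟨y, hy, rfl⟩ := Finset.mem_image.1 hx
  rw [mem_Rz] at hy
  exact ⟨⟨y, hy.1, rfl⟩, hy.2.1⟩

lemma collinear_pair_left (a b : EuclideanSpace ℝ (Fin 3)) :
    Collinear ℝ ({a, b, a} : Set (EuclideanSpace ℝ (Fin 3))) := by
  have : ({a, b, a} : Set (EuclideanSpace ℝ (Fin 3))) = {a, b} := by
    ext x; simp only [Set.mem_insert_iff, Set.mem_singleton_iff]; tauto
  rw [this]; exact collinear_pair ℝ a b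

lemma collinear_pair_right (a b : EuclideanSpace ℝ (Fin 3)) :
    Collinear ℝ ({a, b, b} : Set (EuclideanSpace ℝ (Fin 3))) := by
  have : ({a, b, b} : Set (EuclideanSpace ℝ (Fin 3))) = {a, b} := by
    ext x; simp only [Set.mem_insert_iff, Set.mem_singleton_iff]; tauto
  rw [this]; exact collinear_pair ℝ a b

lemma left_mem_Rz {Z : Finset PP} {z w : PP} (hz : z ∈ Z) (h : Nul z w) : z ∈ Rz Z z w := by
  rw [mem_Rz]
  refine ⟨hz, collinear_pair_left _ _, by simp, ?_⟩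
  rw [dist_comm, h.1, dist_comm]

lemma right_mem_Rz {Z : Finset PP} {z w : PP} (hw : w ∈ Z) (h : Nul z w) : w ∈ Rz Z z w := by
  rw [mem_Rz]
  exact ⟨hw, collinear_pair_right _ _, h.1, by simp⟩

lemma inter_sub_Rz {Z : Finset PP} {SS : Finset (Finset PP)} (hB : Blocks Z SS) {z w : PP}
    (h : Nul z w) {X X' : Finset PP} (hX : X ∈ SS) (hX' : X' ∈ SS) (hne : X ≠ X')
    (hzX : z ∈ X) (hwX : w ∈ X) (hzX' : z ∈ X') (hwX' : w ∈ X') {y : PP} (hy : y ∈ X)
    (hy' : y ∈ X') : y ∈ Rz Z z w := by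
  rw [mem_Rz]
  refine ⟨hB.sub X hX hy, ?_, hB.iso X hX z hzX y hy, hB.iso X hX w hwX y hy⟩
  refine (hB.col X hX X' hX' hne).subset ?_
  intro x hx
  simp only [Set.mem_insert_iff, Set.mem_singleton_iff] at hx
  rcases hx with rfl | rfl | rfl
  · exact ⟨z, hzX, hzX', rfl⟩
  · exact ⟨w, hwX, hwX', rfl⟩
  · exact ⟨y, hy, hy', rfl⟩



end Main

end Crest.Agent.R065.D3samp789
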