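import Crest.Agent.R065.STc_397
import Crest.Agent.R065.Top_348
import Crest.Agent.R065.Main4_348
import Crest.Agent.R065.D3defs_235
import Mathlib
import Crest.Agent.R065.D3cons_275
import Crest.Agent.R065.D3samp_789
import Crest.Agent.R065.D3in_855

-- ▼ part R065/Plane_275
section

/-!
# Row 65: the planar bound `nd P ≥ c |P|^(2/3)`
-/

set_option autoImplicit false

namespace Crest.Agent.R065.Plane275

open Finset Crest.Agent.R065.ST397 Crest.Agent.R065.Top348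

abbrev E2 : Type := EuclideanSpace ℝ (Fin 2)




/-- the denominator of the bisector -/
noncomputable def De (s : ℝ) (p q : E2) : ℝ := 2 * (q 1 - p 1) - s * (2 * (q 0 - p 0))

/-- the bisector in the sheared coordinates -/
noncomputable def ln (s : ℝ) (p q : E2) : ℝ × ℝ :=
  (-(2 * (q 0 - p 0)) / De s p q, ((q 0 ^ 2 + q 1 ^ 2) - (p 0 ^ 2 + p 1 ^ 2)) / De s p q)







/-! ### the lower bound -/






end Crest.Agent.R065.Plane275
end

-- ▼ part R065/Final_348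
section

/-!
# Row 65: final assembly of `S0087` from `d = 3`, LEVEL-0 and L1'
-/

set_option autoImplicit false

namespace Crest.Agent.R065.Final348

open Crest.Agent.R065.Base348 Crest.Agent.R065.Top348 Crest.Agent.R065.Pins348
open Crest.Agent.R065.Engine348 Crest.Agent.R065.Hyp348

/-- the bound in dimension `d` -/
def Bd (d : ℕ) : Prop :=
  ∃ A : ℝ, 0 < A ∧ ∀ P : Finset (EuclideanSpace ℝ (Fin d)), 2 ≤ P.card →
    (P.card : ℝ) ^ 2 ≤ (A * (nd P : ℝ)) ^ d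

/-- the bound in dimension `d` for sets without rich hyperplanes -/
def BdN (d : ℕ) : Prop :=
  ∃ A : ℝ, 0 < A ∧ ∀ P : Finset (EuclideanSpace ℝ (Fin d)), 2 ≤ P.card → NoHyp P →
    (P.card : ℝ) ^ 2 ≤ (A * (nd P : ℝ)) ^ d


/-- induction step -/
theorem bd_succ {e : ℕ} (he : 1 ≤ e) (hprev : Bd e) (h : BdN (e + 1)) : Bd (e + 1) := by
  refine hyp_reduction ?_ h
  obtain ⟨A, hA, hb⟩ := hprev
  obtain ⟨c, hc, hcQ⟩ := result_of_bound he A hA hb
  refine ⟨c, hc, fun Q hQ => ?_⟩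
  refine le_trans ?_ (hcQ Q hQ)
  have h1 : (1 : ℝ) ≤ Q.card := by exact_mod_cast (by omega : 1 ≤ Q.card)
  have he' : (0 : ℝ) < e := by exact_mod_cast he
  gcongr
  exact Nat.le_succ e

/-- **final assembly** -/
theorem final (H3 : Bd 3) (hL0 : ∀ d, 4 ≤ d → L0 d) (hL1 : ∀ d, 4 ≤ d → L1 d) :
    ∀ d : ℕ, 3 ≤ d → ∃ c : ℝ, 0 < c ∧ ∀ P : Finset (EuclideanSpace ℝ (Fin d)), 2 ≤ P.card →
      c * (P.card : ℝ) ^ ((2 : ℝ) / d) ≤
        ({t : ℝ | ∃ p ∈ P, ∃ q ∈ P, p ≠ q ∧ dist p q = t}.ncard : ℝ) := by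
  have key : ∀ d, 3 ≤ d → Bd d := by
    intro d hd
    induction d, hd using Nat.le_induction with
    | base => exact H3
    | succ e he ih =>
      exact bd_succ (by omega) ih
        (Main4348.bound_noHyp (by omega) (hL0 _ (by omega)) (hL1 _ (by omega)))
  intro d hd
  obtain ⟨A, hA, hb⟩ := key d hd
  exact result_of_bound (by omega) A hA hb

end Crest.Agent.R065.Final348
end

-- ▼ part R065/D3fin_812
section

/-!
# Row 65, d = 3: from the main theorem D3 to S0087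
-/

set_option autoImplicit false

namespace Crest.Agent.R065.D3fin812

open Crest.Agent.R065.Top348

/-- three dimensional Euclidean space -/
abbrev E3 : Type := EuclideanSpace ℝ (Fin 3)

/-- null pairs of points of `E3 × E3` -/
def Nul (z w : E3 × E3) : Prop := dist z.1 w.1 = dist z.2 w.2 ∧ z.1 ≠ w.1

open Classical in
/-- the degree -/
noncomputable def dg (Z : Finset (E3 × E3)) (z : E3 × E3) : ℕ := (Z.filter fun w => Nul z w).card

/-- the number of null pairs -/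
noncomputable def TT (Z : Finset (E3 × E3)) : ℕ := ∑ z ∈ Z, dg Z z

open Classical in
/-- the sum of the sizes of the two projections -/
noncomputable def ss (Z : Finset (E3 × E3)) : ℕ := (Z.image Prod.fst).card + (Z.image Prod.snd).card

open Classical in
/-- the distance set as a Finset -/
noncomputable def DS (P : Finset E3) : Finset ℝ :=
  ((P ×ˢ P).filter fun x => x.1 ≠ x.2).image fun x => dist x.1 x.2

lemma nd_eq_card (P : Finset E3) : nd P = (DS P).card := by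
  classical
  unfold nd
  rw [← Set.ncard_coe_finset]
  congr 1
  ext t
  simp only [DS, Finset.coe_image, Finset.coe_filter, Finset.mem_product, Set.mem_image,
    Set.mem_ofPred_eq, Prod.exists]
  constructor
  · rintro ⟨p, hp, q, hq, hpq, rfl⟩
    exact ⟨p, q, ⟨⟨hp, hq⟩, hpq⟩, rfl⟩
  · rintro ⟨p, q, ⟨⟨hp, hq⟩, hpq⟩, rfl⟩
    exact ⟨p, hp, q, hq, hpq, rfl⟩

open Classical in
/-- ordered pairs at distance `t` -/
noncomputable def pr (P : Finset E3) (t : ℝ) : Finset (E3 × E3) :=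
  (P ×ˢ P).filter fun x => x.1 ≠ x.2 ∧ dist x.1 x.2 = t

lemma sum_pr (P : Finset E3) : ∑ t ∈ DS P, (pr P t).card = P.card ^ 2 - P.card := by
  classical
  have h1 : ((P ×ˢ P).filter fun x => x.1 ≠ x.2).card = ∑ t ∈ DS P, (pr P t).card := by
    rw [Finset.card_eq_sum_card_image (fun x : E3 × E3 => dist x.1 x.2)
      ((P ×ˢ P).filter fun x => x.1 ≠ x.2)]
    refine Finset.sum_congr rfl fun t _ => ?_
    congr 1
    unfold pr
    rw [Finset.filter_filter]
  rw [← h1]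
  have h2 : ((P ×ˢ P).filter fun x : E3 × E3 => x.1 ≠ x.2) = P.offDiag := by
    ext x
    simp [Finset.mem_offDiag, and_assoc]
  rw [h2, Finset.offDiag_card, sq]

lemma TT_prod (P : Finset E3) : ∑ t ∈ DS P, (pr P t).card ^ 2 ≤ TT (P ×ˢ P) := by
  classical
  -- the set of null pairs
  have hT : TT (P ×ˢ P) =
      (((P ×ˢ P) ×ˢ (P ×ˢ P)).filter fun x : (E3 × E3) × (E3 × E3) => Nul x.1 x.2).card := by
    have e := Finset.card_filter (fun x : (E3 × E3) × (E3 × E3) => Nul x.1 x.2)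
      ((P ×ˢ P) ×ˢ (P ×ˢ P))
    rw [e, Finset.sum_product]
    unfold TT
    refine Finset.sum_congr rfl fun z _ => ?_
    unfold dg
    rw [Finset.card_filter]
  rw [hT]
  -- the map ((a,b),(c,e)) ↦ ((a,c),(b,e)) on the disjoint union of the squares
  have hsq : ∑ t ∈ DS P, (pr P t).card ^ 2 = ((DS P).sigma fun t => pr P t ×ˢ pr P t).card := by
    rw [Finset.card_sigma]
    refine Finset.sum_congr rfl fun t _ => ?_
    rw [Finset.card_product, sq]
  rw [hsq]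
  refine Finset.card_le_card_of_injOn
    (fun x : (Σ _ : ℝ, (E3 × E3) × (E3 × E3)) => ((x.2.1.1, x.2.2.1), (x.2.1.2, x.2.2.2))) ?_ ?_
  · rintro ⟨t, ⟨a, b⟩, ⟨c, e⟩⟩ hx
    simp only [Finset.coe_sigma, Set.mem_sigma_iff, Finset.mem_coe, Finset.mem_product, pr,
      Finset.mem_filter] at hx
    obtain ⟨_, ⟨⟨ha, hb⟩, hab, hd1⟩, ⟨⟨hc, he⟩, hce, hd2⟩⟩ := hx
    simp only [Finset.coe_filter, Finset.mem_product, Set.mem_ofPred_eq]
    refine ⟨⟨⟨ha, hc⟩, hb, he⟩, ?_, hab⟩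
    show dist a b = dist c e
    rw [hd1, hd2]
  · rintro ⟨t, ⟨a, b⟩, ⟨c, e⟩⟩ hx ⟨t', ⟨a', b'⟩, ⟨c', e'⟩⟩ hx' h
    simp only [Finset.coe_sigma, Set.mem_sigma_iff, Finset.mem_coe, Finset.mem_product, pr,
      Finset.mem_filter] at hx hx'
    simp only [Prod.mk.injEq] at h
    obtain ⟨⟨h1, h2⟩, h3, h4⟩ := h
    subst h1 h2 h3 h4
    have : t = t' := by rw [← hx.2.1.2.2, ← hx'.2.1.2.2]
    subst this
    rfl

lemma cauchy (P : Finset E3) :
    ((P.card ^ 2 - P.card : ℕ) : ℝ) ^ 2 ≤ (nd P : ℝ) * (TT (P ×ˢ P) : ℝ) := by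
  classical
  rw [← sum_pr, nd_eq_card]
  push_cast
  have h1 := sq_sum_le_card_mul_sum_sq (s := DS P) (f := fun t => ((pr P t).card : ℝ))
  refine h1.trans ?_
  have h2 : (∑ t ∈ DS P, ((pr P t).card : ℝ) ^ 2) ≤ (TT (P ×ˢ P) : ℝ) := by
    exact_mod_cast TT_prod P
  exact mul_le_mul_of_nonneg_left h2 (Nat.cast_nonneg _)

lemma ss_prod {P : Finset E3} (hP : P.Nonempty) : ss (P ×ˢ P) = 2 * P.card := by
  classical
  unfold ss
  rw [Finset.product_image_fst hP, Finset.product_image_snd hP]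
  ring

/-- the main theorem of the branch `d = 3`, real constant -/
def MainD3' : Prop := ∃ B : ℝ, ∀ Z : Finset (E3 × E3),
  (TT Z : ℝ) ^ 6 ≤ B * (Z.card : ℝ) ^ 7 * (ss Z : ℝ) ^ 6

/-- `n² ≤ (A t)³` -/
theorem bound_of_main' (H : MainD3') : ∃ A : ℝ, 0 < A ∧ ∀ P : Finset E3, 2 ≤ P.card →
    (P.card : ℝ) ^ 2 ≤ (A * (nd P : ℝ)) ^ 3 := by
  obtain ⟨B₀, hB₀⟩ := H
  -- enlarge B to a sixth power
  obtain ⟨b, hb1, hb⟩ : ∃ b : ℝ, 1 ≤ b ∧ B₀ ≤ b ^ 6 := by
    refine ⟨max 1 B₀, le_max_left _ _, (le_max_right 1 B₀).trans ?_⟩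
    exact le_self_pow₀ (le_max_left _ _) (by norm_num)
  refine ⟨64 * b, by positivity, fun P hP => ?_⟩
  have hne : P.Nonempty := Finset.card_pos.1 (by omega)
  set n : ℝ := (P.card : ℝ) with hn
  have hn2 : (2 : ℝ) ≤ n := by rw [hn]; exact_mod_cast hP
  set t : ℝ := (nd P : ℝ) with ht
  have ht0 : 0 ≤ t := Nat.cast_nonneg _
  set T : ℝ := (TT (P ×ˢ P) : ℝ) with hT
  have hT0 : 0 ≤ T := Nat.cast_nonneg _
  have h1 : T ^ 6 ≤ b ^ 6 * (n ^ 2) ^ 7 * (2 * n) ^ 6 := by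
    have := hB₀ (P ×ˢ P)
    rw [ss_prod hne, Finset.card_product] at this
    push_cast at this
    rw [← hn, ← hT] at this
    refine this.trans ?_
    rw [show n * n = n ^ 2 by ring]
    have h0 : 0 ≤ (n ^ 2) ^ 7 * (2 * n) ^ 6 := by positivity
    nlinarith [mul_le_mul_of_nonneg_right hb h0]
  have h2 : (n ^ 2 - n) ^ 2 ≤ t * T := by
    have := cauchy P
    rw [Nat.cast_sub (by nlinarith [hP])] at this
    push_cast at this
    exact this
  have h3 : n ^ 2 / 2 ≤ n ^ 2 - n := by nlinarith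
  have h4 : n ^ 4 / 4 ≤ t * T := by
    refine le_trans ?_ h2
    have := pow_le_pow_left₀ (by positivity) h3 2
    calc n ^ 4 / 4 = (n ^ 2 / 2) ^ 2 := by ring
      _ ≤ _ := this
  have h5 : (n ^ 4 / 4) ^ 6 ≤ t ^ 6 * (b ^ 6 * (n ^ 2) ^ 7 * (2 * n) ^ 6) := by
    calc (n ^ 4 / 4) ^ 6 ≤ (t * T) ^ 6 := pow_le_pow_left₀ (by positivity) h4 6
      _ = t ^ 6 * T ^ 6 := by ring
      _ ≤ _ := mul_le_mul_of_nonneg_left h1 (by positivity)
  have h6 : (n ^ 2) ^ 2 ≤ ((64 * b * t) ^ 3) ^ 2 := by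
    have hn20 : 0 < n ^ 20 := by positivity
    have h7 : n ^ 20 * n ^ 4 ≤ n ^ 20 * (4 ^ 6 * 2 ^ 6 * b ^ 6 * t ^ 6) := by
      have e1 : n ^ 20 * n ^ 4 = 4 ^ 6 * (n ^ 4 / 4) ^ 6 := by ring
      rw [e1]
      calc 4 ^ 6 * (n ^ 4 / 4) ^ 6 ≤ 4 ^ 6 * (t ^ 6 * (b ^ 6 * (n ^ 2) ^ 7 * (2 * n) ^ 6)) :=
            mul_le_mul_of_nonneg_left h5 (by positivity)
        _ = _ := by ring
    have h8 := le_of_mul_le_mul_left h7 hn20
    calc (n ^ 2) ^ 2 = n ^ 4 := by ring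
      _ ≤ 4 ^ 6 * 2 ^ 6 * b ^ 6 * t ^ 6 := h8
      _ ≤ 64 ^ 6 * b ^ 6 * t ^ 6 := by
        have : 0 ≤ b ^ 6 * t ^ 6 := by positivity
        nlinarith
      _ = ((64 * b * t) ^ 3) ^ 2 := by ring
  exact (sq_le_sq₀ (by positivity) (by positivity)).1 h6

lemma TT_eq (Z : Finset (E3 × E3)) : D3.TT D3.Nul Z = TT Z := by
  classical
  unfold D3.TT D3.EE TT
  refine Finset.sum_congr rfl fun z _ => ?_
  unfold D3.deg dg D3.nb
  congr 1

lemma ss_eq (Z : Finset (E3 × E3)) : D3.ss Z = ss Z := by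
  unfold D3.ss ss
  congr 2 <;> (congr; exact Subsingleton.elim _ _)

theorem main'_of_main (H : D3.MainD3) : MainD3' := by
  obtain ⟨B, hB⟩ := H
  refine ⟨(B : ℝ), fun Z => ?_⟩
  have h := hB Z
  rw [TT_eq, ss_eq] at h
  have h' : ((TT Z ^ 6 : ℕ) : ℝ) ≤ ((B * (Z.card ^ 7 * ss Z ^ 6) : ℕ) : ℝ) := by exact_mod_cast h
  push_cast at h'
  rw [mul_assoc]
  exact h'

/-- `n² ≤ (A t)³` from 235's `MainD3` -/
theorem bound_of_main (H : D3.MainD3) : ∃ A : ℝ, 0 < A ∧ ∀ P : Finset E3, 2 ≤ P.card →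
    (P.card : ℝ) ^ 2 ≤ (A * (nd P : ℝ)) ^ 3 := bound_of_main' (main'_of_main H)

/-- **S0087 for d = 3** from the main theorem D3 -/
theorem result_three (H : D3.MainD3) :
    ∃ c : ℝ, 0 < c ∧ ∀ P : Finset (EuclideanSpace ℝ (Fin 3)), 2 ≤ P.card →
      c * (P.card : ℝ) ^ ((2 : ℝ) / ((3 : ℕ) : ℝ)) ≤
        ({t : ℝ | ∃ p ∈ P, ∃ q ∈ P, p ≠ q ∧ dist p q = t}.ncard : ℝ) := by
  obtain ⟨A, hA, h⟩ := bound_of_main H
  exact result_of_bound (d := 3) (by norm_num) A hA h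

end Crest.Agent.R065.D3fin812
end

-- ▼ part R065/D3mult_235
section

/-!
# Row 65, d = 3, module D3c, part 1: multiplicity lemma for block systems
-/

set_option autoImplicit false

namespace Crest.Agent.R065.D3mult235

open Finset Crest.Agent.R065.D3

abbrev E3 := EuclideanSpace ℝ (Fin 3)

open scoped Classical in
/-- number of points of `A` on the line `ab` -/
noncomputable def lc (A : Finset E3) (a b : E3) : ℕ :=
  (A.filter fun x => Collinear ℝ ({a, b, x} : Set E3)).card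

open scoped Classical in
/-- LEMMA 2.1 (rich lines) -/
def RichPairs (C : ℝ) : Prop :=
  ∀ (A : Finset E3) (K r : ℝ), 2 ≤ K → 0 ≤ r →
    (∀ a ∈ A, ∀ b ∈ A, a ≠ b → (lc A a b : ℝ) ≤ r) →
    (((A ×ˢ A).filter fun p => p.1 ≠ p.2 ∧ K ≤ (lc A p.1 p.2 : ℝ)).card : ℝ) ≤
      C * ((A.card : ℝ) ^ 2 / K + r * A.card)

/-- sets with small intersections: weak lower bound of the union -/
lemma card_biUnion_ge {ι γ : Type*} [DecidableEq ι] [DecidableEq γ] (S : ι → Finset γ) {K : ℝ}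
    (hK : 0 ≤ K) : ∀ G : Finset ι, (∀ i ∈ G, ∀ j ∈ G, i ≠ j → ((S i ∩ S j).card : ℝ) ≤ K) →
      (∑ i ∈ G, ((S i).card : ℝ)) - K * (G.card : ℝ) ^ 2 / 2 ≤ (G.biUnion S).card := by
  intro G
  induction G using Finset.induction_on with
  | empty => intro _; simp
  | insert a G ha ih =>
    intro h
    have ih := ih fun i hi j hj => h i (mem_insert_of_mem hi) j (mem_insert_of_mem hj)
    rw [sum_insert ha, card_insert_of_notMem ha, biUnion_insert]
    have h1 : ((S a ∩ G.biUnion S).card : ℝ) ≤ K * G.card := by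
      have h2 : S a ∩ G.biUnion S = G.biUnion fun i => S a ∩ S i := by
        ext x; simp only [mem_inter, mem_biUnion]; tauto
      rw [h2]
      calc (((G.biUnion fun i => S a ∩ S i).card : ℕ) : ℝ)
          ≤ ((∑ i ∈ G, (S a ∩ S i).card : ℕ) : ℝ) := by exact_mod_cast card_biUnion_le
        _ = ∑ i ∈ G, ((S a ∩ S i).card : ℝ) := by push_cast; rfl
        _ ≤ ∑ _i ∈ G, K := sum_le_sum fun i hi => h a (mem_insert_self _ _) i
            (mem_insert_of_mem hi) (by rintro rfl; exact ha hi)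
        _ = K * G.card := by rw [sum_const, nsmul_eq_mul, mul_comm]
    have h3 : ((S a ∪ G.biUnion S).card : ℝ) + (S a ∩ G.biUnion S).card =
        (S a).card + (G.biUnion S).card := by
      exact_mod_cast card_union_add_card_inter _ _
    push_cast
    nlinarith

/-- sets with small intersections in a small set -/
lemma sum_card_le {ι γ : Type*} [DecidableEq ι] [DecidableEq γ] (S : ι → Finset γ) {K h D : ℝ}
    (hK : 0 < K) (hKh : K ≤ h) (G : Finset ι)
    (hint : ∀ i ∈ G, ∀ j ∈ G, i ≠ j → ((S i ∩ S j).card : ℝ) ≤ K)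
    (hh : ∀ i ∈ G, h ≤ ((S i).card : ℝ)) (hD : ((G.biUnion S).card : ℝ) ≤ D)
    (hDh : 4 * K * D < h ^ 2) :
    ∑ i ∈ G, ((S i).card : ℝ) ≤ 2 * (G.biUnion S).card := by
  have hpos : 0 < h := lt_of_lt_of_le hK hKh
  have key : ∀ G' ⊆ G, K * (G'.card : ℝ) ≤ h →
      ∑ i ∈ G', ((S i).card : ℝ) ≤ 2 * (G'.biUnion S).card := by
    intro G' hG' hc
    have h1 := card_biUnion_ge S hK.le G' fun i hi j hj => hint i (hG' hi) j (hG' hj)
    have h2 : (G'.card : ℝ) * h ≤ ∑ i ∈ G', ((S i).card : ℝ) := by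
      rw [← nsmul_eq_mul]
      exact card_nsmul_le_sum _ _ _ fun i hi => hh i (hG' hi)
    have h3 : K * (G'.card : ℝ) ^ 2 ≤ G'.card * h := by
      have : (0 : ℝ) ≤ G'.card := Nat.cast_nonneg _
      nlinarith
    linarith
  by_cases hc : K * (G.card : ℝ) ≤ h
  · exact key G (Subset.refl _) hc
  · exfalso
    push Not at hc
    -- choose a subfamily
    have hu : 1 ≤ h / K := by rwa [le_div_iff₀ hK, one_mul]
    obtain ⟨M, hM⟩ : ∃ M : ℕ, M = ⌊h / K⌋₊ := ⟨_, rfl⟩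
    have hM1 : (M : ℝ) ≤ h / K := by rw [hM]; exact Nat.floor_le (by linarith)
    have hM2 : h / K < M + 1 := by rw [hM]; exact Nat.lt_floor_add_one _
    have hM3 : 1 ≤ M := by rw [hM]; exact (Nat.one_le_floor_iff _).2 hu
    have hM3' : (1 : ℝ) ≤ M := by exact_mod_cast hM3
    have hMG : M ≤ G.card := by
      have : (M : ℝ) ≤ G.card := by
        refine hM1.trans ?_
        rw [div_le_iff₀ hK]; linarith
      exact_mod_cast this
    obtain ⟨G', hG', hcard⟩ := exists_subset_card_eq hMG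
    have h1 := key G' hG' (by rw [hcard]; rw [le_div_iff₀ hK] at hM1; linarith)
    have h2 : (G'.card : ℝ) * h ≤ ∑ i ∈ G', ((S i).card : ℝ) := by
      rw [← nsmul_eq_mul]
      exact card_nsmul_le_sum _ _ _ fun i hi => hh i (hG' hi)
    have h3 : ((G'.biUnion S).card : ℝ) ≤ D := by
      refine le_trans ?_ hD
      exact_mod_cast card_le_card (biUnion_subset_biUnion_of_subset_left S hG')
    rw [hcard] at h2
    have h4 : h < (M + 1) * K := by rwa [div_lt_iff₀ hK] at hM2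
    have h5 : h ≤ 2 * M * K := by nlinarith
    have h6 : (M : ℝ) * h ≤ 2 * D := by linarith
    have h7 : h ^ 2 ≤ 4 * K * D := by
      calc h ^ 2 = h * h := by ring
        _ ≤ (2 * M * K) * h := by gcongr
        _ = 2 * K * (M * h) := by ring
        _ ≤ 2 * K * (2 * D) := by gcongr
        _ = 4 * K * D := by ring
    linarith

section mult

open scoped Classical in
/-- first coordinates -/
noncomputable def p1 (X : Finset PP) : Finset E3 := X.image Prod.fst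

lemma mem_p1 {X : Finset PP} {a : E3} : a ∈ p1 X ↔ ∃ z ∈ X, z.1 = a := by
  classical
  simp [p1]

open scoped Classical in
/-- poor partners -/
noncomputable def poor (K : ℝ) (X : Finset PP) (z : PP) : Finset PP :=
  X.filter fun w => w.1 ≠ z.1 ∧ (lc (p1 X) z.1 w.1 : ℝ) < K

lemma mem_poor {K : ℝ} {X : Finset PP} {z w : PP} :
    w ∈ poor K X z ↔ w ∈ X ∧ w.1 ≠ z.1 ∧ (lc (p1 X) z.1 w.1 : ℝ) < K := by
  classical
  simp [poor]

open scoped Classical in
/-- points with many poor partners -/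
noncomputable def good (K : ℝ) (X : Finset PP) : Finset PP :=
  X.filter fun z => (X.card : ℝ) ≤ 2 * (poor K X z).card

lemma mem_good {K : ℝ} {X : Finset PP} {z : PP} :
    z ∈ good K X ↔ z ∈ X ∧ (X.card : ℝ) ≤ 2 * (poor K X z).card := by
  classical
  simp [good]

lemma injOn_fst {X : Finset PP} (hiso : ∀ u ∈ X, ∀ v ∈ X, dist u.1 v.1 = dist u.2 v.2) :
    Set.InjOn Prod.fst (X : Set PP) := by
  intro u hu v hv h
  have h1 := hiso u hu v hv
  rw [h, dist_self] at h1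
  exact Prod.ext h (dist_eq_zero.1 h1.symm)

lemma card_p1 {X : Finset PP} (hiso : ∀ u ∈ X, ∀ v ∈ X, dist u.1 v.1 = dist u.2 v.2) :
    (p1 X).card = X.card := by
  classical
  exact card_image_of_injOn (injOn_fst hiso)

/-- most pairs in a block are poor -/
lemma sum_poor {C K x0 r : ℝ} (hR : RichPairs C) (hC : 0 < C) (hK : 32 * C ≤ K) (hK2 : 2 ≤ K)
    (hx : 32 ≤ x0) (hr : 32 * C * r ≤ x0) {X : Finset PP}
    (hiso : ∀ u ∈ X, ∀ v ∈ X, dist u.1 v.1 = dist u.2 v.2) (hX : x0 ≤ X.card)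
    (hline : ∀ a b : E3, a ≠ b → (lc (p1 X) a b : ℝ) ≤ r) :
    7 / 8 * (X.card : ℝ) ^ 2 ≤ ∑ z ∈ X, ((poor K X z).card : ℝ) := by
  classical
  obtain ⟨x, hxdef⟩ : ∃ x : ℝ, x = X.card := ⟨_, rfl⟩
  have hr0 : 0 ≤ r := by
    obtain ⟨a, b, hab⟩ := exists_pair_ne E3
    exact le_trans (Nat.cast_nonneg _) (hline a b hab)
  have hrich := hR (p1 X) K r hK2 hr0 fun a _ b _ h => hline a b h
  rw [card_p1 hiso, ← hxdef] at hrich
  have hxx : x0 ≤ x := by rw [hxdef]; exact hX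
  have hKp : 0 < K := by linarith
  have h1 : C * (x ^ 2 / K + r * x) ≤ x ^ 2 / 16 := by
    have h2 : C * (x ^ 2 / K) ≤ x ^ 2 / 32 := by
      rw [mul_div_assoc', div_le_iff₀ hKp]
      nlinarith [sq_nonneg x]
    have h3 : C * (r * x) ≤ x ^ 2 / 32 := by nlinarith
    linarith
  -- split of X × X
  have h2 : (X.card : ℝ) * X.card ≤ (∑ z ∈ X, ((poor K X z).card : ℝ)) + X.card +
      (((p1 X ×ˢ p1 X).filter fun p => p.1 ≠ p.2 ∧ K ≤ (lc (p1 X) p.1 p.2 : ℝ)).card : ℝ) := by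
    have h3 : X ×ˢ X ⊆ (X.sigma fun z => poor K X z).image (fun p => (p.1, p.2)) ∪
        X.image (fun z => (z, z)) ∪
        (X ×ˢ X).filter (fun p => p.1.1 ≠ p.2.1 ∧ K ≤ (lc (p1 X) p.1.1 p.2.1 : ℝ)) := by
      rintro ⟨z, w⟩ h
      rw [mem_product] at h
      simp only [mem_union, mem_image, mem_sigma, mem_filter, mem_product]
      by_cases h4 : w.1 = z.1
      · left; right
        have h5 : w = z := injOn_fst hiso h.2 h.1 h4
        exact ⟨z, h.1, by rw [h5]⟩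
      · by_cases h5 : (lc (p1 X) z.1 w.1 : ℝ) < K
        · left; left
          exact ⟨⟨z, w⟩, ⟨h.1, mem_poor.2 ⟨h.2, h4, h5⟩⟩, rfl⟩
        · right
          exact ⟨h, fun h6 => h4 h6.symm, not_lt.1 h5⟩
    have h4 := card_le_card h3
    rw [card_product] at h4
    have h5 : ((X.sigma fun z => poor K X z).image (fun p => (p.1, p.2))).card ≤
        ∑ z ∈ X, (poor K X z).card := by
      refine card_image_le.trans ?_
      rw [card_sigma]
    have h6 : (X.image (fun z => (z, z))).card ≤ X.card := card_image_le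
    have h7 : ((X ×ˢ X).filter
        (fun p => p.1.1 ≠ p.2.1 ∧ K ≤ (lc (p1 X) p.1.1 p.2.1 : ℝ))).card ≤
        ((p1 X ×ˢ p1 X).filter fun p => p.1 ≠ p.2 ∧ K ≤ (lc (p1 X) p.1 p.2 : ℝ)).card := by
      refine card_le_card_of_injOn (fun p => (p.1.1, p.2.1)) ?_ ?_
      · rintro ⟨z, w⟩ h
        rw [mem_coe, mem_filter, mem_product] at h
        rw [mem_coe, mem_filter, mem_product]
        exact ⟨⟨mem_p1.2 ⟨z, h.1.1, rfl⟩, mem_p1.2 ⟨w, h.1.2, rfl⟩⟩, h.2⟩
      · rintro ⟨z, w⟩ h ⟨z', w'⟩ h' heq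
        rw [mem_coe, mem_filter, mem_product] at h h'
        simp only [Prod.mk.injEq] at heq
        exact Prod.ext (injOn_fst hiso h.1.1 h'.1.1 heq.1) (injOn_fst hiso h.1.2 h'.1.2 heq.2)
    have h8 := card_union_le ((X.sigma fun z => poor K X z).image (fun p => (p.1, p.2)) ∪
        X.image (fun z => (z, z)))
        ((X ×ˢ X).filter (fun p => p.1.1 ≠ p.2.1 ∧ K ≤ (lc (p1 X) p.1.1 p.2.1 : ℝ)))
    have h9 := card_union_le ((X.sigma fun z => poor K X z).image (fun p => (p.1, p.2)))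
      (X.image (fun z => (z, z)))
    have h10 : X.card * X.card ≤ (∑ z ∈ X, (poor K X z).card) + X.card +
        ((p1 X ×ˢ p1 X).filter fun p => p.1 ≠ p.2 ∧ K ≤ (lc (p1 X) p.1 p.2 : ℝ)).card := by
      omega
    exact_mod_cast h10
  rw [← hxdef] at h2 ⊢
  nlinarith

lemma card_good {C K x0 r : ℝ} (hR : RichPairs C) (hC : 0 < C) (hK : 32 * C ≤ K) (hK2 : 2 ≤ K)
    (hx : 32 ≤ x0) (hr : 32 * C * r ≤ x0) {X : Finset PP}
    (hiso : ∀ u ∈ X, ∀ v ∈ X, dist u.1 v.1 = dist u.2 v.2) (hX : x0 ≤ X.card)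
    (hline : ∀ a b : E3, a ≠ b → (lc (p1 X) a b : ℝ) ≤ r) :
    3 / 4 * (X.card : ℝ) ≤ (good K X).card := by
  classical
  have h1 := sum_poor hR hC hK hK2 hx hr hiso hX hline
  have hsub : good K X ⊆ X := fun z hz => (mem_good.1 hz).1
  have h2 : ∑ z ∈ X, ((poor K X z).card : ℝ) = ∑ z ∈ X \ good K X, ((poor K X z).card : ℝ) +
      ∑ z ∈ good K X, ((poor K X z).card : ℝ) := (sum_sdiff hsub).symm
  have h3 : ∑ z ∈ X \ good K X, ((poor K X z).card : ℝ) ≤ ((X \ good K X).card : ℝ) *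
      ((X.card : ℝ) / 2) := by
    rw [← nsmul_eq_mul]
    refine sum_le_card_nsmul _ _ _ fun z hz => ?_
    rw [mem_sdiff, mem_good, not_and, not_le] at hz
    have := hz.2 hz.1
    linarith
  have h4 : ∑ z ∈ good K X, ((poor K X z).card : ℝ) ≤ ((good K X).card : ℝ) * X.card := by
    rw [← nsmul_eq_mul]
    refine sum_le_card_nsmul _ _ _ fun z _ => ?_
    exact_mod_cast card_le_card fun w hw => (mem_poor.1 hw).1
  have h5 : ((X \ good K X).card : ℝ) = X.card - (good K X).card := by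
    rw [card_sdiff_of_subset hsub, Nat.cast_sub (card_le_card hsub)]
  rw [h5] at h3
  have hxp : (0 : ℝ) < X.card := by linarith
  have h6 : (7 / 8 * (X.card : ℝ)) * X.card ≤
      ((X.card - (good K X).card) / 2 + (good K X).card) * X.card := by nlinarith
  have h7 := le_of_mul_le_mul_right h6 hxp
  linarith

/-- two blocks through `z` share few poor partners -/
lemma card_inter {K : ℝ} (hK : 0 ≤ K) {X X' : Finset PP} {z : PP} (hz : z ∈ X) (hz' : z ∈ X')
    (hiso : ∀ u ∈ X, ∀ v ∈ X, dist u.1 v.1 = dist u.2 v.2)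
    (hcol : Collinear ℝ {a : E3 | ∃ u, u ∈ X ∧ u ∈ X' ∧ u.1 = a}) [DecidableEq PP] :
    ((poor K X z ∩ poor K X' z).card : ℝ) ≤ K := by
  classical
  rcases (poor K X z ∩ poor K X' z).eq_empty_or_nonempty with h | ⟨w0, hw0⟩
  · rw [h]; simpa using hK
  · rw [mem_inter] at hw0
    have h0 := mem_poor.1 hw0.1
    have h0' := mem_poor.1 hw0.2
    refine le_trans ?_ h0.2.2.le
    unfold lc
    norm_cast
    refine card_le_card_of_injOn Prod.fst ?_ ?_
    · intro w hw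
      rw [mem_coe, mem_inter] at hw
      have h1 := mem_poor.1 hw.1
      have h1' := mem_poor.1 hw.2
      rw [mem_coe, mem_filter]
      refine ⟨mem_p1.2 ⟨w, h1.1, rfl⟩, hcol.subset ?_⟩
      intro a ha
      rcases ha with rfl | rfl | rfl
      · exact ⟨z, hz, hz', rfl⟩
      · exact ⟨w0, h0.1, h0'.1, rfl⟩
      · exact ⟨w, h1.1, h1'.1, rfl⟩
    · intro w hw w' hw' h
      rw [mem_coe, mem_inter] at hw hw'
      exact injOn_fst hiso (mem_poor.1 hw.1).1 (mem_poor.1 hw'.1).1 h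

/-- **multiplicity lemma** -/
theorem mult {C K D x0 r : ℝ} (hR : RichPairs C) (hC : 0 < C) (hK : 32 * C ≤ K) (hK2 : 2 ≤ K)
    (hx : 32 ≤ x0) (hr : 32 * C * r ≤ x0) (hxK : 2 * K ≤ x0) (hxD : 16 * K * D < x0 ^ 2)
    (Z : Finset PP) (hdeg : ∀ z ∈ Z, (deg Nul Z z : ℝ) ≤ D)
    {ι : Type*} (F : Finset ι) (X : ι → Finset PP) (hsub : ∀ i ∈ F, X i ⊆ Z)
    (hiso : ∀ i ∈ F, ∀ u ∈ X i, ∀ v ∈ X i, dist u.1 v.1 = dist u.2 v.2)
    (hcol : ∀ i ∈ F, ∀ j ∈ F, i ≠ j →
      Collinear ℝ {a : E3 | ∃ u, u ∈ X i ∧ u ∈ X j ∧ u.1 = a})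
    (hX : ∀ i ∈ F, x0 ≤ ((X i).card : ℝ))
    (hline : ∀ i ∈ F, ∀ a b : E3, a ≠ b → (lc (p1 (X i)) a b : ℝ) ≤ r)
    (W : PP → PP → Prop) (hW : ∀ i ∈ F, ∀ z ∈ X i, ∀ w ∈ X i, W z w) :
    ∑ i ∈ F, ((X i).card : ℝ) ^ 2 ≤
      6 * ∑ z ∈ Z, (deg (fun z w => Nul z w ∧ W z w) Z z : ℝ) := by
  classical
  have hKp : 0 < K := by linarith
  -- good blocks at `z`
  have hz : ∀ z ∈ Z, ∑ i ∈ F.filter (fun i => z ∈ good K (X i)), ((X i).card : ℝ) ≤
      4 * (deg (fun z w => Nul z w ∧ W z w) Z z : ℝ) := by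
    intro z _
    set G := F.filter (fun i => z ∈ good K (X i)) with hG
    have hGF : ∀ i ∈ G, i ∈ F ∧ z ∈ good K (X i) := fun i hi => mem_filter.1 hi
    have hU : G.biUnion (fun i => poor K (X i) z) ⊆ nb (fun z w => Nul z w ∧ W z w) Z z := by
      intro w hw
      rw [mem_biUnion] at hw
      obtain ⟨i, hi, hw⟩ := hw
      have h1 := hGF i hi
      have h2 := mem_poor.1 hw
      have h3 := (mem_good.1 h1.2).1
      rw [mem_nb]
      exact ⟨hsub i h1.1 h2.1, ⟨hiso i h1.1 z h3 w h2.1, h2.2.1.symm⟩, hW i h1.1 z h3 w h2.1⟩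
    have hU1 : ((G.biUnion (fun i => poor K (X i) z)).card : ℝ) ≤
        (deg (fun z w => Nul z w ∧ W z w) Z z : ℝ) := by exact_mod_cast card_le_card hU
    have hU2 : ((G.biUnion (fun i => poor K (X i) z)).card : ℝ) ≤ D := by
      refine le_trans ?_ (hdeg z ‹_›)
      have : G.biUnion (fun i => poor K (X i) z) ⊆ nb Nul Z z := by
        refine hU.trans fun w hw => ?_
        rw [mem_nb] at hw ⊢
        exact ⟨hw.1, hw.2.1⟩
      exact_mod_cast card_le_card this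
    have h1 := sum_card_le (fun i => poor K (X i) z) hKp (h := x0 / 2) (D := D) (by linarith) G
      (fun i hi j hj hij => card_inter hKp.le (mem_good.1 (hGF i hi).2).1
        (mem_good.1 (hGF j hj).2).1 (hiso i (hGF i hi).1) (hcol i (hGF i hi).1 j (hGF j hj).1 hij))
      (fun i hi => by
        have h2 := (mem_good.1 (hGF i hi).2).2
        have h3 := hX i (hGF i hi).1
        linarith) hU2 (by linarith)
    have h2 : ∑ i ∈ G, ((X i).card : ℝ) ≤ 2 * ∑ i ∈ G, ((poor K (X i) z).card : ℝ) := by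
      rw [mul_sum]
      exact sum_le_sum fun i hi => (mem_good.1 (hGF i hi).2).2
    linarith
  -- summation
  have h1 : ∑ i ∈ F, ((X i).card : ℝ) ^ 2 ≤
      4 / 3 * ∑ i ∈ F, ∑ z ∈ good K (X i), ((X i).card : ℝ) := by
    rw [mul_sum]
    refine sum_le_sum fun i hi => ?_
    rw [sum_const, nsmul_eq_mul]
    have h2 := card_good hR hC hK hK2 hx hr (hiso i hi) (hX i hi) (hline i hi)
    have h3 : (0 : ℝ) ≤ (X i).card := Nat.cast_nonneg _
    nlinarith
  have h2 : ∑ i ∈ F, ∑ z ∈ good K (X i), ((X i).card : ℝ) =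
      ∑ z ∈ Z, ∑ i ∈ F.filter (fun i => z ∈ good K (X i)), ((X i).card : ℝ) := by
    have h3 : ∀ i ∈ F, ∑ z ∈ good K (X i), ((X i).card : ℝ) =
        ∑ z ∈ Z, if z ∈ good K (X i) then ((X i).card : ℝ) else 0 := by
      intro i hi
      rw [← sum_filter]
      refine sum_congr ?_ fun _ _ => rfl
      ext z
      rw [mem_filter]
      exact ⟨fun h => ⟨hsub i hi (mem_good.1 h).1, h⟩, fun h => h.2⟩
    rw [sum_congr rfl h3, sum_comm]
    refine sum_congr rfl fun z _ => ?_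
    rw [sum_filter]
  rw [h2] at h1
  have h4 := sum_le_sum hz
  rw [← mul_sum] at h4
  have h5 : 0 ≤ ∑ z ∈ Z, (deg (fun z w => Nul z w ∧ W z w) Z z : ℝ) :=
    sum_nonneg fun _ _ => Nat.cast_nonneg _
  linarith

end mult

end Crest.Agent.R065.D3mult235
end

-- ▼ part R065/D3cell_235
section

/-!
# Row 65, d = 3, module D3c, part 2: cells
-/

set_option autoImplicit false

namespace Crest.Agent.R065.D3cell235

open Finset Crest.Agent.R065.D3 Crest.Agent.R065.D3mult235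

/-- cell of side `2^k` -/
noncomputable def cel (o : ℝ) (k : ℤ) (x : E3) : Fin 3 → ℤ := fun i => ⌊(x i - o) / (2 : ℝ) ^ k⌋

lemma two_pow_pos (k : ℤ) : (0 : ℝ) < 2 ^ k := by positivity

lemma cel_half {o : ℝ} {k : ℤ} {x : E3} {j : Fin 3 → ℤ} {m : ℤ}
    (h : ∀ i, |cel o k x i - j i| ≤ m) (i : Fin 3) :
    cel o (k - 1) x i ∈ Icc (2 * (j i - m)) (2 * (j i + m) + 1) := by
  have h1 := abs_le.1 (h i)
  unfold cel at h1 ⊢
  have hp := two_pow_pos k
  have h2 : (x i - o) / (2 : ℝ) ^ (k - 1) = 2 * ((x i - o) / (2 : ℝ) ^ k) := by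
    rw [zpow_sub_one₀ (by norm_num)]
    field_simp
  rw [h2]
  obtain ⟨u, hu⟩ : ∃ u : ℝ, u = (x i - o) / (2 : ℝ) ^ k := ⟨_, rfl⟩
  rw [← hu] at h1 ⊢
  have h3 : (⌊u⌋ : ℝ) ≤ u := Int.floor_le u
  have h4 : u < ⌊u⌋ + 1 := Int.lt_floor_add_one u
  have h5 : 2 * ⌊u⌋ ≤ ⌊2 * u⌋ := by
    rw [Int.le_floor]; push_cast; linarith
  have h6 : ⌊2 * u⌋ < 2 * ⌊u⌋ + 2 := by
    rw [Int.floor_lt]; push_cast; linarith
  rw [mem_Icc]
  constructor <;> omega

lemma cel_eq_dist {o : ℝ} {k : ℤ} {x y : E3} (h : cel o k x = cel o k y) :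
    dist x y < 2 * 2 ^ k := by
  have hp := two_pow_pos k
  have h1 : ∀ i, |x i - y i| < 2 ^ k := by
    intro i
    have h2 : ⌊(x i - o) / (2 : ℝ) ^ k⌋ = ⌊(y i - o) / (2 : ℝ) ^ k⌋ := congrFun h i
    have h3 := Int.abs_sub_lt_one_of_floor_eq_floor h2
    rw [← sub_div, abs_div, abs_of_pos hp, div_lt_one hp] at h3
    rwa [show x i - y i = x i - o - (y i - o) by ring]
  rw [EuclideanSpace.dist_eq, Fin.sum_univ_three]
  have h4 : ∀ i, dist (x i) (y i) ^ 2 ≤ (2 ^ k : ℝ) ^ 2 := by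
    intro i
    rw [Real.dist_eq]
    exact pow_le_pow_left₀ (abs_nonneg _) (h1 i).le 2
  rw [Real.sqrt_lt' (by positivity)]
  have h5 := h4 0
  have h6 := h4 1
  have h7 := h4 2
  have h8 : 0 < (2 ^ k : ℝ) ^ 2 := by positivity
  nlinarith

lemma dist_cel {o : ℝ} {k : ℤ} {x y : E3} (h : dist x y < 2 * 2 ^ k) (i : Fin 3) :
    |cel o k x i - cel o k y i| ≤ 2 := by
  have hp := two_pow_pos k
  have h1 : |x i - y i| ≤ dist x y := by
    rw [EuclideanSpace.dist_eq, ← Real.dist_eq]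
    refine Real.le_sqrt_of_sq_le ?_
    exact single_le_sum (f := fun i => dist (x i) (y i) ^ 2) (fun i _ => sq_nonneg _) (mem_univ i)
  have h2 : |x i - y i| < 2 * 2 ^ k := lt_of_le_of_lt h1 h
  have h3 : |(x i - o) / (2 : ℝ) ^ k - (y i - o) / (2 : ℝ) ^ k| < 2 := by
    rw [← sub_div, abs_div, abs_of_pos hp, div_lt_iff₀ hp]
    rwa [show x i - o - (y i - o) = x i - y i by ring]
  unfold cel
  rw [abs_lt] at h3
  have h4 := Int.floor_le ((x i - o) / (2 : ℝ) ^ k)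
  have h5 := Int.lt_floor_add_one ((x i - o) / (2 : ℝ) ^ k)
  have h6 := Int.floor_le ((y i - o) / (2 : ℝ) ^ k)
  have h7 := Int.lt_floor_add_one ((y i - o) / (2 : ℝ) ^ k)
  have h8 : ((⌊(x i - o) / (2 : ℝ) ^ k⌋ - ⌊(y i - o) / (2 : ℝ) ^ k⌋ : ℤ) : ℝ) < (3 : ℤ) := by
    push_cast; linarith
  have h9 : ((-3 : ℤ) : ℝ) < ((⌊(x i - o) / (2 : ℝ) ^ k⌋ - ⌊(y i - o) / (2 : ℝ) ^ k⌋ : ℤ) : ℝ) := by
    push_cast; linarith
  rw [Int.cast_lt] at h8 h9
  rw [abs_le]
  constructor <;> omega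

open scoped Classical in
/-- points of `Z` whose `p`-coordinate has cell within `m` of `j` -/
noncomputable def nbh (Z : Finset PP) (p : PP → E3) (o : ℝ) (k : ℤ) (m : ℤ) (j : Fin 3 → ℤ) :
    Finset PP := Z.filter fun z => ∀ i, |cel o k (p z) i - j i| ≤ m

lemma mem_nbh {Z : Finset PP} {p : PP → E3} {o : ℝ} {k : ℤ} {m : ℤ} {j : Fin 3 → ℤ} {z : PP} :
    z ∈ nbh Z p o k m j ↔ z ∈ Z ∧ ∀ i, |cel o k (p z) i - j i| ≤ m := by
  classical
  simp [nbh]

lemma mem_nbh_zero {Z : Finset PP} {p : PP → E3} {o : ℝ} {k : ℤ} {j : Fin 3 → ℤ} {z : PP} :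
    z ∈ nbh Z p o k 0 j ↔ z ∈ Z ∧ cel o k (p z) = j := by
  rw [mem_nbh]
  refine and_congr Iff.rfl ⟨fun h => funext fun i => ?_, ?_⟩
  · have := h i
    rw [abs_nonpos_iff] at this
    omega
  · rintro rfl i
    simp

lemma sum_biUnion_le_sum {ι γ : Type*} [DecidableEq ι] [DecidableEq γ] (J : Finset ι)
    (S : ι → Finset γ) (f : γ → ℕ) : ∑ z ∈ J.biUnion S, f z ≤ ∑ j ∈ J, ∑ z ∈ S j, f z := by
  induction J using Finset.induction_on with
  | empty => simp
  | insert a J ha ih =>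
    rw [sum_insert ha, biUnion_insert]
    have := sum_union_inter (s₁ := S a) (s₂ := J.biUnion S) (f := f)
    omega

/-- energy of a neighbourhood from the energies of the cells one level below -/
lemma EE_nbh_le {r : PP → PP → Prop} {Z : Finset PP} {p : PP → E3} {o : ℝ} {k : ℤ} {M : ℝ}
    (h : ∀ j, (EE r (nbh Z p o (k - 1) 0 j) Z : ℝ) ≤ M) (m : ℕ) (j : Fin 3 → ℤ) :
    (EE r (nbh Z p o k m j) Z : ℝ) ≤ (4 * m + 2) ^ 3 * M := by
  classical
  set J : Finset (Fin 3 → ℤ) :=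
    Fintype.piFinset fun i => Icc (2 * (j i - (m : ℤ))) (2 * (j i + (m : ℤ)) + 1) with hJ
  have hsub : nbh Z p o k m j ⊆ J.biUnion fun j' => nbh Z p o (k - 1) 0 j' := by
    intro z hz
    rw [mem_nbh] at hz
    rw [mem_biUnion]
    refine ⟨cel o (k - 1) (p z), ?_, mem_nbh_zero.2 ⟨hz.1, rfl⟩⟩
    rw [hJ, Fintype.mem_piFinset]
    exact fun i => cel_half hz.2 i
  have hcard : (J.card : ℝ) = (4 * m + 2) ^ 3 := by
    rw [hJ, Fintype.card_piFinset, Fin.prod_univ_three]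
    simp only [Int.card_Icc]
    have : ∀ i, (2 * (j i + (m : ℤ)) + 1 + 1 - 2 * (j i - (m : ℤ))).toNat = 4 * m + 2 := by
      intro i; omega
    rw [this, this, this]
    push_cast; ring
  calc (EE r (nbh Z p o k m j) Z : ℝ)
      ≤ ((∑ z ∈ J.biUnion fun j' => nbh Z p o (k - 1) 0 j', deg r Z z : ℕ) : ℝ) := by
        exact_mod_cast sum_le_sum_of_subset hsub
    _ ≤ ((∑ j' ∈ J, ∑ z ∈ nbh Z p o (k - 1) 0 j', deg r Z z : ℕ) : ℝ) := by
        exact_mod_cast sum_biUnion_le_sum _ _ _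
    _ = ∑ j' ∈ J, (EE r (nbh Z p o (k - 1) 0 j') Z : ℝ) := by
        push_cast [EE]; rfl
    _ ≤ ∑ _j' ∈ J, M := sum_le_sum fun j' _ => h j'
    _ = (4 * m + 2) ^ 3 * M := by rw [sum_const, nsmul_eq_mul, hcard]

end Crest.Agent.R065.D3cell235
end

-- ▼ part R065/D3c_235
section

/-!
# Row 65, d = 3, module D3c: STEP B
-/

set_option autoImplicit false

namespace Crest.Agent.R065.D3c235

open Finset Crest.Agent.R065.D3 Crest.Agent.R065.D3mult235 Crest.Agent.R065.D3cell235 Filter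

/-- the two coordinates -/
def co (b : Bool) (z : PP) : E3 := if b then z.1 else z.2

@[simp] lemma co_true (z : PP) : co true z = z.1 := rfl
@[simp] lemma co_false (z : PP) : co false z = z.2 := rfl

lemma Nul.dist_co {z w : PP} (h : Nul z w) (b : Bool) :
    dist (co (!b) z) (co (!b) w) = dist (co b z) (co b w) := by
  cases b
  · exact h.1
  · exact h.1.symm

/-- energies of the cells -/
noncomputable def En (Z : Finset PP) (o : ℝ) (b : Bool) (k : ℤ) (j : Fin 3 → ℤ) : ℕ :=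
  EE Nul (nbh Z (co b) o k 0 j) Z

open scoped Classical in
/-- fibres -/
noncomputable def fib (Z : Finset PP) (b : Bool) (a : E3) : Finset PP := Z.filter fun z => co b z = a

lemma mem_fib {Z : Finset PP} {b : Bool} {a : E3} {z : PP} :
    z ∈ fib Z b a ↔ z ∈ Z ∧ co b z = a := by
  classical
  simp [fib]

lemma exists_origin (Z : Finset PP) : ∃ o : ℝ, ∀ z ∈ Z, ∀ (b : Bool) (i : Fin 3), o ≤ co b z i := by
  have : ∀ᶠ o : ℝ in atBot, ∀ z ∈ Z, ∀ (b : Bool) (i : Fin 3), o ≤ co b z i := by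
    rw [eventually_all_finset]
    intro z _
    rw [eventually_all]
    intro b
    rw [eventually_all]
    intro i
    exact eventually_le_atBot _
  exact this.exists

lemma exists_large (Z : Finset PP) (o : ℝ) :
    ∃ n : ℕ, ∀ z ∈ Z, ∀ (b : Bool) (i : Fin 3), co b z i - o < 2 ^ n := by
  have : ∀ᶠ n : ℕ in atTop, ∀ z ∈ Z, ∀ (b : Bool) (i : Fin 3), co b z i - o < 2 ^ n := by
    rw [eventually_all_finset]
    intro z _
    rw [eventually_all]
    intro b
    rw [eventually_all]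
    intro i
    exact (tendsto_pow_atTop_atTop_of_one_lt (by norm_num : (1 : ℝ) < 2)).eventually_gt_atTop _
  exact this.exists

lemma exists_small (Z : Finset PP) : ∃ n : ℕ, ∀ z ∈ Z, ∀ w ∈ Z, ∀ b : Bool, co b z ≠ co b w →
    2 * (2 : ℝ) ^ (-(n : ℤ)) ≤ dist (co b z) (co b w) := by
  have : ∀ᶠ n : ℕ in atTop, ∀ z ∈ Z, ∀ w ∈ Z, ∀ b : Bool, co b z ≠ co b w →
      2 * (2 : ℝ) ^ (-(n : ℤ)) ≤ dist (co b z) (co b w) := by
    rw [eventually_all_finset]
    intro z _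
    rw [eventually_all_finset]
    intro w _
    rw [eventually_all]
    intro b
    rw [eventually_imp_distrib_left]
    intro h
    have h1 : Tendsto (fun n : ℕ => 2 * (2 : ℝ) ^ (-(n : ℤ))) atTop (nhds (2 * 0)) := by
      refine Tendsto.const_mul _ ?_
      have h2 : (fun n : ℕ => (2 : ℝ) ^ (-(n : ℤ))) = fun n : ℕ => (1 / 2 : ℝ) ^ n := by
        funext n
        rw [zpow_neg, zpow_natCast, one_div, inv_pow]
      rw [h2]
      exact tendsto_pow_atTop_nhds_zero_of_lt_one (by norm_num) (by norm_num)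
    rw [mul_zero] at h1
    have h3 : 0 < dist (co b z) (co b w) := dist_pos.2 h
    exact (h1.eventually_lt_const h3).mono fun n hn => hn.le
  exact this.exists

/-- choice of the scale -/
lemma exists_scale (Z : Finset PP) (o : ℝ) (ho : ∀ z ∈ Z, ∀ (b : Bool) (i : Fin 3), o ≤ co b z i)
    {M : ℝ} (hT : M ≤ TT Nul Z) (hM : 0 < M)
    (hfib : ∀ (b : Bool) (a : E3), (EE Nul (fib Z b a) Z : ℝ) < M) :
    ∃ k : ℤ, (∀ b j, (En Z o b (k - 1) j : ℝ) ≤ M) ∧ ∃ b j, M ≤ (En Z o b k j : ℝ) := by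
  obtain ⟨n1, hn1⟩ := exists_large Z o
  obtain ⟨n2, hn2⟩ := exists_small Z
  have hbdd : ∃ b : ℤ, ∀ k : ℤ, (∃ b j, M ≤ (En Z o b k j : ℝ)) → b ≤ k := by
    refine ⟨-(n2 : ℤ), fun k => ?_⟩
    rintro ⟨b, j, h⟩
    by_contra hk
    push Not at hk
    -- a cell contains only one value
    have hne : (nbh Z (co b) o k 0 j).Nonempty := by
      rw [nonempty_iff_ne_empty]
      intro h0
      unfold En at h
      rw [h0] at h
      simp [EE] at h
      linarith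
    obtain ⟨z0, hz0⟩ := hne
    have hz0' := mem_nbh_zero.1 hz0
    have hsub : nbh Z (co b) o k 0 j ⊆ fib Z b (co b z0) := by
      intro z hz
      have hz' := mem_nbh_zero.1 hz
      rw [mem_fib]
      refine ⟨hz'.1, ?_⟩
      by_contra hne
      have h1 := hn2 z hz'.1 z0 hz0'.1 b hne
      have h2 := cel_eq_dist (hz'.2.trans hz0'.2.symm)
      have h3 : (2 : ℝ) ^ k ≤ 2 ^ (-(n2 : ℤ)) := zpow_le_zpow_right₀ (by norm_num) hk.le
      linarith
    have h1 : (En Z o b k j : ℝ) ≤ EE Nul (fib Z b (co b z0)) Z := by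
      exact_mod_cast EE_mono hsub (Subset.refl _)
    have h2 := hfib b (co b z0)
    linarith
  have hinh : ∃ k : ℤ, (∃ b j, M ≤ (En Z o b k j : ℝ)) := by
    refine ⟨n1, true, 0, ?_⟩
    have h1 : nbh Z (co true) o n1 0 0 = Z := by
      ext z
      rw [mem_nbh_zero]
      refine ⟨fun h => h.1, fun h => ⟨h, funext fun i => ?_⟩⟩
      unfold cel
      rw [Pi.zero_apply, Int.floor_eq_zero_iff, Set.mem_Ico]
      have h2 := ho z h true i
      have h3 := hn1 z h true i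
      have hp : (0 : ℝ) < 2 ^ (n1 : ℤ) := by positivity
      rw [zpow_natCast] at *
      constructor
      · exact div_nonneg (by linarith) hp.le
      · rw [div_lt_one hp]; exact h3
    unfold En
    rw [h1]
    exact hT
  obtain ⟨k, hk, hmin⟩ := Int.exists_least_of_bdd hbdd hinh
  refine ⟨k, fun b j => ?_, hk⟩
  by_contra hcon
  push Not at hcon
  have := hmin (k - 1) ⟨b, j, hcon.le⟩
  omega

section descent

variable {C0 B L : ℝ} {Z : Finset PP} {o : ℝ} {k : ℤ}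

lemma EE_nbh_eq (b : Bool) (m : ℤ) (j : Fin 3 → ℤ) [DecidableEq E3] :
    EE Nul (nbh Z (co b) o k m j) Z =
      ∑ a ∈ (nbh Z (co b) o k m j).image (co b), EE Nul (fib Z b a) Z := by
  classical
  unfold EE
  rw [← sum_fiberwise_of_maps_to (s := nbh Z (co b) o k m j)
    (t := (nbh Z (co b) o k m j).image (co b)) (g := co b)
    (fun z hz => mem_image_of_mem _ hz)]
  refine sum_congr rfl fun a ha => sum_congr ?_ fun _ _ => rfl
  rw [mem_image] at ha
  obtain ⟨z0, hz0, rfl⟩ := ha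
  rw [mem_nbh] at hz0
  ext z
  rw [mem_filter, mem_fib, mem_nbh]
  constructor
  · rintro ⟨⟨h1, _⟩, h3⟩; exact ⟨h1, h3⟩
  · rintro ⟨h1, h3⟩
    refine ⟨⟨h1, ?_⟩, h3⟩
    rw [h3]; exact hz0.2

lemma fib_ge (hreg : Reg Nul C0 B Z L) (b : Bool) {a : E3} (hne : (fib Z b a).Nonempty) :
    L * Z.card ≤ C0 * ss Z * EE Nul (fib Z b a) Z := by
  cases b
  · exact hreg.snd_ge a _ (fun z => mem_fib) hne
  · exact hreg.fst_ge a _ (fun z => mem_fib) hne

/-- number of values in a neighbourhood -/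
lemma card_values (hreg : Reg Nul C0 B Z L) (b : Bool) (m : ℤ) (j : Fin 3 → ℤ)
    [DecidableEq E3] :
    ((nbh Z (co b) o k m j).image (co b)).card * (L * Z.card) ≤
      C0 * ss Z * EE Nul (nbh Z (co b) o k m j) Z := by
  rw [EE_nbh_eq]
  push_cast
  rw [mul_sum, ← nsmul_eq_mul]
  refine card_nsmul_le_sum _ _ _ fun a ha => ?_
  rw [mem_image] at ha
  obtain ⟨z0, hz0, rfl⟩ := ha
  exact fib_ge hreg b ⟨z0, mem_fib.2 ⟨(mem_nbh.1 hz0).1, rfl⟩⟩

lemma EE_ge_card (hreg : Reg Nul C0 B Z L) {W : Finset PP} (hW : W ⊆ Z) :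
    (W.card : ℝ) * L ≤ EE Nul W Z := by
  unfold EE
  push_cast
  rw [← nsmul_eq_mul]
  exact card_nsmul_le_sum _ _ _ fun z hz => hreg.deg_ge z (hW hz)

lemma nbh_sub (b : Bool) (m : ℤ) (j : Fin 3 → ℤ) : nbh Z (co b) o k m j ⊆ Z :=
  fun _ hz => (mem_nbh.1 hz).1

lemma one_le_C0 (hreg : Reg Nul C0 B Z L) : 1 ≤ C0 := by
  obtain ⟨z, hz⟩ := hreg.ne
  have h1 := hreg.deg_ge z hz
  have h2 := hreg.deg_le z hz
  have h3 := hreg.L_pos
  by_contra h
  push Not at h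
  nlinarith

lemma ss_eq (Y : Finset PP) (b : Bool) [DecidableEq E3] :
    ss Y = (Y.image (co b)).card + (Y.image (co (!b))).card := by
  unfold ss
  cases b
  · rw [add_comm]
    have e1 : co false = Prod.snd := rfl
    have e2 : co (!false) = Prod.fst := rfl
    rw [e1, e2]
    congr!
  · have e1 : co true = Prod.fst := rfl
    have e2 : co (!true) = Prod.snd := rfl
    rw [e1, e2]
    congr!

/-- the descent inequality in one cell -/
lemma TT_cell_le (hreg : Reg Nul C0 B Z L) {μ y : ℝ} (hμ : 0 < μ) (hy : 0 ≤ y)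
    (hμy : 8 * μ ≤ y ^ 6) (hk : ∀ b j, (En Z o b (k - 1) j : ℝ) ≤ μ * L * Z.card) (b : Bool)
    (j : Fin 3 → ℤ) :
    (TT Nul (nbh Z (co b) o k 0 j) : ℝ) ≤ 1008000 * C0 ^ 2 * y * μ ^ 2 * L * Z.card := by
  classical
  have hL := hreg.L_pos
  have hC0 := one_le_C0 hreg
  have hN : (0 : ℝ) < Z.card := by exact_mod_cast card_pos.2 hreg.ne
  have hs : (0 : ℝ) < ss Z := by exact_mod_cast ss_pos hreg.ne
  set W := nbh Z (co b) o k 0 j with hW
  have hWZ : W ⊆ Z := nbh_sub b 0 j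
  have hE : ∀ (b : Bool) (m : ℕ) (j : Fin 3 → ℤ), (EE Nul (nbh Z (co b) o k m j) Z : ℝ) ≤
      (4 * m + 2) ^ 3 * (μ * L * Z.card) := fun b m j => EE_nbh_le (hk b) m j
  have hEW : (EE Nul W Z : ℝ) ≤ 8 * (μ * L * Z.card) := by
    have := hE b 0 j
    norm_num at this
    exact this
  have hWc : (W.card : ℝ) ≤ 8 * μ * Z.card := by
    have h1 := EE_ge_card hreg hWZ
    have h2 : (W.card : ℝ) * L ≤ (8 * μ * Z.card) * L := by linarith
    exact le_of_mul_le_mul_right h2 hL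
  have hval : ∀ (b : Bool) (m : ℕ) (j : Fin 3 → ℤ),
      (((nbh Z (co b) o k m j).image (co b)).card : ℝ) ≤ C0 * ss Z * ((4 * m + 2) ^ 3 * μ) := by
    intro b m j
    have h1 := card_values (o := o) (k := k) hreg b m j
    have h2 : (((nbh Z (co b) o k m j).image (co b)).card : ℝ) * (L * Z.card) ≤
        (C0 * ss Z * ((4 * m + 2) ^ 3 * μ)) * (L * Z.card) := by
      refine h1.trans ?_
      have h3 := hE b m j
      have h4 : 0 ≤ C0 * ss Z := by positivity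
      calc C0 * ss Z * (EE Nul (nbh Z (co b) o k m j) Z : ℝ)
          ≤ C0 * ss Z * ((4 * m + 2) ^ 3 * (μ * L * Z.card)) := by gcongr
        _ = _ := by ring
    exact le_of_mul_le_mul_right h2 (by positivity)
  -- the pieces
  set g : PP → Fin 3 → ℤ := fun z => cel o k (co (!b) z) with hg
  set J := W.image g with hJ
  set Y : (Fin 3 → ℤ) → Finset PP := fun j' => W.filter fun z => ∀ i, |g z i - j' i| ≤ 2 with hY
  have hYW : ∀ j', Y j' ⊆ W := fun j' => filter_subset _ _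
  have hT1 : TT Nul W ≤ ∑ j' ∈ J, TT Nul (Y j') := by
    unfold TT
    have h1 : EE Nul W W = ∑ j' ∈ J, ∑ z ∈ W.filter (fun z => g z = j'), deg Nul W z := by
      unfold EE
      rw [← sum_fiberwise_of_maps_to (s := W) (t := J) (g := g)
        (fun z hz => mem_image_of_mem _ hz)]
    rw [h1]
    refine sum_le_sum fun j' _ => ?_
    unfold EE
    have h2 : W.filter (fun z => g z = j') ⊆ Y j' := by
      intro z hz
      rw [mem_filter] at hz
      rw [hY, mem_filter]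
      refine ⟨hz.1, fun i => ?_⟩
      rw [hz.2]; simp
    refine le_trans (sum_le_sum fun z hz => ?_) (sum_le_sum_of_subset h2)
    rw [mem_filter] at hz
    refine card_le_card fun w hw => ?_
    rw [mem_nb] at hw ⊢
    refine ⟨?_, hw.2⟩
    rw [hY, mem_filter]
    refine ⟨hw.1, fun i => ?_⟩
    rw [← hz.2]
    have h3 : cel o k (co b z) = cel o k (co b w) :=
      (mem_nbh_zero.1 hz.1).2.trans (mem_nbh_zero.1 hw.1).2.symm
    have h4 := cel_eq_dist h3
    rw [← Nul.dist_co hw.2, dist_comm] at h4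
    exact dist_cel h4 i
  have hsumY : ∑ j' ∈ J, ((Y j').card : ℝ) ≤ 125 * W.card := by
    have h1 : ∑ j' ∈ J, (Y j').card ≤ 125 * W.card := by
      have h2 : ∑ j' ∈ J, (Y j').card =
          ∑ z ∈ W, (J.filter fun j' => ∀ i, |g z i - j' i| ≤ 2).card := by
        simp only [hY, card_filter]
        exact sum_comm
      rw [h2, mul_comm, ← smul_eq_mul]
      refine sum_le_card_nsmul _ _ _ fun z _ => ?_
      have h3 : (J.filter fun j' => ∀ i, |g z i - j' i| ≤ 2) ⊆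
          Fintype.piFinset fun i => Icc (g z i - 2) (g z i + 2) := by
        intro j' hj'
        rw [mem_filter] at hj'
        rw [Fintype.mem_piFinset]
        intro i
        have := abs_le.1 (hj'.2 i)
        rw [mem_Icc]
        constructor <;> omega
      refine (card_le_card h3).trans ?_
      rw [Fintype.card_piFinset, Fin.prod_univ_three]
      simp only [Int.card_Icc]
      have h4 : ∀ i, (g z i + 2 + 1 - (g z i - 2)).toNat = 5 := by intro i; omega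
      rw [h4, h4, h4]
      norm_num
    exact_mod_cast h1
  have hssY : ∀ j', (ss (Y j') : ℝ) ≤ 1008 * C0 * μ * ss Z := by
    intro j'
    have h1 : ((Y j').image (co b)).card ≤ ((nbh Z (co b) o k (0 : ℕ) j).image (co b)).card := by
      refine card_le_card (image_subset_image ?_)
      rw [Nat.cast_zero]
      exact hYW j'
    have h2 : ((Y j').image (co (!b))).card ≤
        ((nbh Z (co (!b)) o k (2 : ℕ) j').image (co (!b))).card := by
      refine card_le_card (image_subset_image ?_)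
      intro z hz
      rw [hY, mem_filter] at hz
      rw [mem_nbh]
      exact ⟨hWZ hz.1, hz.2⟩
    have h3 := hval b 0 j
    have h4 := hval (!b) 2 j'
    have h5 := ss_eq (Y j') b
    rw [h5]
    push_cast
    have h6 : (((Y j').image (co b)).card : ℝ) ≤ C0 * ss Z * ((4 * (0 : ℕ) + 2) ^ 3 * μ) :=
      le_trans (by exact_mod_cast h1) h3
    have h7 : (((Y j').image (co (!b))).card : ℝ) ≤ C0 * ss Z * ((4 * (2 : ℕ) + 2) ^ 3 * μ) :=
      le_trans (by exact_mod_cast h2) h4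
    norm_num at h6 h7
    nlinarith
  have hTY : ∀ j' ∈ J, (TT Nul (Y j') : ℝ) * ss Z ≤
      C0 * y * (Y j').card * L * (1008 * C0 * μ * ss Z) := by
    intro j' _
    have h1 : ((Y j').card : ℝ) ≤ y ^ 6 * Z.card := by
      have h2 : ((Y j').card : ℝ) ≤ W.card := by exact_mod_cast card_le_card (hYW j')
      have h3 : 8 * μ * Z.card ≤ y ^ 6 * Z.card := by gcongr
      linarith
    have h2 := hreg.sub (Y j') ((hYW j').trans hWZ) y hy h1
    refine h2.trans ?_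
    have h3 := hssY j'
    gcongr
  have hfin : (TT Nul W : ℝ) * ss Z ≤ (1008000 * C0 ^ 2 * y * μ ^ 2 * L * Z.card) * ss Z := by
    calc (TT Nul W : ℝ) * ss Z ≤ (∑ j' ∈ J, (TT Nul (Y j') : ℝ)) * ss Z := by
          have : (TT Nul W : ℝ) ≤ ∑ j' ∈ J, (TT Nul (Y j') : ℝ) := by exact_mod_cast hT1
          gcongr
      _ = ∑ j' ∈ J, (TT Nul (Y j') : ℝ) * ss Z := sum_mul _ _ _
      _ ≤ ∑ j' ∈ J, C0 * y * (Y j').card * L * (1008 * C0 * μ * ss Z) := sum_le_sum hTY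
      _ = (∑ j' ∈ J, ((Y j').card : ℝ)) * (1008 * C0 ^ 2 * y * μ * L * ss Z) := by
          rw [sum_mul]; exact sum_congr rfl fun _ _ => by ring
      _ ≤ (125 * W.card) * (1008 * C0 ^ 2 * y * μ * L * ss Z) := by gcongr
      _ ≤ (125 * (8 * μ * Z.card)) * (1008 * C0 ^ 2 * y * μ * L * ss Z) := by gcongr
      _ = _ := by ring
  exact le_of_mul_le_mul_right hfin hs

end descent

section lower

lemma EE_eq_card {α β : Type*} {r : α × β → α × β → Prop} (A B : Finset (α × β))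
    [DecidablePred fun p : (α × β) × (α × β) => r p.1 p.2] :
    EE r A B = ((A ×ˢ B).filter fun p => r p.1 p.2).card := by
  classical
  unfold EE deg nb
  rw [card_filter, sum_product]
  refine sum_congr rfl fun z _ => ?_
  rw [card_filter]
  exact sum_congr rfl fun _ _ => by congr

lemma lc_mono {A A' : Finset E3} (h : A ⊆ A') (a b : E3) : lc A a b ≤ lc A' a b := by
  classical
  unfold lc
  exact card_le_card (filter_subset_filter _ h)

lemma p1_mono {X X' : Finset PP} (h : X ⊆ X') : p1 X ⊆ p1 X' := by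
  intro a ha
  rw [mem_p1] at *
  obtain ⟨z, hz, rfl⟩ := ha
  exact ⟨z, h hz, rfl⟩

lemma aux_low {μ L N S1 S2 S3 T C0 : ℝ} (hμ : 0 < μ) (hL : 0 < L) (hN : 0 < N)
    (h4 : μ / 4 * L * N ≤ S1) (h5 : S1 ^ 2 ≤ S2 * S3) (h7 : S3 ≤ 6 * (C0 * L * N))
    (h8 : S2 ≤ 6 * T) (h2 : 0 ≤ S2) : μ ^ 2 * L * N ≤ 576 * C0 * T := by
  have h0 : 0 ≤ μ / 4 * L * N := by positivity
  have hS3 : 0 ≤ 6 * (C0 * L * N) := by
    by_contra hcon
    push Not at hcon
    have h10 : S3 < 0 := lt_of_le_of_lt h7 hcon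
    have h11 : S2 * S3 ≤ 0 := mul_nonpos_of_nonneg_of_nonpos h2 h10.le
    have h12 : 0 < μ / 4 * L * N := by positivity
    nlinarith
  have h9 : (μ / 4 * L * N) ^ 2 ≤ (6 * T) * (6 * (C0 * L * N)) := by
    calc (μ / 4 * L * N) ^ 2 ≤ S1 ^ 2 := pow_le_pow_left₀ h0 h4 2
      _ ≤ S2 * S3 := h5
      _ ≤ S2 * (6 * (C0 * L * N)) := mul_le_mul_of_nonneg_left h7 h2
      _ ≤ (6 * T) * (6 * (C0 * L * N)) := mul_le_mul_of_nonneg_right h8 hS3
  have h10 : (μ ^ 2 * L * N) * (L * N) ≤ (576 * C0 * T) * (L * N) := by nlinarith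
  exact le_of_mul_le_mul_right h10 (by positivity)

/-- many null pairs inside `W` -/
lemma TT_ge {C C0 B L K δ μ k0 r : ℝ} (hR : RichPairs C) (hC : 0 < C) (hK : 32 * C ≤ K)
    (hK2 : 2 ≤ K) {Z : Finset PP} (hreg : Reg Nul C0 B Z L) {SS : Finset (Finset PP)}
    (hSS : Blocks Z SS) (hμ : 0 < μ) (hμ1 : μ ≤ 1) (hδ : δ = μ / (24 * C0)) (hk0 : 0 < k0)
    (hx : 32 ≤ δ * k0) (hr : 32 * C * r ≤ δ * k0) (hxK : 2 * K ≤ δ * k0)
    (hxD : 16 * K * (C0 * L) < (δ * k0) ^ 2)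
    (hline : ∀ a b : E3, a ≠ b → (lc (p1 Z) a b : ℝ) ≤ r)
    (hunc : ((uncov Z SS k0).card : ℝ) ≤ μ / 2 * L * Z.card)
    {W : Finset PP} (hWZ : W ⊆ Z) (hE : μ * L * Z.card ≤ (EE Nul W Z : ℝ)) :
    μ ^ 2 * L * Z.card ≤ 576 * C0 * TT Nul W := by
  classical
  have hL := hreg.L_pos
  have hC0 := one_le_C0 hreg
  have hN : (0 : ℝ) < Z.card := by exact_mod_cast card_pos.2 hreg.ne
  have hδ0 : 0 < δ := by rw [hδ]; positivity
  have hδ1 : δ ≤ 1 := by rw [hδ, div_le_one (by positivity)]; linarith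
  have hδk : δ * k0 ≤ k0 := by nlinarith
  set FF := SS.filter (fun X => k0 ≤ (X.card : ℝ)) with hFF
  have hFFm : ∀ X ∈ FF, X ∈ SS ∧ k0 ≤ (X.card : ℝ) := fun X hX => mem_filter.1 hX
  -- (1) covering
  have h1 : (EE Nul W Z : ℝ) ≤ (uncov Z SS k0).card + ∑ X ∈ FF, ((X ∩ W).card : ℝ) * X.card := by
    have hsub : (W ×ˢ Z).filter (fun p => Nul p.1 p.2) ⊆
        uncov Z SS k0 ∪ FF.biUnion fun X => (X ∩ W) ×ˢ X := by
      rintro ⟨z, w⟩ h
      rw [mem_filter, mem_product] at h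
      rw [mem_union]
      by_cases hu : (z, w) ∈ uncov Z SS k0
      · exact Or.inl hu
      · right
        unfold uncov at hu
        rw [mem_filter, mem_product] at hu
        have h2 : ¬ ∀ X ∈ SS, z ∈ X → w ∈ X → (X.card : ℝ) < k0 := fun h3 =>
          hu ⟨⟨hWZ h.1.1, h.1.2⟩, h.2, h3⟩
        push Not at h2
        obtain ⟨X, hX, hzX, hwX, hXk⟩ := h2
        rw [mem_biUnion]
        exact ⟨X, mem_filter.2 ⟨hX, hXk⟩, mem_product.2 ⟨mem_inter.2 ⟨hzX, h.1.1⟩, hwX⟩⟩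
    have h2 : EE Nul W Z ≤ (uncov Z SS k0).card + ∑ X ∈ FF, (X ∩ W).card * X.card := by
      rw [EE_eq_card]
      refine (card_le_card hsub).trans ((card_union_le _ _).trans ?_)
      gcongr
      refine card_biUnion_le.trans ?_
      refine le_of_eq (sum_congr rfl fun X _ => card_product _ _)
    exact_mod_cast h2
  -- (2) all blocks
  have hmul1 := mult (D := C0 * L) (x0 := k0) (r := r) hR hC hK hK2 (by linarith) (by linarith)
    (by linarith) (lt_of_lt_of_le hxD (by gcongr)) Z hreg.deg_le FF (fun X => X)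
    (fun X hX => hSS.sub X (hFFm X hX).1) (fun X hX => hSS.iso X (hFFm X hX).1)
    (fun X hX X' hX' hne => hSS.col X (hFFm X hX).1 X' (hFFm X' hX').1 hne)
    (fun X hX => (hFFm X hX).2)
    (fun X hX a b hab => le_trans
      (Nat.cast_le.2 (lc_mono (p1_mono (hSS.sub X (hFFm X hX).1)) a b)) (hline a b hab))
    (fun _ _ => True) (fun _ _ _ _ _ _ => trivial)
  have h2 : ∑ X ∈ FF, (X.card : ℝ) ^ 2 ≤ 6 * (C0 * L * Z.card) := by
    refine hmul1.trans ?_
    have h3 : ∑ z ∈ Z, (deg (fun z w => Nul z w ∧ True) Z z : ℝ) ≤ Z.card * (C0 * L) := by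
      rw [← nsmul_eq_mul]
      refine sum_le_card_nsmul _ _ _ fun z hz => ?_
      simp only [and_true]
      exact hreg.deg_le z hz
    linarith
  -- (3) the blocks with a large part in `W`
  set FF' := FF.filter (fun X => δ * (X.card : ℝ) ≤ ((X ∩ W).card : ℝ)) with hFF'
  have hF'F : FF' ⊆ FF := filter_subset _ _
  have h3 : ∑ X ∈ FF, ((X ∩ W).card : ℝ) * X.card ≤
      ∑ X ∈ FF', ((X ∩ W).card : ℝ) * X.card + μ / 4 * L * Z.card := by
    rw [← sum_sdiff hF'F, add_comm]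
    gcongr
    calc ∑ X ∈ FF \ FF', ((X ∩ W).card : ℝ) * X.card
        ≤ ∑ X ∈ FF \ FF', δ * (X.card : ℝ) ^ 2 := by
          refine sum_le_sum fun X hX => ?_
          have hX' := Finset.mem_sdiff.1 hX
          have h4 : ((X ∩ W).card : ℝ) < δ * (X.card : ℝ) := by
            by_contra hcon
            exact hX'.2 (mem_filter.2 ⟨hX'.1, not_lt.1 hcon⟩)
          have h5 : (0 : ℝ) ≤ X.card := Nat.cast_nonneg _
          nlinarith
      _ ≤ ∑ X ∈ FF, δ * (X.card : ℝ) ^ 2 :=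
          sum_le_sum_of_subset_of_nonneg sdiff_subset fun _ _ _ => by positivity
      _ = δ * ∑ X ∈ FF, (X.card : ℝ) ^ 2 := by rw [mul_sum]
      _ ≤ δ * (6 * (C0 * L * Z.card)) := by gcongr
      _ = μ / 4 * L * Z.card := by rw [hδ]; field_simp; ring
  have h4 : μ / 4 * L * Z.card ≤ ∑ X ∈ FF', ((X ∩ W).card : ℝ) * X.card := by
    have : μ * L * Z.card = μ / 2 * L * Z.card + μ / 4 * L * Z.card + μ / 4 * L * Z.card := by ring
    linarith
  -- (5) Cauchy-Schwarz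
  have h5 : (∑ X ∈ FF', ((X ∩ W).card : ℝ) * X.card) ^ 2 ≤
      (∑ X ∈ FF', ((X ∩ W).card : ℝ) ^ 2) * ∑ X ∈ FF', (X.card : ℝ) ^ 2 :=
    sum_mul_sq_le_sq_mul_sq _ _ _
  -- (6) blocks inside `W`
  have hmul2 := mult (D := C0 * L) (x0 := δ * k0) (r := r) hR hC hK hK2 hx hr hxK hxD Z
    hreg.deg_le FF' (fun X => X ∩ W)
    (fun X hX => inter_subset_left.trans (hSS.sub X (hFFm X (hF'F hX)).1))
    (fun X hX u hu v hv => hSS.iso X (hFFm X (hF'F hX)).1 u (mem_inter.1 hu).1 v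
      (mem_inter.1 hv).1)
    (fun X hX X' hX' hne => (hSS.col X (hFFm X (hF'F hX)).1 X' (hFFm X' (hF'F hX')).1 hne).subset
      (by
        rintro a ⟨u, hu, hu', rfl⟩
        exact ⟨u, (mem_inter.1 hu).1, (mem_inter.1 hu').1, rfl⟩))
    (fun X hX => by
      have h6 := (hFFm X (hF'F hX)).2
      have h7 := (mem_filter.1 hX).2
      exact le_trans (by gcongr) h7)
    (fun X hX a b hab => le_trans
      (Nat.cast_le.2 (lc_mono
        (p1_mono (inter_subset_left.trans (hSS.sub X (hFFm X (hF'F hX)).1))) a b))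
      (hline a b hab))
    (fun z w => z ∈ W ∧ w ∈ W) (fun X _ z hz w hw => ⟨(mem_inter.1 hz).2, (mem_inter.1 hw).2⟩)
  have h6 : ∑ z ∈ Z, (deg (fun z w => Nul z w ∧ z ∈ W ∧ w ∈ W) Z z : ℝ) ≤ TT Nul W := by
    have h7 : ∑ z ∈ Z, deg (fun z w => Nul z w ∧ z ∈ W ∧ w ∈ W) Z z ≤ TT Nul W := by
      unfold TT EE
      rw [← sum_sdiff hWZ]
      have h8 : ∑ z ∈ Z \ W, deg (fun z w => Nul z w ∧ z ∈ W ∧ w ∈ W) Z z = 0 := by
        refine sum_eq_zero fun z hz => ?_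
        unfold deg
        rw [card_eq_zero, eq_empty_iff_forall_notMem]
        intro w hw
        rw [mem_nb] at hw
        exact (Finset.mem_sdiff.1 hz).2 hw.2.2.1
      rw [h8, zero_add]
      refine sum_le_sum fun z _ => card_le_card fun w hw => ?_
      rw [mem_nb] at hw ⊢
      exact ⟨hw.2.2.2, hw.2.1⟩
    exact_mod_cast h7
  have h7 : ∑ X ∈ FF', (X.card : ℝ) ^ 2 ≤ 6 * (C0 * L * Z.card) :=
    (sum_le_sum_of_subset_of_nonneg hF'F fun _ _ _ => by positivity).trans h2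
  have h8 : ∑ X ∈ FF', ((X ∩ W).card : ℝ) ^ 2 ≤ 6 * TT Nul W := hmul2.trans (by linarith)
  exact aux_low hμ hL hN h4 h5 h7 h8 (sum_nonneg fun _ _ => sq_nonneg _)

end lower

section final

/-- basic inequalities of a regular configuration -/
lemma basic {C0 B L : ℝ} {Z : Finset PP} (hreg : Reg Nul C0 B Z L) (hB : 0 ≤ B) :
    L ≤ Z.card ∧ (Z.card : ℝ) ≤ (ss Z : ℝ) ^ 2 ∧ B * (Z.card : ℝ) ^ 2 ≤ L ^ 3 ∧
      B * (ss Z : ℝ) ^ 2 ≤ L ^ 2 ∧ 1 ≤ C0 * L := by
  have hL := hreg.L_pos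
  obtain ⟨z, hz⟩ := hreg.ne
  have h1 := hreg.deg_ge z hz
  have h2 := hreg.deg_le z hz
  have h3 : (deg Nul Z z : ℝ) ≤ Z.card := by exact_mod_cast deg_le_card Z z
  have h4 : (Z.card : ℝ) ≤ (ss Z : ℝ) ^ 2 := by exact_mod_cast card_le_ss_sq Z
  have h5 : (0 : ℝ) < deg Nul Z z := lt_of_lt_of_le hL h1
  have h6 : (1 : ℝ) ≤ deg Nul Z z := by exact_mod_cast (Nat.cast_pos.1 h5)
  have hN : (0 : ℝ) < Z.card := by linarith
  have hbig := hreg.big
  refine ⟨h1.trans h3, h4, ?_, ?_, h6.trans h2⟩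
  · refine le_trans ?_ hbig
    calc B * (Z.card : ℝ) ^ 2 = B * Z.card * Z.card := by ring
      _ ≤ B * Z.card * (ss Z : ℝ) ^ 2 := by gcongr
  · have h7 : (B * (ss Z : ℝ) ^ 2) * L ≤ L ^ 2 * L := by
      calc (B * (ss Z : ℝ) ^ 2) * L ≤ (B * (ss Z : ℝ) ^ 2) * Z.card := by
            gcongr; exact h1.trans h3
        _ = B * Z.card * (ss Z : ℝ) ^ 2 := by ring
        _ ≤ L ^ 3 := hbig
        _ = L ^ 2 * L := by ring
    exact le_of_mul_le_mul_right h7 hL

lemma numerics {C C0 c δ K B L N s : ℝ} (hC : 0 < C) (hC0 : 1 ≤ C0) (hc : 0 < c) (hδ : 0 < δ)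
    (hK : 2 ≤ K) (hL : 0 < L) (hN : 0 < N) (hs : 0 < s)
    (h13 : B * N ^ 2 ≤ L ^ 3) (hbig : B * N * s ^ 2 ≤ L ^ 3) (h1L : 1 ≤ C0 * L)
    (hB1 : 16 * K * C0 < δ ^ 2 * c ^ 2 * B) (hB2 : 1024 * C0 ≤ δ ^ 2 * c ^ 2 * B)
    (hB3 : 4 * K ^ 2 * C0 ≤ δ ^ 2 * c ^ 2 * B) (hB4 : 64 * C * C0 ≤ δ * c * B) :
    32 ≤ δ * (c * L ^ 2 / N) ∧ 32 * C * (2 * C0 * s ^ 2 / L) ≤ δ * (c * L ^ 2 / N) ∧
      2 * K ≤ δ * (c * L ^ 2 / N) ∧ 16 * K * (C0 * L) < (δ * (c * L ^ 2 / N)) ^ 2 := by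
  have hx0 : 0 < δ * (c * L ^ 2 / N) := by positivity
  have hsq : δ ^ 2 * c ^ 2 * B * L ≤ (δ * (c * L ^ 2 / N)) ^ 2 := by
    have h1 : (δ * (c * L ^ 2 / N)) ^ 2 = δ ^ 2 * c ^ 2 * L * L ^ 3 / N ^ 2 := by
      field_simp
    rw [h1, le_div_iff₀ (by positivity)]
    calc δ ^ 2 * c ^ 2 * B * L * N ^ 2 = δ ^ 2 * c ^ 2 * L * (B * N ^ 2) := by ring
      _ ≤ δ ^ 2 * c ^ 2 * L * L ^ 3 := by gcongr
  refine ⟨?_, ?_, ?_, ?_⟩
  · refine le_of_pow_le_pow_left₀ two_ne_zero hx0.le (le_trans ?_ hsq)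
    nlinarith
  · have h1 : 32 * C * (2 * C0 * s ^ 2 / L) = (64 * C * C0 * (N * s ^ 2)) / (L * N) := by
      field_simp; ring
    have h2 : δ * (c * L ^ 2 / N) = δ * c * L ^ 3 / (L * N) := by
      field_simp
    rw [h1, h2]
    refine div_le_div_of_nonneg_right ?_ (by positivity)
    calc 64 * C * C0 * (N * s ^ 2) ≤ δ * c * B * (N * s ^ 2) := by gcongr
      _ = δ * c * (B * N * s ^ 2) := by ring
      _ ≤ δ * c * L ^ 3 := by gcongr
  · refine le_of_pow_le_pow_left₀ two_ne_zero hx0.le (le_trans ?_ hsq)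
    have : 4 * K ^ 2 ≤ 4 * K ^ 2 * (C0 * L) := le_mul_of_one_le_right (by positivity) h1L
    nlinarith
  · refine lt_of_lt_of_le ?_ hsq
    nlinarith

/-- **STEP B** -/
theorem stepB_of {C : ℝ} (hR : RichPairs C) (hC : 0 < C) {C0 : ℝ} (hC0 : 1 ≤ C0)
    (hline : ∀ (B : ℝ) (Z : Finset PP) (L : ℝ), 1 ≤ B → Reg Nul C0 B Z L →
      ∀ a b : E3, a ≠ b → (lc (p1 Z) a b : ℝ) * L ≤ 2 * C0 * (ss Z : ℝ) ^ 2) :
    StepB C0 := by
  obtain ⟨y, hy⟩ : ∃ y : ℝ, y = 1 / (10 ^ 9 * C0 ^ 3) := ⟨_, rfl⟩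
  have hy0 : 0 < y := by rw [hy]; positivity
  have hy1 : y ≤ 1 := by
    rw [hy, div_le_one (by positivity)]
    have : 1 ≤ C0 ^ 3 := one_le_pow₀ hC0
    linarith
  obtain ⟨μ, hμ⟩ : ∃ μ : ℝ, μ = y ^ 6 / 8 := ⟨_, rfl⟩
  have hμ0 : 0 < μ := by rw [hμ]; positivity
  have hμ1 : μ ≤ 1 := by
    have : y ^ 6 ≤ 1 := pow_le_one₀ hy0.le hy1
    rw [hμ]; linarith
  refine ⟨μ / 2, by positivity, fun c hc => ?_⟩
  obtain ⟨K, hKdef⟩ : ∃ K : ℝ, K = max (32 * C) 2 := ⟨_, rfl⟩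
  have hK1 : 32 * C ≤ K := by rw [hKdef]; exact le_max_left _ _
  have hK2 : 2 ≤ K := by rw [hKdef]; exact le_max_right _ _
  obtain ⟨δ, hδ⟩ : ∃ δ : ℝ, δ = μ / (24 * C0) := ⟨_, rfl⟩
  have hδ0 : 0 < δ := by rw [hδ]; positivity
  have hev : ∀ᶠ B : ℝ in atTop, 1 ≤ B ∧ 16 * K * C0 < δ ^ 2 * c ^ 2 * B ∧
      1024 * C0 ≤ δ ^ 2 * c ^ 2 * B ∧ 4 * K ^ 2 * C0 ≤ δ ^ 2 * c ^ 2 * B ∧
      64 * C * C0 ≤ δ * c * B ∧ C0 ^ 2 < μ ^ 2 * B := by
    have ht1 : Tendsto (fun B : ℝ => δ ^ 2 * c ^ 2 * B) atTop atTop :=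
      tendsto_id.const_mul_atTop (by positivity)
    have ht2 : Tendsto (fun B : ℝ => δ * c * B) atTop atTop :=
      tendsto_id.const_mul_atTop (by positivity)
    have ht3 : Tendsto (fun B : ℝ => μ ^ 2 * B) atTop atTop :=
      tendsto_id.const_mul_atTop (by positivity)
    filter_upwards [eventually_ge_atTop 1, ht1.eventually_gt_atTop (16 * K * C0),
      ht1.eventually_ge_atTop (1024 * C0), ht1.eventually_ge_atTop (4 * K ^ 2 * C0),
      ht2.eventually_ge_atTop (64 * C * C0), ht3.eventually_gt_atTop (C0 ^ 2)]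
      with B h1 h2 h3 h4 h5 h6
    exact ⟨h1, h2, h3, h4, h5, h6⟩
  obtain ⟨B0, hB0⟩ := eventually_atTop.1 hev
  refine ⟨B0, fun Z L B hB hreg SS hSS hunc => ?_⟩
  obtain ⟨hB1, hb1, hb2, hb3, hb4, hb5⟩ := hB0 B hB
  have hL := hreg.L_pos
  have hN : (0 : ℝ) < Z.card := by exact_mod_cast card_pos.2 hreg.ne
  have hs : (0 : ℝ) < ss Z := by exact_mod_cast ss_pos hreg.ne
  obtain ⟨hLN, hNs, h13, h12, h1L⟩ := basic hreg (by linarith)
  obtain ⟨n1, n2, n3, n4⟩ := numerics hC hC0 hc hδ0 hK2 hL hN hs h13 hreg.big h1L hb1 hb2 hb3 hb4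
  -- fibres are light
  have hfibcard : ∀ (b : Bool) (a : E3), ((fib Z b a).card : ℝ) ≤ ss Z := by
    classical
    intro b a
    have h1 : (fib Z b a).card ≤ (Z.image (co (!b))).card := by
      refine card_le_card_of_injOn (co (!b)) ?_ ?_
      · intro z hz
        exact mem_coe.2 (mem_image_of_mem _ (mem_fib.1 hz).1)
      · intro z hz w hw h
        have hz' := (mem_fib.1 (mem_coe.1 hz)).2
        have hw' := (mem_fib.1 (mem_coe.1 hw)).2
        cases b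
        · exact Prod.ext h (hz'.trans hw'.symm)
        · exact Prod.ext (hz'.trans hw'.symm) h
    have h2 := ss_eq Z b
    have h3 : (fib Z b a).card ≤ ss Z := by omega
    exact_mod_cast h3
  have hsN : C0 * ss Z < μ * Z.card := by
    have h1 : (C0 * ss Z) ^ 2 < (μ * Z.card) ^ 2 := by
      calc (C0 * ss Z) ^ 2 = C0 ^ 2 * (ss Z : ℝ) ^ 2 := by ring
        _ < μ ^ 2 * B * (ss Z : ℝ) ^ 2 := by gcongr
        _ = μ ^ 2 * (B * (ss Z : ℝ) ^ 2) := by ring
        _ ≤ μ ^ 2 * L ^ 2 := by gcongr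
        _ ≤ μ ^ 2 * (Z.card : ℝ) ^ 2 := by gcongr
        _ = (μ * Z.card) ^ 2 := by ring
    exact lt_of_pow_lt_pow_left₀ 2 (by positivity) h1
  have hfib : ∀ (b : Bool) (a : E3), (EE Nul (fib Z b a) Z : ℝ) < μ * L * Z.card := by
    intro b a
    have h1 : (EE Nul (fib Z b a) Z : ℝ) ≤ (fib Z b a).card * (C0 * L) := by
      unfold EE
      push_cast
      rw [← nsmul_eq_mul]
      exact sum_le_card_nsmul _ _ _ fun z hz => hreg.deg_le z (mem_fib.1 hz).1
    calc (EE Nul (fib Z b a) Z : ℝ) ≤ (fib Z b a).card * (C0 * L) := h1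
      _ ≤ ss Z * (C0 * L) := by gcongr; exact_mod_cast hfibcard b a
      _ = (C0 * ss Z) * L := by ring
      _ < (μ * Z.card) * L := by gcongr
      _ = μ * L * Z.card := by ring
  have hT : μ * L * Z.card ≤ (TT Nul Z : ℝ) := by
    have h1 := EE_ge_card hreg (Subset.refl Z)
    calc μ * L * Z.card ≤ 1 * L * Z.card := by gcongr
      _ = Z.card * L := by ring
      _ ≤ (TT Nul Z : ℝ) := h1
  obtain ⟨o, ho⟩ := exists_origin Z
  obtain ⟨k, hk1, b, j, hk2⟩ := exists_scale Z o ho hT (by positivity) hfib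
  have hub := TT_cell_le hreg hμ0 hy0.le (by rw [hμ]; linarith) hk1 b j
  have hlow := TT_ge (k0 := c * L ^ 2 / Z.card) (r := 2 * C0 * (ss Z : ℝ) ^ 2 / L) hR hC hK1 hK2
    hreg hSS hμ0 hμ1 hδ (by positivity) n1 n2 n3 n4
    (fun a b hab => by rw [le_div_iff₀ hL]; exact hline B Z L hB1 hreg a b hab)
    hunc (nbh_sub b 0 j) hk2
  have h1 : μ ^ 2 * L * Z.card ≤
      576 * C0 * (1008000 * C0 ^ 2 * y * μ ^ 2 * L * Z.card) := by
    refine hlow.trans ?_
    gcongr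
  have h2 : (μ ^ 2 * L * Z.card) * 1 ≤
      (μ ^ 2 * L * Z.card) * (580608000 * (C0 ^ 3 * y)) := by
    calc (μ ^ 2 * L * Z.card) * 1 ≤ 576 * C0 * (1008000 * C0 ^ 2 * y * μ ^ 2 * L * Z.card) := by
          rw [mul_one]; exact h1
      _ = _ := by ring
  have h3 := le_of_mul_le_mul_left h2 (by positivity)
  have h4 : C0 ^ 3 * y = 1 / 10 ^ 9 := by rw [hy]; field_simp
  rw [h4] at h3
  norm_num at h3

end final

end Crest.Agent.R065.D3c235
end

-- ▼ part R065/STd_397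
section

set_option autoImplicit false

/-!
# Pairs on rich lines in any real vector space (Beck-type consequence of Szemerédi–Trotter)
-/

namespace Crest.Agent.R065.ST397

open Finset

section count

/-- summation by parts -/
lemma sq_le_sum {K k r : ℕ} (hK : K ≤ k) (hr : k ≤ r) :
    (k : ℝ) ^ 2 ≤ (K : ℝ) ^ 2 + ∑ j ∈ Ioc K r, if j ≤ k then 2 * (j : ℝ) else 0 := by
  have h1 : ∀ k, K ≤ k → (k : ℝ) ^ 2 ≤ (K : ℝ) ^ 2 + ∑ j ∈ Ioc K k, 2 * (j : ℝ) := by
    intro k hk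
    induction k, hk using Nat.le_induction with
    | base => simp
    | succ k hk ih =>
      rw [← Finset.insert_Ioc_right_eq_Ioc_add_one (by omega), Finset.sum_insert (by simp)]
      push_cast
      nlinarith
  refine (h1 k hK).trans ?_
  gcongr
  rw [← Finset.sum_filter]
  apply le_of_eq
  apply Finset.sum_congr _ fun _ _ => rfl
  ext j
  simp only [mem_Ioc, mem_filter]
  omega

lemma sum_sq_le {ι : Type*} (L : Finset ι) (k : ι → ℕ) (n K r : ℕ) (hK : 2 ≤ K)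
    (hk : ∀ l ∈ L, K ≤ k l ∧ k l ≤ r)
    (hN : ∀ j, K ≤ j → j * (L.filter fun l => j ≤ k l).card ≤ 12 * n ∨
      j ^ 3 * (L.filter fun l => j ≤ k l).card ≤ 576 * n ^ 2) :
    ∑ l ∈ L, (k l : ℝ) ^ 2 ≤ 1728 * (n : ℝ) ^ 2 / K + 24 * r * n := by
  classical
  rcases L.eq_empty_or_nonempty with rfl | ⟨l₀, hl₀⟩
  · simp; positivity
  have hKr : K ≤ r := (hk l₀ hl₀).1.trans (hk l₀ hl₀).2
  have hNj : ∀ j, K ≤ j → ((L.filter fun l => j ≤ k l).card : ℝ) ≤
      12 * n / j + 576 * n ^ 2 / j ^ 3 := by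
    intro j hj
    have hj0 : (0 : ℝ) < j := by
      have : 0 < j := by omega
      exact_mod_cast this
    rcases hN j hj with h | h
    · have h' : (j : ℝ) * ((L.filter fun l => j ≤ k l).card : ℝ) ≤ 12 * n := by exact_mod_cast h
      have : ((L.filter fun l => j ≤ k l).card : ℝ) ≤ 12 * n / j := by
        rw [le_div_iff₀ hj0]; linarith
      have h2 : (0 : ℝ) ≤ 576 * n ^ 2 / j ^ 3 := by positivity
      linarith
    · have h' : (j : ℝ) ^ 3 * ((L.filter fun l => j ≤ k l).card : ℝ) ≤ 576 * n ^ 2 := by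
        exact_mod_cast h
      have : ((L.filter fun l => j ≤ k l).card : ℝ) ≤ 576 * n ^ 2 / j ^ 3 := by
        rw [le_div_iff₀ (by positivity)]; linarith
      have h2 : (0 : ℝ) ≤ 12 * n / j := by positivity
      linarith
  have hK0 : (0 : ℝ) < K := by
    have : 0 < K := by omega
    exact_mod_cast this
  calc ∑ l ∈ L, (k l : ℝ) ^ 2
      ≤ ∑ l ∈ L, ((K : ℝ) ^ 2 + ∑ j ∈ Ioc K r, if j ≤ k l then 2 * (j : ℝ) else 0) :=
        Finset.sum_le_sum fun l hl => sq_le_sum (hk l hl).1 (hk l hl).2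
    _ = (K : ℝ) ^ 2 * L.card + ∑ j ∈ Ioc K r, 2 * (j : ℝ) * (L.filter fun l => j ≤ k l).card := by
        rw [Finset.sum_add_distrib, Finset.sum_const, nsmul_eq_mul, Finset.sum_comm]
        congr 1
        · ring
        · refine Finset.sum_congr rfl fun j _ => ?_
          rw [← Finset.sum_filter, Finset.sum_const, nsmul_eq_mul]
          ring
    _ ≤ (K : ℝ) ^ 2 * (12 * n / K + 576 * n ^ 2 / K ^ 3) +
        ∑ j ∈ Ioc K r, (24 * (n : ℝ) + 1152 * n ^ 2 * ((j : ℝ) ^ 2)⁻¹) := by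
        gcongr with j hj
        · have h := hNj K le_rfl
          rwa [Finset.filter_true_of_mem fun l hl => (hk l hl).1] at h
        · rw [mem_Ioc] at hj
          have hj0 : (0 : ℝ) < j := by
            have : 0 < j := by omega
            exact_mod_cast this
          have h := hNj j hj.1.le
          calc 2 * (j : ℝ) * ((L.filter fun l => j ≤ k l).card : ℝ)
              ≤ 2 * (j : ℝ) * (12 * n / j + 576 * n ^ 2 / j ^ 3) := by gcongr
            _ = 24 * (n : ℝ) + 1152 * n ^ 2 * ((j : ℝ) ^ 2)⁻¹ := by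
              field_simp
              ring
    _ ≤ (12 * n * K + 576 * n ^ 2 / K) + (24 * (n : ℝ) * (r - K) + 1152 * n ^ 2 * (K : ℝ)⁻¹) := by
        gcongr
        · apply le_of_eq
          field_simp
        · rw [Finset.sum_add_distrib, Finset.sum_const, nsmul_eq_mul, ← Finset.mul_sum,
            Nat.card_Ioc, Nat.cast_sub hKr]
          gcongr ?_ + ?_
          · apply le_of_eq; ring
          · gcongr
            have h := sum_Ioc_inv_sq_le_sub (α := ℝ) (k := K) (n := r) (by omega) hKr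
            have h2 : (0 : ℝ) ≤ (r : ℝ)⁻¹ := by positivity
            linarith
    _ ≤ 1728 * (n : ℝ) ^ 2 / K + 24 * r * n := by
        have h1 : (0 : ℝ) ≤ (n : ℝ) * K := by positivity
        have h2 : 576 * (n : ℝ) ^ 2 / K + 1152 * n ^ 2 * (K : ℝ)⁻¹ = 1728 * (n : ℝ) ^ 2 / K := by
          field_simp; ring
        nlinarith

end count

section proj

variable {V : Type*} [AddCommGroup V] [Module ℝ V]

/-- generic projection to the plane -/
lemma exists_proj (A : Finset V) : ∃ f g : Module.Dual ℝ V,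
    (∀ a ∈ A, ∀ b ∈ A, f a = f b → a = b) ∧
    ∀ a ∈ A, ∀ b ∈ A, ∀ c ∈ A, (g c - g a) * (f b - f a) = (g b - g a) * (f c - f a) →
      f (b - a) • (c - a) = f (c - a) • (b - a) := by
  classical
  obtain ⟨f, hf⟩ := Module.exists_dual_forall_apply_ne_zero (K := ℝ) (M := V)
    (ι := {p : A × A // (p.1 : V) ≠ p.2}) (fun p => (p.1.1 : V) - p.1.2)
    (fun p => sub_ne_zero.2 p.2)
  obtain ⟨g, hg⟩ := Module.exists_dual_forall_apply_ne_zero (K := ℝ) (M := V)
    (ι := {p : A × A × A // f (p.2.1 - p.1 : V) • ((p.2.2 : V) - p.1) -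
      f (p.2.2 - p.1 : V) • ((p.2.1 : V) - p.1) ≠ 0})
    (fun p => f (p.1.2.1 - p.1.1 : V) • ((p.1.2.2 : V) - p.1.1) -
      f (p.1.2.2 - p.1.1 : V) • ((p.1.2.1 : V) - p.1.1))
    (fun p => p.2)
  refine ⟨f, g, fun a ha b hb h => ?_, fun a ha b hb c hc h => ?_⟩
  · by_contra hab
    refine hf ⟨(⟨a, ha⟩, ⟨b, hb⟩), hab⟩ ?_
    simp [h]
  · by_contra hne
    refine hg ⟨(⟨a, ha⟩, ⟨b, hb⟩, ⟨c, hc⟩), sub_ne_zero.2 hne⟩ ?_
    simp only [map_sub, map_smul, smul_eq_mul]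
    linear_combination h

/-- the line through the images of `a` and `b`, as (slope, intercept) -/
noncomputable def lineOf (f g : Module.Dual ℝ V) (a b : V) : ℝ × ℝ :=
  ((g b - g a) / (f b - f a), g a - (g b - g a) / (f b - f a) * f a)

lemma on_lineOf_iff {f g : Module.Dual ℝ V} {a b x : V} (hab : f a ≠ f b) :
    On (f x, g x) (lineOf f g a b) ↔ (g x - g a) * (f b - f a) = (g b - g a) * (f x - f a) := by
  have h : f b - f a ≠ 0 := sub_ne_zero.2 fun h => hab h.symm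
  unfold On lineOf
  simp only
  constructor
  · intro h1
    rw [h1]
    field_simp
    ring
  · intro h1
    have h2 : g x - g a = (g b - g a) / (f b - f a) * (f x - f a) := by
      rw [div_mul_eq_mul_div, eq_div_iff h, h1]
    linear_combination h2

lemma collinear_iff {f g : Module.Dual ℝ V} {A : Finset V}
    (hf : ∀ a ∈ A, ∀ b ∈ A, f a = f b → a = b)
    (hg : ∀ a ∈ A, ∀ b ∈ A, ∀ c ∈ A, (g c - g a) * (f b - f a) = (g b - g a) * (f c - f a) →
      f (b - a) • (c - a) = f (c - a) • (b - a))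
    {a b x : V} (ha : a ∈ A) (hb : b ∈ A) (hx : x ∈ A) (hab : a ≠ b) :
    Collinear ℝ {a, b, x} ↔ On (f x, g x) (lineOf f g a b) := by
  have hfab : f a ≠ f b := fun h => hab (hf a ha b hb h)
  rw [on_lineOf_iff hfab]
  constructor
  · intro h
    obtain ⟨v, hv⟩ := (collinear_iff_of_mem (p₀ := a) (by simp)).1 h
    obtain ⟨s, hs⟩ := hv b (by simp)
    obtain ⟨t, ht⟩ := hv x (by simp)
    rw [vadd_eq_add] at hs ht
    rw [hs, ht]
    simp only [map_add, map_smul, smul_eq_mul]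
    ring
  · intro h
    have h1 := hg a ha b hb x hx h
    have h2 : f (b - a) ≠ 0 := by
      rw [map_sub]; exact sub_ne_zero.2 fun h => hfab h.symm
    rw [collinear_iff_of_mem (p₀ := a) (by simp)]
    refine ⟨b - a, fun p hp => ?_⟩
    simp only [Set.mem_insert_iff, Set.mem_singleton_iff] at hp
    rcases hp with rfl | rfl | rfl
    · exact ⟨0, by simp⟩
    · exact ⟨1, by simp⟩
    · refine ⟨f (p - a) / f (b - a), ?_⟩
      rw [vadd_eq_add, div_eq_inv_mul, mul_smul, ← h1, smul_smul, inv_mul_cancel₀ h2, one_smul]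
      simp

open scoped Classical in
/-- **Pairs on rich lines.** -/
theorem rich_pairs (A : Finset V) (K r : ℕ) (hK : 2 ≤ K)
    (hr : ∀ a ∈ A, ∀ b ∈ A, a ≠ b → (A.filter fun x => Collinear ℝ {a, b, x}).card ≤ r) :
    (((A ×ˢ A).filter fun p => p.1 ≠ p.2 ∧
      K ≤ (A.filter fun x => Collinear ℝ {p.1, p.2, x}).card).card : ℝ) ≤
      1728 * (A.card : ℝ) ^ 2 / K + 24 * r * A.card := by
  obtain ⟨f, g, hf, hg⟩ := exists_proj A
  set φ : V → Pt := fun x => (f x, g x) with hφ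
  have hφinj : Set.InjOn φ A := fun a ha b hb h => hf a ha b hb (congrArg Prod.fst h)
  set P := A.image φ with hP
  have hPcard : P.card = A.card := Finset.card_image_of_injOn hφinj
  have hinj : ∀ u ∈ P, ∀ v ∈ P, u.1 = v.1 → u = v := by
    intro u hu v hv h
    obtain ⟨a, ha, rfl⟩ := Finset.mem_image.1 hu
    obtain ⟨b, hb, rfl⟩ := Finset.mem_image.1 hv
    rw [hf a ha b hb h]
  -- incidences of a line
  have hinc : ∀ l, (inc P l).card = (A.filter fun x => On (φ x) l).card := by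
    intro l
    rw [← Finset.card_image_of_injOn (s := A.filter fun x => On (φ x) l) (f := φ)
      (hφinj.mono fun x hx => (Finset.mem_filter.1 (Finset.mem_coe.1 hx)).1)]
    congr 1
    ext p
    simp only [mem_inc, hP, mem_image, mem_filter]
    constructor
    · rintro ⟨⟨a, ha, rfl⟩, h⟩; exact ⟨a, ⟨ha, h⟩, rfl⟩
    · rintro ⟨a, ⟨ha, h⟩, rfl⟩; exact ⟨⟨a, ha, rfl⟩, h⟩
  have hln : ∀ a ∈ A, ∀ b ∈ A, a ≠ b →
      (A.filter fun x => Collinear ℝ {a, b, x}) =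
        A.filter fun x => On (φ x) (lineOf f g a b) := by
    intro a ha b hb hab
    ext x
    simp only [mem_filter]
    exact and_congr_right fun hx => collinear_iff hf hg ha hb hx hab
  set S := (A ×ˢ A).filter fun p => p.1 ≠ p.2 ∧
      K ≤ (A.filter fun x => Collinear ℝ {p.1, p.2, x}).card with hS
  set L := S.image fun p => lineOf f g p.1 p.2 with hL
  have hLk : ∀ l ∈ L, K ≤ (inc P l).card ∧ (inc P l).card ≤ r := by
    intro l hl
    obtain ⟨p, hp, rfl⟩ := Finset.mem_image.1 hl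
    rw [hS, mem_filter, mem_product] at hp
    rw [hinc, ← hln _ hp.1.1 _ hp.1.2 hp.2.1]
    exact ⟨hp.2.2, hr _ hp.1.1 _ hp.1.2 hp.2.1⟩
  have hsub : S ⊆ L.biUnion fun l =>
      (A.filter fun x => On (φ x) l) ×ˢ (A.filter fun x => On (φ x) l) := by
    intro p hp
    have hp' := hp
    rw [hS, mem_filter, mem_product] at hp'
    obtain ⟨⟨h1, h2⟩, h3, -⟩ := hp'
    have hfab : f p.1 ≠ f p.2 := fun h => h3 (hf _ h1 _ h2 h)
    rw [mem_biUnion]
    refine ⟨lineOf f g p.1 p.2, Finset.mem_image_of_mem _ hp, ?_⟩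
    rw [mem_product, mem_filter, mem_filter]
    refine ⟨⟨h1, (on_lineOf_iff hfab).2 (by simp)⟩, h2, (on_lineOf_iff hfab).2 (by ring)⟩
  have hcard : (S.card : ℝ) ≤ ∑ l ∈ L, ((inc P l).card : ℝ) ^ 2 := by
    have h := (Finset.card_le_card hsub).trans Finset.card_biUnion_le
    calc (S.card : ℝ) ≤ ((∑ l ∈ L, ((A.filter fun x => On (φ x) l) ×ˢ
          (A.filter fun x => On (φ x) l)).card : ℕ) : ℝ) := by exact_mod_cast h
      _ = ∑ l ∈ L, ((inc P l).card : ℝ) ^ 2 := by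
        push_cast
        refine Finset.sum_congr rfl fun l _ => ?_
        rw [Finset.card_product, hinc]
        push_cast
        ring
  refine hcard.trans ?_
  rw [← hPcard]
  refine sum_sq_le L (fun l => (inc P l).card) P.card K r hK hLk fun j hj => ?_
  have h := rich_lines hinj (L := L.filter fun l => j ≤ (inc P l).card) (k := j) (by omega)
    (fun l hl => (mem_filter.1 hl).2)
  exact h

end proj

end Crest.Agent.R065.ST397
end

-- ▼ part R065/D3B_235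
section

/-!
# Row 65, d = 3: STEP B, final form
-/

set_option autoImplicit false

namespace Crest.Agent.R065.D3B235

open Finset Crest.Agent.R065.D3 Crest.Agent.R065.D3mult235

theorem richPairs : RichPairs 1728 := by
  classical
  intro A K r hK hr0 hr
  obtain ⟨k, hk⟩ : ∃ k : ℕ, k = ⌈K⌉₊ := ⟨_, rfl⟩
  have hk1 : K ≤ k := by rw [hk]; exact Nat.le_ceil K
  have hk2 : 2 ≤ k := by
    have : (2 : ℝ) ≤ k := hK.trans hk1
    exact_mod_cast this
  have hkp : (0 : ℝ) < K := by linarith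
  have h := ST397.rich_pairs A k ⌊r⌋₊ hk2 (fun a ha b hb hab => Nat.le_floor (by
    have := hr a ha b hb hab
    unfold lc at this
    convert this))
  have h1 : (((A ×ˢ A).filter fun p => p.1 ≠ p.2 ∧ K ≤ (lc A p.1 p.2 : ℝ)).card : ℝ) ≤
      1728 * (A.card : ℝ) ^ 2 / k + 24 * (⌊r⌋₊ : ℝ) * A.card := by
    refine le_trans ?_ h
    rw [Nat.cast_le]
    refine card_le_card fun p hp => ?_
    simp only [mem_filter] at hp ⊢
    refine ⟨hp.1, hp.2.1, ?_⟩
    rw [hk]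
    have := Nat.ceil_le.2 hp.2.2
    unfold lc at this
    convert this
  have h2 : (1728 : ℝ) * (A.card : ℝ) ^ 2 / k ≤ 1728 * (A.card : ℝ) ^ 2 / K := by gcongr
  have h3 : (24 : ℝ) * (⌊r⌋₊ : ℝ) * A.card ≤ 24 * r * A.card := by
    gcongr
    exact Nat.floor_le hr0
  have h4 : (0 : ℝ) ≤ (A.card : ℝ) ^ 2 / K := by positivity
  have h5 : (0 : ℝ) ≤ r * A.card := by positivity
  have h6 : (1728 : ℝ) * (A.card : ℝ) ^ 2 / K = 1728 * ((A.card : ℝ) ^ 2 / K) := by ring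
  rw [h6] at h2
  have h7 : (((A ×ˢ A).filter fun p => p.1 ≠ p.2 ∧ K ≤ (lc A p.1 p.2 : ℝ)).card : ℝ) ≤
      1728 * ((A.card : ℝ) ^ 2 / K + r * A.card) := by linarith
  convert h7

theorem line_bound {C0 B L : ℝ} {Z : Finset PP} (h : Reg Nul C0 B Z L) (a b : E3) (hab : a ≠ b) :
    (lc (p1 Z) a b : ℝ) * L ≤ 2 * C0 * (ss Z : ℝ) ^ 2 := by
  have := D3cons275.fst_line' h a b hab
  unfold lc p1
  exact this

/-- **STEP B** -/
theorem stepB {C0 : ℝ} (hC0 : 1 ≤ C0) : StepB C0 :=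
  D3c235.stepB_of richPairs (by norm_num) hC0 fun _ _ _ _ h a b hab => line_bound h a b hab

end Crest.Agent.R065.D3B235
end

-- ▼ part R065/D3a_235
section

/-!
# Row 65, d = 3, module D3a: regular configurations from an extremal one

For a symmetric relation `r` on `α × β` (null pairs) with no related pairs in the same fibre,
`T(Z)` = number of ordered related pairs, `s(Z) = |pr₁ Z| + |pr₂ Z|`.  If `T(Z)^6 ≤ B |Z|^7 s(Z)^6`
fails for every `B`, then there are regular configurations `Reg` with arbitrarily large parameter.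
-/

set_option autoImplicit false

namespace Crest.Agent.R065.D3a235

open Finset Crest.Agent.R065.D3

variable {α β : Type*}

/-- top elements: among `A` there are `k` elements carrying at least the average weight -/
lemma exists_top {γ : Type*} [DecidableEq γ] (w : γ → ℕ) :
    ∀ (A : Finset γ) (k : ℕ), k ≤ A.card →
      ∃ A' ⊆ A, A'.card = k ∧ k * ∑ x ∈ A, w x ≤ A.card * ∑ x ∈ A', w x := by
  intro A
  induction A using Finset.strongInduction with
  | H A ih =>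
    intro k hk
    rcases hk.eq_or_lt with h | h
    · exact ⟨A, Subset.refl _, h.symm, by rw [h]⟩
    · have hne : A.Nonempty := by
        rw [← card_pos]; omega
      obtain ⟨x, hx, hmin⟩ := exists_min_image A w hne
      have hsub : A.erase x ⊂ A := erase_ssubset hx
      have hc : (A.erase x).card = A.card - 1 := card_erase_of_mem hx
      obtain ⟨A', h1, h2, h3⟩ := ih (A.erase x) hsub k (by omega)
      refine ⟨A', h1.trans hsub.1, h2, ?_⟩
      have hsum : ∑ y ∈ A, w y = w x + ∑ y ∈ A.erase x, w y := (add_sum_erase A w hx).symm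
      have h4 : (A.card - 1) * w x ≤ ∑ y ∈ A.erase x, w y := by
        rw [← hc, ← smul_eq_mul]
        exact card_nsmul_le_sum _ _ _ fun y hy => hmin y (mem_of_mem_erase hy)
      rw [hc] at h3
      obtain ⟨n, hn⟩ : ∃ n, A.card = n + 1 := ⟨A.card - 1, by omega⟩
      rw [hn] at h3 h4 ⊢
      simp only [Nat.add_sub_cancel] at h3 h4
      rw [hsum]
      rcases Nat.eq_zero_or_pos n with hn0 | hn0
      · subst hn0
        have : k = 0 := by omega
        subst this; simp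
      · -- n * (k * (w x + S)) ≤ n * ((n+1) * S')
        refine Nat.le_of_mul_le_mul_left ?_ hn0
        calc n * (k * (w x + ∑ y ∈ A.erase x, w y))
            = k * (n * w x) + n * (k * ∑ y ∈ A.erase x, w y) := by ring
          _ ≤ k * ∑ y ∈ A.erase x, w y + n * (k * ∑ y ∈ A.erase x, w y) := by gcongr
          _ = (n + 1) * (k * ∑ y ∈ A.erase x, w y) := by ring
          _ ≤ (n + 1) * (n * ∑ y ∈ A', w y) := by gcongr
          _ = n * ((n + 1) * ∑ y ∈ A', w y) := by ring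

/-- the extremal inequality -/
def Ext (r : α × β → α × β → Prop) (Z : Finset (α × β)) : Prop :=
  ∀ Y : Finset (α × β), Y.card ≤ Z.card →
    TT r Y ^ 6 * (Z.card ^ 7 * ss Z ^ 6) ≤ TT r Z ^ 6 * (Y.card ^ 7 * ss Y ^ 6)

lemma exists_ext (r : α × β → α × β → Prop) (B : ℕ)
    (h : ∃ Z : Finset (α × β), B * (Z.card ^ 7 * ss Z ^ 6) < TT r Z ^ 6) :
    ∃ Z : Finset (α × β), Ext r Z ∧ B * (Z.card ^ 7 * ss Z ^ 6) < TT r Z ^ 6 := by
  classical
  obtain ⟨Z0, hZ0⟩ := h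
  have hne0 : Z0.Nonempty := by
    rw [nonempty_iff_ne_empty]
    rintro rfl
    simp [TT, EE] at hZ0
  set N := Z0.card with hN
  let S : Finset (ℕ × ℕ × ℕ) := ((range (N ^ 2 + 1)) ×ˢ ((range (N + 1)) ×ˢ
    (range (2 * N + 1)))).filter fun q => ∃ Z : Finset (α × β), Z.Nonempty ∧ TT r Z = q.1 ∧
      Z.card = q.2.1 ∧ ss Z = q.2.2
  have hmem : ∀ Z : Finset (α × β), Z.Nonempty → Z.card ≤ N → (TT r Z, Z.card, ss Z) ∈ S := by
    intro Z hZ hc
    simp only [S, mem_filter, mem_product, mem_range]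
    have h1 := TT_le (r := r) Z
    have h2 := ss_le Z
    have h3 : Z.card ^ 2 ≤ N ^ 2 := Nat.pow_le_pow_left hc 2
    exact ⟨⟨by omega, by omega, by omega⟩, Z, hZ, rfl, rfl, rfl⟩
  obtain ⟨q, hq, hmax⟩ := exists_max_image S
    (fun q : ℕ × ℕ × ℕ => (q.1 : ℚ) ^ 6 / ((q.2.1 : ℚ) ^ 7 * (q.2.2 : ℚ) ^ 6))
    ⟨_, hmem Z0 hne0 le_rfl⟩
  have hq' := (mem_filter.1 hq)
  obtain ⟨hq1, Z, hZne, e1, e2, e3⟩ := hq'
  simp only [mem_product, mem_range] at hq1
  have hZc : Z.card ≤ N := by omega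
  have key : ∀ Y : Finset (α × β), Y.Nonempty → Y.card ≤ N →
      TT r Y ^ 6 * (Z.card ^ 7 * ss Z ^ 6) ≤ TT r Z ^ 6 * (Y.card ^ 7 * ss Y ^ 6) := by
    intro Y hY hc
    have h1 := hmax _ (hmem Y hY hc)
    simp only [← e1, ← e2, ← e3] at h1
    have hp1 : (0 : ℚ) < (Y.card : ℚ) ^ 7 * (ss Y : ℚ) ^ 6 := by
      have := card_pos.2 hY
      have := ss_pos hY
      positivity
    have hp2 : (0 : ℚ) < (Z.card : ℚ) ^ 7 * (ss Z : ℚ) ^ 6 := by
      have := card_pos.2 hZne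
      have := ss_pos hZne
      positivity
    rw [div_le_div_iff₀ hp1 hp2] at h1
    exact_mod_cast h1
  refine ⟨Z, ?_, ?_⟩
  · intro Y hY
    rcases Y.eq_empty_or_nonempty with h | h
    · subst h; simp [TT, EE]
    · exact key Y h (hY.trans hZc)
  · have h1 := key Z0 hne0 le_rfl
    have hp : 0 < Z0.card ^ 7 * ss Z0 ^ 6 := by
      have := card_pos.2 hne0
      have := ss_pos hne0
      positivity
    have hp2 : 0 < Z.card ^ 7 * ss Z ^ 6 := by
      have := card_pos.2 hZne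
      have := ss_pos hZne
      positivity
    refine Nat.lt_of_mul_lt_mul_right (a := Z0.card ^ 7 * ss Z0 ^ 6) ?_
    calc B * (Z.card ^ 7 * ss Z ^ 6) * (Z0.card ^ 7 * ss Z0 ^ 6)
        = (B * (Z0.card ^ 7 * ss Z0 ^ 6)) * (Z.card ^ 7 * ss Z ^ 6) := by ring
      _ < TT r Z0 ^ 6 * (Z.card ^ 7 * ss Z ^ 6) := Nat.mul_lt_mul_of_pos_right hZ0 hp2
      _ ≤ TT r Z ^ 6 * (Z0.card ^ 7 * ss Z0 ^ 6) := h1

/-- rational form of the extremal inequality -/
lemma Ext.le {r : α × β → α × β → Prop} {Z : Finset (α × β)} (h : Ext r Z) (hne : Z.Nonempty)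
    {Y : Finset (α × β)} (hY : Y.card ≤ Z.card) {y : ℝ} (hy : 0 ≤ y)
    (hc : (Y.card : ℝ) ≤ y ^ 6 * Z.card) :
    (TT r Y : ℝ) * (Z.card * ss Z) ≤ TT r Z * (y * Y.card * ss Y) := by
  have h1 := h Y hY
  have h2 : (TT r Y : ℝ) ^ 6 * ((Z.card : ℝ) ^ 7 * (ss Z : ℝ) ^ 6) ≤
      (TT r Z : ℝ) ^ 6 * ((Y.card : ℝ) ^ 7 * (ss Y : ℝ) ^ 6) := by exact_mod_cast h1
  have hZ : (0 : ℝ) < Z.card := by exact_mod_cast card_pos.2 hne
  have h3 : ((TT r Y : ℝ) * (Z.card * ss Z)) ^ 6 * Z.card ≤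
      (TT r Z * (y * Y.card * ss Y)) ^ 6 * Z.card := by
    calc ((TT r Y : ℝ) * (Z.card * ss Z)) ^ 6 * Z.card
        = (TT r Y : ℝ) ^ 6 * ((Z.card : ℝ) ^ 7 * (ss Z : ℝ) ^ 6) := by ring
      _ ≤ (TT r Z : ℝ) ^ 6 * ((Y.card : ℝ) ^ 7 * (ss Y : ℝ) ^ 6) := h2
      _ = (TT r Z : ℝ) ^ 6 * (Y.card : ℝ) ^ 6 * (ss Y : ℝ) ^ 6 * Y.card := by ring
      _ ≤ (TT r Z : ℝ) ^ 6 * (Y.card : ℝ) ^ 6 * (ss Y : ℝ) ^ 6 * (y ^ 6 * Z.card) := by gcongr
      _ = (TT r Z * (y * Y.card * ss Y)) ^ 6 * Z.card := by ring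
  have h4 := le_of_mul_le_mul_right h3 hZ
  exact le_of_pow_le_pow_left₀ (by norm_num) (by positivity) h4

lemma aux_five {T T0 N0 s0 Y s1 : ℝ} (hT0 : 0 ≤ T0) (hY : 0 ≤ Y)
    (h3 : T * (N0 * s0) ≤ T0 * (1 / 12 * (2 * Y) * s1)) (h4 : s1 ≤ s0) :
    T * N0 * s0 ≤ T0 * (1 / 6) * Y * s0 := by
  have h : T0 * Y * s1 ≤ T0 * Y * s0 := mul_le_mul_of_nonneg_left h4 (mul_nonneg hT0 hY)
  nlinarith

lemma aux_big {N0 s0 T0 B1 B z s : ℝ} (hN0p : 0 < N0) (hs0p : 0 < s0) (hT0p : 0 < T0)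
    (hNs : N0 ≤ s0 ^ 2) (h3 : (512 * B1) ^ 2 * (N0 ^ 7 * s0 ^ 6) ≤ T0 ^ 6) (hB : B ≤ B1)
    (hz0 : 0 ≤ z) (hz : z ≤ N0) (hs0 : 0 ≤ s) (hs : s ≤ s0) (hB1 : 0 ≤ B1) :
    B * z * s ^ 2 ≤ (T0 / (8 * N0)) ^ 3 := by
  have h4 : (512 * B1 * (N0 * s0 ^ 2)) ^ 2 ≤ ((T0 / N0) ^ 3) ^ 2 := by
    have h5 : ((T0 / N0) ^ 3) ^ 2 = T0 ^ 6 / N0 ^ 6 := by field_simp
    rw [h5, le_div_iff₀ (by positivity)]
    calc (512 * B1 * (N0 * s0 ^ 2)) ^ 2 * N0 ^ 6
        = (512 * B1 : ℝ) ^ 2 * (N0 ^ 7 * (s0 ^ 4 * N0)) := by ring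
      _ ≤ (512 * B1 : ℝ) ^ 2 * (N0 ^ 7 * (s0 ^ 4 * s0 ^ 2)) := by gcongr
      _ = (512 * B1 : ℝ) ^ 2 * (N0 ^ 7 * s0 ^ 6) := by ring
      _ ≤ T0 ^ 6 := h3
  have h6 : 512 * B1 * (N0 * s0 ^ 2) ≤ (T0 / N0) ^ 3 :=
    le_of_pow_le_pow_left₀ (by norm_num) (by positivity) h4
  have h7 : (T0 / (8 * N0)) ^ 3 = (T0 / N0) ^ 3 / 512 := by field_simp; ring
  rw [h7, le_div_iff₀ (by norm_num)]
  calc B * z * s ^ 2 * 512 ≤ B1 * N0 * s0 ^ 2 * 512 := by
        have h8 : B * z * s ^ 2 ≤ B1 * z * s ^ 2 := by gcongr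
        have h9 : B1 * z * s ^ 2 ≤ B1 * N0 * s0 ^ 2 := by gcongr
        linarith
    _ = 512 * B1 * (N0 * s0 ^ 2) := by ring
    _ ≤ (T0 / N0) ^ 3 := h6

lemma aux_sub {T0 N0 A y W s : ℝ} (hN0p : 0 < N0) (hT0p : 0 < T0) (hy : 0 ≤ y) (hW : 0 ≤ W)
    (hs : 0 ≤ s) (h : A ≤ T0 * (y * W * s) / N0) :
    A ≤ (10 : ℝ) ^ 9 * y * W * (T0 / (8 * N0)) * s := by
  have h7 : (10 : ℝ) ^ 9 * y * W * (T0 / (8 * N0)) * s =
      (10 ^ 9 / 8) * (T0 * (y * W * s) / N0) := by field_simp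
  rw [h7]
  have h8 : 0 ≤ T0 * (y * W * s) / N0 := by positivity
  nlinarith

/-- **D3a**: regular configurations -/
theorem exists_reg (r : α × β → α × β → Prop) (hs : ∀ z w, r z w → r w z)
    (h1 : ∀ z w, r z w → z.1 ≠ w.1) (h2 : ∀ z w, r z w → z.2 ≠ w.2)
    (hbad : ∀ B : ℕ, ∃ Z : Finset (α × β), B * (Z.card ^ 7 * ss Z ^ 6) < TT r Z ^ 6)
    (B : ℝ) :
    ∃ (Z : Finset (α × β)) (L : ℝ), Reg r (10 ^ 9) B Z L := by
  classical
  obtain ⟨B1, hB1⟩ : ∃ B1 : ℕ, 1 ≤ B1 ∧ B ≤ B1 := by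
    obtain ⟨n, hn⟩ := exists_nat_ge B
    exact ⟨n + 1, by omega, by push_cast; linarith⟩
  obtain ⟨Z0, hext, hbig⟩ := exists_ext r ((512 * B1) ^ 2) (hbad _)
  have hne0 : Z0.Nonempty := by
    rw [nonempty_iff_ne_empty]
    rintro rfl
    simp [TT, EE] at hbig
  obtain ⟨N0, hN0⟩ : ∃ N0 : ℝ, N0 = (Z0.card : ℝ) := ⟨_, rfl⟩
  obtain ⟨s0, hs0⟩ : ∃ s0 : ℝ, s0 = (ss Z0 : ℝ) := ⟨_, rfl⟩
  obtain ⟨T0, hT0⟩ : ∃ T0 : ℝ, T0 = (TT r Z0 : ℝ) := ⟨_, rfl⟩
  have hN0p : 0 < N0 := by rw [hN0]; exact_mod_cast card_pos.2 hne0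
  have hs0p : 0 < s0 := by rw [hs0]; exact_mod_cast ss_pos hne0
  have hT0p : 0 < T0 := by
    rw [hT0]
    have : 0 < TT r Z0 ^ 6 := by omega
    have h3 : 0 < TT r Z0 := Nat.pos_of_ne_zero (by rintro h; rw [h] at this; simp at this)
    exact_mod_cast h3
  have hNs : N0 ≤ s0 ^ 2 := by
    rw [hN0, hs0]; exact_mod_cast card_le_ss_sq Z0
  have hbigR : (512 * (B1 : ℝ)) ^ 2 * (N0 ^ 7 * s0 ^ 6) ≤ T0 ^ 6 := by
    rw [hN0, hs0, hT0]
    have : (((512 * B1) ^ 2 * (Z0.card ^ 7 * ss Z0 ^ 6) : ℕ) : ℝ) ≤ ((TT r Z0 ^ 6 : ℕ) : ℝ) :=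
      Nat.cast_le.2 hbig.le
    push_cast at this
    exact this
  clear hbig
  -- heavy points
  obtain ⟨M, hM⟩ : ∃ M : ℝ, M = 2 * 12 ^ 6 := ⟨_, rfl⟩
  set Y : Finset (α × β) := Z0.filter fun z => M * T0 < deg r Z0 z * N0 with hYdef
  have hYsub : Y ⊆ Z0 := filter_subset _ _
  have hYcard : (Y.card : ℝ) * M ≤ N0 := by
    have h3 : (∑ _z ∈ Y, M * T0 : ℝ) ≤ ∑ z ∈ Y, (deg r Z0 z : ℝ) * N0 :=
      sum_le_sum fun z hz => (mem_filter.1 hz).2.le
    have h4 : (∑ z ∈ Y, (deg r Z0 z : ℝ) * N0) ≤ T0 * N0 := by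
      rw [← sum_mul]
      refine mul_le_mul_of_nonneg_right ?_ hN0p.le
      rw [hT0]
      unfold TT EE
      push_cast
      exact sum_le_sum_of_subset_of_nonneg hYsub fun _ _ _ => by positivity
    rw [sum_const, nsmul_eq_mul] at h3
    have h5 : (Y.card * M) * T0 ≤ N0 * T0 := by nlinarith
    exact le_of_mul_le_mul_right h5 hT0p
  -- edges at heavy points
  have hheavy : (TT r (Z0 \ Y) : ℝ) ≥ 3 / 4 * T0 := by
    have hdisj : Disjoint Y (Z0 \ Y) := disjoint_sdiff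
    have hun : Y ∪ (Z0 \ Y) = Z0 := union_sdiff_of_subset hYsub
    have hTT : TT r Z0 = TT r Y + 2 * EE r Y (Z0 \ Y) + TT r (Z0 \ Y) := by
      have := TT_union hs hdisj
      rwa [hun] at this
    have hM2 : M * (1 / 12) ^ 6 = 2 := by rw [hM]; norm_num
    have hYN : 2 * (Y.card : ℝ) ≤ (1 / 12) ^ 6 * N0 := by
      have : M * (2 * (Y.card : ℝ)) ≤ M * ((1 / 12) ^ 6 * N0) := by
        calc M * (2 * (Y.card : ℝ)) = 2 * (Y.card * M) := by ring
          _ ≤ 2 * N0 := by linarith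
          _ = M * ((1 / 12) ^ 6 * N0) := by rw [← mul_assoc, hM2]
      exact le_of_mul_le_mul_left this (by rw [hM]; norm_num)
    have hYle : 2 * Y.card ≤ Z0.card := by
      have : 2 * (Y.card : ℝ) ≤ N0 := by nlinarith
      rw [hN0] at this
      exact_mod_cast this
    -- T(Y)
    have hTY : (TT r Y : ℝ) ≤ T0 / 12 := by
      have h3 := hext.le hne0 (Y := Y) (by omega) (y := 1 / 12) (by norm_num)
        (by have : (0 : ℝ) ≤ Y.card := Nat.cast_nonneg _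
            rw [← hN0]; linarith)
      rw [← hN0, ← hs0, ← hT0] at h3
      have h4 : (ss Y : ℝ) ≤ s0 := by rw [hs0]; exact_mod_cast ss_mono hYsub
      have h5 : (Y.card : ℝ) ≤ N0 := by rw [hN0]; exact_mod_cast card_le_card hYsub
      have h6 : T0 * (1 / 12 * Y.card * ss Y) ≤ T0 / 12 * (N0 * s0) := by
        calc T0 * (1 / 12 * Y.card * ss Y) ≤ T0 * (1 / 12 * N0 * s0) := by gcongr
          _ = T0 / 12 * (N0 * s0) := by ring
      exact le_of_mul_le_mul_right (h3.trans h6) (by positivity)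
    -- cross edges
    have hcross : (EE r Y (Z0 \ Y) : ℝ) ≤ T0 / 12 := by
      rcases Y.eq_empty_or_nonempty with hYe | hYne
      · rw [hYe]; simp only [EE, sum_empty, Nat.cast_zero]; positivity
      have hcd : (Z0 \ Y).card = Z0.card - Y.card := card_sdiff_of_subset hYsub
      obtain ⟨Y', hY's, hY'c, hY'w⟩ := exists_top (fun z => deg r Y z) (Z0 \ Y) Y.card (by omega)
      have hdis : Disjoint Y Y' := disjoint_of_subset_right hY's hdisj
      have hT3 : TT r (Y ∪ Y') = TT r Y + 2 * EE r Y Y' + TT r Y' := TT_union hs hdis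
      have hc3 : (Y ∪ Y').card = 2 * Y.card := by
        rw [card_union_of_disjoint hdis, hY'c]; ring
      have h3 := hext.le hne0 (Y := Y ∪ Y') (by omega) (y := 1 / 12) (by norm_num)
        (by rw [hc3, ← hN0]; push_cast; linarith)
      rw [← hN0, ← hs0, ← hT0, hc3] at h3
      have h4 : (ss (Y ∪ Y') : ℝ) ≤ s0 := by
        rw [hs0]
        exact_mod_cast ss_mono (union_subset hYsub (hY's.trans sdiff_subset))
      have h5 : (TT r (Y ∪ Y') : ℝ) * N0 ≤ T0 * (1 / 6) * Y.card := by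
        have : (TT r (Y ∪ Y') : ℝ) * N0 * s0 ≤ T0 * (1 / 6) * Y.card * s0 := by
          rw [Nat.cast_mul, Nat.cast_ofNat] at h3
          exact aux_five hT0p.le (Nat.cast_nonneg _) h3 h4
        exact le_of_mul_le_mul_right this hs0p
      have h6 : (2 * EE r Y Y' : ℝ) ≤ TT r (Y ∪ Y') := by
        have : 2 * EE r Y Y' ≤ TT r (Y ∪ Y') := by omega
        exact_mod_cast this
      have h7 : (Y.card : ℝ) * EE r Y (Z0 \ Y) ≤ N0 * EE r Y Y' := by
        have h8 : ∑ z ∈ Z0 \ Y, deg r Y z = EE r Y (Z0 \ Y) := by rw [EE_comm hs]; rfl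
        have h9 : ∑ z ∈ Y', deg r Y z = EE r Y Y' := by rw [EE_comm hs]; rfl
        rw [h8, h9] at hY'w
        have h10 : Y.card * EE r Y (Z0 \ Y) ≤ Z0.card * EE r Y Y' :=
          hY'w.trans (Nat.mul_le_mul_right _ (by omega))
        rw [hN0]
        exact_mod_cast h10
      have hYp : (0 : ℝ) < Y.card := by exact_mod_cast card_pos.2 hYne
      have h11 : (Y.card : ℝ) * EE r Y (Z0 \ Y) ≤ Y.card * (T0 / 12) := by
        calc (Y.card : ℝ) * EE r Y (Z0 \ Y) ≤ N0 * EE r Y Y' := h7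
          _ = (2 * EE r Y Y') * N0 / 2 := by ring
          _ ≤ TT r (Y ∪ Y') * N0 / 2 := by gcongr
          _ ≤ (T0 * (1 / 6) * Y.card) / 2 := by gcongr
          _ = Y.card * (T0 / 12) := by ring
      exact le_of_mul_le_mul_left h11 hYp
    have hTT' : T0 = TT r Y + 2 * EE r Y (Z0 \ Y) + TT r (Z0 \ Y) := by
      rw [hT0, hTT]; push_cast; ring
    linarith
  -- the maximiser
  set Z1 := Z0 \ Y with hZ1
  have hZ1sub : Z1 ⊆ Z0 := sdiff_subset
  let G : Finset (α × β) → ℝ := fun W => TT r W - T0 / 4 * (W.card / N0) - T0 / 4 * (ss W / s0)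
  obtain ⟨Z, hZmem, hZmax⟩ := exists_max_image Z1.powerset G ⟨Z1, mem_powerset_self _⟩
  rw [mem_powerset] at hZmem
  have hZsub : Z ⊆ Z0 := hZmem.trans hZ1sub
  have hcardle : (Z.card : ℝ) ≤ N0 := by rw [hN0]; exact_mod_cast card_le_card hZsub
  have hssle : (ss Z : ℝ) ≤ s0 := by rw [hs0]; exact_mod_cast ss_mono hZsub
  have hTZ : T0 / 4 ≤ TT r Z := by
    have h3 := hZmax Z1 (mem_powerset_self _)
    have h4 : (Z1.card : ℝ) / N0 ≤ 1 := by
      rw [div_le_one hN0p, hN0]; exact_mod_cast card_le_card hZ1sub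
    have h5 : (ss Z1 : ℝ) / s0 ≤ 1 := by
      rw [div_le_one hs0p, hs0]; exact_mod_cast ss_mono hZ1sub
    have h6 : (0 : ℝ) ≤ Z.card / N0 := by positivity
    have h7 : (0 : ℝ) ≤ ss Z / s0 := by positivity
    simp only [G] at h3
    nlinarith
  have hZne : Z.Nonempty := by
    rw [nonempty_iff_ne_empty]
    rintro h
    rw [h] at hTZ
    simp [TT, EE] at hTZ
    linarith
  have hssge : s0 ≤ 4 * ss Z := by
    have h3 := hext.le hne0 (Y := Z) (card_le_card hZsub) (y := 1) (by norm_num)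
      (by rw [← hN0]; linarith)
    rw [← hN0, ← hs0, ← hT0] at h3
    have h4 : T0 / 4 * (N0 * s0) ≤ T0 * (1 * N0 * ss Z) := by
      calc T0 / 4 * (N0 * s0) ≤ TT r Z * (N0 * s0) := by gcongr
        _ ≤ T0 * (1 * Z.card * ss Z) := h3
        _ ≤ T0 * (1 * N0 * ss Z) := by gcongr
    have h5 : (T0 * N0) * s0 ≤ (T0 * N0) * (4 * ss Z) := by linarith
    exact le_of_mul_le_mul_left h5 (by positivity)
  -- removing a set without internal edges
  have hremove : ∀ F : Finset (α × β), F ⊆ Z → TT r F = 0 →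
      ((TT r (Z \ F) : ℝ) = TT r Z - 2 * EE r F Z) := by
    intro F hF hF0
    have hd : Disjoint F (Z \ F) := disjoint_sdiff
    have hu : F ∪ (Z \ F) = Z := union_sdiff_of_subset hF
    have h3 : TT r Z = TT r F + 2 * EE r F (Z \ F) + TT r (Z \ F) := by
      have := TT_union hs hd
      rwa [hu] at this
    have h4 : EE r F Z = EE r F F + EE r F (Z \ F) := by
      have := EE_union_right (r := r) (A := F) hd
      rwa [hu] at this
    have h5 : EE r F F = 0 := hF0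
    rw [h5, zero_add] at h4
    rw [hF0, zero_add] at h3
    rw [h3, h4]; push_cast; ring
  have hfib : ∀ F : Finset (α × β), F ⊆ Z → TT r F = 0 → ss (Z \ F) + 1 ≤ ss Z →
      T0 / (8 * s0) ≤ EE r F Z := by
    intro F hF hF0 hFs
    have h3 := hZmax (Z \ F) (mem_powerset.2 (sdiff_subset.trans hZmem))
    simp only [G] at h3
    rw [hremove F hF hF0] at h3
    have h4 : ((Z \ F).card : ℝ) / N0 ≤ Z.card / N0 := by
      gcongr
      exact sdiff_subset
    have h5 : (ss (Z \ F) : ℝ) / s0 + 1 / s0 ≤ ss Z / s0 := by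
      rw [← add_div]
      gcongr
      exact_mod_cast hFs
    have h6 : T0 / 4 * (1 / s0) ≤ 2 * EE r F Z := by nlinarith
    have h7 : T0 / (8 * s0) = (T0 / 4 * (1 / s0)) / 2 := by field_simp; ring
    rw [h7]; linarith
  have hpt : ∀ z ∈ Z, T0 / (8 * N0) ≤ deg r Z z := by
    intro z hz
    have hF : ({z} : Finset (α × β)) ⊆ Z := singleton_subset_iff.2 hz
    have hF0 : TT r ({z} : Finset (α × β)) = 0 := by
      unfold TT EE deg
      rw [sum_singleton, card_eq_zero, eq_empty_iff_forall_notMem]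
      intro w hw
      rw [mem_nb, mem_singleton] at hw
      rw [hw.1] at hw
      exact h1 _ _ hw.2 rfl
    have h3 := hZmax (Z \ {z}) (mem_powerset.2 (sdiff_subset.trans hZmem))
    simp only [G] at h3
    rw [hremove _ hF hF0] at h3
    have h4 : ((Z \ {z}).card : ℝ) / N0 + 1 / N0 ≤ Z.card / N0 := by
      rw [← add_div]
      gcongr
      have : (Z \ {z}).card + 1 ≤ Z.card := by
        rw [card_sdiff_of_subset hF, card_singleton]
        have := card_pos.2 hZne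
        omega
      exact_mod_cast this
    have h5 : (ss (Z \ {z}) : ℝ) / s0 ≤ ss Z / s0 := by
      gcongr
      exact ss_mono sdiff_subset
    have h6 : EE r {z} Z = deg r Z z := by unfold EE; rw [sum_singleton]
    rw [h6] at h3
    have h7 : T0 / 4 * (1 / N0) ≤ 2 * deg r Z z := by nlinarith
    have h8 : T0 / (8 * N0) = (T0 / 4 * (1 / N0)) / 2 := by field_simp; ring
    rw [h8]; linarith
  have hZcp : (0 : ℝ) < Z.card := by exact_mod_cast card_pos.2 hZne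
  have hssp : (0 : ℝ) < ss Z := by exact_mod_cast ss_pos hZne
  -- fibre inequality in the required form
  have hfinal : ∀ e : ℝ, T0 / (8 * s0) ≤ e →
      T0 / (8 * N0) * Z.card ≤ 10 ^ 9 * ss Z * e := by
    intro e he
    have he0 : 0 ≤ T0 / (8 * s0) := by positivity
    calc T0 / (8 * N0) * Z.card ≤ T0 / (8 * N0) * N0 := by gcongr
      _ = s0 * (T0 / (8 * s0)) := by field_simp
      _ ≤ (4 * ss Z) * e := by gcongr
      _ ≤ 10 ^ 9 * ss Z * e := by nlinarith [mul_nonneg hssp.le (he0.trans he)]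
  refine ⟨Z, T0 / (8 * N0), ⟨hZne, by positivity, hpt, ?_, ?_, ?_, ?_, ?_⟩⟩
  · intro z hz
    have hz1 : z ∉ Y := (mem_sdiff.1 (hZmem hz)).2
    have hz0 : z ∈ Z0 := hZsub hz
    have h3 : (deg r Z0 z : ℝ) * N0 ≤ M * T0 := by
      by_contra hcon
      exact hz1 (mem_filter.2 ⟨hz0, not_le.1 hcon⟩)
    have h4 : (deg r Z z : ℝ) ≤ deg r Z0 z := by exact_mod_cast deg_mono hZsub z
    have h5 : (deg r Z z : ℝ) * N0 ≤ M * T0 := le_trans (by gcongr) h3
    have h6 : (deg r Z z : ℝ) ≤ M * T0 / N0 := by rwa [le_div_iff₀ hN0p]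
    refine h6.trans ?_
    have h7 : (10 : ℝ) ^ 9 * (T0 / (8 * N0)) = (10 ^ 9 / 8) * T0 / N0 := by field_simp
    rw [h7, hM]
    gcongr
    norm_num
  · intro a F hF hFne
    have hFZ : F ⊆ Z := fun z hz => ((hF z).1 hz).1
    refine hfinal _ (hfib F hFZ ?_ ?_)
    · unfold TT EE deg
      rw [sum_eq_zero_iff]
      intro z hz
      rw [card_eq_zero, eq_empty_iff_forall_notMem]
      intro w hw
      rw [mem_nb] at hw
      exact h1 _ _ hw.2 (((hF z).1 hz).2.trans ((hF w).1 hw.1).2.symm)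
    · unfold ss
      have h3 : ((Z \ F).image Prod.fst) ⊆ (Z.image Prod.fst).erase a := by
        intro x hx
        rw [mem_image] at hx
        obtain ⟨z, hz, rfl⟩ := hx
        rw [mem_sdiff] at hz
        rw [mem_erase]
        refine ⟨fun h => hz.2 ((hF z).2 ⟨hz.1, h⟩), mem_image_of_mem _ hz.1⟩
      have h4 := card_le_card h3
      have h5 : a ∈ Z.image Prod.fst := by
        obtain ⟨z, hz⟩ := hFne
        have := (hF z).1 hz
        rw [← this.2]
        exact mem_image_of_mem _ this.1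
      rw [card_erase_of_mem h5] at h4
      have h6 : 0 < (Z.image Prod.fst).card := card_pos.2 ⟨a, h5⟩
      have h7 : ((Z \ F).image Prod.snd).card ≤ (Z.image Prod.snd).card :=
        card_le_card (image_subset_image sdiff_subset)
      omega
  · intro a F hF hFne
    have hFZ : F ⊆ Z := fun z hz => ((hF z).1 hz).1
    refine hfinal _ (hfib F hFZ ?_ ?_)
    · unfold TT EE deg
      rw [sum_eq_zero_iff]
      intro z hz
      rw [card_eq_zero, eq_empty_iff_forall_notMem]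
      intro w hw
      rw [mem_nb] at hw
      exact h2 _ _ hw.2 (((hF z).1 hz).2.trans ((hF w).1 hw.1).2.symm)
    · unfold ss
      have h3 : ((Z \ F).image Prod.snd) ⊆ (Z.image Prod.snd).erase a := by
        intro x hx
        rw [mem_image] at hx
        obtain ⟨z, hz, rfl⟩ := hx
        rw [mem_sdiff] at hz
        rw [mem_erase]
        refine ⟨fun h => hz.2 ((hF z).2 ⟨hz.1, h⟩), mem_image_of_mem _ hz.1⟩
      have h4 := card_le_card h3
      have h5 : a ∈ Z.image Prod.snd := by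
        obtain ⟨z, hz⟩ := hFne
        have := (hF z).1 hz
        rw [← this.2]
        exact mem_image_of_mem _ this.1
      rw [card_erase_of_mem h5] at h4
      have h6 : 0 < (Z.image Prod.snd).card := card_pos.2 ⟨a, h5⟩
      have h7 : ((Z \ F).image Prod.fst).card ≤ (Z.image Prod.fst).card :=
        card_le_card (image_subset_image sdiff_subset)
      omega
  · intro W hW y hy hWy
    have h3 := hext.le hne0 (Y := W) (card_le_card (hW.trans hZsub)) hy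
      (hWy.trans (by rw [← hN0]; gcongr))
    rw [← hN0, ← hs0, ← hT0] at h3
    -- T(W) * N0 * s0 ≤ T0 * (y |W| s(W))
    have h4 : (TT r W : ℝ) * ss Z ≤ (TT r W : ℝ) * s0 := by gcongr
    have h5 : (TT r W : ℝ) * s0 * N0 ≤ T0 * (y * W.card * ss W) := by linarith
    have h6 : (TT r W : ℝ) * s0 ≤ T0 * (y * W.card * ss W) / N0 := by rwa [le_div_iff₀ hN0p]
    exact aux_sub hN0p hT0p hy (Nat.cast_nonneg _) (Nat.cast_nonneg _) (h4.trans h6)
  · exact aux_big hN0p hs0p hT0p hNs hbigR hB1.2 (Nat.cast_nonneg _) hcardle (Nat.cast_nonneg _)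
      hssle (Nat.cast_nonneg _)

/-- regular configurations exist if the main inequality fails -/
theorem exists_reg_nul (h : ¬ MainD3) (B : ℝ) :
    ∃ (Z : Finset PP) (L : ℝ), Reg Nul (10 ^ 9) B Z L := by
  refine exists_reg Nul nul_symm (fun z w h => h.2) (fun z w h => h.ne_snd) (fun B => ?_) B
  by_contra hcon
  push Not at hcon
  exact h ⟨B, hcon⟩

/-- STEP A and STEP B imply the main inequality for d = 3 -/
theorem mainD3_of (hA : StepA (10 ^ 9)) (hB : StepB (10 ^ 9)) : MainD3 := by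
  by_contra h
  obtain ⟨ε, hε, hB⟩ := hB
  obtain ⟨c, B0, hc, hA⟩ := hA ε hε
  obtain ⟨B0', hB⟩ := hB c hc
  obtain ⟨Z, L, hreg⟩ := exists_reg_nul h (max B0 B0')
  obtain ⟨SS, hSS, hunc⟩ := hA Z L (max B0 B0') (le_max_left _ _) hreg
  exact hB Z L (max B0 B0') (le_max_right _ _) hreg SS hSS hunc

end Crest.Agent.R065.D3a235
end

-- ▼ part R065/D3over_789

/-!
# Row 65, `d = 3`: overfull pairs are rare (S3)
-/

set_option autoImplicit false

namespace Crest.Agent.R065.D3over789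

open Finset Crest.Agent.R065.D3 Crest.Agent.R065.D3samp789 Crest.Agent.R065.D3cons275

section Hyper

variable {α : Type*} [DecidableEq α]

lemma choose_sub_le (n K : ℕ) (hK : K ≤ n) (hn : 0 < n) (j : ℕ) (hj : j ≤ K) :
    (((n - j).choose (K - j) : ℕ) : ℝ) ≤ ((K : ℝ) / n) ^ j * (n.choose K) := by
  induction j with
  | zero => simp
  | succ j ih =>
    have ih' := ih (by omega)
    obtain ⟨a, ha⟩ : ∃ a, n = j + 1 + a := ⟨n - (j + 1), by omega⟩
    obtain ⟨b, hb⟩ : ∃ b, K = j + 1 + b := ⟨K - (j + 1), by omega⟩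
    have h1 : n - j = a + 1 := by omega
    have h2 : K - j = b + 1 := by omega
    have h3 : n - (j + 1) = a := by omega
    have h4 : K - (j + 1) = b := by omega
    rw [h1, h2] at ih'
    rw [h3, h4]
    have h5 := Nat.add_one_mul_choose_eq a b
    have h6 : ((a : ℝ) + 1) * (a.choose b) = ((a + 1).choose (b + 1)) * ((b : ℝ) + 1) := by
      exact_mod_cast h5
    have hba : b ≤ a := by omega
    have hn' : (0 : ℝ) < n := by exact_mod_cast hn
    have h7 : ((b : ℝ) + 1) / (a + 1) ≤ (K : ℝ) / n := by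
      rw [div_le_div_iff₀ (by positivity) hn']
      have e1 : (n : ℝ) = j + 1 + a := by rw [ha]; push_cast; ring
      have e2 : (K : ℝ) = j + 1 + b := by rw [hb]; push_cast; ring
      have e3 : (b : ℝ) ≤ a := by exact_mod_cast hba
      rw [e1, e2]
      nlinarith [Nat.cast_nonneg (α := ℝ) j]
    have h8 : ((a.choose b : ℕ) : ℝ) = ((b : ℝ) + 1) / (a + 1) * ((a + 1).choose (b + 1)) := by
      field_simp
      linarith
    rw [h8, pow_succ]
    calc ((b : ℝ) + 1) / (a + 1) * ((a + 1).choose (b + 1)) ≤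
          ((K : ℝ) / n) * (((K : ℝ) / n) ^ j * (n.choose K)) :=
          mul_le_mul h7 ih' (by positivity) (by positivity)
      _ = _ := by ring

lemma hyper {Z R : Finset α} (hR : R ⊆ Z) {K : ℕ} (hK : K ≤ Z.card) (hZ : 0 < Z.card) :
    ((((Z.powersetCard K).filter fun Om => R ⊆ Om).card : ℕ) : ℝ) ≤
      ((K : ℝ) / Z.card) ^ R.card * (Z.card.choose K) := by
  by_cases hRK : R.card ≤ K
  · refine le_trans ?_ (choose_sub_le Z.card K hK hZ R.card hRK)
    have h1 : ((Z.powersetCard K).filter fun Om => R ⊆ Om).card ≤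
        ((Z \ R).powersetCard (K - R.card)).card := by
      apply Finset.card_le_card_of_injOn (fun Om => Om \ R)
      · intro Om hOm
        obtain ⟨h2, h3⟩ := Finset.mem_filter.1 (Finset.mem_coe.1 hOm)
        obtain ⟨h4, h5⟩ := Finset.mem_powersetCard.1 h2
        rw [Finset.mem_coe, Finset.mem_powersetCard]
        refine ⟨Finset.sdiff_subset_sdiff h4 subset_rfl, ?_⟩
        rw [Finset.card_sdiff_of_subset h3, h5]
      · intro Om hOm Om' hOm' h
        obtain ⟨_, h3⟩ := Finset.mem_filter.1 (Finset.mem_coe.1 hOm)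
        obtain ⟨_, h3'⟩ := Finset.mem_filter.1 (Finset.mem_coe.1 hOm')
        have h' : Om \ R = Om' \ R := h
        rw [← Finset.sdiff_union_of_subset h3, ← Finset.sdiff_union_of_subset h3', h']
    rw [Finset.card_powersetCard, Finset.card_sdiff_of_subset hR] at h1
    exact_mod_cast h1
  · have h1 : (Z.powersetCard K).filter (fun Om => R ⊆ Om) = ∅ := by
      rw [Finset.filter_eq_empty_iff]
      intro Om hOm h
      have := Finset.card_le_card h
      have h2 := (Finset.mem_powersetCard.1 hOm).2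
      omega
    rw [h1, Finset.card_empty]
    simp only [Nat.cast_zero]
    positivity

lemma hyper_tail {Z D : Finset α} {w : α} (hw : w ∈ Z) (hD : D ⊆ Z) (hwD : w ∉ D) {K : ℕ}
    (hK : K ≤ Z.card) (r : ℕ) :
    ∑ Om ∈ Z.powersetCard K, (if w ∈ Om ∧ r ≤ (D ∩ Om).card then (1 : ℝ) else 0) ≤
      ((K : ℝ) / Z.card) * ((D.card.choose r : ℝ) * ((K : ℝ) / Z.card) ^ r) *
        (Z.card.choose K) := by
  have hZ : 0 < Z.card := Finset.card_pos.2 ⟨w, hw⟩
  have h2 : ∀ Om ∈ Z.powersetCard K, (if w ∈ Om ∧ r ≤ (D ∩ Om).card then (1 : ℝ) else 0) ≤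
      ∑ R ∈ D.powersetCard r, if insert w R ⊆ Om then (1 : ℝ) else 0 := by
    intro Om _
    split_ifs with h
    · obtain ⟨R, hR, hRc⟩ := Finset.exists_subset_card_eq h.2
      have hRD : R ⊆ D := hR.trans Finset.inter_subset_left
      have hRT : R ⊆ Om := hR.trans Finset.inter_subset_right
      have hmem : R ∈ D.powersetCard r := Finset.mem_powersetCard.2 ⟨hRD, hRc⟩
      have := Finset.single_le_sum (f := fun R => if insert w R ⊆ Om then (1 : ℝ) else 0)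
        (fun i _ => by split_ifs <;> norm_num) hmem
      refine le_trans ?_ this
      rw [if_pos (Finset.insert_subset h.1 hRT)]
    · exact Finset.sum_nonneg fun i _ => by split_ifs <;> norm_num
  refine (Finset.sum_le_sum h2).trans ?_
  rw [Finset.sum_comm]
  have h3 : ∀ R ∈ D.powersetCard r,
      ∑ Om ∈ Z.powersetCard K, (if insert w R ⊆ Om then (1 : ℝ) else 0) ≤
        ((K : ℝ) / Z.card) ^ (r + 1) * (Z.card.choose K) := by
    intro R hR
    obtain ⟨hRD, hRc⟩ := Finset.mem_powersetCard.1 hR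
    rw [← Finset.sum_filter, Finset.sum_const, nsmul_eq_mul, mul_one]
    have h4 := hyper (Finset.insert_subset hw (hRD.trans hD)) hK hZ
    rw [Finset.card_insert_of_notMem (fun h => hwD (hRD h)), hRc] at h4
    exact h4
  refine (Finset.sum_le_sum h3).trans ?_
  rw [Finset.sum_const, Finset.card_powersetCard, nsmul_eq_mul]
  apply le_of_eq; ring

end Hyper

/-- numerical facts for `overfull` -/
theorem numeric2 (C0 ε C1 : ℝ) (hC0 : 1 ≤ C0) (hε : 0 < ε) (hC1 : 1 ≤ C1) :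
    ∃ T0 : ℝ, ∃ B0 : ℝ, 1 ≤ B0 ∧ ∀ (B n L s : ℝ) (K r : ℕ), B0 ≤ B → 0 < n → 0 < L → 0 < s →
      B * n * s ^ 2 ≤ L ^ 3 → T0 * L ≤ n →
      (K : ℝ) ≤ (C1 * (n / L)) ^ 3 / 15 → ε * C1 ^ 2 * (n / L) / 61440 ≤ r →
      ∀ q k0 : ℝ, q = K / n → k0 = ε / (2 ^ 21 * C1) * L ^ 2 / n →
      0 < k0 ∧ Real.exp 1 * k0 * q ≤ 1 / 128 * ((r + 1 : ℕ) : ℝ) ∧
      Real.exp 1 * (2 * C0 * s ^ 2 / L) * q ≤ 1 / 128 * ((r + 1 : ℕ) : ℝ) ∧
      2 * (C0 * L) / k0 * ((1 : ℝ) / 128) ^ (r + 1) ≤ ε / (128 * C0) ∧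
      ((1 : ℝ) / 128) ^ (r + 1) ≤ ε / (128 * C0) := by
  have hC0' : 0 < C0 := by linarith
  have hC1' : 0 < C1 := by linarith
  set δ : ℝ := ε / (128 * C0) with hδdef
  have hδ : 0 < δ := by positivity
  set γ : ℝ := ε * C1 ^ 2 / 61440 with hγ
  have hγ0 : 0 < γ := by positivity
  obtain ⟨X1, hX1⟩ := exists_pow_exp 1 (2 ^ 22 * C0 * C1 / (ε * γ)) δ hδ
  obtain ⟨X2, hX2⟩ := exists_pow_exp 0 1 δ hδ
  refine ⟨max (X1 / γ) (X2 / γ), max 1 (2 ^ 22 * C0 * C1 / ε), le_max_left _ _, ?_⟩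
  intro B n L s K r hB hn hL hs F1 hT hK hr q k0 hq hk0
  have hB1 : 1 ≤ B := (le_max_left _ _).trans hB
  have hB2 : 2 ^ 22 * C0 * C1 / ε ≤ B := (le_max_right _ _).trans hB
  set t : ℝ := n / L with ht
  have ht0 : 0 < t := by positivity
  have hnt : n = t * L := by rw [ht]; field_simp
  have hk0pos : 0 < k0 := by rw [hk0]; positivity
  have hq0 : 0 ≤ q := by rw [hq]; positivity
  have hTt : max (X1 / γ) (X2 / γ) ≤ t := by
    rw [ht, le_div_iff₀ hL]; exact hT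
  have hrt : γ * t ≤ r := by rw [hγ]; linarith
  have hr1 : ((r + 1 : ℕ) : ℝ) = r + 1 := by push_cast; ring
  -- q k0 ≤ r / 512
  have hqk : q * k0 ≤ r / 512 := by
    have h1 : q * k0 ≤ (C1 * t) ^ 3 / 15 / n * k0 := by
      rw [hq]; gcongr
    have h2 : (C1 * t) ^ 3 / 15 / n * k0 = γ * t / 512 := by
      rw [hk0, hγ, hnt]; field_simp; norm_num
    rw [h2] at h1
    linarith
  have he : Real.exp 1 ≤ 3 := by linarith [Real.exp_one_lt_d9]
  have hr0 : (0 : ℝ) ≤ r := Nat.cast_nonneg _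
  have hmain : Real.exp 1 * k0 * q ≤ 1 / 128 * ((r + 1 : ℕ) : ℝ) := by
    have h1 : Real.exp 1 * (q * k0) ≤ 3 * (r / 512) :=
      mul_le_mul he hqk (by positivity) (by norm_num)
    have h2 : Real.exp 1 * k0 * q = Real.exp 1 * (q * k0) := by ring
    rw [h2, hr1]
    linarith
  have hρ : 2 * C0 * s ^ 2 / L ≤ k0 := by
    have h1 : s ^ 2 * (B * n) ≤ L ^ 3 := by
      calc s ^ 2 * (B * n) = B * n * s ^ 2 := by ring
        _ ≤ L ^ 3 := F1
    have h2 : 2 * C0 * s ^ 2 / L ≤ 2 * C0 * L ^ 2 / (B * n) := by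
      rw [div_le_div_iff₀ hL (by positivity)]
      calc 2 * C0 * s ^ 2 * (B * n) = 2 * C0 * (s ^ 2 * (B * n)) := by ring
        _ ≤ 2 * C0 * L ^ 3 := mul_le_mul_of_nonneg_left h1 (by positivity)
        _ = 2 * C0 * L ^ 2 * L := by ring
    have h3 : 2 * C0 * L ^ 2 / (B * n) ≤ k0 := by
      rw [hk0, div_le_div_iff₀ (by positivity) hn]
      have h4 : 2 ^ 22 * C0 * C1 ≤ B * ε := by
        rwa [div_le_iff₀ hε] at hB2
      have h5 : 2 * C0 ≤ ε / (2 ^ 21 * C1) * B := by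
        rw [div_mul_eq_mul_div, le_div_iff₀ (by positivity)]
        linarith
      calc 2 * C0 * L ^ 2 * n ≤ (ε / (2 ^ 21 * C1) * B) * L ^ 2 * n := by gcongr
        _ = ε / (2 ^ 21 * C1) * L ^ 2 * (B * n) := by ring
    exact h2.trans h3
  have hpow : ((1 : ℝ) / 128) ^ (r + 1) ≤ Real.exp (-(γ * t)) := by
    have h1 : ((1 : ℝ) / 128) ≤ Real.exp (-1) := by
      rw [Real.exp_neg, one_div]
      apply inv_anti₀ (Real.exp_pos _)
      linarith
    calc ((1 : ℝ) / 128) ^ (r + 1) ≤ (1 / 128) ^ r :=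
          pow_le_pow_of_le_one (by norm_num) (by norm_num) (by omega)
      _ ≤ (Real.exp (-1)) ^ r := pow_le_pow_left₀ (by norm_num) h1 r
      _ = Real.exp (-(r : ℝ)) := by rw [← Real.exp_nat_mul]; congr 1; ring
      _ ≤ Real.exp (-(γ * t)) := Real.exp_le_exp.2 (by linarith)
  have hX1' : X1 ≤ γ * t := by
    have := (le_max_left _ _).trans hTt
    rw [div_le_iff₀ hγ0] at this
    linarith
  have hX2' : X2 ≤ γ * t := by
    have := (le_max_right _ _).trans hTt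
    rw [div_le_iff₀ hγ0] at this
    linarith
  refine ⟨hk0pos, hmain, ?_, ?_, ?_⟩
  · calc Real.exp 1 * (2 * C0 * s ^ 2 / L) * q ≤ Real.exp 1 * k0 * q := by gcongr
      _ ≤ _ := hmain
  · have h2 : 2 * (C0 * L) / k0 = 2 ^ 22 * C0 * C1 / ε * t := by
      rw [hk0, hnt]; field_simp
    rw [h2]
    calc 2 ^ 22 * C0 * C1 / ε * t * ((1 : ℝ) / 128) ^ (r + 1) ≤
          2 ^ 22 * C0 * C1 / ε * t * Real.exp (-(γ * t)) :=
          mul_le_mul_of_nonneg_left hpow (by positivity)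
      _ = 2 ^ 22 * C0 * C1 / (ε * γ) * ((γ * t) ^ 1 * Real.exp (-(γ * t))) := by
          field_simp
      _ ≤ δ := hX1 _ hX1'
  · have h4 := hX2 _ hX2'
    rw [pow_zero, one_mul, one_mul] at h4
    exact hpow.trans h4

section Main

open scoped Classical in
/-- a fixed pair `(z, w)` -/
lemma pair_bound {C0 B L : ℝ} {Z : Finset PP} (h : Reg Nul C0 B Z L) {SS : Finset (Finset PP)}
    (hB : Blocks Z SS) {z w : PP} (hz : z ∈ Z) (hw : w ∈ Z) (hzw : Nul z w) {K r : ℕ}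
    (hK : K ≤ Z.card) {q k0 M δ : ℝ} (hq : q = K / Z.card) (hk0 : 0 < k0) (hM : 0 < M)
    (hl : LineBd Z M) (h1 : Real.exp 1 * k0 * q ≤ 1 / 128 * ((r + 1 : ℕ) : ℝ))
    (h2 : Real.exp 1 * M * q ≤ 1 / 128 * ((r + 1 : ℕ) : ℝ))
    (h3 : 2 * (C0 * L) / k0 * ((1 : ℝ) / 128) ^ (r + 1) ≤ δ)
    (h4 : ((1 : ℝ) / 128) ^ (r + 1) ≤ δ) :
    ∑ Om ∈ Z.powersetCard K, (if w ∈ Om ∧ ∃ X ∈ SS, z ∈ X ∧ w ∈ X ∧ (X.card : ℝ) < k0 ∧
      2 * r + 2 ≤ (Om ∩ X).card then (1 : ℝ) else 0) ≤ q * (2 * δ) * (Z.card.choose K) := by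
  have hq0 : 0 ≤ q := by rw [hq]; positivity
  set RR : Finset PP := (Rz Z z w).erase w with hRR
  set DD : Finset (Finset PP) := (SS.filter fun X => z ∈ X ∧ w ∈ X ∧ (X.card : ℝ) < k0).image
    fun X => X \ Rz Z z w with hDD
  have hDmem : ∀ D ∈ DD, ∃ X ∈ SS, z ∈ X ∧ w ∈ X ∧ (X.card : ℝ) < k0 ∧ D = X \ Rz Z z w := by
    intro D hD
    obtain ⟨X, hX, rfl⟩ := Finset.mem_image.1 hD
    obtain ⟨hXS, hzX, hwX, hXk⟩ := Finset.mem_filter.1 hX
    exact ⟨X, hXS, hzX, hwX, hXk, rfl⟩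
  have hpt : ∀ Om ∈ Z.powersetCard K, (if w ∈ Om ∧ ∃ X ∈ SS, z ∈ X ∧ w ∈ X ∧
      (X.card : ℝ) < k0 ∧ 2 * r + 2 ≤ (Om ∩ X).card then (1 : ℝ) else 0) ≤
      ∑ D ∈ DD, (if w ∈ Om ∧ r + 1 ≤ (D ∩ Om).card then (1 : ℝ) else 0) +
        (if w ∈ Om ∧ r + 1 ≤ (RR ∩ Om).card then (1 : ℝ) else 0) := by
    intro Om _
    have hnn : ∀ D ∈ DD, (0 : ℝ) ≤ (if w ∈ Om ∧ r + 1 ≤ (D ∩ Om).card then (1 : ℝ) else 0) :=
      fun D _ => by split_ifs <;> norm_num
    have hnn' : (0 : ℝ) ≤ (if w ∈ Om ∧ r + 1 ≤ (RR ∩ Om).card then (1 : ℝ) else 0) := by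
      split_ifs <;> norm_num
    by_cases hcon : w ∈ Om ∧ ∃ X ∈ SS, z ∈ X ∧ w ∈ X ∧
      (X.card : ℝ) < k0 ∧ 2 * r + 2 ≤ (Om ∩ X).card
    · rw [if_pos hcon]
      obtain ⟨hwO, X, hXS, hzX, hwX, hXk, hXc⟩ := hcon
      have hsub : Om ∩ X ⊆ ((X \ Rz Z z w) ∩ Om) ∪ ((RR ∩ Om) ∪ {w}) := by
        intro y hy
        obtain ⟨hyO, hyX⟩ := Finset.mem_inter.1 hy
        simp only [hRR, Finset.mem_union, Finset.mem_inter, Finset.mem_sdiff, Finset.mem_erase,
          Finset.mem_singleton]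
        tauto
      have h5 := Finset.card_le_card hsub
      have h6 := Finset.card_union_le ((X \ Rz Z z w) ∩ Om) ((RR ∩ Om) ∪ {w})
      have h7 := Finset.card_union_le (RR ∩ Om) ({w} : Finset PP)
      rw [Finset.card_singleton] at h7
      by_cases hA : r + 1 ≤ ((X \ Rz Z z w) ∩ Om).card
      · have hmem : X \ Rz Z z w ∈ DD :=
          Finset.mem_image.2 ⟨X, Finset.mem_filter.2 ⟨hXS, hzX, hwX, hXk⟩, rfl⟩
        have h8 := Finset.single_le_sum hnn hmem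
        rw [if_pos ⟨hwO, hA⟩] at h8
        linarith
      · have hb : r + 1 ≤ (RR ∩ Om).card := by omega
        have h8 := Finset.sum_nonneg hnn
        rw [if_pos ⟨hwO, hb⟩]
        linarith
    · rw [if_neg hcon]
      exact add_nonneg (Finset.sum_nonneg hnn) hnn'
  refine (Finset.sum_le_sum hpt).trans ?_
  rw [Finset.sum_add_distrib, Finset.sum_comm]
  have hA : ∀ D ∈ DD, ∑ Om ∈ Z.powersetCard K,
      (if w ∈ Om ∧ r + 1 ≤ (D ∩ Om).card then (1 : ℝ) else 0) ≤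
      q * (Z.card.choose K) * ((D.card.choose (r + 1) : ℝ) * q ^ (r + 1)) := by
    intro D hD
    obtain ⟨X, hXS, hzX, hwX, hXk, rfl⟩ := hDmem D hD
    have h5 := hyper_tail (Z := Z) (D := X \ Rz Z z w) (w := w) hw
      (fun y hy => hB.sub X hXS (Finset.mem_sdiff.1 hy).1)
      (fun hy => (Finset.mem_sdiff.1 hy).2 (right_mem_Rz hw hzw)) hK (r + 1)
    rw [← hq] at h5
    refine h5.trans (le_of_eq ?_)
    ring
  have hR := hyper_tail (Z := Z) (D := RR) (w := w) hw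
      (fun y hy => (mem_Rz.1 (Finset.mem_of_mem_erase hy)).1)
      (Finset.notMem_erase _ _) hK (r + 1)
  rw [← hq] at hR
  have hsumA : ∑ D ∈ DD, (D.card.choose (r + 1) : ℝ) * q ^ (r + 1) ≤ δ := by
    have h5 := sum_tail DD id (nb Nul Z z) (r := r + 1) (M := k0) (q := q)
      (x := 1 / 128) (by omega) hk0 hq0 (by norm_num) h1 ?_ ?_ ?_ ?_
    · refine h5.trans (le_trans ?_ h3)
      apply mul_le_mul_of_nonneg_right _ (by positivity)
      apply div_le_div_of_nonneg_right _ hk0.le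
      have h6 : ((nb Nul Z z).card : ℝ) ≤ C0 * L := h.deg_le z hz
      linarith
    · intro D hD _
      obtain ⟨X, hXS, hzX, hwX, hXk, rfl⟩ := hDmem D hD
      have h6 : ((X \ Rz Z z w).card : ℝ) ≤ X.card := by
        exact_mod_cast Finset.card_le_card Finset.sdiff_subset
      exact h6.trans hXk.le
    · intro D _ _
      simp only [id]; omega
    · intro D hD
      obtain ⟨X, hXS, hzX, hwX, hXk, rfl⟩ := hDmem D hD
      intro y hy
      simp only [id] at hy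
      obtain ⟨hyX, hyR⟩ := Finset.mem_sdiff.1 hy
      rw [mem_nb]
      refine ⟨hB.sub X hXS hyX, hB.iso X hXS z hzX y hyX, ?_⟩
      intro hzy
      apply hyR
      have h6 : z = y := by
        refine Prod.ext hzy ?_
        have := hB.iso X hXS z hzX y hyX
        rw [hzy, dist_self] at this
        exact dist_eq_zero.1 this.symm
      rw [← h6]
      exact left_mem_Rz hz hzw
    · intro D hD D' hD' hne
      obtain ⟨X, hXS, hzX, hwX, hXk, rfl⟩ := hDmem D hD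
      obtain ⟨X', hXS', hzX', hwX', hXk', rfl⟩ := hDmem D' hD'
      have hXX : X ≠ X' := fun h => hne (by rw [h])
      rw [Finset.disjoint_left]
      intro y hy hy'
      simp only [id] at hy hy'
      obtain ⟨hyX, hyR⟩ := Finset.mem_sdiff.1 hy
      obtain ⟨hyX', _⟩ := Finset.mem_sdiff.1 hy'
      exact hyR (inter_sub_Rz hB hzw hXS hXS' hXX hzX hwX hzX' hwX' hyX hyX')
  have hsumR : ((RR.card.choose (r + 1) : ℕ) : ℝ) * q ^ (r + 1) ≤ δ := by
    have hn : ((RR.card : ℕ) : ℝ) ≤ M := by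
      refine le_trans ?_ (card_Rz hl hzw)
      exact_mod_cast Finset.card_le_card (Finset.erase_subset _ _)
    have h5 := tail_bound (n := RR.card) (r := r + 1) (M := M) (q := q) (x := 1 / 128)
      (by omega) hM hn hq0 h2
    refine h5.trans (le_trans ?_ h4)
    have h6 : ((RR.card : ℕ) : ℝ) / M ≤ 1 := (div_le_one hM).2 hn
    calc _ ≤ 1 * ((1 : ℝ) / 128) ^ (r + 1) := mul_le_mul_of_nonneg_right h6 (by positivity)
      _ = _ := one_mul _
  have hc0 : (0 : ℝ) ≤ q * (Z.card.choose K) := by positivity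
  calc _ ≤ ∑ D ∈ DD, q * (Z.card.choose K) * ((D.card.choose (r + 1) : ℝ) * q ^ (r + 1)) +
        q * (((RR.card.choose (r + 1) : ℕ) : ℝ) * q ^ (r + 1)) * (Z.card.choose K) :=
        add_le_add (Finset.sum_le_sum hA) hR
    _ = q * (Z.card.choose K) * (∑ D ∈ DD, (D.card.choose (r + 1) : ℝ) * q ^ (r + 1) +
        ((RR.card.choose (r + 1) : ℕ) : ℝ) * q ^ (r + 1)) := by
        rw [← Finset.mul_sum]; ring
    _ ≤ q * (Z.card.choose K) * (δ + δ) :=
        mul_le_mul_of_nonneg_left (add_le_add hsumA hsumR) hc0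
    _ = _ := by ring

lemma lineBd_of_reg {C0 B L : ℝ} {Z : Finset PP} (h : Reg Nul C0 B Z L) :
    LineBd Z (2 * C0 * (ss Z : ℝ) ^ 2 / L) := by
  intro a b hab W hW
  rw [le_div_iff₀ h.L_pos]
  refine fst_line h ?_ (collinear_filter hab fun x hx => (hW x (Finset.mem_coe.1 hx)).2)
  intro x hx
  obtain ⟨z, hz, rfl⟩ := (hW x hx).1
  exact Finset.mem_image_of_mem _ hz

open scoped Classical in
/-- **(S3)** the overfull pairs are rare -/
theorem overfull : D3in855.Overfull := by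
  intro C0 ε C1 hC0 hε hε1 hC1
  obtain ⟨T0, B1, hB11, hnum⟩ := numeric2 C0 ε C1 hC0 hε hC1
  obtain ⟨B2, hB2⟩ := t_large C0 T0
  refine ⟨max B1 B2, ?_⟩
  intro B Z L hB h SS hBl k r hk hr
  have hL := h.L_pos
  have hn : (0 : ℝ) < Z.card := card_pos' h
  have hs : (0 : ℝ) < ss Z := by exact_mod_cast ss_pos h.ne
  have hT := hB2 B Z L ((le_max_right _ _).trans hB) h
  obtain ⟨g1, g2, g3, g4, g5⟩ := hnum B Z.card L (ss Z) (k + 1) r ((le_max_left _ _).trans hB)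
    hn hL hs h.big hT hk hr _ _ rfl rfl
  set q : ℝ := ((k + 1 : ℕ) : ℝ) / Z.card with hq
  set δ : ℝ := ε / (128 * C0) with hδ
  set k0 : ℝ := ε / (2 ^ 21 * C1) * L ^ 2 / Z.card with hk0
  have hq0 : 0 ≤ q := by rw [hq]; positivity
  have hC0' : 0 < C0 := by linarith
  have hδ0 : 0 < δ := by rw [hδ]; positivity
  by_cases hK : k + 1 ≤ Z.card
  swap
  · rw [Finset.powersetCard_eq_empty.2 (by omega), Finset.sum_empty]
    positivity
  have hM : (0 : ℝ) < 2 * C0 * (ss Z : ℝ) ^ 2 / L := by positivity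
  have hpair : ∀ z ∈ Z, ∀ w ∈ nb Nul Z z,
      ∑ Om ∈ Z.powersetCard (k + 1), (if w ∈ Om ∧ ∃ X ∈ SS, z ∈ X ∧ w ∈ X ∧
        (X.card : ℝ) < k0 ∧ 2 * r + 2 ≤ (Om ∩ X).card then (1 : ℝ) else 0) ≤
        q * (2 * δ) * (Z.card.choose (k + 1)) := by
    intro z hz w hw
    obtain ⟨hwZ, hzw⟩ := mem_nb.1 hw
    exact pair_bound h hBl hz hwZ hzw hK hq g1 hM (lineBd_of_reg h) g2 g3 g4 g5
  have hpt : ∀ Om ∈ Z.powersetCard (k + 1), ∀ z ∈ Z,
      ((Om.filter fun w => Nul z w ∧ ∃ X ∈ SS, z ∈ X ∧ w ∈ X ∧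
        (X.card : ℝ) < ε / (D3in855.KK * C1) * L ^ 2 / Z.card ∧
            2 * r + 2 ≤ (Om ∩ X).card).card : ℝ) ≤
      ∑ w ∈ nb Nul Z z, (if w ∈ Om ∧ ∃ X ∈ SS, z ∈ X ∧ w ∈ X ∧
        (X.card : ℝ) < k0 ∧ 2 * r + 2 ≤ (Om ∩ X).card then (1 : ℝ) else 0) := by
    intro Om hOm z hz
    have hOZ := (Finset.mem_powersetCard.1 hOm).1
    set S : Finset PP := Om.filter fun w => Nul z w ∧ ∃ X ∈ SS, z ∈ X ∧ w ∈ X ∧
        (X.card : ℝ) < ε / (D3in855.KK * C1) * L ^ 2 / Z.card ∧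
            2 * r + 2 ≤ (Om ∩ X).card with hS
    have hSmem : ∀ w ∈ S, w ∈ nb Nul Z z ∧ (w ∈ Om ∧ ∃ X ∈ SS, z ∈ X ∧ w ∈ X ∧
        (X.card : ℝ) < k0 ∧ 2 * r + 2 ≤ (Om ∩ X).card) := by
      intro w hw
      obtain ⟨hwO, hzw, X, hXS, hzX, hwX, hXk, hXc⟩ := Finset.mem_filter.1 hw
      exact ⟨mem_nb.2 ⟨hOZ hwO, hzw⟩, hwO, X, hXS, hzX, hwX, hXk, hXc⟩
    have h1 : ∀ w ∈ S, (1 : ℝ) ≤ (if w ∈ Om ∧ ∃ X ∈ SS, z ∈ X ∧ w ∈ X ∧
        (X.card : ℝ) < k0 ∧ 2 * r + 2 ≤ (Om ∩ X).card then (1 : ℝ) else 0) := by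
      intro w hw
      rw [if_pos (hSmem w hw).2]
    have h2 := Finset.sum_le_sum h1
    rw [Finset.sum_const, nsmul_eq_mul, mul_one] at h2
    refine h2.trans ?_
    apply Finset.sum_le_sum_of_subset_of_nonneg (fun w hw => (hSmem w hw).1)
    intro i _ _
    split_ifs <;> norm_num
  have hdeg : ∀ z ∈ Z, ((nb Nul Z z).card : ℝ) ≤ C0 * L := fun z hz => h.deg_le z hz
  calc _ ≤ ∑ Om ∈ Z.powersetCard (k + 1), ∑ z ∈ Z, ∑ w ∈ nb Nul Z z,
        (if w ∈ Om ∧ ∃ X ∈ SS, z ∈ X ∧ w ∈ X ∧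
          (X.card : ℝ) < k0 ∧ 2 * r + 2 ≤ (Om ∩ X).card then (1 : ℝ) else 0) :=
        Finset.sum_le_sum fun Om hOm => Finset.sum_le_sum fun z hz => hpt Om hOm z hz
    _ = ∑ z ∈ Z, ∑ w ∈ nb Nul Z z, ∑ Om ∈ Z.powersetCard (k + 1),
        (if w ∈ Om ∧ ∃ X ∈ SS, z ∈ X ∧ w ∈ X ∧
          (X.card : ℝ) < k0 ∧ 2 * r + 2 ≤ (Om ∩ X).card then (1 : ℝ) else 0) := by
        rw [Finset.sum_comm]
        exact Finset.sum_congr rfl fun z _ => Finset.sum_comm
    _ ≤ ∑ z ∈ Z, ∑ w ∈ nb Nul Z z, q * (2 * δ) * (Z.card.choose (k + 1)) :=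
        Finset.sum_le_sum fun z hz => Finset.sum_le_sum fun w hw => hpair z hz w hw
    _ ≤ ∑ z ∈ Z, C0 * L * (q * (2 * δ) * (Z.card.choose (k + 1))) := by
        apply Finset.sum_le_sum
        intro z hz
        rw [Finset.sum_const, nsmul_eq_mul]
        exact mul_le_mul_of_nonneg_right (hdeg z hz) (by positivity)
    _ = Z.card * (C0 * L * (q * (2 * δ) * (Z.card.choose (k + 1)))) := by
        rw [Finset.sum_const, nsmul_eq_mul]
    _ = ε / 64 * (k + 1) * L * (Z.card.choose (k + 1)) := by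
        rw [hq, hδ]
        push_cast
        field_simp
        ring

end Main

end Crest.Agent.R065.D3over789
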