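import Crest.Agent.R065.Top_348
import Crest.Agent.R065.D3defs_235

/-!
# Row 65: generic rotation of the second coordinates
-/

set_option autoImplicit false

open Module

namespace Crest.Agent.R065.D3rot812

open Crest.Agent.R065.Top348 Crest.Agent.R065.Base348 Crest.Agent.R065.D3

section general

variable {E : Type*} [NormedAddCommGroup E] [InnerProductSpace ℝ E]

/-- a linear isometry moving finitely many nonzero vectors away from given positions -/
theorem exists_isometry_ne (hE : 2 ≤ finrank ℝ E) (Q : Finset (E × E))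
    (hQ : ∀ p ∈ Q, p.2 ≠ 0) : ∃ R : E ≃ₗᵢ[ℝ] E, ∀ p ∈ Q, p.1 + R p.2 ≠ 0 := by
  classical
  -- the bad subspaces
  set s : Finset (Submodule ℝ E) :=
    Q.image (fun p => (ℝ ∙ p.2)ᗮ) ∪ Q.image (fun p => ℝ ∙ (p.2 - p.1)) ∪ {⊥} with hs
  have htop : ⊤ ∉ s := by
    rw [hs, Finset.mem_union, Finset.mem_union, Finset.mem_image, Finset.mem_image,
      Finset.mem_singleton]
    rintro ((⟨p, hp, h⟩ | ⟨p, hp, h⟩) | h)
    · have h1 : (ℝ ∙ p.2 : Submodule ℝ E) = ⊥ := by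
        rw [← Submodule.orthogonal_eq_top_iff]
        exact h
      rw [Submodule.span_singleton_eq_bot] at h1
      exact hQ p hp h1
    · have h1 : finrank ℝ (ℝ ∙ (p.2 - p.1) : Submodule ℝ E) ≤ 1 := by
        have := finrank_span_le_card (R := ℝ) ({p.2 - p.1} : Set E)
        simpa using this
      rw [h, finrank_top] at h1
      omega
    · have h1 : finrank ℝ (⊤ : Submodule ℝ E) = 0 := by rw [h]; exact finrank_bot ℝ E
      rw [finrank_top] at h1
      omega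
  have hne := Subspace.biUnion_ne_univ_of_top_notMem htop
  obtain ⟨n, hn⟩ : ∃ n : E, n ∉ ⋃ p ∈ s, (p : Set E) := by
    by_contra hcon
    push Not at hcon
    exact hne (Set.eq_univ_of_forall hcon)
  have hn' : ∀ p ∈ s, n ∉ p := by
    intro p hp hnp
    exact hn (Set.mem_biUnion hp hnp)
  have hn0 : n ≠ 0 := by
    rintro rfl
    exact hn' ⊥ (by rw [hs]; simp) (Submodule.zero_mem _)
  refine ⟨(ℝ ∙ n).reflection, fun p hp h => ?_⟩
  rw [Submodule.reflection_singleton_apply] at h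
  have h1 : inner ℝ n p.2 ≠ 0 := by
    intro h0
    apply hn' ((ℝ ∙ p.2)ᗮ)
      (by rw [hs]; exact Finset.mem_union_left _ (Finset.mem_union_left _
        (Finset.mem_image_of_mem _ hp)))
    rw [Submodule.mem_orthogonal_singleton_iff_inner_right, real_inner_comm]
    exact h0
  have h2 : (2 : ℝ) * (inner ℝ n p.2 / ‖n‖ ^ 2) ≠ 0 :=
    mul_ne_zero two_ne_zero (div_ne_zero h1 (pow_ne_zero _ (norm_ne_zero_iff.2 hn0)))
  apply hn' (ℝ ∙ (p.2 - p.1))
    (by rw [hs]; exact Finset.mem_union_left _ (Finset.mem_union_right _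
      (Finset.mem_image_of_mem _ hp)))
  rw [Submodule.mem_span_singleton]
  refine ⟨((2 : ℝ) * (inner ℝ n p.2 / ‖n‖ ^ 2))⁻¹, ?_⟩
  have h3 : p.2 - p.1 = ((2 : ℝ) * (inner ℝ n p.2 / ‖n‖ ^ 2)) • n := by
    have h4 : (2 : ℕ) • ((inner ℝ n p.2 / ((‖n‖ : ℝ) ^ 2)) • n) =
        ((2 : ℝ) * (inner ℝ n p.2 / ‖n‖ ^ 2)) • n := by
      rw [two_nsmul, mul_smul, two_smul]
    have h5 : p.1 + ((2 : ℕ) • ((inner ℝ n p.2 / ((‖n‖ : ℝ) ^ 2)) • n) - p.2) = 0 := h
    rw [h4] at h5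
    have h6 : ((2 : ℝ) * (inner ℝ n p.2 / ‖n‖ ^ 2)) • n =
        (p.1 + (((2 : ℝ) * (inner ℝ n p.2 / ‖n‖ ^ 2)) • n - p.2)) + (p.2 - p.1) := by abel
    rw [h6, h5, zero_add]
  rw [h3, smul_smul, inv_mul_cancel₀ h2, one_smul]

/-- after a linear isometry of the second coordinates the `x`-coordinates `a + R c` of the points
of a finite set are different -/
theorem exists_generic (hE : 2 ≤ finrank ℝ E) (Z : Finset (E × E)) :
    ∃ R : E ≃ₗᵢ[ℝ] E, ∀ z ∈ Z, ∀ w ∈ Z, z ≠ w → z.1 + R z.2 ≠ w.1 + R w.2 := by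
  classical
  obtain ⟨R, hR⟩ := exists_isometry_ne hE
    (((Z ×ˢ Z).filter fun p => p.1.2 ≠ p.2.2).image fun p => (p.1.1 - p.2.1, p.1.2 - p.2.2)) (by
      intro p hp
      rw [Finset.mem_image] at hp
      obtain ⟨q, hq, rfl⟩ := hp
      exact sub_ne_zero.2 (Finset.mem_filter.1 hq).2)
  refine ⟨R, fun z hz w hw hne h => ?_⟩
  by_cases h2 : z.2 = w.2
  · rw [h2] at h
    exact hne (Prod.ext (add_right_cancel h) h2)
  · refine hR (z.1 - w.1, z.2 - w.2) ?_ ?_
    · rw [Finset.mem_image]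
      exact ⟨(z, w), Finset.mem_filter.2 ⟨Finset.mem_product.2 ⟨hz, hw⟩, h2⟩, rfl⟩
    · show (z.1 - w.1) + R (z.2 - w.2) = 0
      rw [map_sub]
      have : (z.1 - w.1) + (R z.2 - R w.2) = (z.1 + R z.2) - (w.1 + R w.2) := by abel
      rw [this, h, sub_self]

/-- the map `(a, c) ↦ (a, R c)` -/
def rot (R : E ≃ₗᵢ[ℝ] E) : E × E ≃ E × E := Equiv.prodCongr (Equiv.refl E) R.toEquiv

@[simp] lemma rot_fst (R : E ≃ₗᵢ[ℝ] E) (z : E × E) : (rot R z).1 = z.1 := rfl
@[simp] lemma rot_snd (R : E ≃ₗᵢ[ℝ] E) (z : E × E) : (rot R z).2 = R z.2 := rfl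

end general

/-- genericity of a finite set of pairs: different points have different `x`-coordinates -/
def Gen {d : ℕ} (Z : Finset (EuclideanSpace ℝ (Fin d) × EuclideanSpace ℝ (Fin d))) : Prop :=
  ∀ z ∈ Z, ∀ w ∈ Z, z ≠ w → (zc z.1 z.2).1 ≠ (zc w.1 w.2).1



/-! ### invariance of everything, `d = 3` -/

abbrev E3 : Type := EuclideanSpace ℝ (Fin 3)

section inv

variable (R : E3 ≃ₗᵢ[ℝ] E3)














end inv



end Crest.Agent.R065.D3rot812
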