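import Crest.Agent.R065.Mult_496c
import Mathlib.RingTheory.Smooth.Field
import Crest.Agent.R065.Cramer_234

-- ▼ part R065/ZN_639
section

/-!
# Row 65: Zariski--Nagata in characteristic zero

`zariski_nagata` : if all iterated partial derivatives of order `< n` of `f` lie in the prime `Q`
of `k[x]`, `char k = 0`, then `f ∈ 𝔪 ^ n` in the local ring at `Q`.
-/

set_option autoImplicit false

open MvPolynomial Module IsLocalRing

namespace Crest.Agent.R065.Wt639

open Crest.Agent.R065.Mult496

variable {k : Type*} [Field k] {σ : Type*}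

/-- iterated partial derivative -/
noncomputable def Dl (l : List σ) (h : MvPolynomial σ k) : MvPolynomial σ k :=
  l.foldr (fun i f => pderiv i f) h

@[simp] lemma Dl_nil (h : MvPolynomial σ k) : Dl [] h = h := rfl

@[simp] lemma Dl_cons (i : σ) (l : List σ) (h : MvPolynomial σ k) :
    Dl (i :: l) h = pderiv i (Dl l h) := rfl

lemma Dl_append (l l' : List σ) (h : MvPolynomial σ k) : Dl (l ++ l') h = Dl l (Dl l' h) := by
  simp [Dl, List.foldr_append]

/-- first order Taylor expansion modulo a square zero ideal -/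
lemma taylor_one [Fintype σ] {B : Type*} [CommRing B] [Algebra k B] {I : Ideal B}
    (hI : ∀ a ∈ I, ∀ b ∈ I, a * b = 0) (φ ψ : MvPolynomial σ k →ₐ[k] B)
    (h : ∀ f, φ f - ψ f ∈ I) (f : MvPolynomial σ k) :
    φ f - ψ f = ∑ j, φ (pderiv j f) * (φ (X j) - ψ (X j)) := by
  classical
  induction f using MvPolynomial.induction_on with
  | C a =>
    have h1 : φ (C a) = ψ (C a) := by
      rw [← algebraMap_eq, AlgHom.commutes, AlgHom.commutes]
    rw [h1]; simp
  | add p q hp hq =>
    have : φ (p + q) - ψ (p + q) = (φ p - ψ p) + (φ q - ψ q) := by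
      rw [map_add, map_add]; ring
    rw [this, hp, hq, ← Finset.sum_add_distrib]
    refine Finset.sum_congr rfl fun j _ => ?_
    rw [map_add, map_add]; ring
  | mul_X p i hp =>
    have h1 : (φ p - ψ p) * (φ (X i) - ψ (X i)) = 0 := hI _ (h p) _ (h _)
    have h2 : ∑ j, φ (pderiv j (p * X i)) * (φ (X j) - ψ (X j)) =
        (∑ j, φ (pderiv j p) * (φ (X j) - ψ (X j))) * φ (X i) +
          φ p * (φ (X i) - ψ (X i)) := by
      rw [Finset.sum_mul]
      have h3 : ∀ j, φ (pderiv j (p * X i)) * (φ (X j) - ψ (X j)) =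
          φ (pderiv j p) * (φ (X j) - ψ (X j)) * φ (X i) +
            (if j = i then φ p * (φ (X i) - ψ (X i)) else 0) := by
        intro j
        rw [Derivation.leibniz, smul_eq_mul, smul_eq_mul, map_add, map_mul, map_mul, pderiv_X]
        by_cases hij : j = i
        · subst hij; simp; ring
        · rw [if_neg hij, Pi.single_eq_of_ne (Ne.symm hij)]; simp; ring
      rw [Finset.sum_congr rfl fun j _ => h3 j, Finset.sum_add_distrib]
      simp
    rw [h2, ← hp, map_mul, map_mul]
    linear_combination (-1 : B) * h1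

section local_ring

variable (Q : Ideal (MvPolynomial σ k)) [hQ : Q.IsPrime]
  (A : Type*) [CommRing A] [IsLocalRing A] [Algebra (MvPolynomial σ k) A]
  [IsLocalization.AtPrime A Q] [Algebra k A] [IsScalarTower k (MvPolynomial σ k) A]

/-- **the Euler vector** at a prime -/
theorem exists_euler [CharZero k] [Fintype σ] :
    ∃ e : σ → A, (∀ j, e j ∈ maximalIdeal A) ∧
      ∀ t ∈ Q, algebraMap (MvPolynomial σ k) A t -
        ∑ j, e j * algebraMap (MvPolynomial σ k) A (pderiv j t) ∈ maximalIdeal A ^ 2 := by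
  have hle : maximalIdeal A ^ 2 ≤ maximalIdeal A := Ideal.pow_le_self two_ne_zero
  let g : (A ⧸ maximalIdeal A ^ 2) →ₐ[k] (A ⧸ maximalIdeal A) := Ideal.Quotient.factorₐ k hle
  have hg : Function.Surjective g := Ideal.Quotient.factor_surjective hle
  let _ : Field (A ⧸ maximalIdeal A) := Ideal.Quotient.field (maximalIdeal A)
  have _ : Algebra.EssFiniteType (MvPolynomial σ k) A :=
    Algebra.EssFiniteType.of_isLocalization A Q.primeCompl
  have _ : Algebra.EssFiniteType k A := Algebra.EssFiniteType.comp k (MvPolynomial σ k) A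
  have _ : Algebra.EssFiniteType k (A ⧸ maximalIdeal A) := inferInstance
  have _ : Algebra.FormallySmooth k (A ⧸ maximalIdeal A) :=
    Algebra.FormallySmooth.of_perfectField
  have hker : ∀ x, g x = 0 → ∃ y ∈ maximalIdeal A,
      Ideal.Quotient.mk (maximalIdeal A ^ 2) y = x := by
    intro x hx
    obtain ⟨y, rfl⟩ := Ideal.Quotient.mk_surjective x
    refine ⟨y, ?_, rfl⟩
    have : g (Ideal.Quotient.mk (maximalIdeal A ^ 2) y) =
      Ideal.Quotient.mk (maximalIdeal A) y := rfl
    rw [this] at hx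
    exact Ideal.Quotient.eq_zero_iff_mem.1 hx
  have hsq : ∀ a ∈ RingHom.ker g, ∀ b ∈ RingHom.ker g, a * b = 0 := by
    intro a ha b hb
    obtain ⟨a, ha', rfl⟩ := hker a ha
    obtain ⟨b, hb', rfl⟩ := hker b hb
    rw [← map_mul]
    refine Ideal.Quotient.eq_zero_iff_mem.2 ?_
    rw [pow_two]
    exact Ideal.mul_mem_mul ha' hb'
  have hnil : IsNilpotent (RingHom.ker (g : (A ⧸ maximalIdeal A ^ 2) →+* (A ⧸ maximalIdeal A))) := by
    refine ⟨2, ?_⟩
    have h2 : RingHom.ker (g : (A ⧸ maximalIdeal A ^ 2) →+* (A ⧸ maximalIdeal A)) *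
        RingHom.ker (g : (A ⧸ maximalIdeal A ^ 2) →+* (A ⧸ maximalIdeal A)) ≤ ⊥ := by
      rw [Ideal.mul_le]
      intro a ha b hb
      exact (Ideal.mem_bot).2 (hsq a ha b hb)
    exact (sq _).trans (le_bot_iff.1 h2)
  let s : (A ⧸ maximalIdeal A) →ₐ[k] (A ⧸ maximalIdeal A ^ 2) :=
    Algebra.FormallySmooth.liftOfSurjective (AlgHom.id k (A ⧸ maximalIdeal A)) g hg hnil
  have hs : ∀ x, g (s x) = x := fun x =>
    Algebra.FormallySmooth.liftOfSurjective_apply (AlgHom.id k (A ⧸ maximalIdeal A)) g hg hnil x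
  let ι : MvPolynomial σ k →ₐ[k] A := IsScalarTower.toAlgHom k (MvPolynomial σ k) A
  let φ : MvPolynomial σ k →ₐ[k] (A ⧸ maximalIdeal A ^ 2) :=
    (Ideal.Quotient.mkₐ k (maximalIdeal A ^ 2)).comp ι
  let ψ : MvPolynomial σ k →ₐ[k] (A ⧸ maximalIdeal A ^ 2) :=
    s.comp ((Ideal.Quotient.mkₐ k (maximalIdeal A)).comp ι)
  have hφψ : ∀ f, φ f - ψ f ∈ RingHom.ker g := by
    intro f
    rw [RingHom.mem_ker, map_sub]
    have h1 : g (ψ f) = Ideal.Quotient.mk (maximalIdeal A) (ι f) := hs _
    have h2 : g (φ f) = Ideal.Quotient.mk (maximalIdeal A) (ι f) := rfl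
    rw [h1, h2, sub_self]
  choose e he1 he2 using fun j => hker (φ (X j) - ψ (X j)) (hφψ (X j))
  refine ⟨e, he1, fun t ht => ?_⟩
  have h1 := taylor_one hsq φ ψ hφψ t
  have h2 : ψ t = 0 := by
    have h3 : Ideal.Quotient.mk (maximalIdeal A) (ι t) = 0 := by
      refine Ideal.Quotient.eq_zero_iff_mem.2 ?_
      exact (IsLocalization.AtPrime.to_map_mem_maximal_iff A Q t).2 ht
    change s (Ideal.Quotient.mk (maximalIdeal A) (ι t)) = 0
    rw [h3, map_zero]
  rw [h2, sub_zero] at h1
  refine Ideal.Quotient.eq_zero_iff_mem.1 ?_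
  rw [map_sub, map_sum, sub_eq_zero]
  refine h1.trans (Finset.sum_congr rfl fun j _ => ?_)
  rw [map_mul, he2, mul_comm]
  rfl

variable {Q A}

/-- the Euler field acts on `Q ^ n` as multiplication by `n` modulo `𝔪 ^ (n + 1)` -/
lemma euler_pow [Fintype σ] {e : σ → A}
    (he : ∀ j, e j ∈ maximalIdeal A)
    (he' : ∀ t ∈ Q, algebraMap (MvPolynomial σ k) A t -
        ∑ j, e j * algebraMap (MvPolynomial σ k) A (pderiv j t) ∈
          maximalIdeal A ^ 2) (n : ℕ) :
    ∀ f ∈ Q ^ n, (n : A) *
        algebraMap (MvPolynomial σ k) A f -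
        ∑ j, e j * algebraMap (MvPolynomial σ k) A (pderiv j f) ∈
          maximalIdeal A ^ (n + 1) := by
  have hmem : ∀ (n : ℕ) (f : MvPolynomial σ k), f ∈ Q ^ n →
      algebraMap (MvPolynomial σ k) A f ∈ maximalIdeal A ^ n := by
    intro n f hf
    rw [← IsLocalization.AtPrime.map_eq_maximalIdeal Q A, ← Ideal.map_pow]
    exact Ideal.mem_map_of_mem _ hf
  induction n with
  | zero =>
    intro f _
    rw [Nat.cast_zero, zero_mul, zero_sub, zero_add, pow_one]
    exact neg_mem (Ideal.sum_mem _ fun j _ => Ideal.mul_mem_right _ _ (he j))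
  | succ n ih =>
    intro f hf
    rw [pow_succ'] at hf
    induction hf using Submodule.mul_induction_on' with
    | mem_mul_mem a ha b hb =>
      have h1 := ih b hb
      have h2 := he' a ha
      have h3 : ((n + 1 : ℕ) : A) * algebraMap (MvPolynomial σ k) A (a * b) -
          ∑ j, e j * algebraMap (MvPolynomial σ k) A (pderiv j (a * b)) =
          algebraMap (MvPolynomial σ k) A a * ((n : A) *
            algebraMap (MvPolynomial σ k) A b -
            ∑ j, e j * algebraMap (MvPolynomial σ k) A (pderiv j b)) +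
          (algebraMap (MvPolynomial σ k) A a -
            ∑ j, e j * algebraMap (MvPolynomial σ k) A (pderiv j a)) *
              algebraMap (MvPolynomial σ k) A b := by
        have h4 : ∑ j, e j * algebraMap (MvPolynomial σ k) A (pderiv j (a * b)) =
            algebraMap (MvPolynomial σ k) A a *
              (∑ j, e j * algebraMap (MvPolynomial σ k) A (pderiv j b)) +
            (∑ j, e j * algebraMap (MvPolynomial σ k) A (pderiv j a)) *
              algebraMap (MvPolynomial σ k) A b := by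
          rw [Finset.mul_sum, Finset.sum_mul, ← Finset.sum_add_distrib]
          refine Finset.sum_congr rfl fun j _ => ?_
          rw [Derivation.leibniz, smul_eq_mul, smul_eq_mul, map_add, map_mul, map_mul]
          ring
        rw [h4, map_mul]
        push_cast
        ring
      rw [h3]
      refine add_mem ?_ ?_
      · have h5 := Ideal.mul_mem_mul (hmem 1 a (by rwa [pow_one])) h1
        rwa [← pow_add, add_comm 1 (n + 1)] at h5
      · have h5 := Ideal.mul_mem_mul h2 (hmem n b hb)
        rwa [← pow_add, show 2 + n = n + 1 + 1 by ring] at h5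
    | add x _ y _ hx hy =>
      have h3 : ((n + 1 : ℕ) : A) * algebraMap (MvPolynomial σ k) A (x + y) -
          ∑ j, e j * algebraMap (MvPolynomial σ k) A (pderiv j (x + y)) =
          (((n + 1 : ℕ) : A) * algebraMap (MvPolynomial σ k) A x -
            ∑ j, e j * algebraMap (MvPolynomial σ k) A (pderiv j x)) +
          (((n + 1 : ℕ) : A) * algebraMap (MvPolynomial σ k) A y -
            ∑ j, e j * algebraMap (MvPolynomial σ k) A (pderiv j y)) := by
        have h4 : ∑ j, e j * algebraMap (MvPolynomial σ k) A (pderiv j (x + y)) =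
            (∑ j, e j * algebraMap (MvPolynomial σ k) A (pderiv j x)) +
            ∑ j, e j * algebraMap (MvPolynomial σ k) A (pderiv j y) := by
          rw [← Finset.sum_add_distrib]
          refine Finset.sum_congr rfl fun j _ => ?_
          rw [map_add, map_add]; ring
        rw [h4, map_add]
        ring
      rw [h3]
      exact add_mem hx hy

/-- **Zariski--Nagata** (characteristic zero) -/
theorem zariski_nagata [CharZero k] [Fintype σ] (n : ℕ) (f : MvPolynomial σ k)
    (hf : ∀ l : List σ, l.length < n → Dl l f ∈ Q) :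
    algebraMap (MvPolynomial σ k) A f ∈ maximalIdeal A ^ n := by
  obtain ⟨e, he, he'⟩ := exists_euler Q A
  have h𝔪Q : maximalIdeal A = Q.map (algebraMap (MvPolynomial σ k) A) :=
    (IsLocalization.AtPrime.map_eq_maximalIdeal Q A).symm
  have hunit : ∀ s ∉ Q, IsUnit (algebraMap (MvPolynomial σ k) A s) := fun s hs =>
    IsLocalization.map_units A (⟨s, hs⟩ : Q.primeCompl)
  -- clearing denominators
  have hclear : ∀ (n : ℕ) (x : MvPolynomial σ k),
      algebraMap (MvPolynomial σ k) A x ∈ maximalIdeal A ^ n → ∃ s ∉ Q, s * x ∈ Q ^ n := by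
    intro n x hx
    rw [h𝔪Q, ← Ideal.map_pow,
      IsLocalization.algebraMap_mem_map_algebraMap_iff Q.primeCompl] at hx
    obtain ⟨s, hs, hs'⟩ := hx
    exact ⟨s, hs, hs'⟩
  induction n generalizing f with
  | zero => simp
  | succ n ih =>
    have h1 := ih f fun l hl => hf l (by omega)
    have h2 : ∀ j, algebraMap (MvPolynomial σ k) A (pderiv j f) ∈ maximalIdeal A ^ n := by
      intro j
      refine ih _ fun l hl => ?_
      have := hf (l ++ [j]) (by rw [List.length_append, List.length_singleton]; omega)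
      rwa [Dl_append] at this
    rcases Nat.eq_zero_or_pos n with rfl | hn
    · rw [zero_add, pow_one]
      exact (IsLocalization.AtPrime.to_map_mem_maximal_iff A Q f).2 (by simpa using hf [] (by simp))
    obtain ⟨s0, hs0, hs0'⟩ := hclear n f h1
    choose s hs hs' using fun j => hclear n _ (h2 j)
    set t := s0 * ∏ j, s j with ht
    have htQ : t ∉ Q := by
      intro h
      rcases hQ.mem_or_mem h with h | h
      · exact hs0 h
      · rw [hQ.prod_mem_iff] at h
        obtain ⟨j, -, hj⟩ := h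
        exact hs j hj
    have ht1 : t * f ∈ Q ^ n := by
      have : t * f = (∏ j, s j) * (s0 * f) := by rw [ht]; ring
      rw [this]; exact Ideal.mul_mem_left _ _ hs0'
    have ht2 : ∀ j, t * pderiv j f ∈ Q ^ n := by
      intro j
      obtain ⟨c, hc⟩ := Finset.dvd_prod_of_mem s (Finset.mem_univ j)
      have : t * pderiv j f = (s0 * c) * (s j * pderiv j f) := by rw [ht, hc]; ring
      rw [this]; exact Ideal.mul_mem_left _ _ (hs' j)
    have hg : t ^ 2 * f ∈ Q ^ n := by
      have : t ^ 2 * f = t * (t * f) := by ring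
      rw [this]; exact Ideal.mul_mem_left _ _ ht1
    have hg2 : ∀ j, pderiv j (t ^ 2 * f) ∈ Q ^ n := by
      intro j
      have : pderiv j (t ^ 2 * f) = t * (t * pderiv j f) + (2 * pderiv j t) * (t * f) := by
        rw [Derivation.leibniz, pow_two, Derivation.leibniz]
        simp only [smul_eq_mul]
        ring
      rw [this]
      exact add_mem (Ideal.mul_mem_left _ _ (ht2 j)) (Ideal.mul_mem_left _ _ ht1)
    have h3 := euler_pow he he' n _ hg
    have h4 : ∑ j, e j * algebraMap (MvPolynomial σ k) A (pderiv j (t ^ 2 * f)) ∈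
        maximalIdeal A ^ (n + 1) := by
      refine Ideal.sum_mem _ fun j _ => ?_
      rw [pow_succ']
      refine Ideal.mul_mem_mul (he j) ?_
      rw [h𝔪Q, ← Ideal.map_pow]
      exact Ideal.mem_map_of_mem _ (hg2 j)
    have h5 : (n : A) * algebraMap (MvPolynomial σ k) A (t ^ 2 * f) ∈
        maximalIdeal A ^ (n + 1) := by
      have := add_mem h3 h4
      rwa [sub_add_cancel] at this
    have hu : IsUnit ((n : A) * algebraMap (MvPolynomial σ k) A (t ^ 2)) := by
      refine IsUnit.mul ?_ ?_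
      · have h6 : (n : A) = algebraMap (MvPolynomial σ k) A (n : MvPolynomial σ k) := by simp
        rw [h6]
        exact hunit _ (natCast_notMem hQ n hn.ne')
      · rw [map_pow]
        exact (hunit t htQ).pow 2
    rw [map_mul, ← mul_assoc] at h5
    exact (Ideal.unit_mul_mem_iff_mem _ hu).1 h5

end local_ring

end Crest.Agent.R065.Wt639
end

-- ▼ part R065/Wt_639

/-!
# Row 65: Bezout with multiplicities and the weight `1 + ord_V h`

* `LChain J V N` : a chain of ideals `J 0 ≤ J 1 ≤ ... ≤ J N`, the `i`-th step containing a copy of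
  `R/(something ≤ V i)`.
* `bezout_chain` : `P` prime, `u ∉ P`, `u ∈ J 0`, `P ≤ J 0`, all `V i` primes of dimension
  `dimP P - 1`: `∑ degP (V i) ≤ totalDegree u * degP P`.
* `ordP V h` : order of `h` along the prime `V` (iterated partial derivatives).
* `bezout_mult` : `∑_{V ∈ s} ν V * degP V ≤ totalDegree u * degP P` if all partial derivatives of
  order `< ν V` of `u` lie in `V`.
* `weighted_cut` : `∑_{V ∈ s} (1 + ordP V h) * degP V ≤ (D * (1 + ordP P h) + m) * degP P`.
-/

set_option autoImplicit false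

open MvPolynomial Module

namespace Crest.Agent.R065.Wt639

open Crest.Agent.R065.HF669 Crest.Agent.R065.Mult496 Crest.Agent.R065.Der496
  Crest.Agent.R065.Cramer234

variable {k : Type*} [Field k] {σ : Type*}

/-! ### Labelled chains -/

/-- a chain of ideals with labelled steps -/
def LChain {R : Type*} [CommRing R] (J : ℕ → Ideal R) (V : ℕ → Ideal R) (N : ℕ) : Prop :=
  ∀ i < N, J i ≤ J (i + 1) ∧ ∃ u ∈ J (i + 1), ∀ g, u * g ∈ J i → g ∈ V i

lemma HF_LChain [Finite σ] {J V : ℕ → Ideal (MvPolynomial σ k)} {N : ℕ} (hJ : LChain J V N) :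
    ∃ b : ℕ, ∀ m, HF (J N) (m + b) + ∑ i ∈ Finset.range N, HF (V i) m ≤ HF (J 0) (m + b) := by
  induction N with
  | zero => exact ⟨0, fun m => by simp⟩
  | succ N ih =>
    obtain ⟨b, hb⟩ := ih fun i hi => hJ i (by omega)
    obtain ⟨hle, u, hu, hcol⟩ := hJ N (by omega)
    refine ⟨b + u.totalDegree, fun m => ?_⟩
    have h1 := HF_step hle hu hcol le_rfl (m + b)
    have h2 := hb (m + u.totalDegree)
    have h3 : HF (V N) m ≤ HF (V N) (m + b) := HF_mono _ (by omega)
    have h4 : ∑ i ∈ Finset.range N, HF (V i) m ≤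
        ∑ i ∈ Finset.range N, HF (V i) (m + u.totalDegree) :=
      Finset.sum_le_sum fun i _ => HF_mono _ (by omega)
    have e1 : m + b + u.totalDegree = m + (b + u.totalDegree) := by ring
    have e2 : m + u.totalDegree + b = m + (b + u.totalDegree) := by ring
    rw [e1] at h1
    rw [e2] at h2
    rw [Finset.sum_range_succ]
    omega

/-- Bezout for a labelled chain -/
theorem bezout_chain [Infinite k] [Fintype σ] {P : Ideal (MvPolynomial σ k)} [hP : P.IsPrime]
    {u : MvPolynomial σ k} (huP : u ∉ P) {J V : ℕ → Ideal (MvPolynomial σ k)} {N : ℕ}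
    (hPJ : P ≤ J 0) (huJ : u ∈ J 0) (hJ : LChain J V N) (hV : ∀ i < N, (V i).IsPrime)
    (hdim : ∀ i < N, dimP (V i) + 1 = dimP P) :
    ∑ i ∈ Finset.range N, degP (V i) ≤ u.totalDegree * degP P := by
  rcases Nat.eq_zero_or_pos N with rfl | hN
  · simp
  obtain ⟨b, hb⟩ := HF_LChain hJ
  set r := dimP P with hr
  obtain ⟨s, hs⟩ : ∃ s, r = s + 1 := ⟨r - 1, by have := hdim 0 hN; omega⟩
  -- lower bounds for the `V i`
  have hlow : ∃ b', ∀ m, (∑ i ∈ Finset.range N, degP (V i)) * (m + s).choose s ≤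
      ∑ i ∈ Finset.range N, HF (V i) (m + b') := by
    have h1 : ∀ i, ∃ b', i < N → ∀ m, degP (V i) * (m + s).choose s ≤ HF (V i) (m + b') := by
      intro i
      by_cases hi : i < N
      · have := hV i hi
        obtain ⟨b', hb'⟩ := (isDimDeg (V i)).ge
        have e : dimP (V i) = s := by have := hdim i hi; omega
        rw [e] at hb'
        exact ⟨b', fun _ => hb'⟩
      · exact ⟨0, fun h => absurd h hi⟩
    choose b' hb' using h1
    refine ⟨∑ i ∈ Finset.range N, b' i, fun m => ?_⟩
    rw [Finset.sum_mul]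
    refine Finset.sum_le_sum fun i hi => ?_
    refine (hb' i (Finset.mem_range.1 hi) m).trans (HF_mono _ ?_)
    have := Finset.single_le_sum (f := b') (fun _ _ => Nat.zero_le _) hi
    omega
  obtain ⟨b', hb'⟩ := hlow
  set x := ∑ i ∈ Finset.range N, degP (V i) with hx
  have hx2 : ∀ m, x * m ^ s ≤ s.factorial * HF (J 0) (m + (b' + b)) := by
    intro m
    calc x * m ^ s ≤ x * (s.factorial * (m + s).choose s) :=
          Nat.mul_le_mul_left _ (pow_le_factorial_choose m s)
      _ = s.factorial * (x * (m + s).choose s) := by ring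
      _ ≤ s.factorial * HF (J 0) (m + (b' + b)) := by
          refine Nat.mul_le_mul_left _ ((hb' m).trans ?_)
          have := hb (m + b')
          rw [add_assoc] at this
          omega
  have hcut := HF_cut hPJ huJ le_rfl (fun g hg => (hP.mem_or_mem hg).resolve_left huP)
  have hstep := cut_step (F := HF (J 0)) (G := HF P) (d := u.totalDegree) (s := s)
    (b := b' + b) (x := x) (y := s.factorial) (fun m => HF_anti hPJ m) (fun m => hcut m) hx2
  have hfin : ∀ m, x * m ^ (s + 1) ≤
      (u.totalDegree * degP P) * (m + (b' + b + (s + 1))) ^ (s + 1) := by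
    intro m
    calc x * m ^ (s + 1) ≤ ((s + 1) * u.totalDegree * s.factorial) * HF P (m + (b' + b)) :=
          hstep m
      _ ≤ ((s + 1) * u.totalDegree * s.factorial) *
          (degP P * (m + (b' + b) + (s + 1)).choose (s + 1)) := by
          have := HF_le_degP P (m + (b' + b))
          rw [← hr, hs] at this
          exact Nat.mul_le_mul_left _ this
      _ = (u.totalDegree * degP P) *
          ((s + 1).factorial * (m + (b' + b) + (s + 1)).choose (s + 1)) := by
          rw [Nat.factorial_succ]; ring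
      _ ≤ (u.totalDegree * degP P) * (m + (b' + b) + (s + 1)) ^ (s + 1) :=
          Nat.mul_le_mul_left _ (factorial_choose_le_pow _ _)
      _ = _ := by rw [add_assoc m (b' + b)]
  exact le_of_pow_le hfin

/-! ### Combining chains over several primes -/

/-- glueing: chains over pairwise "independent" primes -/
lemma exists_LChain {R : Type*} [CommRing R] {ι : Type*} (s : Finset ι) (V : ι → Ideal R)
    (hV : ∀ i ∈ s, (V i).IsPrime) (ν : ι → ℕ) (K : ι → ℕ → Ideal R)
    (hK : ∀ i ∈ s, PChain (V i) (K i) (ν i))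
    (hsep : ∀ i ∈ s, ∀ j ∈ s, j ≠ i → ∃ w ∈ K j 0, w ∉ V i) :
    ∃ (J V' : ℕ → Ideal R), s.inf (fun i => K i 0) ≤ J 0 ∧
      LChain J V' (∑ i ∈ s, ν i) ∧ (∀ n < ∑ i ∈ s, ν i, ∃ i ∈ s, V' n = V i) ∧
      ∀ f : Ideal R → ℕ, ∑ n ∈ Finset.range (∑ i ∈ s, ν i), f (V' n) = ∑ i ∈ s, ν i * f (V i) := by
  classical
  induction s using Finset.induction_on with
  | empty =>
    refine ⟨fun _ => ⊤, fun _ => ⊤, by simp, ?_, ?_, ?_⟩
    · intro i hi; simp at hi
    · intro n hn; simp at hn
    · intro f; simp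
  | insert a s ha ih =>
    obtain ⟨J, V', hJ0, hJ, hV', hf⟩ := ih (fun i hi => hV i (Finset.mem_insert_of_mem hi))
      (fun i hi => hK i (Finset.mem_insert_of_mem hi))
      (fun i hi j hj => hsep i (Finset.mem_insert_of_mem hi) j (Finset.mem_insert_of_mem hj))
    have hsum : ∑ i ∈ insert a s, ν i = ν a + ∑ i ∈ s, ν i := Finset.sum_insert ha
    have haV : (V a).IsPrime := hV a (Finset.mem_insert_self _ _)
    have haK := hK a (Finset.mem_insert_self _ _)
    obtain ⟨w, hw1, hw2⟩ : ∃ w ∈ s.inf (fun i => K i 0), w ∉ V a := by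
      have h1 : ∀ j ∈ s, ∃ w ∈ K j 0, w ∉ V a := fun j hj =>
        hsep a (Finset.mem_insert_self _ _) j (Finset.mem_insert_of_mem hj)
          (fun h => ha (h ▸ hj))
      choose! w hw1 hw2 using h1
      refine ⟨∏ j ∈ s, w j, ?_, ?_⟩
      · rw [Submodule.mem_finsetInf]
        intro j hj
        exact Ideal.mem_of_dvd _ (Finset.dvd_prod_of_mem w hj) (hw1 j hj)
      · intro h
        rw [haV.prod_mem_iff] at h
        obtain ⟨j, hj, hj'⟩ := h
        exact hw2 j hj hj'
    refine ⟨fun n => if n < ν a then K a n ⊓ s.inf (fun i => K i 0) else J (n - ν a),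
      fun n => if n < ν a then V a else V' (n - ν a), ?_, ?_, ?_, ?_⟩
    · rw [Finset.inf_insert]
      by_cases h0 : 0 < ν a
      · simp only [h0, if_true]
        exact le_rfl
      · simp only [h0, if_false]
        have : 0 - ν a = 0 := by omega
        rw [this]
        exact inf_le_right.trans hJ0
    · intro n hn
      rw [hsum] at hn
      by_cases h1 : n + 1 < ν a
      · have h2 : n < ν a := by omega
        simp only [h1, h2, if_true]
        obtain ⟨h3, u, hu, hcol⟩ := haK n h2
        refine ⟨inf_le_inf_right _ h3, u * w, ⟨Ideal.mul_mem_right _ _ hu,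
          Ideal.mul_mem_left _ _ hw1⟩, fun g hg => ?_⟩
        have h4 : u * (w * g) ∈ K a n := by rw [← mul_assoc]; exact hg.1
        exact (haV.mem_or_mem (hcol _ h4)).resolve_left hw2
      · by_cases h2 : n < ν a
        · have h5 : n + 1 - ν a = 0 := by omega
          simp only [h1, h2, if_true, if_false, h5]
          obtain ⟨h3, u, hu, hcol⟩ := haK n h2
          refine ⟨inf_le_right.trans hJ0, u * w, Ideal.mul_mem_left _ _ (hJ0 hw1),
            fun g hg => ?_⟩
          have h4 : u * (w * g) ∈ K a n := by rw [← mul_assoc]; exact hg.1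
          exact (haV.mem_or_mem (hcol _ h4)).resolve_left hw2
        · simp only [h1, h2, if_false]
          have h5 : n + 1 - ν a = n - ν a + 1 := by omega
          rw [h5]
          exact hJ (n - ν a) (by omega)
    · intro n hn
      rw [hsum] at hn
      by_cases h2 : n < ν a
      · exact ⟨a, Finset.mem_insert_self _ _, by simp [h2]⟩
      · obtain ⟨i, hi, h3⟩ := hV' (n - ν a) (by omega)
        exact ⟨i, Finset.mem_insert_of_mem hi, by simp [h2, h3]⟩
    · intro f
      rw [hsum, Finset.sum_insert ha, Finset.sum_range_add, ← hf f]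
      congr 1
      · rw [Finset.sum_congr rfl (g := fun _ => f (V a))]
        · simp
        · intro n hn
          simp [Finset.mem_range.1 hn]
      · apply Finset.sum_congr rfl
        intro n _
        simp

/-! ### Iterated partial derivatives -/


lemma totalDegree_Dl_le' (l : List σ) (h : MvPolynomial σ k) :
    (Dl l h).totalDegree ≤ h.totalDegree - l.length := by
  induction l with
  | nil => exact le_rfl
  | cons i l ih =>
    rw [Dl_cons, List.length_cons]
    have := totalDegree_pderiv_le i (Dl l h)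
    omega

lemma C_notMem {V : Ideal (MvPolynomial σ k)} (hV : V ≠ ⊤) {c : k} (hc : c ≠ 0) :
    (C c : MvPolynomial σ k) ∉ V := by
  intro h
  apply hV
  rw [Ideal.eq_top_iff_one]
  have := V.mul_mem_left (C c⁻¹) h
  rwa [← C_mul, inv_mul_cancel₀ hc, C_1] at this

/-- some iterated derivative of a nonzero polynomial is not in a given proper ideal -/
lemma exists_Dl_notMem [CharZero k] [Fintype σ] {V : Ideal (MvPolynomial σ k)} (hV : V ≠ ⊤)
    {h : MvPolynomial σ k} (hh : h ≠ 0) : ∃ l : List σ, l.length ≤ h.totalDegree ∧ Dl l h ∉ V := by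
  induction hn : h.totalDegree using Nat.strong_induction_on generalizing h with
  | _ n ih =>
    by_cases hd : ∀ j, pderiv j h = 0
    · obtain ⟨c, rfl⟩ := eq_C_of_pderiv_eq_zero hd
      refine ⟨[], by simp, ?_⟩
      rw [Dl_nil]
      exact C_notMem hV (fun hc => hh (by rw [hc, C_0]))
    · push Not at hd
      obtain ⟨j, hj⟩ := hd
      have h1 := totalDegree_pderiv_le j h
      have h2 : h.totalDegree ≠ 0 := by
        intro h0
        rw [totalDegree_eq_zero_iff_eq_C] at h0
        rw [h0, pderiv_C] at hj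
        exact hj rfl
      obtain ⟨l, hl1, hl2⟩ := ih (pderiv j h).totalDegree (by omega) hj rfl
      refine ⟨l ++ [j], ?_, ?_⟩
      · rw [List.length_append, List.length_singleton]; omega
      · rw [Dl_append]; exact hl2

/-- order of `h` along `V` -/
noncomputable def ordP (V : Ideal (MvPolynomial σ k)) (h : MvPolynomial σ k) : ℕ :=
  sInf {n | ∃ l : List σ, l.length = n ∧ Dl l h ∉ V}

lemma mem_of_lt_ordP {V : Ideal (MvPolynomial σ k)} {h : MvPolynomial σ k} {l : List σ}
    (hl : l.length < ordP V h) : Dl l h ∈ V := by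
  by_contra hc
  exact absurd (Nat.sInf_le (⟨l, rfl, hc⟩ : l.length ∈ {n | ∃ l : List σ, l.length = n ∧
    Dl l h ∉ V})) (not_le.2 hl)

lemma exists_ordP [CharZero k] [Fintype σ] {V : Ideal (MvPolynomial σ k)} (hV : V ≠ ⊤)
    {h : MvPolynomial σ k} (hh : h ≠ 0) : ∃ l : List σ, l.length = ordP V h ∧ Dl l h ∉ V := by
  obtain ⟨l, -, hl⟩ := exists_Dl_notMem hV hh
  exact Nat.sInf_mem (s := {n | ∃ l : List σ, l.length = n ∧ Dl l h ∉ V}) ⟨l.length, l, rfl, hl⟩

lemma ordP_le_of_notMem {V : Ideal (MvPolynomial σ k)} {h : MvPolynomial σ k} {l : List σ}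
    (hl : Dl l h ∉ V) : ordP V h ≤ l.length := Nat.sInf_le ⟨l, rfl, hl⟩

lemma ordP_le_totalDegree [CharZero k] [Fintype σ] {V : Ideal (MvPolynomial σ k)} (hV : V ≠ ⊤)
    {h : MvPolynomial σ k} (hh : h ≠ 0) : ordP V h ≤ h.totalDegree := by
  obtain ⟨l, hl1, hl2⟩ := exists_Dl_notMem hV hh
  exact (ordP_le_of_notMem hl2).trans hl1

lemma le_ordP [CharZero k] [Fintype σ] {V : Ideal (MvPolynomial σ k)} (hV : V ≠ ⊤)
    {h : MvPolynomial σ k} (hh : h ≠ 0) {n : ℕ} (hn : ∀ l : List σ, l.length < n → Dl l h ∈ V) :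
    n ≤ ordP V h := by
  obtain ⟨l, hl1, hl2⟩ := exists_ordP hV hh
  by_contra hc
  push Not at hc
  exact hl2 (hn l (hl1 ▸ hc))

lemma ordP_pos_iff [CharZero k] [Fintype σ] {V : Ideal (MvPolynomial σ k)} (hV : V ≠ ⊤)
    {h : MvPolynomial σ k} (hh : h ≠ 0) : 0 < ordP V h ↔ h ∈ V := by
  constructor
  · intro h0
    simpa using mem_of_lt_ordP (V := V) (h := h) (l := []) (by simpa using h0)
  · intro hmem
    refine le_ordP hV hh fun l hl => ?_
    have : l = [] := List.eq_nil_of_length_eq_zero (by omega)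
    rw [this]; exact hmem

lemma ordP_mono [CharZero k] [Fintype σ] {P V : Ideal (MvPolynomial σ k)} (hV : V ≠ ⊤)
    (hPV : P ≤ V) {h : MvPolynomial σ k} (hh : h ≠ 0) : ordP P h ≤ ordP V h := by
  obtain ⟨l, hl1, hl2⟩ := exists_ordP hV hh
  rw [← hl1]
  exact ordP_le_of_notMem fun hc => hl2 (hPV hc)

/-! ### The local chain at a prime over `P` -/

section local_chain

variable {R : Type*} [CommRing R] [IsNoetherianRing R] (P V : Ideal R) [hP : P.IsPrime]
  [hV : V.IsPrime]

/-- the ideals `(V ^ (ν - n) + P) R_V ∩ R` -/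
noncomputable def Kl (ν n : ℕ) : Ideal R :=
  (IsLocalRing.maximalIdeal (Localization.AtPrime V) ^ (ν - n) ⊔
    P.map (algebraMap R (Localization.AtPrime V))).comap (algebraMap R (Localization.AtPrime V))

variable {P V}

lemma le_Kl (ν n : ℕ) : P ≤ Kl P V ν n := by
  rw [Kl, ← Ideal.map_le_iff_le_comap]
  exact le_sup_right

lemma mem_Kl {ν : ℕ} {f : R} (hf : algebraMap R (Localization.AtPrime V) f ∈
    IsLocalRing.maximalIdeal (Localization.AtPrime V) ^ ν) : f ∈ Kl P V ν 0 := by
  rw [Kl, Ideal.mem_comap, Nat.sub_zero]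
  exact Ideal.mem_sup_left hf

lemma pow_mem_Kl {ν : ℕ} {x : R} (hx : x ∈ V) : x ^ ν ∈ Kl P V ν 0 := by
  refine mem_Kl ?_
  rw [map_pow]
  exact Ideal.pow_mem_pow ((IsLocalization.AtPrime.to_map_mem_maximal_iff _ V x).2 hx) ν

theorem Kl_chain (hPV : P ≤ V) {x : R} (hxV : x ∈ V) (hxP : x ∉ P) (ν : ℕ) :
    PChain V (Kl P V ν) ν := by
  intro n hn
  refine ⟨Ideal.comap_mono (sup_le_sup_right (Ideal.pow_le_pow_right (by omega)) _), ?_⟩
  set A := Localization.AtPrime V with hA
  set I := P.map (algebraMap R A) with hI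
  obtain ⟨a, ha⟩ : ∃ a, ν - n = a + 1 := ⟨ν - n - 1, by omega⟩
  have ha' : ν - (n + 1) = a := by omega
  have hnot : ¬ IsLocalRing.maximalIdeal A ^ a ≤
      I ⊔ IsLocalRing.maximalIdeal A • (IsLocalRing.maximalIdeal A ^ a) := by
    intro hle
    have h1 : IsLocalRing.maximalIdeal A ^ a ≤ I :=
      Submodule.le_of_le_smul_of_le_jacobson_bot (IsNoetherian.noetherian _)
        (IsLocalRing.maximalIdeal_le_jacobson _) hle
    have h2 : algebraMap R A (x ^ a) ∈ I := by
      refine h1 ?_
      rw [map_pow]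
      exact Ideal.pow_mem_pow ((IsLocalization.AtPrime.to_map_mem_maximal_iff A V x).2 hxV) a
    have h3 : x ^ a ∈ P := by
      have h4 := IsLocalization.comap_map_of_isPrime_disjoint V.primeCompl A hP
        (by
          rw [Set.disjoint_left]
          intro y hy hyP
          exact hy (hPV hyP))
      rw [← h4]
      exact h2
    exact hxP (hP.mem_of_pow_mem _ h3)
  obtain ⟨y, hy1, hy2⟩ := SetLike.not_le_iff_exists.1 hnot
  obtain ⟨⟨r, s⟩, hrs⟩ := IsLocalization.surj V.primeCompl y
  have hs : IsUnit (algebraMap R A s) := IsLocalization.map_units A s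
  have hr1 : algebraMap R A r ∈ IsLocalRing.maximalIdeal A ^ a := by
    rw [← hrs]; exact Ideal.mul_mem_right _ _ hy1
  have hr2 : algebraMap R A r ∉ IsLocalRing.maximalIdeal A ^ (a + 1) ⊔ I := by
    intro h
    apply hy2
    rw [sup_comm, pow_succ'] at h
    rw [← hrs] at h
    exact (Ideal.mul_unit_mem_iff_mem _ hs).1 h
  refine ⟨r, ?_, fun g hg => ?_⟩
  · rw [Kl, Ideal.mem_comap, ha']
    exact Ideal.mem_sup_left hr1
  · rw [Kl, Ideal.mem_comap, ha, map_mul] at hg
    by_contra hgV
    have hu : IsUnit (algebraMap R A g) :=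
      IsLocalization.map_units A (⟨g, hgV⟩ : V.primeCompl)
    exact hr2 ((Ideal.mul_unit_mem_iff_mem _ hu).1 hg)

end local_chain

/-- **Bezout with multiplicities**: `P` prime, `u ∉ P`, `s` a finite set of primes over `P` of
dimension `dimP P - 1` such that all derivatives of `u` of order `< ν V` lie in `V`. -/
theorem bezout_mult [CharZero k] [Fintype σ] {P : Ideal (MvPolynomial σ k)} [hP : P.IsPrime]
    {u : MvPolynomial σ k} (huP : u ∉ P) (s : Finset (Ideal (MvPolynomial σ k)))
    (hs : ∀ V ∈ s, V.IsPrime ∧ P ≤ V ∧ dimP V + 1 = dimP P)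
    (ν : Ideal (MvPolynomial σ k) → ℕ)
    (hν : ∀ V ∈ s, ∀ l : List σ, l.length < ν V → Dl l u ∈ V) :
    ∑ V ∈ s, ν V * degP V ≤ u.totalDegree * degP P := by
  classical
  -- the chains
  have h1 : ∀ V : Ideal (MvPolynomial σ k), ∃ K : ℕ → Ideal (MvPolynomial σ k), V ∈ s →
      PChain V K (ν V) ∧ P ≤ K 0 ∧ u ∈ K 0 ∧ ∀ x ∈ V, x ^ ν V ∈ K 0 := by
    intro V
    by_cases hV : V ∈ s
    · obtain ⟨hVp, hPV, hdim⟩ := hs V hV
      have hlt : ¬ V ≤ P := by
        intro hle
        have : V = P := le_antisymm hle hPV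
        rw [this] at hdim
        omega
      obtain ⟨x, hxV, hxP⟩ := SetLike.not_le_iff_exists.1 hlt
      exact ⟨Kl P V (ν V), fun _ => ⟨Kl_chain hPV hxV hxP _, le_Kl _ _,
        mem_Kl (zariski_nagata _ _ (hν V hV)), fun y hy => pow_mem_Kl hy⟩⟩
    · exact ⟨fun _ => ⊤, fun h => absurd h hV⟩
  choose K hK using h1
  obtain ⟨J, V', hJ0, hJ, hV', hf⟩ := exists_LChain s (fun V => V) (fun V hV => (hs V hV).1) ν
    K (fun V hV => (hK V hV).1)
    (by
      intro V hV V₂ hV₂ hne
      obtain ⟨hVp, hPV, hdim⟩ := hs V hV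
      obtain ⟨hVp₂, hPV₂, hdim₂⟩ := hs V₂ hV₂
      have hnot : ¬ V₂ ≤ V := by
        intro hle
        exact hne (eq_of_le_of_dimP_le (P := V₂) (Q := V) hle (by omega))
      obtain ⟨w, hw1, hw2⟩ := SetLike.not_le_iff_exists.1 hnot
      exact ⟨w ^ ν V₂, (hK V₂ hV₂).2.2.2 w hw1, fun h => hw2 (hVp.mem_of_pow_mem _ h)⟩)
  have hPJ : P ≤ J 0 := by
    refine le_trans ?_ hJ0
    exact Finset.le_inf fun V hV => (hK V hV).2.1
  have huJ : u ∈ J 0 := by
    apply hJ0
    rw [Submodule.mem_finsetInf]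
    exact fun V hV => (hK V hV).2.2.1
  have := bezout_chain huP hPJ huJ hJ
    (fun i hi => by obtain ⟨V, hV, h⟩ := hV' i hi; rw [h]; exact (hs V hV).1)
    (fun i hi => by obtain ⟨V, hV, h⟩ := hV' i hi; rw [h]; exact (hs V hV).2.2)
  rwa [hf] at this

/-- **Bezout**: the primes of dimension `dimP P - 1` over `P + (g)`. -/
theorem bezout [CharZero k] [Fintype σ] {P : Ideal (MvPolynomial σ k)} [hP : P.IsPrime]
    {g : MvPolynomial σ k} (hgP : g ∉ P) (s : Finset (Ideal (MvPolynomial σ k)))
    (hs : ∀ V ∈ s, V.IsPrime ∧ P ≤ V ∧ g ∈ V ∧ dimP V + 1 = dimP P) :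
    ∑ V ∈ s, degP V ≤ g.totalDegree * degP P := by
  have := bezout_mult hgP s (fun V hV => ⟨(hs V hV).1, (hs V hV).2.1, (hs V hV).2.2.2⟩)
    (fun _ => 1) (by
      intro V hV l hl
      have : l = [] := List.eq_nil_of_length_eq_zero (by omega)
      rw [this]
      exact (hs V hV).2.2.1)
  simpa using this

/-- **Weighted cut**: weight `1 + ord_V h`. -/
theorem weighted_cut [CharZero k] [Fintype σ] {P : Ideal (MvPolynomial σ k)} [hP : P.IsPrime]
    {h : MvPolynomial σ k} (hh : h ≠ 0)
    {g : MvPolynomial σ k} (hgP : g ∉ P) (s : Finset (Ideal (MvPolynomial σ k)))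
    (hs : ∀ V ∈ s, V.IsPrime ∧ P ≤ V ∧ g ∈ V ∧ dimP V + 1 = dimP P) :
    ∑ V ∈ s, (1 + ordP V h) * degP V ≤
      (g.totalDegree * (1 + ordP P h) + (h.totalDegree - ordP P h)) * degP P := by
  obtain ⟨l, hl1, hl2⟩ := exists_ordP hP.ne_top hh
  have h1 := bezout hgP s hs
  have h2 := bezout_mult hl2 s (fun V hV => ⟨(hs V hV).1, (hs V hV).2.1, (hs V hV).2.2.2⟩)
    (fun V => ordP V h - ordP P h) (by
      intro V hV l' hl'
      rw [← Dl_append]
      refine mem_of_lt_ordP ?_
      rw [List.length_append, hl1]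
      omega)
  have h3 : ∀ V ∈ s, (1 + ordP V h) * degP V ≤
      (1 + ordP P h) * degP V + (ordP V h - ordP P h) * degP V := by
    intro V _
    rw [← add_mul]
    exact Nat.mul_le_mul_right _ (by omega)
  have h4 : (Dl l h).totalDegree ≤ h.totalDegree - ordP P h := by
    rw [← hl1]; exact totalDegree_Dl_le' l h
  calc ∑ V ∈ s, (1 + ordP V h) * degP V
      ≤ ∑ V ∈ s, ((1 + ordP P h) * degP V + (ordP V h - ordP P h) * degP V) :=
        Finset.sum_le_sum h3
    _ = (1 + ordP P h) * ∑ V ∈ s, degP V + ∑ V ∈ s, (ordP V h - ordP P h) * degP V := by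
        rw [Finset.sum_add_distrib, Finset.mul_sum]
    _ ≤ (1 + ordP P h) * (g.totalDegree * degP P) +
        (h.totalDegree - ordP P h) * degP P :=
        add_le_add (Nat.mul_le_mul_left _ h1) (h2.trans (Nat.mul_le_mul_right _ h4))
    _ = _ := by ring

end Crest.Agent.R065.Wt639
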