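import Crest.Agent.R065.Cut_477
import Crest.Agent.R065.Wt_639

/-!
# Row 65: the extremal variety (A09), abstract form for both L0 and the rank lemma

`extremal`: finite family of points `p i`, `h ≠ 0` of degree `≤ m` vanishing at all of them,
weight `μ` with the cut inequality ⟹ a prime `V ∋ h` with flags `≤ D`, the gap property for
polynomials of degree `≤ M * D`, and `|s| * μ V * degP V ≤ C m ^ codim V * |s_V|`.
-/

set_option autoImplicit false

open MvPolynomial Finset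
open scoped Classical

namespace Crest.Agent.R065.Extr203

open Crest.Agent.R065.HF669 Crest.Agent.R065.Cut477

/-! ### Maximal ratio -/

lemma exists_max_ratio {α : Type*} (S : Set α) (a b : α → ℕ) (A : ℕ) (ha : ∀ x ∈ S, a x ≤ A)
    (hb : ∀ x ∈ S, 1 ≤ b x) {x0 : α} (hx0 : x0 ∈ S) (h0 : 0 < a x0) :
    ∃ x ∈ S, 0 < a x ∧ ∀ y ∈ S, a y * b x ≤ a x * b y := by
  set B := A * b x0 with hB
  set T : Finset (ℕ × ℕ) := ((range (A + 1)) ×ˢ (range (B + 1))).filter
    (fun q => ∃ x ∈ S, a x = q.1 ∧ b x = q.2) with hT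
  have hmemT : ∀ x ∈ S, b x ≤ B → (a x, b x) ∈ T := by
    intro x hx hxB
    rw [hT, mem_filter, mem_product, mem_range, mem_range]
    exact ⟨⟨by have := ha x hx; omega, by omega⟩, x, hx, rfl, rfl⟩
  have h0T : (a x0, b x0) ∈ T := by
    refine hmemT x0 hx0 ?_
    have : 1 ≤ A := h0.trans_le (ha x0 hx0)
    rw [hB]; exact Nat.le_mul_of_pos_left _ this
  obtain ⟨q, hqT, hq⟩ := T.exists_max_image (fun q => (q.1 : ℚ) / q.2) ⟨_, h0T⟩
  obtain ⟨x, hx, hx1, hx2⟩ := (mem_filter.1 hqT).2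
  have hbx : 0 < b x := hb x hx
  have key : ∀ y ∈ S, b y ≤ B → a y * b x ≤ a x * b y := by
    intro y hy hyB
    have h1 := hq _ (hmemT y hy hyB)
    simp only at h1
    rw [← hx1, ← hx2] at h1
    have hby : (0 : ℚ) < b y := by exact_mod_cast hb y hy
    have hbx' : (0 : ℚ) < b x := by exact_mod_cast hbx
    rw [div_le_div_iff₀ hby hbx'] at h1
    exact_mod_cast h1
  have hax : 0 < a x := by
    have h1 := key x0 hx0 (by
      have : 1 ≤ A := h0.trans_le (ha x0 hx0)
      rw [hB]; exact Nat.le_mul_of_pos_left _ this)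
    rcases Nat.eq_zero_or_pos (a x) with h | h
    · rw [h, zero_mul] at h1
      have : 0 < a x0 * b x := Nat.mul_pos h0 hbx
      omega
    · exact h
  refine ⟨x, hx, hax, fun y hy => ?_⟩
  rcases le_or_gt (b y) B with h | h
  · exact key y hy h
  · have h1 := key x0 hx0 (by
      have : 1 ≤ A := h0.trans_le (ha x0 hx0)
      rw [hB]; exact Nat.le_mul_of_pos_left _ this)
    -- `a y * b x ≤ A * b x`, `b x ≤ a x0 * b x ≤ a x * b x0`
    calc a y * b x ≤ A * b x := Nat.mul_le_mul_right _ (ha y hy)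
      _ ≤ A * (a x0 * b x) := Nat.mul_le_mul_left _ (Nat.le_mul_of_pos_left _ h0)
      _ ≤ A * (a x * b x0) := Nat.mul_le_mul_left _ h1
      _ = a x * (A * b x0) := by ring
      _ ≤ a x * b y := Nat.mul_le_mul_left _ (by rw [← hB]; omega)

/-! ### Setting -/

variable {k : Type*} [Field k] {σ : Type*}

/-- the indices whose point lies on `V` -/
noncomputable def on {ι : Type*} (s : Finset ι) (p : ι → σ → k)
    (V : Ideal (MvPolynomial σ k)) : Finset ι :=
  s.filter fun i => ∀ q ∈ V, eval (p i) q = 0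

lemma mem_on {ι : Type*} {s : Finset ι} {p : ι → σ → k} {V : Ideal (MvPolynomial σ k)} {i : ι} :
    i ∈ on s p V ↔ i ∈ s ∧ ∀ q ∈ V, eval (p i) q = 0 := by
  rw [on, mem_filter]

lemma on_anti {ι : Type*} {s : Finset ι} {p : ι → σ → k} {Q V : Ideal (MvPolynomial σ k)}
    (h : Q ≤ V) : on s p V ⊆ on s p Q := by
  intro i hi
  rw [mem_on] at hi ⊢
  exact ⟨hi.1, fun q hq => hi.2 q (h hq)⟩

lemma card_le_sum_on {ι : Type*} {s t : Finset ι} {p : ι → σ → k}
    {S : Finset (Ideal (MvPolynomial σ k))} (hts : t ⊆ s)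
    (h : ∀ i ∈ t, ∃ Q ∈ S, p i ∈ ZV Q) : t.card ≤ ∑ Q ∈ S, (on s p Q).card := by
  refine le_trans (card_le_card (t := S.biUnion fun Q => on s p Q) ?_) card_biUnion_le
  intro i hi
  obtain ⟨Q, hQ, hiQ⟩ := h i hi
  rw [mem_biUnion]
  exact ⟨Q, hQ, mem_on.2 ⟨hts hi, hiQ⟩⟩

variable [Fintype σ] [Infinite k]

/-- a weight on primes satisfying the cut inequality -/
structure Weight (μ : Ideal (MvPolynomial σ k) → ℕ) (m : ℕ) : Prop where
  one_le : ∀ V, V.IsPrime → 1 ≤ μ V
  mono : ∀ Q V, Q.IsPrime → V.IsPrime → Q ≤ V → μ Q ≤ μ V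
  bot : μ ⊥ = 1
  cut : ∀ P : Ideal (MvPolynomial σ k), P.IsPrime → ∀ g ∉ P,
    ∀ S : Finset (Ideal (MvPolynomial σ k)),
      (∀ V ∈ S, V.IsPrime ∧ P ≤ V ∧ g ∈ V ∧ dimP V + 1 = dimP P) →
      ∑ V ∈ S, μ V * degP V ≤ (g.totalDegree + m) * (μ P * degP P)


/-- the weight `1 + ord_V h` of the rank lemma -/
lemma weight_ord [CharZero k] {h : MvPolynomial σ k} (hh : h ≠ 0) {m : ℕ}
    (hm : h.totalDegree ≤ m) :
    Weight (fun V : Ideal (MvPolynomial σ k) => 1 + Wt639.ordP V h) m where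
  one_le := fun _ _ => by omega
  mono := fun Q V hQ hV hQV => by
    have := Wt639.ordP_mono hV.ne_top hQV hh
    omega
  bot := by
    have h1 : ¬ (0 < Wt639.ordP (⊥ : Ideal (MvPolynomial σ k)) h) := by
      rw [Wt639.ordP_pos_iff bot_ne_top hh]
      simpa using hh
    omega
  cut := by
    intro P hP g hg S hS
    refine (Wt639.weighted_cut hh hg S hS).trans ?_
    rw [← mul_assoc]
    refine Nat.mul_le_mul_right _ ?_
    rw [add_mul]
    refine Nat.add_le_add_left ?_ _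
    calc h.totalDegree - Wt639.ordP P h ≤ m := by omega
      _ ≤ m * (1 + Wt639.ordP P h) := Nat.le_mul_of_pos_right _ (by omega)

/-! ### Scales -/

/-- `∏_{c < j ≤ N} Θ ^ j m` -/
def WW (Θ m N c : ℕ) : ℕ := ∏ j ∈ Ioc c N, (Θ ^ j * m)

lemma WW_pos {Θ m N c : ℕ} (hΘ : 1 ≤ Θ) (hm : 1 ≤ m) : 0 < WW Θ m N c :=
  Finset.prod_pos fun _ _ => Nat.mul_pos (Nat.pow_pos hΘ) hm

lemma WW_split {Θ m N c l : ℕ} (h1 : l ≤ c) (h2 : c ≤ N) :
    WW Θ m N l = (∏ j ∈ Ioc l c, (Θ ^ j * m)) * WW Θ m N c := by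
  unfold WW
  rw [Finset.prod_Ioc_consecutive _ h1 h2]

/-- Bezout chain below `Q` with the degrees of the flags of `V` -/
lemma degP_le_prod {V Q : Ideal (MvPolynomial σ k)} (hV : V.IsPrime) (hQ : Q.IsPrime)
    (hQV : Q ≤ V) {X : ℕ} (hX : ∀ f ∈ V, f.totalDegree ≤ X → f ∈ Q) (l : ℕ)
    (hl : dimP Q + l ≤ Fintype.card σ) (hlX : flag V l ≤ X) :
    ∃ P : Ideal (MvPolynomial σ k), P.IsPrime ∧ P ≤ Q ∧ dimP P + l = Fintype.card σ ∧
      degP P ≤ ∏ i ∈ range l, flag V (i + 1) := by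
  have hVQ : dimP V ≤ dimP Q := dimP_anti hQV
  induction l with
  | zero => exact ⟨⊥, inferInstance, bot_le, by rw [dimP_bot]; rfl, by rw [degP_bot]; simp⟩
  | succ l ih =>
    obtain ⟨P, hP, hPQ, hdim, hdeg⟩ := ih (by omega)
      ((flag_mono (P := V) (Nat.le_succ l) (by omega)).trans hlX)
    have hex : ∃ f ∈ V, f.totalDegree ≤ flag V (l + 1) ∧ f ∉ P := by
      by_contra hcon
      push Not at hcon
      have := (cod_flag (P := V) (l := l + 1) (by omega)) P hP (hPQ.trans hQV) hcon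
      omega
    obtain ⟨f, hfV, hfd, hfP⟩ := hex
    obtain ⟨S, hS, hSmin, -, -⟩ := exists_cut (P := P) hfP hfd
    obtain ⟨P', hP'S, hP'Q⟩ := hSmin Q hQ hPQ (hX f hfV (hfd.trans hlX))
    obtain ⟨h1, h2, h3, h4⟩ := hS P' hP'S
    refine ⟨P', h1, hP'Q, by omega, ?_⟩
    have h5 := cut hfP hfd {P'} (fun Q' hQ' => by
      rw [Finset.mem_singleton] at hQ'; rw [hQ']; exact ⟨h1, h2, h3, h4⟩)
    rw [Finset.sum_singleton] at h5
    rw [Finset.prod_range_succ]
    calc degP P' ≤ flag V (l + 1) * degP P := h5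
      _ ≤ flag V (l + 1) * ∏ i ∈ range l, flag V (i + 1) := Nat.mul_le_mul_left _ hdeg
      _ = _ := mul_comm _ _

/-! ### Constants -/

/-- the flag constant -/
def Kc (N : ℕ) : ℕ := KA N ^ (N + 2)

/-- the ratio of the scales -/
def Th (N M : ℕ) : ℕ := 8 * (M * Kc N + 1) + 1

/-- the final constant -/
def Cx (N M : ℕ) : ℕ := 2 * Th N M ^ (N * N)

lemma one_le_Kc (N : ℕ) : 1 ≤ Kc N := Nat.one_le_pow _ _ (one_le_KA N)

lemma one_le_Th (N M : ℕ) : 1 ≤ Th N M := by unfold Th; omega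

/-- **The extremal variety.** -/
theorem extremal {ι : Type*} (s : Finset ι) (hs : s.Nonempty) (p : ι → σ → k)
    {h : MvPolynomial σ k} (hh : h ≠ 0) {m : ℕ} (hm : 1 ≤ m) (hdeg : h.totalDegree ≤ m)
    (hz : ∀ i ∈ s, eval (p i) h = 0) {μ : Ideal (MvPolynomial σ k) → ℕ} (hμ : Weight μ m)
    (M : ℕ) :
    ∃ V : Ideal (MvPolynomial σ k), V.IsPrime ∧ h ∈ V ∧ (on s p V).Nonempty ∧
      ∃ D, m ≤ D ∧ flagTop V ≤ D ∧
        (∀ g : MvPolynomial σ k, g.totalDegree ≤ M * D →
          (on s p V).card ≤ 8 * ((on s p V).filter fun i => eval (p i) g = 0).card → g ∈ V) ∧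
        s.card * (μ V * degP V) ≤
          Cx (Fintype.card σ) M * m ^ (Fintype.card σ - dimP V) * (on s p V).card := by
  set N := Fintype.card σ with hN
  set Θ := Th N M with hΘ
  have hΘ1 : 1 ≤ Θ := one_le_Th N M
  set cl : Set (Ideal (MvPolynomial σ k)) := {V | V.IsPrime ∧ h ∈ V} with hcl
  set b : Ideal (MvPolynomial σ k) → ℕ := fun V =>
    μ V * degP V * WW Θ m N (N - dimP V) with hb
  have hbpos : ∀ V ∈ cl, 1 ≤ b V := by
    intro V hV
    have := hV.1
    exact Nat.mul_pos (Nat.mul_pos (hμ.one_le V hV.1) (degP_pos V)) (WW_pos hΘ1 hm)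
  -- start
  have hbot : h ∉ (⊥ : Ideal (MvPolynomial σ k)) := by simpa using hh
  obtain ⟨S0, hS0, -, hS0z, -⟩ := exists_cut (P := ⊥) hbot le_rfl
  have hS0cut := hμ.cut ⊥ inferInstance h hbot S0 hS0
  rw [hμ.bot, degP_bot, mul_one, mul_one] at hS0cut
  have hcov : s.card ≤ ∑ Q ∈ S0, (on s p Q).card := by
    refine card_le_sum_on (Subset.refl s) fun i hi => hS0z (p i) ?_ (hz i hi)
    intro q hq
    rw [Ideal.mem_bot] at hq
    rw [hq, map_zero]
  obtain ⟨Q0, hQ0, hQ0pos⟩ : ∃ Q ∈ S0, 0 < (on s p Q).card := by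
    by_contra hcon
    push Not at hcon
    have h1 : ∑ Q ∈ S0, (on s p Q).card = 0 :=
      Finset.sum_eq_zero fun Q hQ => Nat.le_zero.1 (hcon Q hQ)
    have h2 := hs.card_pos
    omega
  obtain ⟨V, hVcl, hVpos, hVmax⟩ := exists_max_ratio cl (fun V => (on s p V).card) b s.card
    (fun V _ => card_le_card (filter_subset _ _)) hbpos (x0 := Q0)
    ⟨(hS0 Q0 hQ0).1, (hS0 Q0 hQ0).2.2.1⟩ hQ0pos
  have hVp : V.IsPrime := hVcl.1
  have hhV : h ∈ V := hVcl.2
  have hrN := dimP_le_card V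
  have hrlt : dimP V < N := by
    have h1 : (⊥ : Ideal (MvPolynomial σ k)) < V := by
      refine lt_of_le_of_ne bot_le ?_
      rintro rfl
      exact hbot hhV
    have h2 := dimP_lt h1
    rw [dimP_bot] at h2
    exact h2
  set c := N - dimP V with hc
  have hc1 : 1 ≤ c := by omega
  have hcN : c ≤ N := by omega
  have hδ : 0 < degP V := degP_pos V
  have hμV : 1 ≤ μ V := hμ.one_le V hVp
  have hWV : 0 < WW Θ m N c := WW_pos hΘ1 hm
  -- flags
  have hflag : flag V c ≤ Kc N * (Θ ^ c * m) := by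
    by_contra hcon
    push Not at hcon
    -- the largest good index
    set G : Finset ℕ := (range c).filter fun l => flag V l ≤ Kc N * (Θ ^ l * m) with hG
    have h0G : 0 ∈ G := by
      rw [hG, mem_filter, mem_range, flag_zero]
      exact ⟨hc1, Nat.zero_le _⟩
    obtain ⟨l, hlG, hlmax⟩ := G.exists_max_image id ⟨0, h0G⟩
    rw [hG, mem_filter, mem_range] at hlG
    obtain ⟨hlc, hl⟩ := hlG
    have hbig : ∀ j ∈ Ioc l c, Kc N * (Θ ^ j * m) < flag V j := by
      intro j hj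
      rw [mem_Ioc] at hj
      rcases Nat.lt_or_ge j c with hjc | hjc
      · by_contra hjn
        push Not at hjn
        have := hlmax j (by rw [hG, mem_filter, mem_range]; exact ⟨hjc, hjn⟩)
        simp only [id] at this
        omega
      · rw [show j = c by omega]; exact hcon
    have hl1 := hbig (l + 1) (by rw [mem_Ioc]; omega)
    have hstep : Kc N * (Θ ^ l * m) ≤ Kc N * (Θ ^ (l + 1) * m) :=
      Nat.mul_le_mul_left _ (Nat.mul_le_mul_right _ (Nat.pow_le_pow_right hΘ1 (by omega)))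
    have hmX : m ≤ Kc N * (Θ ^ (l + 1) * m) := by
      calc m = 1 * (1 * m) := by ring
        _ ≤ _ := Nat.mul_le_mul (one_le_Kc N) (Nat.mul_le_mul_right _ (Nat.one_le_pow _ _ hΘ1))
    set X := flag V (l + 1) - 1 with hX
    obtain ⟨Q, hQ, hQV, hQX, hQdim⟩ := exists_between (P := V) (l := l) (m := X) (by omega)
      (by omega) (Or.inr (by omega))
    have hhQ : h ∈ Q := hQX h hhV (by omega)
    obtain ⟨P, hP, hPQ, hPdim, hPdeg⟩ := degP_le_prod hVp hQ hQV hQX l (by omega) (by omega)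
    have hPQe : P = Q := eq_of_le_of_dimP_le hPQ (by omega)
    rw [hPQe] at hPdeg
    have hmax := hVmax Q ⟨hQ, hhQ⟩
    simp only [hb] at hmax
    have hcard : (on s p V).card ≤ (on s p Q).card := card_le_card (on_anti hQV)
    have hQc : N - dimP Q = l := by omega
    rw [hQc, ← hc] at hmax
    have h1 : μ V * degP V * WW Θ m N c ≤ μ Q * degP Q * WW Θ m N l := by
      refine Nat.le_of_mul_le_mul_left ?_ hVpos
      exact (Nat.mul_le_mul_right _ hcard).trans hmax
    have h2 : degP V * WW Θ m N c ≤ degP Q * WW Θ m N l := by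
      have h3 : μ Q * degP Q * WW Θ m N l ≤ μ V * (degP Q * WW Θ m N l) := by
        rw [mul_assoc]
        exact Nat.mul_le_mul_right _ (hμ.mono Q V hQ hVp hQV)
      refine Nat.le_of_mul_le_mul_left ?_ hμV
      rw [← mul_assoc]
      exact h1.trans h3
    rw [WW_split hlc.le hcN, ← mul_assoc] at h2
    have h3 : degP V ≤ degP Q * ∏ j ∈ Ioc l c, (Θ ^ j * m) :=
      Nat.le_of_mul_le_mul_right h2 hWV
    have h4 := flagProd_le_degP (P := V)
    unfold flagProd at h4
    rw [← hN, ← hc] at h4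
    have h5 : ∏ i ∈ range c, flag V (i + 1) =
        (∏ i ∈ range l, flag V (i + 1)) * ∏ j ∈ Ioc l c, flag V j := by
      rw [← Finset.prod_range_mul_prod_Ico _ hlc.le]
      congr 1
      refine Finset.prod_bij (fun i _ => i + 1) ?_ ?_ ?_ ?_
      · intro i hi; rw [mem_Ico] at hi; rw [mem_Ioc]; omega
      · intro i _ j _ hij; omega
      · intro j hj; rw [mem_Ioc] at hj
        exact ⟨j - 1, by rw [mem_Ico]; omega, by omega⟩
      · intro i _; rfl
    have h6 : 0 < ∏ i ∈ range l, flag V (i + 1) :=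
      Finset.prod_pos fun i hi => by
        rw [mem_range] at hi
        exact flag_pos (P := V) (by omega) (by omega)
    have h7 : (∏ j ∈ Ioc l c, flag V j) ≤ Kc N * ∏ j ∈ Ioc l c, (Θ ^ j * m) := by
      refine Nat.le_of_mul_le_mul_left ?_ h6
      calc (∏ i ∈ range l, flag V (i + 1)) * ∏ j ∈ Ioc l c, flag V j
          = ∏ i ∈ range c, flag V (i + 1) := h5.symm
        _ ≤ Kc N * degP V := h4
        _ ≤ Kc N * (degP Q * ∏ j ∈ Ioc l c, (Θ ^ j * m)) := Nat.mul_le_mul_left _ h3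
        _ ≤ Kc N * ((∏ i ∈ range l, flag V (i + 1)) * ∏ j ∈ Ioc l c, (Θ ^ j * m)) :=
            Nat.mul_le_mul_left _ (Nat.mul_le_mul_right _ hPdeg)
        _ = _ := by ring
    have h8 : Kc N * ∏ j ∈ Ioc l c, (Θ ^ j * m) < ∏ j ∈ Ioc l c, flag V j := by
      have hcmem : c ∈ Ioc l c := by rw [mem_Ioc]; omega
      rw [← Finset.mul_prod_erase _ _ hcmem, ← Finset.mul_prod_erase _ _ hcmem, ← mul_assoc]
      have h9 : ∏ j ∈ (Ioc l c).erase c, (Θ ^ j * m) ≤ ∏ j ∈ (Ioc l c).erase c, flag V j := by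
        refine Finset.prod_le_prod' fun j hj => ?_
        have := hbig j (mem_of_mem_erase hj)
        refine le_trans ?_ this.le
        exact Nat.le_mul_of_pos_left _ (one_le_Kc N)
      have h10 : 0 < ∏ j ∈ (Ioc l c).erase c, (Θ ^ j * m) :=
        Finset.prod_pos fun _ _ => Nat.mul_pos (Nat.pow_pos hΘ1) hm
      exact Nat.mul_lt_mul_of_lt_of_le hcon h9 (h10.trans_le h9)
    omega
  -- the final bound
  have hsum : ∀ (S : Finset (Ideal (MvPolynomial σ k))) (r A : ℕ),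
      (∀ Q ∈ S, Q.IsPrime ∧ h ∈ Q ∧ dimP Q = r) → ∑ Q ∈ S, μ Q * degP Q ≤ A →
      (∑ Q ∈ S, (on s p Q).card) * (μ V * degP V * WW Θ m N c) ≤
        (on s p V).card * (A * WW Θ m N (N - r)) := by
    intro S r A hS hA
    rw [Finset.sum_mul]
    calc ∑ Q ∈ S, (on s p Q).card * (μ V * degP V * WW Θ m N c)
        ≤ ∑ Q ∈ S, (on s p V).card * (μ Q * degP Q * WW Θ m N (N - r)) := by
          refine Finset.sum_le_sum fun Q hQ => ?_
          have h1 := hVmax Q ⟨(hS Q hQ).1, (hS Q hQ).2.1⟩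
          simp only [hb] at h1
          rw [(hS Q hQ).2.2, ← hc] at h1
          exact h1
      _ = (on s p V).card * ((∑ Q ∈ S, μ Q * degP Q) * WW Θ m N (N - r)) := by
          rw [← Finset.mul_sum, ← Finset.sum_mul]
      _ ≤ _ := Nat.mul_le_mul_left _ (Nat.mul_le_mul_right _ hA)
  refine ⟨V, hVp, hhV, card_pos.1 hVpos, Kc N * (Θ ^ c * m), ?_, hflag, ?_, ?_⟩
  · calc m = 1 * (1 * m) := by ring
      _ ≤ _ := Nat.mul_le_mul (one_le_Kc N) (Nat.mul_le_mul_right _ (Nat.one_le_pow _ _ hΘ1))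
  · -- gap
    intro g hgd hg8
    by_contra hgV
    obtain ⟨S, hS, -, hSz, -⟩ := exists_cut (P := V) hgV le_rfl
    have hcut := hμ.cut V hVp g hgV S hS
    have hcov' : ((on s p V).filter fun i => eval (p i) g = 0).card ≤
        ∑ Q ∈ S, (on s p Q).card := by
      refine card_le_sum_on ?_ fun i hi => ?_
      · exact (filter_subset _ _).trans (filter_subset _ _)
      · rw [mem_filter, mem_on] at hi
        exact hSz (p i) hi.1.2 hi.2
    set n0 := ((on s p V).filter fun i => eval (p i) g = 0).card with hn0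
    have hr1 : 1 ≤ dimP V := by
      by_contra hr0
      have : S = ∅ := by
        rw [Finset.eq_empty_iff_forall_notMem]
        intro Q hQ
        have := (hS Q hQ).2.2.2
        omega
      rw [this, Finset.sum_empty] at hcov'
      omega
    have h1 := hsum S (dimP V - 1) _ (fun Q hQ => ⟨(hS Q hQ).1, (hS Q hQ).2.1 hhV, by
      have := (hS Q hQ).2.2.2; omega⟩) hcut
    have h2 : N - (dimP V - 1) = c + 1 := by omega
    rw [h2] at h1
    have h3 : WW Θ m N c = (Θ ^ (c + 1) * m) * WW Θ m N (c + 1) := by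
      rw [WW_split (Nat.le_succ c) (by omega : c + 1 ≤ N)]
      congr 1
      rw [Nat.Ioc_succ_singleton, Finset.prod_singleton]
    have hW1 : 0 < WW Θ m N (c + 1) := WW_pos hΘ1 hm
    have h4 : n0 * (Θ ^ (c + 1) * m) ≤ (on s p V).card * (g.totalDegree + m) := by
      have h5 : (n0 * (Θ ^ (c + 1) * m)) * (μ V * degP V * WW Θ m N (c + 1)) ≤
          ((on s p V).card * (g.totalDegree + m)) * (μ V * degP V * WW Θ m N (c + 1)) := by
        calc (n0 * (Θ ^ (c + 1) * m)) * (μ V * degP V * WW Θ m N (c + 1))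
            = n0 * (μ V * degP V * WW Θ m N c) := by rw [h3]; ring
          _ ≤ (∑ Q ∈ S, (on s p Q).card) * (μ V * degP V * WW Θ m N c) :=
              Nat.mul_le_mul_right _ hcov'
          _ ≤ _ := h1
          _ = _ := by ring
      exact Nat.le_of_mul_le_mul_right h5 (Nat.mul_pos (Nat.mul_pos hμV hδ) hW1)
    have h5 : Θ ^ (c + 1) * m ≤ 8 * (g.totalDegree + m) := by
      have h6 : (on s p V).card * (Θ ^ (c + 1) * m) ≤
          (on s p V).card * (8 * (g.totalDegree + m)) := by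
        calc (on s p V).card * (Θ ^ (c + 1) * m) ≤ 8 * n0 * (Θ ^ (c + 1) * m) :=
              Nat.mul_le_mul_right _ hg8
          _ = 8 * (n0 * (Θ ^ (c + 1) * m)) := by ring
          _ ≤ 8 * ((on s p V).card * (g.totalDegree + m)) := Nat.mul_le_mul_left _ h4
          _ = _ := by ring
      exact Nat.le_of_mul_le_mul_left h6 hVpos
    have h7 : g.totalDegree + m ≤ (M * Kc N + 1) * (Θ ^ c * m) := by
      have h8 : m ≤ Θ ^ c * m := Nat.le_mul_of_pos_left _ (Nat.pow_pos hΘ1)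
      calc g.totalDegree + m ≤ M * (Kc N * (Θ ^ c * m)) + Θ ^ c * m := add_le_add hgd h8
        _ = _ := by ring
    have h8 : Θ ^ (c + 1) * m = Θ * (Θ ^ c * m) := by ring
    have h9 : 0 < Θ ^ c * m := Nat.mul_pos (Nat.pow_pos hΘ1) hm
    have h10 : Θ * (Θ ^ c * m) ≤ (8 * (M * Kc N + 1)) * (Θ ^ c * m) := by
      rw [← h8]
      calc Θ ^ (c + 1) * m ≤ 8 * (g.totalDegree + m) := h5
        _ ≤ 8 * ((M * Kc N + 1) * (Θ ^ c * m)) := Nat.mul_le_mul_left _ h7
        _ = _ := by ring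
    have h11 := Nat.le_of_mul_le_mul_right h10 h9
    rw [hΘ] at h11
    unfold Th at h11
    omega
  · -- counting
    have h1 := hsum S0 (N - 1) (2 * m) (fun Q hQ => ⟨(hS0 Q hQ).1, (hS0 Q hQ).2.2.1, by
      have := (hS0 Q hQ).2.2.2
      rw [dimP_bot] at this
      omega⟩) (hS0cut.trans (by omega))
    have h2 : N - (N - 1) = 1 := by omega
    rw [h2, WW_split hc1 hcN] at h1
    have h3 : (s.card * (μ V * degP V)) * WW Θ m N c ≤
        ((on s p V).card * (2 * m * ∏ j ∈ Ioc 1 c, (Θ ^ j * m))) * WW Θ m N c := by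
      calc (s.card * (μ V * degP V)) * WW Θ m N c
          = s.card * (μ V * degP V * WW Θ m N c) := by ring
        _ ≤ (∑ Q ∈ S0, (on s p Q).card) * (μ V * degP V * WW Θ m N c) :=
            Nat.mul_le_mul_right _ hcov
        _ ≤ _ := h1
        _ = _ := by ring
    have h4 := Nat.le_of_mul_le_mul_right h3 hWV
    refine h4.trans ?_
    have h5 : ∏ j ∈ Ioc 1 c, (Θ ^ j * m) ≤ Θ ^ (N * N) * m ^ (c - 1) := by
      calc ∏ j ∈ Ioc 1 c, (Θ ^ j * m) ≤ ∏ _j ∈ Ioc 1 c, (Θ ^ N * m) := by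
            refine Finset.prod_le_prod' fun j hj => ?_
            rw [mem_Ioc] at hj
            exact Nat.mul_le_mul_right _ (Nat.pow_le_pow_right hΘ1 (by omega))
        _ = Θ ^ (N * (c - 1)) * m ^ (c - 1) := by
            rw [Finset.prod_const, Nat.card_Ioc, mul_pow, ← pow_mul]
        _ ≤ _ := Nat.mul_le_mul_right _ (Nat.pow_le_pow_right hΘ1
            (Nat.mul_le_mul_left _ (by omega)))
    calc (on s p V).card * (2 * m * ∏ j ∈ Ioc 1 c, (Θ ^ j * m))
        ≤ (on s p V).card * (2 * m * (Θ ^ (N * N) * m ^ (c - 1))) :=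
          Nat.mul_le_mul_left _ (Nat.mul_le_mul_left _ h5)
      _ = (2 * Θ ^ (N * N)) * (m ^ (c - 1) * m) * (on s p V).card := by ring
      _ = _ := by
          rw [← pow_succ, Nat.sub_add_cancel hc1, hΘ]
          rfl

end Crest.Agent.R065.Extr203

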