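import Crest.Agent.R065.Prime_669

/-!
# Flags of a prime ideal and lower bounds for its Hilbert function
-/

set_option autoImplicit false

open MvPolynomial Module Filter Topology
open scoped Pointwise Nat

namespace Crest.Agent.R065.HF669

variable {k : Type*} [Field k] {σ : Type*} [Infinite k] [Fintype σ]

lemma isDimDeg_bot_aux (N : ℕ) : IsDimDeg (fun m => (m + N).choose N) N 1 where
  pos := one_pos
  le := fun m => by simp
  ge := ⟨0, fun m => by simp⟩
  growth := fun m => ⟨1, one_pos, le_rfl, by simp, fun m' => by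
    rw [one_mul]; exact Nat.choose_le_choose _ (by omega)⟩

omit [Infinite k] in
lemma isDimDeg_bot : IsDimDeg (HF (⊥ : Ideal (MvPolynomial σ k))) (Fintype.card σ) 1 := by
  have : HF (⊥ : Ideal (MvPolynomial σ k)) = fun m => (m + Fintype.card σ).choose
      (Fintype.card σ) := funext fun m => HF_bot m
  rw [this]
  exact isDimDeg_bot_aux _

lemma dimP_bot : dimP (⊥ : Ideal (MvPolynomial σ k)) = Fintype.card σ :=
  dimP_eq_of isDimDeg_bot

lemma degP_bot : degP (⊥ : Ideal (MvPolynomial σ k)) = 1 :=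
  degP_eq_of isDimDeg_bot

/-- all primes between `P_{≤ m}` and `P` have codimension at least `l` -/
def Cod (P : Ideal (MvPolynomial σ k)) (l m : ℕ) : Prop :=
  ∀ Q : Ideal (MvPolynomial σ k), Q.IsPrime → Q ≤ P → (∀ f ∈ P, f.totalDegree ≤ m → f ∈ Q) →
    dimP Q + l ≤ Fintype.card σ

variable {P : Ideal (MvPolynomial σ k)} {l l' m m' : ℕ}

lemma Cod.mono (h : Cod P l m) (hm : m ≤ m') : Cod P l m' :=
  fun Q hQ hQP hm' => h Q hQ hQP fun f hf hfm => hm' f hf (hfm.trans hm)

lemma Cod.anti (h : Cod P l m) (hl : l' ≤ l) : Cod P l' m :=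
  fun Q hQ hQP hm' => (Nat.add_le_add_left hl _).trans (h Q hQ hQP hm')

lemma cod_zero : Cod P 0 m := fun Q _ _ _ => dimP_le_card Q

omit [Infinite k] in
/-- if `Q` contains all elements of `P` of large degree then `Q = P` -/
lemma exists_gen_degree (P : Ideal (MvPolynomial σ k)) :
    ∃ m, ∀ Q : Ideal (MvPolynomial σ k), (∀ f ∈ P, f.totalDegree ≤ m → f ∈ Q) → P ≤ Q := by
  obtain ⟨s, hs⟩ := (isNoetherian_def.1 (inferInstance : IsNoetherian (MvPolynomial σ k)
    (MvPolynomial σ k))) P
  refine ⟨s.sup totalDegree, fun Q hQ => ?_⟩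
  rw [← hs]
  refine Submodule.span_le.2 fun f hf => hQ f ?_ (Finset.le_sup (f := totalDegree) hf)
  rw [← hs]
  exact Submodule.subset_span hf

lemma exists_cod (hl : dimP P + l ≤ Fintype.card σ) : ∃ m, Cod P l m := by
  obtain ⟨m, hm⟩ := exists_gen_degree P
  refine ⟨m, fun Q hQ hQP h => ?_⟩
  have : Q = P := le_antisymm hQP (hm Q h)
  rw [this]; exact hl

/-- the `l`-th flag degree -/
noncomputable def flag (P : Ideal (MvPolynomial σ k)) (l : ℕ) : ℕ := sInf {m | Cod P l m}

lemma cod_flag (hl : dimP P + l ≤ Fintype.card σ) : Cod P l (flag P l) :=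
  Nat.sInf_mem (s := {m | Cod P l m}) (exists_cod hl)

lemma flag_le (h : Cod P l m) : flag P l ≤ m := Nat.sInf_le h

lemma not_cod_of_lt (h : m < flag P l) : ¬ Cod P l m := fun hc => by
  have := flag_le hc; omega

lemma flag_zero : flag P 0 = 0 := Nat.le_zero.1 (flag_le cod_zero)

lemma flag_mono (hl : l ≤ l') (hl' : dimP P + l' ≤ Fintype.card σ) : flag P l ≤ flag P l' :=
  flag_le ((cod_flag hl').anti hl)

lemma flag_pos [hP : P.IsPrime] (h0 : 1 ≤ l) (hl : dimP P + l ≤ Fintype.card σ) :
    1 ≤ flag P l := by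
  by_contra hcon
  have h1 : flag P l = 0 := by omega
  have h2 := cod_flag hl
  rw [h1] at h2
  have h3 := h2 ⊥ inferInstance bot_le (fun f hf hf0 => by
    have h4 : f.totalDegree = 0 := by omega
    rw [totalDegree_eq_zero_iff_eq_C] at h4
    rw [h4] at hf ⊢
    by_cases hc : coeff 0 f = 0
    · rw [hc, map_zero]; exact Ideal.zero_mem _
    · exfalso
      apply hP.ne_top
      refine Ideal.eq_top_of_isUnit_mem _ hf ?_
      exact (IsUnit.mk0 _ hc).map C)
  rw [dimP_bot] at h3
  omega

/-- a prime of exact codimension `l` between `P_{≤ m}` and `P` -/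
lemma exists_between [hP : P.IsPrime] (hl : dimP P + l ≤ Fintype.card σ) (hm : flag P l ≤ m)
    (h : dimP P + l = Fintype.card σ ∨ m < flag P (l + 1)) :
    ∃ Q : Ideal (MvPolynomial σ k), Q.IsPrime ∧ Q ≤ P ∧
      (∀ f ∈ P, f.totalDegree ≤ m → f ∈ Q) ∧ dimP Q + l = Fintype.card σ := by
  rcases h with h | h
  · exact ⟨P, hP, le_rfl, fun f hf _ => hf, h⟩
  · have h1 := not_cod_of_lt h
    unfold Cod at h1
    push Not at h1
    obtain ⟨Q, hQ, hQP, hQm, hdim⟩ := h1
    refine ⟨Q, hQ, hQP, hQm, ?_⟩
    have := ((cod_flag hl).mono hm) Q hQ hQP hQm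
    omega

omit [Infinite k] in
lemma HF_eq_of_between {Q : Ideal (MvPolynomial σ k)} (hQP : Q ≤ P)
    (h : ∀ f ∈ P, f.totalDegree ≤ m → f ∈ Q) (hm : m' ≤ m) : HF Q m' = HF P m' := by
  refine le_antisymm ?_ (HF_anti hQP m')
  exact HF_le_of_ker _ _ _ fun p hp hp' => h p (by simpa using hp') ((mem_W.1 hp).trans hm)

/-- the constant of the lower bounds -/
def KA (N : ℕ) : ℕ := 4 ^ N * (N + 1) ^ N * N !

lemma one_le_KA (N : ℕ) : 1 ≤ KA N := by
  unfold KA
  have : 0 < N ! := Nat.factorial_pos N
  exact Nat.succ_le_of_lt (by positivity)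

/-- **Lower bound by flags.** -/
theorem flag_lower [hP : P.IsPrime] (l : ℕ) :
    ∀ m, dimP P + l ≤ Fintype.card σ → flag P l ≤ m →
      (dimP P + l = Fintype.card σ ∨ m < flag P (l + 1)) →
      (∏ i ∈ Finset.range l, flag P (i + 1)) * m ^ (Fintype.card σ - l) ≤
        KA (Fintype.card σ) ^ (l + 1) * HF P m := by
  classical
  induction l using Nat.strong_induction_on with
  | _ l ih =>
  intro m hl hm hcase
  set N := Fintype.card σ with hN
  obtain ⟨Q, hQ, hQP, hQm, hdim⟩ := exists_between hl hm hcase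
  have hHF : ∀ m', m' ≤ m → HF Q m' = HF P m' := fun m' hm' => HF_eq_of_between hQP hQm hm'
  set r := dimP Q with hr
  have hNl : N - l = r := by omega
  rw [hNl]
  have hrN : r ≤ N := by omega
  have hfac : r ! ≤ N ! := Nat.factorial_le hrN
  have hKA := one_le_KA N
  rcases Nat.eq_zero_or_pos l with rfl | hlpos
  · -- `Q = ⊥`
    have hQbot : Q = ⊥ := by
      have h1 : (⊥ : Ideal (MvPolynomial σ k)) = Q :=
        eq_of_le_of_dimP_le bot_le (by rw [dimP_bot, ← hr]; omega)
      exact h1.symm
    have h1 : HF P m = (m + N).choose N := by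
      rw [← hHF m le_rfl, hQbot, HF_bot]
    have hrN' : r = N := by omega
    rw [Finset.prod_range_zero, one_mul, h1, hrN', zero_add, pow_one]
    have h2 := pow_le_choose_mul m N
    have h3 : m ^ N ≤ (m + 1) ^ N := Nat.pow_le_pow_left (by omega) N
    calc m ^ N ≤ (m + N).choose N * N ! := h3.trans h2
      _ ≤ (m + N).choose N * KA N := by
          apply Nat.mul_le_mul_left
          unfold KA
          have : 0 < 4 ^ N * (N + 1) ^ N := by positivity
          exact Nat.le_mul_of_pos_left _ this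
      _ = KA N * (m + N).choose N := mul_comm _ _
  · -- `l ≥ 1`
    have hfl : 1 ≤ flag P l := flag_pos hlpos hl
    obtain ⟨m₀, hm₀⟩ : ∃ m₀, flag P l = m₀ + 1 := ⟨flag P l - 1, by omega⟩
    -- choose `l'`
    obtain ⟨l', hl'l, hl'1, hl'2⟩ : ∃ l', l' < l ∧ flag P l' ≤ m₀ ∧ m₀ < flag P (l' + 1) := by
      have hex : ∃ i, m₀ < flag P i := ⟨l, by omega⟩
      have h1 := Nat.find_spec hex
      have h2 : Nat.find hex ≤ l := Nat.find_min' hex (by omega)
      have h3 : Nat.find hex ≠ 0 := by
        intro h0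
        rw [h0, flag_zero] at h1
        omega
      obtain ⟨i, hi⟩ := Nat.exists_eq_succ_of_ne_zero h3
      refine ⟨i, by omega, ?_, ?_⟩
      · have := Nat.find_min hex (m := i) (by omega)
        omega
      · rw [hi] at h1; exact h1
    have hih := ih l' hl'l m₀ (by omega) hl'1 (Or.inr hl'2)
    -- the product
    have hprod : ∏ i ∈ Finset.range l, flag P (i + 1) ≤
        (∏ i ∈ Finset.range l', flag P (i + 1)) * (m₀ + 1) ^ (l - l') := by
      rw [← Finset.prod_range_mul_prod_Ico _ hl'l.le]
      refine Nat.mul_le_mul_left _ ?_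
      calc ∏ i ∈ Finset.Ico l' l, flag P (i + 1) ≤ ∏ _i ∈ Finset.Ico l' l, (m₀ + 1) := by
            apply Finset.prod_le_prod'
            intro i hi
            rw [Finset.mem_Ico] at hi
            rw [← hm₀]
            exact flag_mono (by omega) hl
        _ = (m₀ + 1) ^ (l - l') := by rw [Finset.prod_const, Nat.card_Ico]
    set A' := ∏ i ∈ Finset.range l', flag P (i + 1) with hA'
    set A0 := ∏ i ∈ Finset.range l, flag P (i + 1) with hA0
    obtain ⟨s, hs0, hsδ, hs1, hs2⟩ := (isDimDeg Q).growth m₀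
    rw [← hr] at hs1 hs2
    have hm₀m : m₀ + 1 ≤ m := by omega
    have hs3 := hs2 (m - m₀)
    rw [Nat.sub_add_cancel (by omega), hHF m le_rfl] at hs3
    rw [hHF m₀ (by omega)] at hs1
    have hKl : KA N ^ (l' + 1) ≤ KA N ^ l := Nat.pow_le_pow_right hKA (by omega)
    -- lower bound for the binomial coefficient
    have hbin : m ^ r ≤ 2 ^ r * r ! * (m - m₀ + r).choose r ∨ m < 2 * m₀ := by
      by_cases h2 : m < 2 * m₀
      · exact Or.inr h2
      · left
        push Not at h2
        have h3 := pow_le_choose_mul (m - m₀) r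
        have h4 : m ^ r ≤ (2 * (m - m₀ + 1)) ^ r := Nat.pow_le_pow_left (by omega) r
        calc m ^ r ≤ (2 * (m - m₀ + 1)) ^ r := h4
          _ = 2 ^ r * (m - m₀ + 1) ^ r := by rw [mul_pow]
          _ ≤ 2 ^ r * ((m - m₀ + r).choose r * r !) := Nat.mul_le_mul_left _ h3
          _ = _ := by ring
    rcases Nat.eq_zero_or_pos m₀ with h0 | hm₀pos
    · -- all flags are one
      subst h0
      have hl'0 : l' = 0 := by
        by_contra hne
        have := flag_pos (P := P) (l := l') (by omega) (by omega)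
        omega
      have hA01 : A0 ≤ 1 := by
        refine hprod.trans ?_
        rw [hA', hl'0]; simp
      have hb := hbin.resolve_right (by omega)
      calc A0 * m ^ r ≤ 1 * (2 ^ r * r ! * (m - 0 + r).choose r) := Nat.mul_le_mul hA01 hb
        _ ≤ (2 ^ r * r !) * (s * (m - 0 + r).choose r) := by
            rw [one_mul]
            exact Nat.mul_le_mul_left _ (Nat.le_mul_of_pos_left _ hs0)
        _ ≤ (2 ^ r * r !) * HF P m := Nat.mul_le_mul_left _ hs3
        _ ≤ KA N ^ (l + 1) * HF P m := by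
            apply Nat.mul_le_mul_right
            calc 2 ^ r * r ! ≤ 4 ^ N * N ! := Nat.mul_le_mul
                  ((Nat.pow_le_pow_left (by norm_num) r).trans
                    (Nat.pow_le_pow_right (by norm_num) hrN)) hfac
              _ ≤ KA N := by
                  unfold KA
                  apply Nat.mul_le_mul_right
                  exact Nat.le_mul_of_pos_right _ (by positivity)
              _ = KA N ^ 1 := (pow_one _).symm
              _ ≤ KA N ^ (l + 1) := Nat.pow_le_pow_right hKA (by omega)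
    · -- main case
      have hNl' : N - l' = (l - l') + r := by omega
      have h2m : m₀ + 1 ≤ 2 * m₀ := by omega
      -- `A0 * m₀ ^ r ≤ 2 ^ N * KA ^ l * HF P m₀`
      have hmain : A0 * m₀ ^ r ≤ 2 ^ N * KA N ^ l * HF P m₀ := by
        calc A0 * m₀ ^ r ≤ A' * (m₀ + 1) ^ (l - l') * m₀ ^ r := Nat.mul_le_mul_right _ hprod
          _ ≤ A' * (2 * m₀) ^ (l - l') * m₀ ^ r :=
              Nat.mul_le_mul_right _ (Nat.mul_le_mul_left _ (Nat.pow_le_pow_left h2m _))
          _ = 2 ^ (l - l') * (A' * m₀ ^ (N - l')) := by rw [hNl', mul_pow, pow_add]; ring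
          _ ≤ 2 ^ N * (KA N ^ (l' + 1) * HF P m₀) :=
              Nat.mul_le_mul (Nat.pow_le_pow_right (by norm_num) (by omega)) hih
          _ ≤ 2 ^ N * (KA N ^ l * HF P m₀) :=
              Nat.mul_le_mul_left _ (Nat.mul_le_mul_right _ hKl)
          _ = _ := by ring
      rcases hbin with hb | hb
      · -- `m ≥ 2 m₀`
        have hc1 : (m₀ + r).choose r ≤ (N + 1) ^ N * m₀ ^ r := by
          calc (m₀ + r).choose r ≤ (m₀ + r) ^ r := Nat.choose_le_pow _ _
            _ ≤ ((N + 1) * m₀) ^ r := by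
                apply Nat.pow_le_pow_left
                calc m₀ + r ≤ m₀ + N * m₀ := by
                      have : r ≤ N * m₀ := hrN.trans (Nat.le_mul_of_pos_right _ hm₀pos)
                      omega
                  _ = (N + 1) * m₀ := by ring
            _ = (N + 1) ^ r * m₀ ^ r := mul_pow _ _ _
            _ ≤ (N + 1) ^ N * m₀ ^ r :=
                Nat.mul_le_mul_right _ (Nat.pow_le_pow_right (by omega) hrN)
        have hA0s : A0 ≤ 2 ^ N * KA N ^ l * (N + 1) ^ N * s := by
          have h3 : A0 * m₀ ^ r ≤ (2 ^ N * KA N ^ l * (N + 1) ^ N * s) * m₀ ^ r := by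
            calc A0 * m₀ ^ r ≤ 2 ^ N * KA N ^ l * HF P m₀ := hmain
              _ ≤ 2 ^ N * KA N ^ l * (s * ((N + 1) ^ N * m₀ ^ r)) :=
                  Nat.mul_le_mul_left _ (hs1.trans (Nat.mul_le_mul_left _ hc1))
              _ = _ := by ring
          exact Nat.le_of_mul_le_mul_right h3 (by positivity)
        calc A0 * m ^ r ≤ (2 ^ N * KA N ^ l * (N + 1) ^ N * s) *
              (2 ^ r * r ! * (m - m₀ + r).choose r) := Nat.mul_le_mul hA0s hb
          _ = (2 ^ N * 2 ^ r * (N + 1) ^ N * r !) * KA N ^ l * (s * (m - m₀ + r).choose r) := by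
              ring
          _ ≤ (2 ^ N * 2 ^ N * (N + 1) ^ N * N !) * KA N ^ l * HF P m := by
              refine Nat.mul_le_mul (Nat.mul_le_mul_right _ (Nat.mul_le_mul
                (Nat.mul_le_mul_right _ (Nat.mul_le_mul_left _
                  (Nat.pow_le_pow_right (by norm_num) hrN))) hfac)) hs3
          _ = KA N ^ (l + 1) * HF P m := by
              have : (4 : ℕ) ^ N = 2 ^ N * 2 ^ N := by rw [← mul_pow]; norm_num
              unfold KA
              rw [pow_succ, this]; ring
      · -- `m < 2 m₀`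
        calc A0 * m ^ r ≤ A0 * (2 * m₀) ^ r :=
              Nat.mul_le_mul_left _ (Nat.pow_le_pow_left hb.le _)
          _ = 2 ^ r * (A0 * m₀ ^ r) := by rw [mul_pow]; ring
          _ ≤ 2 ^ N * (2 ^ N * KA N ^ l * HF P m₀) :=
              Nat.mul_le_mul (Nat.pow_le_pow_right (by norm_num) hrN) hmain
          _ ≤ 2 ^ N * (2 ^ N * KA N ^ l * HF P m) :=
              Nat.mul_le_mul_left _ (Nat.mul_le_mul_left _ (HF_mono P (by omega)))
          _ = (2 ^ N * 2 ^ N) * KA N ^ l * HF P m := by ring
          _ ≤ KA N * KA N ^ l * HF P m := by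
              apply Nat.mul_le_mul_right
              apply Nat.mul_le_mul_right
              have : (4 : ℕ) ^ N = 2 ^ N * 2 ^ N := by rw [← mul_pow]; norm_num
              unfold KA
              rw [← this, mul_assoc]
              have h5 : 0 < (N + 1) ^ N * N ! := Nat.mul_pos (by positivity) (Nat.factorial_pos N)
              exact Nat.le_mul_of_pos_right _ h5
          _ = _ := by rw [pow_succ]; ring

/-- product of all flags -/
noncomputable def flagProd (P : Ideal (MvPolynomial σ k)) : ℕ :=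
  ∏ i ∈ Finset.range (Fintype.card σ - dimP P), flag P (i + 1)

/-- the last flag degree -/
noncomputable def flagTop (P : Ideal (MvPolynomial σ k)) : ℕ :=
  flag P (Fintype.card σ - dimP P)

lemma cod_flagTop [P.IsPrime] : Cod P (Fintype.card σ - dimP P) (flagTop P) :=
  cod_flag (by have := dimP_le_card P; omega)


theorem flagProd_mul_pow_le [P.IsPrime] {m : ℕ} (hm : flagTop P ≤ m) :
    flagProd P * m ^ dimP P ≤ KA (Fintype.card σ) ^ (Fintype.card σ + 1) * HF P m := by
  have h2 := dimP_le_card P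
  have h1 := flag_lower (P := P) (Fintype.card σ - dimP P) m (by omega) hm (Or.inl (by omega))
  have h3 : Fintype.card σ - (Fintype.card σ - dimP P) = dimP P := by omega
  rw [h3] at h1
  refine h1.trans (Nat.mul_le_mul_right _ (Nat.pow_le_pow_right (one_le_KA _) (by omega)))

theorem flagProd_le_degP [P.IsPrime] :
    flagProd P ≤ KA (Fintype.card σ) ^ (Fintype.card σ + 2) * degP P := by
  have hN := dimP_le_card P
  set N := Fintype.card σ
  set r := dimP P with hr
  -- use a large degree
  set m := max (flagTop P) 1 with hm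
  have h1 := flagProd_mul_pow_le (P := P) (m := m) (le_max_left _ _)
  have h2 := HF_le_degP P m
  have hm1 : 1 ≤ m := le_max_right _ _
  have hc1 : (m + r).choose r ≤ (N + 1) ^ N * m ^ r := by
    calc (m + r).choose r ≤ (m + r) ^ r := Nat.choose_le_pow _ _
      _ ≤ ((N + 1) * m) ^ r := by
          apply Nat.pow_le_pow_left
          calc m + r ≤ m + N * m := by
                have : r ≤ N * m := hN.trans (Nat.le_mul_of_pos_right _ hm1)
                omega
            _ = (N + 1) * m := by ring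
      _ = (N + 1) ^ r * m ^ r := mul_pow _ _ _
      _ ≤ (N + 1) ^ N * m ^ r :=
          Nat.mul_le_mul_right _ (Nat.pow_le_pow_right (by omega) hN)
  have h3 : flagProd P * m ^ r ≤ (KA N ^ (N + 2) * degP P) * m ^ r := by
    calc flagProd P * m ^ r ≤ KA N ^ (N + 1) * HF P m := h1
      _ ≤ KA N ^ (N + 1) * (degP P * ((N + 1) ^ N * m ^ r)) :=
          Nat.mul_le_mul_left _ (h2.trans (Nat.mul_le_mul_left _ hc1))
      _ = KA N ^ (N + 1) * (N + 1) ^ N * degP P * m ^ r := by ring
      _ ≤ KA N ^ (N + 1) * KA N * degP P * m ^ r := by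
          apply Nat.mul_le_mul_right
          apply Nat.mul_le_mul_right
          apply Nat.mul_le_mul_left
          unfold KA
          have h5 : 0 < 4 ^ N := by positivity
          have h6 : 0 < N ! := Nat.factorial_pos N
          calc (N + 1) ^ N = 1 * (N + 1) ^ N * 1 := by ring
            _ ≤ 4 ^ N * (N + 1) ^ N * N ! := Nat.mul_le_mul (Nat.mul_le_mul_right _ h5) h6
      _ = _ := by ring
  exact Nat.le_of_mul_le_mul_right h3 (by positivity)

end Crest.Agent.R065.HF669
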