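import Crest.Agent.R065.Cramer_234

/-!
# Row 65: derivations of the function field of `V` from a stable prime
-/

set_option autoImplicit false

open MvPolynomial Module

namespace Crest.Agent.R065.Cramer234

open Crest.Agent.R065.HF669 Crest.Agent.R065.Base348

section frac

variable {R F : Type*} [CommRing R] [Field F]

/-- A derivation preserving the kernel of `π : R → F` extends to `F` if `F` is generated by
fractions of elements of `R`. -/
theorem exists_der_ext (π : R →+* F) (hfrac : ∀ x : F, ∃ a b, π b ≠ 0 ∧ x = π a / π b)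
    (E : Derivation ℤ R R) (hE : ∀ r, π r = 0 → π (E r) = 0) :
    ∃ D : Derivation ℤ F F, ∀ r, D (π r) = π (E r) := by
  classical
  choose a b hb hx using hfrac
  let D₀ : F → F := fun x => (π (E (a x)) * π (b x) - π (a x) * π (E (b x))) / π (b x) ^ 2
  have key : ∀ (r s : R), π s ≠ 0 → ∀ x, x = π r / π s →
      D₀ x = (π (E r) * π s - π r * π (E s)) / π s ^ 2 := by
    intro r s hs x hxrs
    have h1 : π (r * b x - a x * s) = 0 := by
      rw [map_sub, map_mul, map_mul]
      have h2 := hx x
      rw [hxrs, div_eq_div_iff hs (by rw [← hxrs]; exact hb _)] at h2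
      rw [hxrs]
      rw [h2]; ring
    have h2 := hE _ h1
    rw [map_sub, E.leibniz, E.leibniz, smul_eq_mul, smul_eq_mul, smul_eq_mul, smul_eq_mul,
      map_sub, map_add, map_add, map_mul, map_mul, map_mul, map_mul] at h2
    rw [map_sub, map_mul, map_mul] at h1
    change (π (E (a x)) * π (b x) - π (a x) * π (E (b x))) / π (b x) ^ 2 = _
    rw [div_eq_div_iff (pow_ne_zero 2 (hb x)) (pow_ne_zero 2 hs)]
    linear_combination (-π s * π (b x)) * h2 + (π s * π (E (b x)) + π (b x) * π (E s)) * h1
  have hD1 : ∀ r, D₀ (π r) = π (E r) := by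
    intro r
    rw [key r 1 (by rw [map_one]; exact one_ne_zero) (π r) (by rw [map_one, div_one])]
    simp
  have hadd : ∀ x y, D₀ (x + y) = D₀ x + D₀ y := by
    intro x y
    rw [key (a x * b y + a y * b x) (b x * b y) (by rw [map_mul]; exact mul_ne_zero (hb _) (hb _))
      (x + y) (by
        conv_lhs => rw [hx x, hx y]
        rw [div_add_div _ _ (hb _) (hb _)]
        simp only [map_add, map_mul]
        congr 1; ring)]
    change _ = (π (E (a x)) * π (b x) - π (a x) * π (E (b x))) / π (b x) ^ 2 +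
      (π (E (a y)) * π (b y) - π (a y) * π (E (b y))) / π (b y) ^ 2
    have h1 := hb x
    have h2 := hb y
    rw [map_add, E.leibniz, E.leibniz, E.leibniz]
    simp only [smul_eq_mul, map_add, map_mul]
    field_simp
    ring
  have hmul : ∀ x y, D₀ (x * y) = x * D₀ y + y * D₀ x := by
    intro x y
    rw [key (a x * a y) (b x * b y) (by rw [map_mul]; exact mul_ne_zero (hb _) (hb _))
      (x * y) (by
        conv_lhs => rw [hx x, hx y]
        rw [div_mul_div_comm, map_mul, map_mul])]
    change _ = x * ((π (E (a y)) * π (b y) - π (a y) * π (E (b y))) / π (b y) ^ 2) +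
      y * ((π (E (a x)) * π (b x) - π (a x) * π (E (b x))) / π (b x) ^ 2)
    have h1 := hb x
    have h2 := hb y
    have h3 := hx x
    have h4 := hx y
    generalize hax : π (a x) = ax at *
    generalize hbx : π (b x) = bx at *
    generalize hay : π (a y) = ay at *
    generalize hby : π (b y) = by' at *
    rw [E.leibniz, E.leibniz]
    simp only [smul_eq_mul, map_add, map_mul, hax, hbx, hay, hby]
    rw [h3, h4]
    field_simp
    ring
  refine ⟨Derivation.mk' (AddMonoidHom.toIntLinearMap ⟨⟨D₀, ?_⟩, hadd⟩) ?_, ?_⟩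
  · have := hadd 0 0
    rw [add_zero] at this
    exact left_eq_add.1 this
  · intro x y
    exact hmul x y
  · intro r
    exact hD1 r

end frac

/-! ### The function field of a prime with a velocity -/

section ff

variable {e : ℕ} {K : Type*} [Field K] {δ : Pr e → Derivation ℤ K K} {S : Pr e → K}
  {P : Ideal (MvPolynomial (Fin e) K)}

/-- the output: derivations of `F` extending `δ`, with constant `ξ, η` and `θ = η + S ξ` -/
structure ConstData (δ : Pr e → Derivation ℤ K K) (S : Pr e → K) (F : Type*) [Field F]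
    [Algebra K F] (θ : Fin e → F) (Dd : Pr e → Derivation ℤ F F) (ξ η : Fin e → F) : Prop where
  ext : ∀ p a, Dd p (algebraMap K F a) = algebraMap K F (δ p a)
  xi : ∀ p i, Dd p (ξ i) = 0
  eta : ∀ p i, Dd p (η i) = 0
  theta : ∀ i, θ i = η i + act (fun p => algebraMap K F (S p)) ξ i

/-- general form: `π : K[z] → F` with kernel `P` and fractions -/
theorem Velocity.constData {Sig : Set (Pt e K)} {D : ℕ} {B : MvPolynomial (Fin e) K}
    {A : Fin e → MvPolynomial (Fin e) K} (hS : DS δ S) (hV : Velocity δ S P Sig D B A)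
    {F : Type*} [Field F] [Algebra K F] (θ : Fin e → F)
    (hker : ∀ g, aeval θ g = 0 ↔ g ∈ P)
    (hfrac : ∀ x : F, ∃ a b : MvPolynomial (Fin e) K, aeval θ b ≠ 0 ∧ x = aeval θ a / aeval θ b) :
    ∃ (Dd : Pr e → Derivation ℤ F F) (ξ η : Fin e → F), ConstData δ S F θ Dd ξ η ∧
      ∀ i, aeval θ B * ξ i = aeval θ (A i) := by
  have hE : ∀ p : Pr e, ∃ D : Derivation ℤ F F, ∀ r, D (aeval θ r) = aeval θ (EE δ B A p r) :=
    fun p => exists_der_ext (aeval θ : MvPolynomial (Fin e) K →ₐ[K] F).toRingHom hfrac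
      (EE δ B A p) fun r hr => (hker _).2 (hV.stable p r ((hker r).1 hr))
  choose D₁ hD₁ using hE
  have hB : aeval θ B ≠ 0 := fun h => hV.B_notMem ((hker B).1 h)
  let Dd : Pr e → Derivation ℤ F F := fun p => (aeval θ B)⁻¹ • D₁ p
  have hDd : ∀ p r, Dd p (aeval θ r) = (aeval θ B)⁻¹ * aeval θ (EE δ B A p r) := by
    intro p r
    rw [← hD₁]; rfl
  have hext : ∀ p a, Dd p (algebraMap K F a) = algebraMap K F (δ p a) := by
    intro p a
    rw [← aeval_C θ a, hDd, EE_C, map_mul, aeval_C]
    field_simp
  let ξ : Fin e → F := fun i => aeval θ (A i) / aeval θ B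
  have hxi : ∀ p i, Dd p (ξ i) = 0 := by
    intro p i
    have h1 : aeval θ (A i) = ξ i * aeval θ B := by
      simp only [ξ]; field_simp
    have h2 := congrArg (Dd p) h1
    rw [Derivation.leibniz, hDd, hDd, smul_eq_mul, smul_eq_mul] at h2
    have h3 := (hker _).2 (hV.const p i)
    rw [map_sub, map_mul, map_mul] at h3
    have h5 : aeval θ B * (aeval θ B)⁻¹ = 1 := mul_inv_cancel₀ hB
    have h6 : aeval θ B * (aeval θ B * Dd p (ξ i)) =
        aeval θ (EE δ B A p (A i)) - ξ i * aeval θ (EE δ B A p B) := by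
      linear_combination (-aeval θ B) * h2 + (aeval θ (EE δ B A p (A i)) -
        ξ i * aeval θ (EE δ B A p B)) * h5
    have h7 : aeval θ B * (aeval θ B * (aeval θ B * Dd p (ξ i))) = 0 := by
      rw [h6]
      linear_combination h3 + (aeval θ (EE δ B A p B)) * h1
    exact (mul_eq_zero.1 ((mul_eq_zero.1 ((mul_eq_zero.1 h7).resolve_left hB)).resolve_left
      hB)).resolve_left hB
  have hDS : DS Dd (fun p => algebraMap K F (S p)) := by
    intro p q
    rw [hext, hS]; split_ifs <;> simp
  let η : Fin e → F := fun i => θ i - act (fun p => algebraMap K F (S p)) ξ i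
  refine ⟨Dd, ξ, η, ⟨hext, hxi, fun p i => ?_, fun i => ?_⟩, fun i => ?_⟩
  · have h1 : Dd p (act (fun p => algebraMap K F (S p)) ξ i) = act (Pi.single p (1 : F)) ξ i :=
      der_act hDS hxi p i
    have h2 : Dd p (θ i) = act (Pi.single p (1 : F)) ξ i := by
      have h3 := hDd p (X i)
      rw [aeval_X, EE_X] at h3
      rw [h3, act_single, act_single, map_sub]
      split_ifs <;> simp only [ξ, map_zero, sub_zero, zero_sub, mul_neg, mul_zero, sub_self] <;>
        field_simp
    simp only [η]
    rw [map_sub, h1, h2, sub_self]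
  · simp only [η]; ring
  · simp only [ξ]; field_simp

/-- **specialisation**: relations between `ξ, η` hold at all points of `Sig` with `B ≠ 0` -/
theorem Velocity.spec {Sig : Set (Pt e K)} {D : ℕ} {B : MvPolynomial (Fin e) K}
    {A : Fin e → MvPolynomial (Fin e) K} (hV : Velocity δ S P Sig D B A)
    {F : Type*} [Field F] [Algebra K F] (θ : Fin e → F)
    (hker : ∀ g, aeval θ g = 0 ↔ g ∈ P) {ξ η : Fin e → F}
    (hξ : ∀ i, aeval θ B * ξ i = aeval θ (A i))
    (hη : ∀ i, θ i = η i + act (fun p => algebraMap K F (S p)) ξ i)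
    {z : Pt e K} (hz : z ∈ Sig) (hzP : ∀ g ∈ P, MvPolynomial.eval (th S z) g = 0)
    (hBz : MvPolynomial.eval (th S z) B ≠ 0) (q : MvPolynomial (Fin e ⊕ Fin e) K)
    (hq : aeval (Sum.elim ξ η) q = 0) : MvPolynomial.eval (Sum.elim z.1 z.2) q = 0 := by
  -- compatible pairs
  let c : F → K → Prop := fun u w => ∃ (n : ℕ) (r : MvPolynomial (Fin e) K),
    aeval θ r = aeval θ B ^ n * u ∧ MvPolynomial.eval (th S z) r =
      MvPolynomial.eval (th S z) B ^ n * w
  have hadd : ∀ {u w u' w'}, c u w → c u' w' → c (u + u') (w + w') := by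
    rintro u w u' w' ⟨n, r, h1, h2⟩ ⟨n', r', h1', h2'⟩
    refine ⟨n + n', B ^ n' * r + B ^ n * r', ?_, ?_⟩
    · simp only [map_add, map_mul, map_pow, h1, h1']; ring
    · simp only [map_add, map_mul, map_pow, h2, h2']; ring
  have hmul : ∀ {u w u' w'}, c u w → c u' w' → c (u * u') (w * w') := by
    rintro u w u' w' ⟨n, r, h1, h2⟩ ⟨n', r', h1', h2'⟩
    refine ⟨n + n', r * r', ?_, ?_⟩
    · simp only [map_mul, h1, h1']; ring
    · simp only [map_mul, h2, h2']; ring
  have hK : ∀ a : K, c (algebraMap K F a) a := fun a => ⟨0, C a, by simp, by simp⟩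
  have hx : ∀ i, c (ξ i) (z.1 i) := fun i => ⟨1, A i, by rw [pow_one, hξ], by
    rw [pow_one, hV.eval z hz]⟩
  have hneg : ∀ {u w}, c u w → c (-u) (-w) := by
    rintro u w ⟨n, r, h1, h2⟩
    exact ⟨n, -r, by rw [map_neg, h1]; ring, by rw [map_neg, h2]; ring⟩
  have hsum : ∀ (s : Finset (Fin e)) (u : Fin e → F) (w : Fin e → K),
      (∀ i ∈ s, c (u i) (w i)) → c (∑ i ∈ s, u i) (∑ i ∈ s, w i) := by
    classical
    intro s u w
    induction s using Finset.induction_on with
    | empty => intro _; simpa using hK 0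
    | insert a s ha ih =>
      intro h
      rw [Finset.sum_insert ha, Finset.sum_insert ha]
      exact hadd (h a (Finset.mem_insert_self _ _))
        (ih fun i hi => h i (Finset.mem_insert_of_mem hi))
  have hy : ∀ i, c (η i) (z.2 i) := by
    intro i
    have h1 : η i = θ i + -act (fun p => algebraMap K F (S p)) ξ i := by rw [hη]; ring
    have h2 : z.2 i = th S z i + -act S z.1 i := by simp [th]
    rw [h1, h2]
    refine hadd ⟨0, X i, by simp, by simp⟩ (hneg (hsum _ _ _ fun j _ => ?_))
    rw [sk_map (algebraMap K F) S]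
    exact hmul (hK _) (hx j)
  have key : ∀ q : MvPolynomial (Fin e ⊕ Fin e) K,
      c (aeval (Sum.elim ξ η) q) (MvPolynomial.eval (Sum.elim z.1 z.2) q) := by
    intro q
    induction q using MvPolynomial.induction_on with
    | C a => simpa using hK a
    | add p q hp hq => rw [map_add, map_add]; exact hadd hp hq
    | mul_X p i hp =>
      rw [map_mul, map_mul, aeval_X, eval_X]
      refine hmul hp ?_
      rcases i with i | i
      · exact hx i
      · exact hy i
  obtain ⟨n, r, h1, h2⟩ := key q
  rw [hq, mul_zero] at h1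
  rw [hzP r ((hker r).1 h1)] at h2
  exact (mul_eq_zero.1 h2.symm).resolve_left (pow_ne_zero n hBz)


end ff

end Crest.Agent.R065.Cramer234
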