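import Crest.Agent.R065.O1Y_477_Mg
import Crest.Agent.R065.Hyp_348

/-!
# Row 65, `d ≥ 4`: the master (272's bipartite extremal scheme)
-/

set_option autoImplicit false

open MvPolynomial Module Finset

namespace Crest.Agent.R065.M4

open Crest.Agent.R065.HF669 Crest.Agent.R065.Base348 Crest.Agent.R065.Top348
  Crest.Agent.R065.Pins348 Crest.Agent.R065.ExtP580

variable {d : ℕ}

/-- (P1) separation of the product -/
def SepPts (d : ℕ) : Prop :=
  ∀ (Q R : E d ≃ₗᵢ[ℝ] E d) (P : Finset (E d)), 2 ≤ P.card →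
    HF669.Sep ((fun z : E d × E d => toFn (zc (Q z.1) (R z.2))) ''
      ((P ×ˢ P : Finset (E d × E d)) : Set (E d × E d))) (4 * nd P)

/-- (P2) number of null pairs -/
def ManyNull (d : ℕ) : Prop :=
  ∀ P : Finset (E d), 2 ≤ P.card →
    ((P ×ˢ P).card : ℝ) ^ 2 ≤ 2 * (2 * (nd P : ℝ)) * (TP Nl (P ×ˢ P) (P ×ˢ P) : ℝ)

/-- (P3) generic isometries -/
def Generic2 (d : ℕ) : Prop :=
  ∀ P : Finset (E d), ∃ Q R : E d ≃ₗᵢ[ℝ] E d, ∀ z ∈ P ×ˢ P, ∀ w ∈ P ×ˢ P, z ≠ w →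
    ∀ i, (zc (Q z.1) (R z.2)).1 i ≠ (zc (Q w.1) (R w.2)).1 i

lemma toFn_image_zR [DecidableEq (Pt d ℂ)] (Q R : E d ≃ₗᵢ[ℝ] E d) (X : Finset (E d × E d)) :
    toFn '' ((X.image (zR Q R) : Finset (Pt d ℂ)) : Set (Pt d ℂ)) =
      (fun z : E d × E d => toFn (zc (Q z.1) (R z.2))) '' (X : Set (E d × E d)) := by
  rw [coe_image, Set.image_image]
  rfl

lemma choose_le_s {T r : ℕ} (hT : 1 ≤ T) (hr : r + 1 ≤ d) :
    ((T + r).choose r : ℝ) ≤ ((d : ℝ) * T) ^ r := by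
  have h1 : (T + r).choose r ≤ (d * T) ^ r :=
    (choose_le_pow hT r).trans (Nat.pow_le_pow_left (Nat.mul_le_mul_right T hr) r)
  exact_mod_cast h1

/-- choice of `A` -/
lemma exists_A {C1 ε θ : ℝ} (hC1 : 1 ≤ C1) (hε : 0 < ε) (hθ : 0 < θ) (hd : 4 ≤ d) :
    ∃ A : ℝ, 1 ≤ A ∧ ∀ n t : ℝ, 1 ≤ n → 1 ≤ t → (A * t) ^ d < n ^ 2 →
      (d + 7) * (8 * C1 * d * t) ^ d ≤ ε * n ^ 2 ∧ (8 * C1 * d * t) ^ d ≤ 1 / 1024 * n ^ 2 ∧
      32 * C1 * t ^ 2 ≤ ε * n ∧ 64 * C1 ^ 2 * t ^ 2 ≤ θ * n ∧ 64 * t ^ 2 ≤ n := by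
  set B1 : ℝ := (d + 7) * (8 * C1 * d) ^ d * (1 / ε + 1024) with hB1
  set B2 : ℝ := 32 * C1 / ε + 64 * C1 ^ 2 / θ + 64 with hB2
  have hB1p : 0 ≤ B1 := by positivity
  have hB2p : 0 ≤ B2 := by positivity
  refine ⟨B1 + B2 + 1, by linarith, ?_⟩
  intro n t hn ht hlt
  set A : ℝ := B1 + B2 + 1 with hA
  have hA1 : 1 ≤ A := by linarith
  have hAd : A ≤ A ^ d := le_self_pow₀ hA1 (by omega)
  have hA2 : A ≤ A ^ 2 := le_self_pow₀ hA1 (by norm_num)
  have h1 : B1 * t ^ d ≤ n ^ 2 := by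
    calc B1 * t ^ d ≤ A ^ d * t ^ d := by gcongr; linarith
      _ = (A * t) ^ d := (mul_pow _ _ _).symm
      _ ≤ n ^ 2 := hlt.le
  have hAt : 1 ≤ A * t := by nlinarith
  have h2 : (A * t) ^ 2 ≤ n := by
    have h3 : ((A * t) ^ 2) ^ 2 ≤ n ^ 2 := by
      calc ((A * t) ^ 2) ^ 2 = (A * t) ^ 4 := by ring
        _ ≤ (A * t) ^ d := pow_le_pow_right₀ hAt hd
        _ ≤ n ^ 2 := hlt.le
    exact le_of_sq_le_sq h3 (by linarith)
  have h3 : B2 * t ^ 2 ≤ n := by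
    calc B2 * t ^ 2 ≤ A ^ 2 * t ^ 2 := by gcongr; linarith
      _ = (A * t) ^ 2 := (mul_pow _ _ _).symm
      _ ≤ n := h2
  have e1 : B1 * t ^ d = (d + 7) * (8 * C1 * d * t) ^ d * (1 / ε) +
      1024 * ((d + 7) * (8 * C1 * d * t) ^ d) := by
    rw [hB1, mul_pow (8 * C1 * (d : ℝ)) t d]; ring
  have p0 : 0 ≤ (8 * C1 * d * t) ^ d := by positivity
  have p1 : 0 ≤ (d + 7) * (8 * C1 * d * t) ^ d * (1 / ε) := by positivity
  have p2 : (8 * C1 * d * t) ^ d ≤ (d + 7) * (8 * C1 * d * t) ^ d := by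
    have : (0 : ℝ) ≤ (d + 6) * (8 * C1 * d * t) ^ d := by positivity
    linarith
  have q0 : 0 ≤ 32 * C1 / ε * t ^ 2 := by positivity
  have q1 : 0 ≤ 64 * C1 ^ 2 / θ * t ^ 2 := by positivity
  have q2 : 0 ≤ 64 * t ^ 2 := by positivity
  have e2 : B2 * t ^ 2 = 32 * C1 / ε * t ^ 2 + 64 * C1 ^ 2 / θ * t ^ 2 + 64 * t ^ 2 := by
    rw [hB2]; ring
  refine ⟨?_, ?_, ?_, ?_, ?_⟩
  · have : (d + 7) * (8 * C1 * d * t) ^ d * (1 / ε) ≤ n ^ 2 := by linarith
    rw [mul_one_div, div_le_iff₀ hε] at this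
    linarith
  · linarith
  · have : 32 * C1 / ε * t ^ 2 ≤ n := by linarith
    rw [div_mul_eq_mul_div, div_le_iff₀ hε] at this
    linarith
  · have : 64 * C1 ^ 2 / θ * t ^ 2 ≤ n := by linarith
    rw [div_mul_eq_mul_div, div_le_iff₀ hθ] at this
    linarith
  · linarith

/-- **Master, `d ≥ 4`.** -/
theorem bd4_of (hd : 4 ≤ d) (hL0 : L0inD d) (hRank : RankD d) (hP1 : SepPts d)
    (hP2 : ManyNull d) (hP3 : Generic2 d) :
    ∃ A : ℝ, 0 < A ∧ ∀ P : Finset (E d), 2 ≤ P.card →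
      (P.card : ℝ) ^ 2 ≤ (A * (nd P : ℝ)) ^ d := by
  classical
  obtain ⟨CL, hCL, hL⟩ := hL0
  obtain ⟨o, CR, hCR, hR⟩ := hRank
  obtain ⟨m0, θ, hθ, hnu⟩ := Nu397.avg_nu d hd 1 one_pos
  obtain ⟨K, hK⟩ : ∃ K : ℕ, K = Kd d := ⟨_, rfl⟩
  have hK1 : 1 ≤ K := by rw [hK]; exact Kd_pos d
  have hK1' : (1 : ℝ) ≤ K := by exact_mod_cast hK1
  obtain ⟨η, hη⟩ : ∃ η : ℝ, η = 1 / 256 := ⟨_, rfl⟩
  have hη0 : 0 < η := by rw [hη]; norm_num
  obtain ⟨ε, hε⟩ : ∃ ε : ℝ, ε = η / (3 * CL) := ⟨_, rfl⟩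
  have hε0 : 0 < ε := by rw [hε]; positivity
  have hεη : CL * (3 * ε) = η := by rw [hε]; field_simp
  obtain ⟨C1, hC1⟩ : ∃ C1 : ℕ, (m0 : ℝ) + 8 * K + 128 * K * (6 * CR + 2) < C1 :=
    exists_nat_gt _
  have p1 : (0 : ℝ) ≤ m0 := Nat.cast_nonneg _
  have p2 : (0 : ℝ) ≤ 128 * K * (6 * CR + 2) := by positivity
  have hC1a : m0 ≤ C1 := by
    have : (m0 : ℝ) ≤ C1 := by linarith
    exact_mod_cast this
  have hC1b : 8 * K ≤ C1 := by
    have : (8 * K : ℝ) ≤ C1 := by linarith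
    exact_mod_cast this
  have hC1c : 128 * K * (6 * CR + 2) ≤ (C1 : ℝ) := by linarith
  have hC11 : (1 : ℝ) ≤ C1 := by linarith
  obtain ⟨A, hA1, hA⟩ := exists_A (d := d) hC11 hε0 hθ hd
  refine ⟨A, by linarith, fun P hP => ?_⟩
  by_contra hcon
  push Not at hcon
  -- basic numbers
  have ht1 : 1 ≤ nd P := Hyp348.nd_pos hP
  obtain ⟨n, hn⟩ : ∃ n : ℝ, n = P.card := ⟨_, rfl⟩
  obtain ⟨t, ht⟩ : ∃ t : ℝ, t = nd P := ⟨_, rfl⟩
  have hn1 : 1 ≤ n := by
    rw [hn]; exact_mod_cast (by omega : 1 ≤ P.card)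
  have ht1' : 1 ≤ t := by rw [ht]; exact_mod_cast ht1
  rw [← hn, ← ht] at hcon
  obtain ⟨b1, b2, b3, b4, b5⟩ := hA n t hn1 ht1' hcon
  obtain ⟨Q, R, hgen⟩ := hP3 P
  have hTZ := hP2 P hP
  have hsepZ := hP1 Q R P hP
  obtain ⟨Z, hZ⟩ : ∃ Z : Finset (E d × E d), Z = P ×ˢ P := ⟨_, rfl⟩
  rw [← hZ] at hgen hTZ hsepZ
  have hZc : (Z.card : ℝ) = n ^ 2 := by
    rw [hZ, card_product, hn]; push_cast; ring
  have hTpos : 0 < TP Nl Z Z := by
    rcases Nat.eq_zero_or_pos (TP Nl Z Z) with h0 | h0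
    · rw [h0] at hTZ
      have : (0 : ℝ) < (Z.card : ℝ) ^ 2 := by rw [hZc]; positivity
      simp at hTZ
      rw [hTZ] at this
      simp at this
    · exact h0
  obtain ⟨X, Y, hExt⟩ := exists_extremal (r := (Nl : E d × E d → E d × E d → Prop))
    (fun z w h => h.symm) hTpos
  obtain ⟨t0, ht0⟩ : ∃ t0 : ℝ, t0 = Ext.t0 Nl X Y := ⟨_, rfl⟩
  have ht01 : 1 ≤ t0 := by rw [ht0]; exact hExt.one_le_t0
  have ht0p : 0 < 2 * t := by linarith
  have hTZ' : (Z.card : ℝ) ^ 2 ≤ 2 * (2 * t) * TP Nl Z Z := by rw [ht]; exact hTZ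
  have c1 := hExt.t0_sq_le ht0p hTZ'
  have c2 := hExt.t0_le_X ht0p hTZ'
  have c3 := hExt.t0_le ht0p hTZ'
  have c4 := hExt.X_le_Y ht0p hTZ'
  rw [← ht0] at c1 c2 c3
  rw [hZc] at c1 c2
  have hYp : 1 ≤ (Y.card : ℝ) := by exact_mod_cast hExt.cardY_pos
  have hYX : (Y.card : ℝ) ≤ X.card := by exact_mod_cast hExt.le
  have hXN : (X.card : ℝ) ≤ n ^ 2 := by
    rw [← hZc]; exact_mod_cast card_le_card hExt.hX
  -- `m`
  obtain ⟨m, hm⟩ : ∃ m : ℕ, m = C1 * ⌈t0⌉₊ := ⟨_, rfl⟩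
  have hceil1 : t0 ≤ (⌈t0⌉₊ : ℝ) := Nat.le_ceil _
  have hceil2 : (⌈t0⌉₊ : ℝ) ≤ 2 * t0 := by
    have := (Nat.ceil_lt_add_one (by linarith : (0 : ℝ) ≤ t0)).le
    linarith
  have hmR : (m : ℝ) = C1 * (⌈t0⌉₊ : ℝ) := by rw [hm]; push_cast; rfl
  have hC10 : (0 : ℝ) ≤ C1 := by linarith
  have hnum : Num d n t (X.card : ℝ) (Y.card : ℝ) t0 C1 m :=
    { d4 := hd
      n1 := hn1
      t1 := ht1'
      y1 := hYp
      yx := hYX
      xN := hXN
      t01 := ht01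
      a1 := by linarith
      a2 := by linarith
      a3 := by linarith
      a4 := by linarith
      C11 := hC11
      mlo := by rw [hmR]; gcongr
      mhi := by
        rw [hmR]
        calc (C1 : ℝ) * (⌈t0⌉₊ : ℝ) ≤ C1 * (2 * t0) := by gcongr
          _ = 2 * C1 * t0 := by ring }
  have hm1R := hnum.m1
  have hm1 : 1 ≤ m := by exact_mod_cast hm1R
  have hceilpos : 1 ≤ ⌈t0⌉₊ := by
    have : (1 : ℝ) ≤ (⌈t0⌉₊ : ℝ) := ht01.trans hceil1
    exact_mod_cast this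
  have hC1m : C1 ≤ m := by
    rw [hm]; exact Nat.le_mul_of_pos_right _ hceilpos
  -- `k0`
  obtain ⟨k0, hk0⟩ : ∃ k0 : ℕ, k0 = m ^ d / (8 * K) := ⟨_, rfl⟩
  have hk0a : 8 * K * k0 ≤ m ^ d := by rw [hk0]; exact Nat.mul_div_le _ _
  have hmd : m ≤ m ^ d := Nat.le_self_pow (by omega) m
  have hk0b : 1 ≤ k0 := by
    rw [hk0]
    exact (Nat.one_le_div_iff (by omega)).2 (hC1b.trans (hC1m.trans hmd))
  have hk0c : m ^ d ≤ 16 * K * k0 := by
    have h1 : m ^ d < 8 * K * (k0 + 1) := by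
      have := Nat.lt_mul_div_succ (m ^ d) (show 0 < 8 * K by omega)
      rw [← hk0] at this
      exact this
    have h2 : 8 * K * (k0 + 1) ≤ 8 * K * (2 * k0) := Nat.mul_le_mul_left _ (by omega)
    calc m ^ d ≤ 8 * K * (2 * k0) := (h1.le).trans h2
      _ = 16 * K * k0 := by ring
  have hk0d : 8 * k0 ≤ m ^ d := by
    refine le_trans ?_ hk0a
    calc 8 * k0 = 8 * 1 * k0 := by ring
      _ ≤ 8 * K * k0 := by gcongr
  have hmdy : (m : ℝ) ^ d ≤ 1 / 1024 * Y.card := hnum.md_le b2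
  have hk0y : 8 * (k0 : ℝ) ≤ 1 / 1024 * Y.card := by
    have : (8 * (k0 : ℝ)) ≤ (m : ℝ) ^ d := by exact_mod_cast hk0d
    linarith
  have hk0x : 8 * (k0 : ℝ) ≤ 1 / 1024 * X.card := by linarith
  have hk0pos : (0 : ℝ) < k0 := by exact_mod_cast hk0b
  have h2Y : 2 * k0 ≤ Y.card := by
    have : (2 * (k0 : ℝ)) ≤ Y.card := by linarith
    exact_mod_cast this
  have h2X : 2 * k0 ≤ X.card := by
    have : (2 * (k0 : ℝ)) ≤ X.card := by linarith
    exact_mod_cast this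
  have hOm : ∀ A B : Finset (E d × E d), A.card ≤ 2 * k0 → B.card ≤ 2 * k0 →
      (A ∪ B).card * Kd d < (m + 1) ^ d := by
    intro A B hA' hB'
    have h1 : (A ∪ B).card ≤ 4 * k0 := (card_union_le A B).trans (by omega)
    rw [← hK]
    calc (A ∪ B).card * K ≤ 4 * k0 * K := Nat.mul_le_mul_right _ h1
      _ ≤ 8 * K * k0 := by nlinarith
      _ ≤ m ^ d := hk0a
      _ < (m + 1) ^ d := Nat.pow_lt_pow_left (by omega) (by omega)
  -- separation
  have hT41 : 1 ≤ 4 * nd P := by omega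
  have hsep : ∀ S ⊆ Z, HF669.Sep (toFn '' ((S.image (zR Q R) : Finset (Pt d ℂ)) :
      Set (Pt d ℂ))) (4 * nd P) := by
    intro S hS
    rw [toFn_image_zR]
    exact hsepZ.subset (Set.image_mono (by exact_mod_cast hS))
  have hsR : ((d : ℝ) * ((4 * nd P : ℕ) : ℝ)) = d * (4 * t) := by rw [ht]; push_cast; rfl
  have hs1 : 1 ≤ (d : ℝ) * (4 * t) := by
    have := hnum.d1
    nlinarith
  have htriv : ∀ S ⊆ Z, ∀ I : Ideal (MvPolynomial (Fin d ⊕ Fin d) ℂ), I.IsPrime → dimP I < d →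
      ((onP (S.image (zR Q R)) I).card : ℝ) ≤ ((d : ℝ) * (4 * t)) ^ (dimP I) * degP I := by
    intro S hS I hI hdim
    refine (onP_le (hsep S hS) I).trans ?_
    have := choose_le_s (d := d) (T := 4 * nd P) (r := dimP I) hT41 hdim
    rw [hsR] at this
    gcongr
  have hcl : ∀ S ⊆ Z, NullLe (S.image (zR Q R)) n := by
    intro S hS
    rw [hn]
    rw [hZ] at hS
    exact nullLe_prod Q R hS
  -- cliques and averages
  have havg : ∀ S : Finset (E d × E d), S ⊆ Z → (Y.card : ℝ) ≤ S.card →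
      ∀ k, k0 < k → k ≤ 2 * k0 →
      ∑ B ∈ S.powersetCard k, CR * ((m : ℝ) ^ (d - 1) + m * (1 + (Nu397.nu B : ℝ))) ≤
        3 * CR * (m : ℝ) ^ (d - 1) * (S.card.choose k : ℝ) := by
    intro S hS hYS k _ hk
    have h2S : k ≤ S.card := by
      have : (Y.card) ≤ S.card := by exact_mod_cast hYS
      omega
    have hkm : k ≤ m ^ d := by omega
    have hsize : (P.card : ℝ) * k ≤ θ * (m : ℝ) ^ (d - 2) * S.card := by
      rw [← hn]
      have e1 : (k : ℝ) ≤ (m : ℝ) ^ d := by exact_mod_cast hkm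
      have e2 := hnum.nm2 b4
      have e3 : (m : ℝ) ^ d = m ^ 2 * m ^ (d - 2) := by
        rw [← pow_add, show 2 + (d - 2) = d by omega]
      calc n * k ≤ n * (m : ℝ) ^ d := by gcongr
        _ = (n * m ^ 2) * m ^ (d - 2) := by rw [e3]; ring
        _ ≤ (θ * Y.card) * m ^ (d - 2) := by gcongr
        _ ≤ (θ * S.card) * m ^ (d - 2) := by gcongr
        _ = θ * (m : ℝ) ^ (d - 2) * S.card := by ring
    have hSP : S ⊆ P ×ˢ P := by rw [← hZ]; exact hS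
    have h3 := hnu P S hSP m k (hC1a.trans hC1m) hkm h2S hsize
    have h4 : ∑ B ∈ S.powersetCard k, CR * ((m : ℝ) ^ (d - 1) + m * (1 + (Nu397.nu B : ℝ))) =
        CR * ((m : ℝ) ^ (d - 1) + m) * (S.card.choose k : ℝ) +
          CR * m * ∑ B ∈ S.powersetCard k, (Nu397.nu B : ℝ) := by
      rw [mul_sum]
      have : ∀ B ∈ S.powersetCard k,
          CR * ((m : ℝ) ^ (d - 1) + m * (1 + (Nu397.nu B : ℝ))) =
          CR * ((m : ℝ) ^ (d - 1) + m) + CR * m * (Nu397.nu B : ℝ) := by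
        intro B _; ring
      rw [sum_congr rfl this, sum_add_distrib, sum_const, card_powersetCard, nsmul_eq_mul]
      ring
    rw [h4]
    have e5 : (m : ℝ) ≤ (m : ℝ) ^ (d - 1) := le_self_pow₀ hm1R (by omega)
    have e6 : (m : ℝ) * (m : ℝ) ^ (d - 2) = (m : ℝ) ^ (d - 1) := by
      rw [← pow_succ', show d - 2 + 1 = d - 1 by omega]
    have e7 : CR * m * ∑ B ∈ S.powersetCard k, (Nu397.nu B : ℝ) ≤
        CR * (m : ℝ) ^ (d - 1) * (S.card.choose k : ℝ) := by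
      calc CR * m * ∑ B ∈ S.powersetCard k, (Nu397.nu B : ℝ) ≤
          CR * m * (1 * (m : ℝ) ^ (d - 2) * (S.card.choose k : ℝ)) := by gcongr
        _ = CR * (m * (m : ℝ) ^ (d - 2)) * (S.card.choose k : ℝ) := by ring
        _ = _ := by rw [e6]
    have e8 : CR * ((m : ℝ) ^ (d - 1) + m) * (S.card.choose k : ℝ) ≤
        CR * ((m : ℝ) ^ (d - 1) + (m : ℝ) ^ (d - 1)) * (S.card.choose k : ℝ) := by gcongr
    calc _ ≤ CR * ((m : ℝ) ^ (d - 1) + (m : ℝ) ^ (d - 1)) * (S.card.choose k : ℝ) +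
          CR * (m : ℝ) ^ (d - 1) * (S.card.choose k : ℝ) := add_le_add e8 e7
      _ = 3 * CR * (m : ℝ) ^ (d - 1) * (S.card.choose k : ℝ) := by ring
  -- the rank lemma
  have hrk : ∀ A B : Finset (E d × E d), A ⊆ Z → B ⊆ Z → ∀ x ∈ Z,
      ¬ IsBad m ((A ∪ B).image (zR Q R)) (zR Q R x) →
      (((B \ A).filter fun y => Nl x y ∧
        o m (((A ∪ B).erase y).image (zR Q R)) (zR Q R y) (zR Q R x) ≤
        o m (((A ∪ B).erase y).image (zR Q R)) (zR Q R x) (zR Q R y)).card : ℝ) ≤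
      CR * ((m : ℝ) ^ (d - 1) + m * (1 + (Nu397.nu B : ℝ))) := by
    intro A B _ hB x hx hbad
    refine rank_card Q R hR hm1 (Om := A ∪ B) ?_ hbad ?_ ?_ ?_ ?_
    · intro y hy
      exact mem_union_right _ (mem_sdiff.1 (mem_filter.1 hy).1).1
    · intro y hy hne
      exact hgen y (hB (mem_sdiff.1 (mem_filter.1 hy).1).1) x hx hne
    · intro y hy
      exact (mem_filter.1 hy).2
    · have : (0 : ℝ) ≤ (Nu397.nu B : ℝ) := Nat.cast_nonneg _
      linarith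
    · intro N hN hc
      have h1 : N ⊆ B := fun y hy => (mem_sdiff.1 (mem_filter.1 (hN hy)).1).1
      have h2 : (N.card : ℝ) ≤ (Nu397.nu B : ℝ) := by
        exact_mod_cast Nu397.le_nu h1 (fun z hz w hw => hc z hz w hw)
      linarith
  -- bad sets
  have hbX : ∀ A ⊆ X, ∀ B ⊆ Y, A.card ≤ 2 * k0 → B.card ≤ 2 * k0 →
      ((X.filter fun x => IsBad m ((A ∪ B).image (zR Q R)) (zR Q R x)).card : ℝ) ≤
        η * X.card := by
    intro A _ B _ hA' hB'
    have h1 := bad_card Q R hL hm1 (hOm A B hA' hB') X (fun r => ((d : ℝ) * (4 * t)) ^ r) n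
      (fun r => one_le_pow₀ hs1) hn1 (htriv X hExt.hX) (hcl X hExt.hX)
    have h2 := hnum.xside (ε := ε) (by
      have : 0 ≤ (8 * (C1 : ℝ) * d * t) ^ d := by positivity
      nlinarith [hnum.d1]) (by
      have h9 : t ≤ t ^ 2 := le_self_pow₀ ht1' (by norm_num)
      have : 8 * (C1 : ℝ) * t ≤ 32 * C1 * t ^ 2 := by gcongr; norm_num
      linarith)
    calc _ ≤ CL * (∑ r ∈ range d, (m : ℝ) ^ (d - r) * ((d : ℝ) * (4 * t)) ^ r + m * n) := h1
      _ ≤ CL * (2 * ε * X.card) := by gcongr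
      _ ≤ CL * (3 * ε) * X.card := by
          have : 0 ≤ CL * ε * X.card := by positivity
          linarith
      _ = η * X.card := by rw [hεη]
  have hbY : ∀ A ⊆ X, ∀ B ⊆ Y, A.card ≤ 2 * k0 → B.card ≤ 2 * k0 →
      ((Y.filter fun y => IsBad m ((A ∪ B).image (zR Q R)) (zR Q R y)).card : ℝ) ≤
        η * Y.card := by
    intro A _ B _ hA' hB'
    have h1 := bad_card Q R hL hm1 (hOm A B hA' hB') Y
      (fun r => if r + 1 = d then 8 * t0 * ((d : ℝ) * (4 * t)) ^ (d - 2) + n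
        else ((d : ℝ) * (4 * t)) ^ r) n ?_ hn1 ?_ (hcl Y hExt.hY)
    · have h2 := hnum.yside (ε := ε) b1 b3
      calc _ ≤ _ := h1
        _ ≤ CL * (3 * ε * Y.card) := by gcongr
        _ = CL * (3 * ε) * Y.card := by ring
        _ = η * Y.card := by rw [hεη]
    · intro r
      by_cases h : r + 1 = d
      · simp only [h, if_true]
        have : 0 ≤ 8 * t0 * ((d : ℝ) * (4 * t)) ^ (d - 2) := by positivity
        linarith
      · simp only [h, if_false]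
        exact one_le_pow₀ hs1
    · intro I hI hdim
      by_cases h : dimP I + 1 = d
      · simp only [h, if_true]
        have hdeg : (1 : ℝ) ≤ degP I := by exact_mod_cast degP_pos I
        have h3 := O1Y477.o1y (d := d) (by omega) (X := X.image (zR Q R))
          (Y := Y.image (zR Q R)) (T := 4 * nd P) (t0 := t0) (ν := n) ht01
          (hsep X hExt.hX) (hsep Y hExt.hY) ?_ (hcl X hExt.hX) (hcl Y hExt.hY) ?_ I hI h
        · have h4 : ((onP (Y.image (zR Q R)) I).card : ℝ) ≤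
              max (8 * t0 * ((4 * nd P + (d - 2)).choose (d - 2) : ℝ) * degP I) n := h3
          refine h4.trans (max_le ?_ ?_)
          · have h5 := choose_le_s (d := d) (T := 4 * nd P) (r := d - 2) hT41 (by omega)
            rw [hsR] at h5
            calc 8 * t0 * ((4 * nd P + (d - 2)).choose (d - 2) : ℝ) * degP I ≤
                8 * t0 * ((d : ℝ) * (4 * t)) ^ (d - 2) * degP I := by gcongr
              _ ≤ (8 * t0 * ((d : ℝ) * (4 * t)) ^ (d - 2) + n) * degP I := by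
                  gcongr; linarith
          · have h6 : 0 ≤ 8 * t0 * ((d : ℝ) * (4 * t)) ^ (d - 2) := by positivity
            calc n ≤ (8 * t0 * ((d : ℝ) * (4 * t)) ^ (d - 2) + n) * 1 := by linarith
              _ ≤ (8 * t0 * ((d : ℝ) * (4 * t)) ^ (d - 2) + n) * degP I := by gcongr
        · intro w hw
          obtain ⟨y, hy, rfl⟩ := mem_image.1 hw
          rw [card_image_zR]
          have h4 := hExt.deg_right_t0 (fun z w h => Nl.symm h) hy
          rw [← ht0] at h4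
          refine h4.trans ?_
          have h5 : dg Nl X y ≤
              ((X.image (zR Q R)).filter fun x => Null x (zR Q R y)).card := by
            unfold dg
            rw [← card_image_zR Q R]
            refine card_le_card fun w hw => ?_
            obtain ⟨x, hx, rfl⟩ := mem_image.1 hw
            have hx' := mem_filter.1 hx
            exact mem_filter.2 ⟨mem_image_of_mem _ hx'.1, (null_zR Q R _ _).2 hx'.2.symm.1⟩
          have h6 : (dg Nl X y : ℝ) ≤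
              (((X.image (zR Q R)).filter fun x => Null x (zR Q R y)).card : ℝ) := by
            exact_mod_cast h5
          gcongr
        · rw [card_image_zR]
          have h5 := choose_le_s (d := d) (T := 4 * nd P) (r := d - 1) hT41 (by omega)
          rw [hsR] at h5
          have h6 := hnum.big (by linarith) (by nlinarith)
          refine lt_of_le_of_lt ?_ h6
          gcongr
      · simp only [h, if_false]
        exact htriv Y hExt.hY I hI hdim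
  -- the engine
  have heng := D4eng812.engine X Y (Nl : E d × E d → E d × E d → Prop) (fun z w h => h.symm)
    (fun Om z => IsBad m (Om.image (zR Q R)) (zR Q R z))
    (fun Om Om' z hs hb => hb.mono (image_subset_image hs))
    (fun Om z w => o m (Om.image (zR Q R)) (zR Q R z) (zR Q R w)) k0 hk0b h2X h2Y η
    (3 * CR * (m : ℝ) ^ (d - 1)) hη0.le (by positivity)
    (by
      intro X' hX'
      have := hExt.small_left (hX'.trans hExt.hX)
      have h : (TP Nl X' Y : ℝ) ^ 2 * X.card ≤ (TP Nl X Y : ℝ) ^ 2 * X'.card := by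
        exact_mod_cast this
      linarith)
    (by
      intro Y' hY'
      have := hExt.small_right (hY'.trans hExt.hY)
      have h : (TP Nl X Y' : ℝ) ^ 2 * Y.card ≤ (TP Nl X Y : ℝ) ^ 2 * Y'.card := by
        exact_mod_cast this
      linarith)
    hbX hbY
    (fun B => CR * ((m : ℝ) ^ (d - 1) + m * (1 + (Nu397.nu B : ℝ))))
    (fun B => CR * ((m : ℝ) ^ (d - 1) + m * (1 + (Nu397.nu B : ℝ))))
    (fun B => by positivity) (fun B => by positivity)
    (fun A hA' B hB' _ _ x hx hb =>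
      hrk A B (hA'.trans hExt.hX) (hB'.trans hExt.hY) x (hExt.hX hx) hb)
    (fun A hA' B hB' _ _ y hy hb => by
      rw [union_comm] at hb
      have := hrk B A (hB'.trans hExt.hY) (hA'.trans hExt.hX) y (hExt.hY hy) hb
      simpa only [union_comm B A] using this)
    (fun k hk hk' => havg Y hExt.hY le_rfl k hk hk')
    (fun k hk hk' => havg X hExt.hX hYX k hk hk')
  -- numbers
  have hTp : (0 : ℝ) < TP Nl X Y := by exact_mod_cast hExt.pos
  have hX0 : (0 : ℝ) < X.card := by linarith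
  have hY0 : (0 : ℝ) < Y.card := by linarith
  have s1 : √(4 * (k0 : ℝ) / X.card) ≤ 1 / 32 := by
    rw [show (1 / 32 : ℝ) = √((1 / 32) ^ 2) by rw [Real.sqrt_sq (by norm_num)]]
    apply Real.sqrt_le_sqrt
    rw [div_le_iff₀ hX0]
    linarith
  have s2 : √(4 * (k0 : ℝ) / Y.card) ≤ 1 / 32 := by
    rw [show (1 / 32 : ℝ) = √((1 / 32) ^ 2) by rw [Real.sqrt_sq (by norm_num)]]
    apply Real.sqrt_le_sqrt
    rw [div_le_iff₀ hY0]
    linarith
  have s3 : √η = 1 / 16 := by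
    rw [hη, show (1 / 256 : ℝ) = (1 / 16) ^ 2 by norm_num, Real.sqrt_sq (by norm_num)]
  have hTt : (TP Nl X Y : ℝ) * t0 = (X.card : ℝ) * Y.card := by
    rw [ht0]; exact hExt.T_mul_t0
  have s4 : (X.card : ℝ) * Y.card * (2 * (3 * CR * (m : ℝ) ^ (d - 1)) + 2 * η) / k0 ≤
      1 / 8 * TP Nl X Y := by
    rw [div_le_iff₀ hk0pos, ← hTt]
    have f1 : (m : ℝ) ^ d ≤ 16 * K * k0 := by exact_mod_cast hk0c
    have f2 : (m : ℝ) ^ d = m * (m : ℝ) ^ (d - 1) := by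
      rw [← pow_succ', show d - 1 + 1 = d by omega]
    have f3 : (1 : ℝ) ≤ (m : ℝ) ^ (d - 1) := one_le_pow₀ hm1R
    have f4 : 2 * (3 * CR * (m : ℝ) ^ (d - 1)) + 2 * η ≤ (6 * CR + 2) * (m : ℝ) ^ (d - 1) := by
      rw [hη]; linarith
    have f5 : t0 * (2 * (3 * CR * (m : ℝ) ^ (d - 1)) + 2 * η) ≤ 1 / 8 * k0 := by
      have f6 : 128 * (K : ℝ) * (t0 * (2 * (3 * CR * (m : ℝ) ^ (d - 1)) + 2 * η)) ≤
          128 * K * (1 / 8 * k0) := by
        calc 128 * (K : ℝ) * (t0 * (2 * (3 * CR * (m : ℝ) ^ (d - 1)) + 2 * η)) ≤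
            128 * K * (t0 * ((6 * CR + 2) * (m : ℝ) ^ (d - 1))) := by gcongr
          _ = (128 * K * (6 * CR + 2)) * t0 * (m : ℝ) ^ (d - 1) := by ring
          _ ≤ C1 * t0 * (m : ℝ) ^ (d - 1) := by gcongr
          _ ≤ m * (m : ℝ) ^ (d - 1) := by
              have := hnum.mlo
              gcongr
          _ = (m : ℝ) ^ d := f2.symm
          _ ≤ 16 * K * k0 := f1
          _ = 128 * K * (1 / 8 * k0) := by ring
      exact le_of_mul_le_mul_left f6 (by positivity)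
    calc (TP Nl X Y : ℝ) * t0 * (2 * (3 * CR * (m : ℝ) ^ (d - 1)) + 2 * η)
        = TP Nl X Y * (t0 * (2 * (3 * CR * (m : ℝ) ^ (d - 1)) + 2 * η)) := by ring
      _ ≤ TP Nl X Y * (1 / 8 * k0) := by gcongr
      _ = 1 / 8 * TP Nl X Y * k0 := by ring
  have s5 : (√(4 * (k0 : ℝ) / X.card) + √(4 * (k0 : ℝ) / Y.card) + 2 * √η) * TP Nl X Y ≤
      (1 / 32 + 1 / 32 + 2 * (1 / 16)) * TP Nl X Y := by
    rw [s3]; gcongr
  have : (TP Nl X Y : ℝ) ≤ (1 / 32 + 1 / 32 + 2 * (1 / 16)) * TP Nl X Y + 1 / 8 * TP Nl X Y :=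
    heng.trans (add_le_add s5 s4)
  linarith

end Crest.Agent.R065.M4
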