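import Crest.Agent.R065.Prime_669
import Crest.Agent.R065.Mult_496c
import Crest.Agent.R065.CM_474

/-!
# Multiplicity bound and derivation lemma, final forms (row 65)

`height P + dimP P = |σ|`; `length (R_P / (P_{≤ D}) R_P) * degP P ≤ ∏ d_j`; derivation lemma.
-/

set_option autoImplicit false

open MvPolynomial Module

namespace Crest.Agent.R065.Mult496

open Crest.Agent.R065.HF669

variable {k : Type*} [Field k] {σ : Type*}

section

variable [Infinite k] [Fintype σ] (P : Ideal (MvPolynomial σ k)) [hP : P.IsPrime]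

theorem exists_degData_dimP : ∃ b, DegData P (dimP P) (degP P) b := by
  obtain ⟨b, hb⟩ := (isDimDeg P).ge
  exact ⟨b, (isDimDeg P).pos, (isDimDeg P).le, hb⟩

/-- **dimension formula** -/
theorem height_add_dimP : P.height + dimP P = Fintype.card σ := by
  obtain ⟨b, hb⟩ := exists_degData_dimP P
  exact hb.height_add

variable {P}

theorem height_eq {c : ℕ} (hc : dimP P + c = Fintype.card σ) : P.height = c := by
  have h1 := height_add_dimP P
  have h2 : P.height ≠ ⊤ := by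
    intro htop
    rw [htop, top_add] at h1
    exact ENat.top_ne_natCast _ h1
  obtain ⟨n, hn⟩ := ENat.ne_top_iff_exists.1 h2
  rw [← hn] at h1 ⊢
  have h3 : n + dimP P = Fintype.card σ := by exact_mod_cast h1
  have : n = c := by omega
  rw [this]

theorem le_height_of {l : ℕ} (h : dimP P + l ≤ Fintype.card σ) : (l : ℕ∞) ≤ P.height := by
  have h1 := height_eq (P := P) (c := Fintype.card σ - dimP P) (by omega)
  rw [h1]
  exact_mod_cast (by omega : l ≤ Fintype.card σ - dimP P)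


/-- existence of a regular sequence of prescribed degrees in `P` -/
theorem exists_regChain {c : ℕ} (hc : dimP P + c = Fintype.card σ) (d : ℕ → ℕ)
    (hd : ∀ j < c, ∀ Q : Ideal (MvPolynomial σ k), Q.IsPrime → Q ≤ P →
      (∀ g ∈ P, g.totalDegree ≤ d j → g ∈ Q) → dimP Q + (j + 1) ≤ Fintype.card σ) :
    ∃ (f : ℕ → MvPolynomial σ k) (J : ℕ → Ideal (MvPolynomial σ k)), RegChain J f d c ∧
      J 0 = ⊥ ∧ (∀ j, f j ∈ P ∧ (f j).totalDegree ≤ d j) ∧ (∀ j ≤ c, J j ≤ P) ∧
      (J c).radical = P ∧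
      J c = (Ideal.span {x | ∃ i < c, x = algebraMap (MvPolynomial σ k)
        (Localization.AtPrime P) (f i)}).comap
          (algebraMap (MvPolynomial σ k) (Localization.AtPrime P)) := by
  obtain ⟨f, J, h0, hf, hJ, hJP, -, hrad, hcom⟩ := CM474.exists_regular_seq (P := P)
    (height_eq hc) (fun j => W k σ (d j) ⊓ P.restrictScalars k) (fun j => inf_le_right)
    (fun j hj Q hQ hQP hV => by
      refine le_height_of (hd j hj Q hQ hQP fun g hg hgd => ?_)
      exact hV ⟨mem_W.2 hgd, hg⟩)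
  refine ⟨f, J, ⟨fun j hj => (hJ j hj).2.1, fun j hj => (hJ j hj).1, fun j hj =>
    mem_W.1 (hf j).1, fun j hj => (hJ j hj).2.2⟩, h0, fun j => ⟨(hf j).2, mem_W.1 (hf j).1⟩, hJP,
    hrad, hcom c⟩

/-- **Multiplicity bound.** -/
theorem length_mul_degP_le {c : ℕ} (hc : dimP P + c = Fintype.card σ) (d : ℕ → ℕ) {D : ℕ}
    (hdD : ∀ j < c, d j ≤ D)
    (hd : ∀ j < c, ∀ Q : Ideal (MvPolynomial σ k), Q.IsPrime → Q ≤ P →
      (∀ g ∈ P, g.totalDegree ≤ d j → g ∈ Q) → dimP Q + (j + 1) ≤ Fintype.card σ) :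
    ∃ N : ℕ, Module.length (Localization.AtPrime P) (Localization.AtPrime P ⧸
      (Ideal.span {g | g ∈ P ∧ g.totalDegree ≤ D}).map
        (algebraMap (MvPolynomial σ k) (Localization.AtPrime P))) = N ∧
      N * degP P ≤ ∏ j ∈ Finset.range c, d j := by
  obtain ⟨f, J, hreg, -, hf, -, -, hcom⟩ := exists_regChain hc d hd
  obtain ⟨b, hb⟩ := exists_degData_dimP P
  refine hreg.length_mul_le_prod' hb.pos (r := dimP P) (b := b) (by omega) hb.ge _ ?_
  rw [hcom]
  refine Ideal.comap_mono (Ideal.span_le.2 ?_)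
  rintro _ ⟨i, hi, rfl⟩
  exact Ideal.mem_map_of_mem _ (Ideal.subset_span ⟨(hf i).1, (hf i).2.trans (hdD i hi)⟩)

/-- **Derivation lemma.** -/
theorem derivation_mem [CharZero k] {c : ℕ} (hc : dimP P + c = Fintype.card σ) (d : ℕ → ℕ)
    {D D' L : ℕ} (hdD : ∀ j < c, d j ≤ D')
    (hd : ∀ j < c, ∀ Q : Ideal (MvPolynomial σ k), Q.IsPrime → Q ≤ P →
      (∀ g ∈ P, g.totalDegree ≤ d j → g ∈ Q) → dimP Q + (j + 1) ≤ Fintype.card σ)
    (hL : ∏ j ∈ Finset.range c, d j < (L + 1) * degP P)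
    (E : Derivation ℤ (MvPolynomial σ k) (MvPolynomial σ k))
    (hE : ∀ g, (E g).totalDegree ≤ g.totalDegree + D)
    (hE' : ∀ g ∈ P, g.totalDegree ≤ D' + L * D → E g ∈ P) : ∀ w ∈ P, E w ∈ P := by
  obtain ⟨N, hN, hN'⟩ := length_mul_degP_le hc d hdD hd
  refine derivation_mem_of_length (natCast_notMem hP) E hE (D' := D') (L := L) ?_ hE'
  rw [hN]
  have h1 : N * degP P < (L + 1) * degP P := lt_of_le_of_lt hN' hL
  have h2 : N < L + 1 := Nat.lt_of_mul_lt_mul_right h1
  exact_mod_cast (by omega : N ≤ L)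

end

end Crest.Agent.R065.Mult496
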