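import Mathlib
import Crest.Agent.R065.M4defs_96
import Crest.Agent.R065.Cut_477
import Crest.Agent.R065.Flags_669
import Crest.Agent.R065.Pins_348

-- ▼ part R065/ExtP_580
section

/-!
# Row 65, d ≥ 4 engine (272 #15513), (E1): the extremal pair, purely finite

`TP r X Y` = number of pairs `(x, y) ∈ X × Y` with `r x y`.
`exists_extremal` : among the nonempty `X, Y ⊆ Z` choose a maximiser of `TP² / (|X| |Y|)`,
with `|Y| ≤ |X|` (symmetric relation).
-/

set_option autoImplicit false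

namespace Crest.Agent.R065.ExtP580

open Finset

variable {α : Type*}

open scoped Classical in
/-- number of related pairs in `X × Y` -/
noncomputable def TP (r : α → α → Prop) (X Y : Finset α) : ℕ :=
  ((X ×ˢ Y).filter fun p => r p.1 p.2).card

open scoped Classical in
/-- neighbours of `z` in `X` -/
noncomputable def dg (r : α → α → Prop) (X : Finset α) (z : α) : ℕ :=
  (X.filter fun w => r z w).card

section basic

variable {r : α → α → Prop}

lemma TP_eq_sum (X Y : Finset α) : TP r X Y = ∑ x ∈ X, dg r Y x := by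
  classical
  unfold TP dg
  rw [card_filter, sum_product]
  exact sum_congr rfl fun x _ => (card_filter _ _).symm

lemma TP_comm (hs : ∀ z w, r z w → r w z) (X Y : Finset α) : TP r X Y = TP r Y X := by
  classical
  unfold TP
  refine card_bij (fun p _ => (p.2, p.1)) ?_ ?_ ?_
  · intro p hp
    rw [mem_filter, mem_product] at hp ⊢
    exact ⟨⟨hp.1.2, hp.1.1⟩, hs _ _ hp.2⟩
  · intro p _ q _ h
    have h1 := congrArg Prod.fst h
    have h2 := congrArg Prod.snd h
    exact Prod.ext h2 h1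
  · intro p hp
    rw [mem_filter, mem_product] at hp
    refine ⟨(p.2, p.1), ?_, rfl⟩
    rw [mem_filter, mem_product]
    exact ⟨⟨hp.1.2, hp.1.1⟩, hs _ _ hp.2⟩

lemma TP_eq_sum' (hs : ∀ z w, r z w → r w z) (X Y : Finset α) :
    TP r X Y = ∑ y ∈ Y, dg r X y := by
  rw [TP_comm hs, TP_eq_sum]


lemma TP_le (X Y : Finset α) : TP r X Y ≤ X.card * Y.card := by
  classical
  unfold TP
  refine (card_filter_le _ _).trans ?_
  rw [card_product]


lemma TP_empty_left (Y : Finset α) : TP r ∅ Y = 0 := by simp [TP]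

lemma TP_empty_right (X : Finset α) : TP r X ∅ = 0 := by simp [TP]



lemma TP_erase_right [DecidableEq α] (hs : ∀ z w, r z w → r w z) {X Y : Finset α} {y : α}
    (hy : y ∈ Y) : TP r X Y = TP r X (Y.erase y) + dg r X y := by
  rw [TP_eq_sum' hs, TP_eq_sum' hs, ← Finset.add_sum_erase Y _ hy, add_comm]

end basic

/-- the extremal pair -/
structure Ext (r : α → α → Prop) (Z X Y : Finset α) : Prop where
  hX : X ⊆ Z
  hY : Y ⊆ Z
  neX : X.Nonempty
  neY : Y.Nonempty
  le : Y.card ≤ X.card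
  pos : 0 < TP r X Y
  max : ∀ X' ⊆ Z, ∀ Y' ⊆ Z,
    TP r X' Y' ^ 2 * (X.card * Y.card) ≤ TP r X Y ^ 2 * (X'.card * Y'.card)

/-- existence of the extremal pair -/
theorem exists_extremal {r : α → α → Prop} (hs : ∀ z w, r z w → r w z) {Z : Finset α}
    (hT : 0 < TP r Z Z) : ∃ X Y : Finset α, Ext r Z X Y := by
  classical
  have hZ : Z.Nonempty := by
    rw [nonempty_iff_ne_empty]
    rintro rfl
    rw [TP_empty_left] at hT
    exact lt_irrefl _ hT
  let S : Finset (Finset α × Finset α) :=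
    (Z.powerset ×ˢ Z.powerset).filter fun p => p.1.Nonempty ∧ p.2.Nonempty
  let Q : Finset α × Finset α → ℚ := fun p =>
    (TP r p.1 p.2 : ℚ) ^ 2 / ((p.1.card : ℚ) * (p.2.card : ℚ))
  have hS : S.Nonempty := ⟨(Z, Z), by simp [S, hZ]⟩
  obtain ⟨⟨X₀, Y₀⟩, hm, hmax⟩ := S.exists_max_image Q hS
  have hm' : (X₀ ⊆ Z ∧ Y₀ ⊆ Z) ∧ X₀.Nonempty ∧ Y₀.Nonempty := by
    simpa [S] using hm
  obtain ⟨⟨hX, hY⟩, hnX, hnY⟩ := hm'
  have key : ∀ X' ⊆ Z, ∀ Y' ⊆ Z,
      TP r X' Y' ^ 2 * (X₀.card * Y₀.card) ≤ TP r X₀ Y₀ ^ 2 * (X'.card * Y'.card) := by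
    intro X' hX' Y' hY'
    rcases X'.eq_empty_or_nonempty with h1 | h1
    · subst h1; simp [TP_empty_left]
    rcases Y'.eq_empty_or_nonempty with h2 | h2
    · subst h2; simp [TP_empty_right]
    have h3 := hmax (X', Y') (by simp [S, hX', hY', h1, h2])
    simp only [Q] at h3
    have a1 : (0 : ℚ) < (X'.card : ℚ) * (Y'.card : ℚ) := by
      have := card_pos.2 h1
      have := card_pos.2 h2
      positivity
    have a2 : (0 : ℚ) < (X₀.card : ℚ) * (Y₀.card : ℚ) := by
      have := card_pos.2 hnX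
      have := card_pos.2 hnY
      positivity
    rw [div_le_div_iff₀ a1 a2] at h3
    exact_mod_cast h3
  have hpos : 0 < TP r X₀ Y₀ := by
    have h := key Z subset_rfl Z subset_rfl
    have hz := card_pos.2 hnX
    have hz' := card_pos.2 hnY
    rcases Nat.eq_zero_or_pos (TP r X₀ Y₀) with h0 | h0
    · rw [h0] at h
      have : 0 < TP r Z Z ^ 2 * (X₀.card * Y₀.card) := by positivity
      simp at h
      rcases h with h | h | h
      · omega
      · exact absurd h (nonempty_iff_ne_empty.1 hnX)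
      · exact absurd h (nonempty_iff_ne_empty.1 hnY)
    · exact h0
  rcases le_total Y₀.card X₀.card with hle | hle
  · exact ⟨X₀, Y₀, hX, hY, hnX, hnY, hle, hpos, key⟩
  · refine ⟨Y₀, X₀, hY, hX, hnY, hnX, hle, by rwa [TP_comm hs], ?_⟩
    intro X' hX' Y' hY'
    have := key Y' hY' X' hX'
    rw [TP_comm hs X' Y', TP_comm hs Y₀ X₀, mul_comm Y₀.card, mul_comm X'.card]
    exact this

namespace Ext

variable {r : α → α → Prop} {Z X Y : Finset α}

lemma cardX_pos (h : Ext r Z X Y) : 0 < X.card := card_pos.2 h.neX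

lemma cardY_pos (h : Ext r Z X Y) : 0 < Y.card := card_pos.2 h.neY

/-- `T(Z,Z)² |X| |Y| ≤ T² |Z|²` -/
lemma lam_le (h : Ext r Z X Y) :
    TP r Z Z ^ 2 * (X.card * Y.card) ≤ TP r X Y ^ 2 * Z.card ^ 2 := by
  have := h.max Z subset_rfl Z subset_rfl
  rwa [← sq Z.card] at this

/-- (a) left -/
lemma small_left (h : Ext r Z X Y) {X' : Finset α} (hX' : X' ⊆ Z) :
    TP r X' Y ^ 2 * X.card ≤ TP r X Y ^ 2 * X'.card := by
  have h1 := h.max X' hX' Y h.hY
  have h2 := h.cardY_pos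
  refine Nat.le_of_mul_le_mul_right ?_ h2
  calc TP r X' Y ^ 2 * X.card * Y.card = TP r X' Y ^ 2 * (X.card * Y.card) := by ring
    _ ≤ TP r X Y ^ 2 * (X'.card * Y.card) := h1
    _ = TP r X Y ^ 2 * X'.card * Y.card := by ring

/-- (a) right -/
lemma small_right (h : Ext r Z X Y) {Y' : Finset α} (hY' : Y' ⊆ Z) :
    TP r X Y' ^ 2 * Y.card ≤ TP r X Y ^ 2 * Y'.card := by
  have h1 := h.max X h.hX Y' hY'
  have h2 := h.cardX_pos
  refine Nat.le_of_mul_le_mul_right ?_ h2
  calc TP r X Y' ^ 2 * Y.card * X.card = TP r X Y' ^ 2 * (X.card * Y.card) := by ring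
    _ ≤ TP r X Y ^ 2 * (X.card * Y'.card) := h1
    _ = TP r X Y ^ 2 * Y'.card * X.card := by ring



/-- (b) minimal degree on the `Y` side -/
lemma deg_right (h : Ext r Z X Y) (hs : ∀ z w, r z w → r w z) {y : α} (hy : y ∈ Y) :
    TP r X Y ≤ 2 * Y.card * dg r X y := by
  classical
  have h0 := TP_erase_right (X := X) hs hy
  have h1 := h.small_right (Y' := Y.erase y) ((erase_subset _ _).trans h.hY)
  have hc : (Y.erase y).card + 1 = Y.card := card_erase_add_one hy
  set a := TP r X (Y.erase y)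
  set D := dg r X y
  set T := TP r X Y
  set c := (Y.erase y).card
  have hT : 0 < T := h.pos
  rw [← hc] at h1 ⊢
  -- a = T - D,  a² (c+1) ≤ T² c
  have h2 : (a : ℤ) = T - D := by push_cast [h0]; ring
  have h3 : (a : ℤ) ^ 2 * (c + 1) ≤ (T : ℤ) ^ 2 * c := by exact_mod_cast h1
  have h4 : (T : ℤ) ≤ 2 * (c + 1) * D := by
    rw [h2] at h3
    have hT' : (0 : ℤ) < T := by exact_mod_cast hT
    by_contra hcon
    push Not at hcon
    have h5 : 2 * ((c : ℤ) + 1) * D * T < T * T := by nlinarith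
    nlinarith [sq_nonneg (D : ℤ), mul_nonneg (Int.natCast_nonneg c) (sq_nonneg (D : ℤ))]
  exact_mod_cast h4


/-- the parameter `t₀ = |X||Y| / T` -/
noncomputable def t0 (r : α → α → Prop) (X Y : Finset α) : ℝ :=
  (X.card : ℝ) * Y.card / TP r X Y

lemma one_le_t0 (h : Ext r Z X Y) : 1 ≤ t0 r X Y := by
  unfold t0
  have h1 : (0 : ℝ) < TP r X Y := by exact_mod_cast h.pos
  rw [le_div_iff₀ h1, one_mul]
  exact_mod_cast TP_le X Y

lemma T_mul_t0 (h : Ext r Z X Y) : TP r X Y * t0 r X Y = (X.card : ℝ) * Y.card := by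
  unfold t0
  have h1 : (0 : ℝ) < TP r X Y := by exact_mod_cast h.pos
  field_simp

/-- (c): if `|Z|² ≤ 2 t T(Z,Z)` then `t₀² |Z|² ≤ 4 t² |X| |Y|` -/
lemma t0_sq_le (h : Ext r Z X Y) {t : ℝ} (ht : 0 < t)
    (hZ : (Z.card : ℝ) ^ 2 ≤ 2 * t * TP r Z Z) :
    t0 r X Y ^ 2 * (Z.card : ℝ) ^ 2 ≤ 4 * t ^ 2 * ((X.card : ℝ) * Y.card) := by
  have h1 : (0 : ℝ) < TP r X Y := by exact_mod_cast h.pos
  have hl : (TP r Z Z : ℝ) ^ 2 * ((X.card : ℝ) * Y.card) ≤ (TP r X Y : ℝ) ^ 2 * (Z.card : ℝ) ^ 2 := by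
    exact_mod_cast h.lam_le
  have hzp : (0 : ℝ) < Z.card := by
    have := card_le_card h.hX
    have := h.cardX_pos
    have : 0 < Z.card := by omega
    exact_mod_cast this
  set N := (Z.card : ℝ)
  set W := (X.card : ℝ) * Y.card
  set T := (TP r X Y : ℝ)
  set E := (TP r Z Z : ℝ)
  have hW : 0 ≤ W := by positivity
  have hE : 0 ≤ E := by positivity
  have h2 : t0 r X Y = W / T := rfl
  rw [h2, div_pow, div_mul_eq_mul_div, div_le_iff₀ (by positivity)]
  -- W² N² ≤ 4 t² W T²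
  have h3 : N ^ 2 * N ^ 2 ≤ 4 * t ^ 2 * E ^ 2 := by
    calc N ^ 2 * N ^ 2 ≤ (2 * t * E) * (2 * t * E) :=
          mul_le_mul hZ hZ (by positivity) (by positivity)
      _ = 4 * t ^ 2 * E ^ 2 := by ring
  have h4 : W * N ^ 2 * N ^ 2 ≤ 4 * t ^ 2 * T ^ 2 * N ^ 2 := by
    calc W * N ^ 2 * N ^ 2 = W * (N ^ 2 * N ^ 2) := by ring
      _ ≤ W * (4 * t ^ 2 * E ^ 2) := mul_le_mul_of_nonneg_left h3 hW
      _ = 4 * t ^ 2 * (E ^ 2 * W) := by ring
      _ ≤ 4 * t ^ 2 * (T ^ 2 * N ^ 2) := mul_le_mul_of_nonneg_left hl (by positivity)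
      _ = 4 * t ^ 2 * T ^ 2 * N ^ 2 := by ring
  have h5 : W * N ^ 2 ≤ 4 * t ^ 2 * T ^ 2 := le_of_mul_le_mul_right h4 (by positivity)
  calc W ^ 2 * N ^ 2 = W * (W * N ^ 2) := by ring
    _ ≤ W * (4 * t ^ 2 * T ^ 2) := mul_le_mul_of_nonneg_left h5 hW
    _ = 4 * t ^ 2 * W * T ^ 2 := by ring

/-- `t₀ |Z| ≤ 2 t |X|` -/
lemma t0_le_X (h : Ext r Z X Y) {t : ℝ} (ht : 0 < t)
    (hZ : (Z.card : ℝ) ^ 2 ≤ 2 * t * TP r Z Z) :
    t0 r X Y * (Z.card : ℝ) ≤ 2 * t * X.card := by
  have h1 := h.t0_sq_le ht hZ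
  have h2 : (Y.card : ℝ) ≤ X.card := by exact_mod_cast h.le
  have h3 : (t0 r X Y * (Z.card : ℝ)) ^ 2 ≤ (2 * t * X.card) ^ 2 := by
    calc (t0 r X Y * (Z.card : ℝ)) ^ 2 = t0 r X Y ^ 2 * (Z.card : ℝ) ^ 2 := by ring
      _ ≤ 4 * t ^ 2 * ((X.card : ℝ) * Y.card) := h1
      _ ≤ 4 * t ^ 2 * ((X.card : ℝ) * X.card) := by gcongr
      _ = (2 * t * X.card) ^ 2 := by ring
  exact le_of_sq_le_sq h3 (by positivity)

/-- `t₀ ≤ 2 t` -/
lemma t0_le (h : Ext r Z X Y) {t : ℝ} (ht : 0 < t)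
    (hZ : (Z.card : ℝ) ^ 2 ≤ 2 * t * TP r Z Z) : t0 r X Y ≤ 2 * t := by
  have h1 := h.t0_le_X ht hZ
  have h2 : (X.card : ℝ) ≤ Z.card := by exact_mod_cast card_le_card h.hX
  have h3 : (0 : ℝ) < Z.card := by
    have : (0 : ℝ) < X.card := by exact_mod_cast h.cardX_pos
    linarith
  have h4 : t0 r X Y * (Z.card : ℝ) ≤ 2 * t * Z.card := h1.trans (by gcongr)
  exact le_of_mul_le_mul_right h4 h3

/-- (d): `|X| |Z|² ≤ 4 t² · (...)`: `|Z|² ≤ 4 t² |X| |Y|` -/
lemma card_sq_le (h : Ext r Z X Y) {t : ℝ} (ht : 0 < t)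
    (hZ : (Z.card : ℝ) ^ 2 ≤ 2 * t * TP r Z Z) :
    (Z.card : ℝ) ^ 2 ≤ 4 * t ^ 2 * ((X.card : ℝ) * Y.card) := by
  have h1 := h.t0_sq_le ht hZ
  have h2 := h.one_le_t0
  have h3 : (1 : ℝ) ≤ t0 r X Y ^ 2 := by nlinarith
  calc (Z.card : ℝ) ^ 2 = 1 * (Z.card : ℝ) ^ 2 := by ring
    _ ≤ t0 r X Y ^ 2 * (Z.card : ℝ) ^ 2 := by gcongr
    _ ≤ _ := h1

/-- (d): `|X| ≤ 4 t² |Y|` -/
lemma X_le_Y (h : Ext r Z X Y) {t : ℝ} (ht : 0 < t)
    (hZ : (Z.card : ℝ) ^ 2 ≤ 2 * t * TP r Z Z) :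
    (X.card : ℝ) ≤ 4 * t ^ 2 * Y.card := by
  have h1 := h.card_sq_le ht hZ
  have h2 : (X.card : ℝ) ≤ Z.card := by exact_mod_cast card_le_card h.hX
  have h3 : (0 : ℝ) < X.card := by exact_mod_cast h.cardX_pos
  have h4 : (X.card : ℝ) * X.card ≤ 4 * t ^ 2 * Y.card * X.card := by
    calc (X.card : ℝ) * X.card ≤ (Z.card : ℝ) ^ 2 := by nlinarith
      _ ≤ 4 * t ^ 2 * ((X.card : ℝ) * Y.card) := h1
      _ = 4 * t ^ 2 * Y.card * X.card := by ring
  exact le_of_mul_le_mul_right h4 h3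

/-- degrees of the `Y` side: `|X| ≤ 2 t₀ deg_X(y)` -/
lemma deg_right_t0 (h : Ext r Z X Y) (hs : ∀ z w, r z w → r w z) {y : α} (hy : y ∈ Y) :
    (X.card : ℝ) ≤ 2 * t0 r X Y * dg r X y := by
  have h1 : (TP r X Y : ℝ) ≤ 2 * Y.card * dg r X y := by exact_mod_cast h.deg_right hs hy
  have hT : (0 : ℝ) < TP r X Y := by exact_mod_cast h.pos
  have hY : (0 : ℝ) < Y.card := by exact_mod_cast h.cardY_pos
  have h2 : t0 r X Y = (X.card : ℝ) * Y.card / TP r X Y := rfl
  rw [h2]
  have h3 : (X.card : ℝ) * TP r X Y ≤ 2 * ((X.card : ℝ) * Y.card) * dg r X y := by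
    calc (X.card : ℝ) * TP r X Y ≤ (X.card : ℝ) * (2 * Y.card * dg r X y) := by gcongr
      _ = _ := by ring
  rw [show 2 * ((X.card : ℝ) * Y.card / TP r X Y) * (dg r X y : ℝ) =
    (2 * ((X.card : ℝ) * Y.card) * dg r X y) / TP r X Y by ring, le_div_iff₀ hT]
  exact h3

end Ext

end Crest.Agent.R065.ExtP580
end

-- ▼ part R065/M4a_96
section

/-!
# Row 65, `d ≥ 4`: bad points, cliques and the rank lemma in the frame `P ×ˢ P`
-/

set_option autoImplicit false

open MvPolynomial Module Finset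

namespace Crest.Agent.R065.M4

open Crest.Agent.R065.HF669 Crest.Agent.R065.Base348 Crest.Agent.R065.Top348
  Crest.Agent.R065.Pins348 Crest.Agent.R065.ExtP580

variable {d : ℕ} (Q R : E d ≃ₗᵢ[ℝ] E d)

lemma zR_injective : Function.Injective (zR Q R) := by
  intro z w h
  obtain ⟨h1, h2⟩ := zc_injective h
  exact Prod.ext (Q.injective h1) (R.injective h2)

lemma null_zR (z w : E d × E d) :
    Null (zR Q R z) (zR Q R w) ↔ dist z.1 w.1 = dist z.2 w.2 := by
  unfold zR
  rw [null_zc, LinearIsometryEquiv.dist_map, LinearIsometryEquiv.dist_map]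

open scoped Classical in
lemma card_image_zR (X : Finset (E d × E d)) : (X.image (zR Q R)).card = X.card :=
  card_image_of_injective _ (zR_injective Q R)

open scoped Classical in
/-- pairwise null subsets come from sets of pairs with equal distances -/
lemma nullLe_image {X : Finset (E d × E d)} {ν : ℝ}
    (h : ∀ S ⊆ X, (∀ z ∈ S, ∀ w ∈ S, dist z.1 w.1 = dist z.2 w.2) → (S.card : ℝ) ≤ ν) :
    NullLe (X.image (zR Q R)) ν := by
  intro Y hY hnull
  obtain ⟨S, hS, rfl⟩ := subset_image_iff.1 hY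
  rw [card_image_zR]
  refine h S ?_ ?_
  · exact hS
  · intro z hz w hw
    rw [← null_zR Q R]
    exact hnull _ (mem_image_of_mem _ hz) _ (mem_image_of_mem _ hw)

open scoped Classical in
lemma card_le_fst {S : Finset (E d × E d)}
    (h : ∀ z ∈ S, ∀ w ∈ S, dist z.1 w.1 = dist z.2 w.2) : S.card ≤ (S.image Prod.fst).card := by
  rw [card_image_of_injOn]
  intro z hz w hw heq
  have h1 := h z hz w hw
  rw [show z.1 = w.1 from heq, dist_self] at h1
  exact Prod.ext heq (dist_eq_zero.1 h1.symm)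

open scoped Classical in
/-- cliques inside `P ×ˢ P` -/
lemma nullLe_prod {P : Finset (E d)} {X : Finset (E d × E d)} (hX : X ⊆ P ×ˢ P) :
    NullLe (X.image (zR Q R)) P.card := by
  refine nullLe_image Q R fun S hS h => ?_
  have h1 := card_le_fst h
  have h2 : (S.image Prod.fst).card ≤ P.card := by
    refine card_le_card fun a ha => ?_
    obtain ⟨z, hz, rfl⟩ := mem_image.1 ha
    exact (mem_product.1 (hX (hS hz))).1
  exact_mod_cast h1.trans h2

open scoped Classical in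
/-- the trivial bound from separation -/
lemma onP_le {X : Finset (Pt d ℂ)} {T : ℕ} (hs : Sep (toFn '' (X : Set (Pt d ℂ))) T)
    (I : Ideal (MvPolynomial (Fin d ⊕ Fin d) ℂ)) [I.IsPrime] :
    ((onP X I).card : ℝ) ≤ ((T + dimP I).choose (dimP I) : ℝ) * degP I := by
  have h1 : ((onP X I).image toFn).card ≤ HF I T := by
    apply card_le_HF
    · intro a ha
      obtain ⟨w, hw, rfl⟩ := mem_image.1 (mem_coe.1 ha)
      exact (mem_filter.1 hw).2
    · refine hs.subset ?_
      intro a ha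
      obtain ⟨w, hw, rfl⟩ := mem_image.1 (mem_coe.1 ha)
      exact ⟨w, mem_coe.2 (mem_filter.1 hw).1, rfl⟩
  rw [card_image_of_injective _ toFn_injective] at h1
  have h2 := h1.trans (HF_le_degP I T)
  have h3 : ((onP X I).card : ℝ) ≤ (degP I : ℝ) * ((T + dimP I).choose (dimP I) : ℝ) := by
    exact_mod_cast h2
  linarith [mul_comm (degP I : ℝ) ((T + dimP I).choose (dimP I) : ℝ)]

/-- `C(T + r, r) ≤ ((r+1) T)^r` -/
lemma choose_le_pow {T : ℕ} (hT : 1 ≤ T) (r : ℕ) : (T + r).choose r ≤ ((r + 1) * T) ^ r := by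
  refine (Nat.choose_le_pow _ _).trans ?_
  refine Nat.pow_le_pow_left ?_ r
  nlinarith

section bad

variable {C : ℝ} {m : ℕ}

open scoped Classical in
/-- number of bad points of `X` -/
lemma bad_card
    (hC : ∀ (m : ℕ) (f : MvPolynomial (Pr d ⊕ Fin d) ℂ) (Sg : Finset (Pt d ℂ))
      (τ : ℕ → ℝ) (ν : ℝ), 1 ≤ m → f ≠ 0 → f.totalDegree ≤ m → (∀ w ∈ Sg, res w f = 0) →
      (∀ r, 1 ≤ τ r) → 1 ≤ ν →
      (∀ P : Ideal (MvPolynomial (Fin d ⊕ Fin d) ℂ), P.IsPrime → dimP P < d →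
        ((onP Sg P).card : ℝ) ≤ τ (dimP P) * degP P) →
      NullLe Sg ν →
      (Sg.card : ℝ) ≤ C * (∑ r ∈ range d, (m : ℝ) ^ (d - r) * τ r + m * ν))
    (hm : 1 ≤ m) {Om : Finset (E d × E d)} (hOm : Om.card * Kd d < (m + 1) ^ d)
    (X : Finset (E d × E d)) (τ : ℕ → ℝ) (ν : ℝ) (hτ1 : ∀ r, 1 ≤ τ r) (hν1 : 1 ≤ ν)
    (hτ : ∀ I : Ideal (MvPolynomial (Fin d ⊕ Fin d) ℂ), I.IsPrime → dimP I < d →
      ((onP (X.image (zR Q R)) I).card : ℝ) ≤ τ (dimP I) * degP I)
    (hν : NullLe (X.image (zR Q R)) ν) :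
    ((X.filter fun x => IsBad m (Om.image (zR Q R)) (zR Q R x)).card : ℝ) ≤
      C * (∑ r ∈ range d, (m : ℝ) ^ (d - r) * τ r + m * ν) := by
  obtain ⟨f, f1, f2, f3⟩ := exists_res_eq_zero' (Om.image (zR Q R)) m (by
    rw [card_image_zR]; exact hOm)
  have hsub : (X.filter fun x => IsBad m (Om.image (zR Q R)) (zR Q R x)).image (zR Q R) ⊆
      X.image (zR Q R) := image_subset_image (filter_subset _ _)
  have h := hC m f ((X.filter fun x => IsBad m (Om.image (zR Q R)) (zR Q R x)).image (zR Q R))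
    τ ν hm f2 f1 ?_ hτ1 hν1 ?_ ?_
  · rwa [card_image_zR] at h
  · intro w hw
    obtain ⟨x, hx, rfl⟩ := mem_image.1 hw
    exact (mem_filter.1 hx).2 f ⟨f1, f3⟩
  · intro I hI hdim
    refine le_trans ?_ (hτ I hI hdim)
    have : onP ((X.filter fun x => IsBad m (Om.image (zR Q R)) (zR Q R x)).image (zR Q R)) I ⊆
        onP (X.image (zR Q R)) I := filter_subset_filter _ hsub
    exact_mod_cast card_le_card this
  · intro Y hY hnull
    exact hν Y (hY.trans hsub) hnull

end bad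

/-- monotonicity of badness -/
lemma IsBad.mono {m : ℕ} {Om Om' : Finset (Pt d ℂ)} {z : Pt d ℂ} (h : IsBad m Om z)
    (hs : Om ⊆ Om') : IsBad m Om' z :=
  fun f hf => h f ⟨hf.1, fun w hw => hf.2 w (hs hw)⟩


open scoped Classical in
/-- the rank lemma in the frame -/
lemma rank_card {m : ℕ} {C : ℝ} {o : ℕ → Finset (Pt d ℂ) → Pt d ℂ → Pt d ℂ → ℕ∞}
    (hC : ∀ (m : ℕ) (Om : Finset (Pt d ℂ)) (z : Pt d ℂ) (ν : ℝ), 1 ≤ m → 1 ≤ ν → ¬ IsBad m Om z →
      ∀ Sg ⊆ Om,
      (∀ w ∈ Sg, Null z w ∧ (∀ i, w.1 i ≠ z.1 i) ∧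
        o m (Om.erase w) w z ≤ o m (Om.erase w) z w) →
      NullLe Sg ν → (Sg.card : ℝ) ≤ C * ((m : ℝ) ^ (d - 1) + m * ν))
    (hm : 1 ≤ m) {Om S : Finset (E d × E d)} {x : E d × E d} (hS : S ⊆ Om)
    (hx : ¬ IsBad m (Om.image (zR Q R)) (zR Q R x))
    (hgen : ∀ y ∈ S, y ≠ x → ∀ i, (zR Q R y).1 i ≠ (zR Q R x).1 i)
    (hS' : ∀ y ∈ S, Nl x y ∧ o m ((Om.erase y).image (zR Q R)) (zR Q R y) (zR Q R x) ≤
      o m ((Om.erase y).image (zR Q R)) (zR Q R x) (zR Q R y))
    {ν : ℝ} (hν1 : 1 ≤ ν)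
    (hν : ∀ N ⊆ S, (∀ z ∈ N, ∀ w ∈ N, dist z.1 w.1 = dist z.2 w.2) → (N.card : ℝ) ≤ ν) :
    (S.card : ℝ) ≤ C * ((m : ℝ) ^ (d - 1) + m * ν) := by
  have h := hC m (Om.image (zR Q R)) (zR Q R x) ν hm hν1 hx (S.image (zR Q R))
    (image_subset_image hS) ?_ (nullLe_image Q R hν)
  · rwa [card_image_zR] at h
  · intro w hw
    obtain ⟨y, hy, rfl⟩ := mem_image.1 hw
    obtain ⟨h1, h2⟩ := hS' y hy
    refine ⟨(null_zR Q R _ _).2 h1.1, hgen y hy h1.2.symm, ?_⟩
    rw [← image_erase (zR_injective Q R)]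
    exact h2

end Crest.Agent.R065.M4
end

-- ▼ part R065/M4num_96
section

/-!
# Row 65, `d ≥ 4`: numerics of the master
-/

set_option autoImplicit false

open Finset

namespace Crest.Agent.R065.M4

/-- common numerical data: `N = n²`, `u = 8 C₁ d t`, `s = 4 d t` -/
structure Num (d : ℕ) (n t x y t0 C1 m : ℝ) : Prop where
  d4 : 4 ≤ d
  n1 : 1 ≤ n
  t1 : 1 ≤ t
  y1 : 1 ≤ y
  yx : y ≤ x
  xN : x ≤ n ^ 2
  t01 : 1 ≤ t0
  /-- `t₀² N² ≤ 16 t² x y` -/
  a1 : t0 ^ 2 * (n ^ 2) ^ 2 ≤ 16 * t ^ 2 * (x * y)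
  /-- `t₀ N ≤ 4 t x` -/
  a2 : t0 * n ^ 2 ≤ 4 * t * x
  a3 : t0 ≤ 4 * t
  a4 : x ≤ 16 * t ^ 2 * y
  C11 : 1 ≤ C1
  mlo : C1 * t0 ≤ m
  mhi : m ≤ 2 * C1 * t0

namespace Num

variable {d : ℕ} {n t x y t0 C1 m : ℝ}

lemma m1 (h : Num d n t x y t0 C1 m) : 1 ≤ m := by
  have := h.mlo
  have := h.C11
  have := h.t01
  nlinarith

lemma t0m (h : Num d n t x y t0 C1 m) : t0 ≤ m := by
  have := h.mlo
  have := h.C11
  have := h.t01
  nlinarith

lemma d1 (h : Num d n t x y t0 C1 m) : (1 : ℝ) ≤ d := by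
  have := h.d4
  exact_mod_cast (by omega : 1 ≤ d)

lemma m_le (h : Num d n t x y t0 C1 m) : m ≤ 8 * C1 * d * t := by
  have h1 := h.mhi
  have h2 := h.a3
  have h3 := h.C11
  have h4 := h.d1
  have h5 := h.t1
  calc m ≤ 2 * C1 * t0 := h1
    _ ≤ 2 * C1 * (4 * t) := by gcongr
    _ = 8 * C1 * 1 * t := by ring
    _ ≤ 8 * C1 * d * t := by gcongr

lemma s_le (h : Num d n t x y t0 C1 m) : (d * (4 * t)) ≤ 8 * C1 * d * t := by
  have h3 := h.C11
  have h4 := h.d1
  have h5 := h.t1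
  have h6 : (0 : ℝ) ≤ d * t := by positivity
  nlinarith

lemma u1 (h : Num d n t x y t0 C1 m) : 1 ≤ 8 * C1 * d * t := h.m1.trans h.m_le

/-- `m N ≤ 8 C₁ t x` -/
lemma mN (h : Num d n t x y t0 C1 m) : m * n ^ 2 ≤ 8 * C1 * t * x := by
  have h1 := h.mhi
  have h2 := h.a2
  have h3 := h.C11
  calc m * n ^ 2 ≤ (2 * C1 * t0) * n ^ 2 := by gcongr
    _ = 2 * C1 * (t0 * n ^ 2) := by ring
    _ ≤ 2 * C1 * (4 * t * x) := by gcongr
    _ = _ := by ring

/-- `m² N ≤ 64 C₁² t² y` -/
lemma m2N (h : Num d n t x y t0 C1 m) : m ^ 2 * n ^ 2 ≤ 64 * C1 ^ 2 * t ^ 2 * y := by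
  have h1 := h.mhi
  have h2 := h.a1
  have h3 := h.C11
  have h4 := h.xN
  have h5 := h.y1
  have h6 := h.m1
  have h7 := h.n1
  have h8 : m ^ 2 * (n ^ 2) ^ 2 ≤ 64 * C1 ^ 2 * t ^ 2 * y * n ^ 2 := by
    calc m ^ 2 * (n ^ 2) ^ 2 ≤ (2 * C1 * t0) ^ 2 * (n ^ 2) ^ 2 := by gcongr
      _ = 4 * C1 ^ 2 * (t0 ^ 2 * (n ^ 2) ^ 2) := by ring
      _ ≤ 4 * C1 ^ 2 * (16 * t ^ 2 * (x * y)) := by gcongr
      _ ≤ 4 * C1 ^ 2 * (16 * t ^ 2 * (n ^ 2 * y)) := by gcongr
      _ = _ := by ring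
  have h9 : (0 : ℝ) < n ^ 2 := by positivity
  refine le_of_mul_le_mul_right ?_ h9
  calc m ^ 2 * n ^ 2 * n ^ 2 = m ^ 2 * (n ^ 2) ^ 2 := by ring
    _ ≤ _ := h8

/-- `m N ≤ 32 C₁ t² y` -/
lemma mNy (h : Num d n t x y t0 C1 m) : m * n ^ 2 ≤ 32 * C1 * t ^ 2 * y := by
  have h1 := h.mhi
  have h2 := h.a1
  have h3 := h.C11
  have h4 := h.a4
  have h5 := h.y1
  have h6 := h.m1
  have h7 := h.n1
  have h8 := h.t01
  have h9 : (t0 * n ^ 2) ^ 2 ≤ (16 * t ^ 2 * y) ^ 2 := by
    calc (t0 * n ^ 2) ^ 2 = t0 ^ 2 * (n ^ 2) ^ 2 := by ring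
      _ ≤ 16 * t ^ 2 * (x * y) := h2
      _ ≤ 16 * t ^ 2 * ((16 * t ^ 2 * y) * y) := by gcongr
      _ = (16 * t ^ 2 * y) ^ 2 := by ring
  have h10 : t0 * n ^ 2 ≤ 16 * t ^ 2 * y := le_of_sq_le_sq h9 (by positivity)
  calc m * n ^ 2 ≤ (2 * C1 * t0) * n ^ 2 := by gcongr
    _ = 2 * C1 * (t0 * n ^ 2) := by ring
    _ ≤ 2 * C1 * (16 * t ^ 2 * y) := by gcongr
    _ = _ := by ring

/-- `m² u^{d-2} N ≤ u^d y` -/
lemma m2u (h : Num d n t x y t0 C1 m) :
    m ^ 2 * (8 * C1 * d * t) ^ (d - 2) * n ^ 2 ≤ (8 * C1 * d * t) ^ d * y := by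
  have h1 := h.m2N
  have h2 := h.u1
  have h3 := h.d1
  have h4 := h.d4
  have h5 := h.y1
  have h6 := h.C11
  have h7 := h.t1
  calc m ^ 2 * (8 * C1 * d * t) ^ (d - 2) * n ^ 2
      = (m ^ 2 * n ^ 2) * (8 * C1 * d * t) ^ (d - 2) := by ring
    _ ≤ (64 * C1 ^ 2 * t ^ 2 * y) * (8 * C1 * d * t) ^ (d - 2) := by gcongr
    _ = (8 * C1 * 1 * t) ^ 2 * (8 * C1 * d * t) ^ (d - 2) * y := by ring
    _ ≤ (8 * C1 * d * t) ^ 2 * (8 * C1 * d * t) ^ (d - 2) * y := by gcongr
    _ = (8 * C1 * d * t) ^ d * y := by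
        rw [← pow_add, show 2 + (d - 2) = d by omega]

/-- the `X` side of the `L0` bound -/
lemma xside (h : Num d n t x y t0 C1 m) {ε : ℝ}
    (hu : (8 * C1 * d * t) ^ d ≤ ε * n ^ 2) (hn : 8 * C1 * t ≤ ε * n) :
    ∑ r ∈ range d, m ^ (d - r) * (d * (4 * t)) ^ r + m * n ≤ 2 * ε * x := by
  have h1 := h.m_le
  have h2 := h.s_le
  have h3 := h.m1
  have h4 := h.mN
  have h5 := h.t1
  have h6 := h.d1
  have h7 := h.C11
  have h8 := h.n1
  have h9 := h.y1
  have h10 := h.yx
  have h11 := h.d4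
  have hu1 := h.u1
  set u := 8 * C1 * d * t with hudef
  have hu0 : 0 ≤ u := by linarith
  have e1 : ∀ r ∈ range d, m ^ (d - r) * (d * (4 * t)) ^ r ≤ m * u ^ (d - 1) := by
    intro r hr
    have hr' := mem_range.1 hr
    have e2 : m ^ (d - r) = m * m ^ (d - 1 - r) := by
      rw [← pow_succ']; congr 1; omega
    calc m ^ (d - r) * (d * (4 * t)) ^ r ≤ m ^ (d - r) * u ^ r := by gcongr
      _ = m * m ^ (d - 1 - r) * u ^ r := by rw [e2]
      _ ≤ m * u ^ (d - 1 - r) * u ^ r := by gcongr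
      _ = m * u ^ (d - 1) := by
          rw [mul_assoc, ← pow_add, show d - 1 - r + r = d - 1 by omega]
  have e3 : ∑ r ∈ range d, m ^ (d - r) * (d * (4 * t)) ^ r ≤ d * (m * u ^ (d - 1)) := by
    refine (sum_le_sum e1).trans ?_
    rw [sum_const, card_range, nsmul_eq_mul]
  have hN : (0 : ℝ) < n ^ 2 := by positivity
  -- `d m u^{d-1} ≤ ε x`
  have e4 : d * (m * u ^ (d - 1)) ≤ ε * x := by
    refine le_of_mul_le_mul_right ?_ hN
    calc d * (m * u ^ (d - 1)) * n ^ 2 = (m * n ^ 2) * (d * u ^ (d - 1)) := by ring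
      _ ≤ (8 * C1 * t * x) * (d * u ^ (d - 1)) := by gcongr
      _ = (u * u ^ (d - 1)) * x := by rw [hudef]; ring
      _ = u ^ d * x := by rw [← pow_succ', show d - 1 + 1 = d by omega]
      _ ≤ (ε * n ^ 2) * x := by gcongr; linarith
      _ = ε * x * n ^ 2 := by ring
  have e5 : m * n ≤ ε * x := by
    refine le_of_mul_le_mul_right ?_ (show (0 : ℝ) < n by linarith)
    calc m * n * n = m * n ^ 2 := by ring
      _ ≤ 8 * C1 * t * x := h4
      _ ≤ ε * n * x := by gcongr; linarith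
      _ = ε * x * n := by ring
  linarith

/-- the `Y` side of the `L0` bound -/
lemma yside (h : Num d n t x y t0 C1 m) {ε : ℝ}
    (hu : (d + 7) * (8 * C1 * d * t) ^ d ≤ ε * n ^ 2) (hn : 32 * C1 * t ^ 2 ≤ ε * n) :
    ∑ r ∈ range d, m ^ (d - r) *
      (if r + 1 = d then 8 * t0 * (d * (4 * t)) ^ (d - 2) + n else (d * (4 * t)) ^ r) + m * n ≤
      3 * ε * y := by
  have h1 := h.m_le
  have h2 := h.s_le
  have h3 := h.m1
  have h4 := h.m2u
  have h5 := h.t1
  have h6 := h.d1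
  have h7 := h.C11
  have h8 := h.n1
  have h9 := h.y1
  have h10 := h.yx
  have h11 := h.d4
  have h12 := h.mNy
  have h13 := h.t0m
  have h14 := h.t01
  have hu1 := h.u1
  set u := 8 * C1 * d * t with hudef
  have hu0 : 0 ≤ u := by linarith
  have hs0 : 0 ≤ d * (4 * t) := by positivity
  have e1 : ∀ r ∈ range (d - 1), m ^ (d - r) *
      (if r + 1 = d then 8 * t0 * (d * (4 * t)) ^ (d - 2) + n else (d * (4 * t)) ^ r) ≤
      m ^ 2 * u ^ (d - 2) := by
    intro r hr
    have hr' := mem_range.1 hr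
    rw [if_neg (by omega)]
    have e2 : m ^ (d - r) = m ^ 2 * m ^ (d - 2 - r) := by
      rw [← pow_add]; congr 1; omega
    calc m ^ (d - r) * (d * (4 * t)) ^ r ≤ m ^ (d - r) * u ^ r := by gcongr
      _ = m ^ 2 * m ^ (d - 2 - r) * u ^ r := by rw [e2]
      _ ≤ m ^ 2 * u ^ (d - 2 - r) * u ^ r := by gcongr
      _ = m ^ 2 * u ^ (d - 2) := by
          rw [mul_assoc, ← pow_add, show d - 2 - r + r = d - 2 by omega]
  have e3 : ∑ r ∈ range d, m ^ (d - r) *
      (if r + 1 = d then 8 * t0 * (d * (4 * t)) ^ (d - 2) + n else (d * (4 * t)) ^ r) ≤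
      (d + 7) * (m ^ 2 * u ^ (d - 2)) + m * n := by
    have hdd : range d = range ((d - 1) + 1) := by congr 1; omega
    rw [hdd, sum_range_succ, if_pos (by omega), show d - (d - 1) = 1 by omega, pow_one]
    have e4 : ∑ r ∈ range (d - 1), m ^ (d - r) *
      (if r + 1 = d then 8 * t0 * (d * (4 * t)) ^ (d - 2) + n else (d * (4 * t)) ^ r) ≤
        ((d - 1 : ℕ) : ℝ) * (m ^ 2 * u ^ (d - 2)) := by
      refine (sum_le_sum e1).trans ?_
      rw [sum_const, card_range, nsmul_eq_mul]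
    have e5 : ((d - 1 : ℕ) : ℝ) = d - 1 := by
      rw [Nat.cast_sub (by omega)]; norm_num
    have e6 : m * (8 * t0 * (d * (4 * t)) ^ (d - 2) + n) ≤ 8 * (m ^ 2 * u ^ (d - 2)) + m * n := by
      have : m * (8 * t0 * (d * (4 * t)) ^ (d - 2)) ≤ 8 * (m ^ 2 * u ^ (d - 2)) := by
        calc m * (8 * t0 * (d * (4 * t)) ^ (d - 2)) ≤ m * (8 * m * u ^ (d - 2)) := by gcongr
          _ = _ := by ring
      linarith
    rw [e5] at e4
    linarith
  have hN : (0 : ℝ) < n ^ 2 := by positivity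
  have e4 : (d + 7) * (m ^ 2 * u ^ (d - 2)) ≤ ε * y := by
    refine le_of_mul_le_mul_right ?_ hN
    calc (d + 7) * (m ^ 2 * u ^ (d - 2)) * n ^ 2
        = (d + 7) * (m ^ 2 * u ^ (d - 2) * n ^ 2) := by ring
      _ ≤ (d + 7) * (u ^ d * y) := by gcongr
      _ = ((d + 7) * u ^ d) * y := by ring
      _ ≤ (ε * n ^ 2) * y := by gcongr
      _ = ε * y * n ^ 2 := by ring
  have e5 : m * n ≤ ε * y := by
    refine le_of_mul_le_mul_right ?_ (show (0 : ℝ) < n by linarith)
    calc m * n * n = m * n ^ 2 := by ring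
      _ ≤ 32 * C1 * t ^ 2 * y := h12
      _ ≤ ε * n * y := by gcongr
      _ = ε * y * n := by ring
  linarith

/-- `m^d ≤ ε y` -/
lemma md_le (h : Num d n t x y t0 C1 m) {ε : ℝ} (hu : (8 * C1 * d * t) ^ d ≤ ε * n ^ 2) :
    m ^ d ≤ ε * y := by
  have h1 := h.m_le
  have h3 := h.m1
  have h4 := h.m2u
  have h11 := h.d4
  have h8 := h.n1
  have h9 := h.y1
  have hN : (0 : ℝ) < n ^ 2 := by positivity
  refine le_of_mul_le_mul_right ?_ hN
  calc m ^ d * n ^ 2 = m ^ 2 * m ^ (d - 2) * n ^ 2 := by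
        rw [← pow_add, show 2 + (d - 2) = d by omega]
    _ ≤ m ^ 2 * (8 * C1 * d * t) ^ (d - 2) * n ^ 2 := by gcongr
    _ ≤ (8 * C1 * d * t) ^ d * y := h4
    _ ≤ (ε * n ^ 2) * y := by gcongr
    _ = ε * y * n ^ 2 := by ring

/-- `n m² ≤ θ y` -/
lemma nm2 (h : Num d n t x y t0 C1 m) {θ : ℝ} (hn : 64 * C1 ^ 2 * t ^ 2 ≤ θ * n) :
    n * m ^ 2 ≤ θ * y := by
  have h4 := h.m2N
  have h8 := h.n1
  have h9 := h.y1
  refine le_of_mul_le_mul_right ?_ (show (0 : ℝ) < n by linarith)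
  calc n * m ^ 2 * n = m ^ 2 * n ^ 2 := by ring
    _ ≤ 64 * C1 ^ 2 * t ^ 2 * y := h4
    _ ≤ θ * n * y := by gcongr
    _ = θ * y * n := by ring

/-- the size condition of `o1y` -/
lemma big (h : Num d n t x y t0 C1 m) (hu : (8 * C1 * d * t) ^ d ≤ n ^ 2 / 64)
    (hn : 64 * t ≤ n) : 4 * t0 * (2 * (d * (4 * t)) ^ (d - 1) + n) < x := by
  have h2 := h.s_le
  have h5 := h.t1
  have h6 := h.d1
  have h7 := h.C11
  have h8 := h.n1
  have h9 := h.y1
  have h10 := h.yx
  have h11 := h.d4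
  have h12 := h.a2
  have h14 := h.t01
  have hu1 := h.u1
  have hd4 : (4 : ℝ) ≤ d := by exact_mod_cast h11
  have hs0 : 0 ≤ d * (4 * t) := by positivity
  have hN : (0 : ℝ) < n ^ 2 := by positivity
  have hx0 : 0 < x := by linarith
  have e1 : 16 * t * (2 * (d * (4 * t)) ^ (d - 1) + n) < n ^ 2 := by
    have e2 : 16 * t * (2 * (d * (4 * t)) ^ (d - 1)) ≤ 8 * (8 * C1 * d * t) ^ d := by
      calc 16 * t * (2 * (d * (4 * t)) ^ (d - 1)) ≤
          (2 * (d * (4 * t))) * (2 * (d * (4 * t)) ^ (d - 1)) := by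
            refine mul_le_mul_of_nonneg_right ?_ (by positivity)
            nlinarith
        _ = 4 * ((d * (4 * t)) * (d * (4 * t)) ^ (d - 1)) := by ring
        _ = 4 * (d * (4 * t)) ^ d := by rw [← pow_succ', show d - 1 + 1 = d by omega]
        _ ≤ 4 * (8 * C1 * d * t) ^ d := by gcongr
        _ ≤ 8 * (8 * C1 * d * t) ^ d := by
            have : 0 ≤ (8 * C1 * d * t) ^ d := by positivity
            linarith
    have e3 : 16 * t * n ≤ n ^ 2 / 4 := by nlinarith
    nlinarith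
  have e4 : 4 * t0 * (2 * (d * (4 * t)) ^ (d - 1) + n) * n ^ 2 < x * n ^ 2 := by
    calc 4 * t0 * (2 * (d * (4 * t)) ^ (d - 1) + n) * n ^ 2
        = 4 * (t0 * n ^ 2) * (2 * (d * (4 * t)) ^ (d - 1) + n) := by ring
      _ ≤ 4 * (4 * t * x) * (2 * (d * (4 * t)) ^ (d - 1) + n) := by gcongr
      _ = x * (16 * t * (2 * (d * (4 * t)) ^ (d - 1) + n)) := by ring
      _ < x * n ^ 2 := by gcongr
  exact lt_of_mul_lt_mul_right e4 hN.le

end Num

end Crest.Agent.R065.M4
end

-- ▼ part R065/D4eng_812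
section

/-!
# Row 65, `d ≥ 4`: the finite exchange engine (272's bipartite scheme, #15513)

Pure finite combinatorics.  `X`, `Y` finite sets, `NN` a relation, `bad Om z` monotone in `Om`,
`o Om z w` arbitrary orders.
-/

set_option autoImplicit false

open Finset

namespace Crest.Agent.R065.D4eng812

open Crest.Agent.R065.ExtP580

set_option linter.unusedSectionVars false

variable {α : Type*} [DecidableEq α]

lemma sum_exchange {M : Type*} [AddCommMonoid M] (V : Finset α) (k : ℕ)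
    (F : Finset α → α → M) :
    ∑ B ∈ V.powersetCard k, ∑ y ∈ V \ B, F (insert y B) y =
      ∑ B ∈ V.powersetCard (k + 1), ∑ y ∈ B, F B y := by
  rw [Finset.sum_sigma', Finset.sum_sigma']
  refine Finset.sum_bij' (fun p _ => ⟨insert p.2 p.1, p.2⟩)
    (fun p _ => ⟨p.1.erase p.2, p.2⟩) ?_ ?_ ?_ ?_ ?_
  · rintro ⟨B, y⟩ h
    simp only [Finset.mem_sigma, Finset.mem_powersetCard, Finset.mem_sdiff] at h ⊢
    obtain ⟨⟨h1, h2⟩, h3, h4⟩ := h
    refine ⟨⟨Finset.insert_subset h3 h1, ?_⟩, Finset.mem_insert_self _ _⟩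
    rw [Finset.card_insert_of_notMem h4, h2]
  · rintro ⟨B, y⟩ h
    simp only [Finset.mem_sigma, Finset.mem_powersetCard, Finset.mem_sdiff] at h ⊢
    obtain ⟨⟨h1, h2⟩, h3⟩ := h
    refine ⟨⟨(Finset.erase_subset _ _).trans h1, ?_⟩, h1 h3, Finset.notMem_erase _ _⟩
    rw [Finset.card_erase_of_mem h3, h2]; rfl
  · rintro ⟨B, y⟩ h
    simp only [Finset.mem_sigma, Finset.mem_powersetCard, Finset.mem_sdiff] at h
    simp [Finset.erase_insert h.2.2]
  · rintro ⟨B, y⟩ h
    simp only [Finset.mem_sigma, Finset.mem_powersetCard, Finset.mem_sdiff] at h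
    simp [Finset.insert_erase h.2]
  · rintro ⟨B, y⟩ h
    rfl


/-- average over `k`-subsets -/
noncomputable def av (V : Finset α) (k : ℕ) (h : Finset α → ℝ) : ℝ :=
  (∑ B ∈ V.powersetCard k, h B) / (V.card.choose k : ℝ)

lemma choose_pos {V : Finset α} {k : ℕ} (hk : k ≤ V.card) : (0 : ℝ) < (V.card.choose k : ℝ) := by
  exact_mod_cast Nat.choose_pos hk

lemma choose_succ (v k : ℕ) (hk : k ≤ v) :
    (v.choose (k + 1) : ℝ) * (k + 1) = (v.choose k : ℝ) * (v - k) := by
  have := Nat.choose_succ_right_eq v k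
  have h2 : ((v.choose (k + 1) * (k + 1) : ℕ) : ℝ) = ((v.choose k * (v - k) : ℕ) : ℝ) := by
    rw [this]
  push_cast [Nat.cast_sub hk] at h2
  exact h2

/-- exchange in average form -/
lemma av_exchange (V : Finset α) (k : ℕ) (hk : k + 1 ≤ V.card) (F : Finset α → α → ℝ) :
    av V k (fun B => ∑ y ∈ V \ B, F (insert y B) y) =
      ((V.card : ℝ) - k) / (k + 1) * av V (k + 1) (fun B => ∑ y ∈ B, F B y) := by
  unfold av
  rw [sum_exchange]
  have h1 := choose_succ V.card k (by omega)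
  have h2 := choose_pos (V := V) (k := k) (by omega)
  have h3 := choose_pos (V := V) (k := k + 1) hk
  have h4 : (0 : ℝ) < (k : ℝ) + 1 := by positivity
  have h5 : ((V.card : ℝ) - k) = (V.card.choose (k + 1) : ℝ) * (k + 1) / (V.card.choose k : ℝ) := by
    rw [eq_div_iff h2.ne']; linarith
  rw [h5]
  field_simp

lemma av_mono {V : Finset α} {k : ℕ} {f g : Finset α → ℝ}
    (h : ∀ B ∈ V.powersetCard k, f B ≤ g B) : av V k f ≤ av V k g := by
  unfold av
  exact div_le_div_of_nonneg_right (Finset.sum_le_sum h) (by positivity)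

lemma av_add (V : Finset α) (k : ℕ) (f g : Finset α → ℝ) :
    av V k (fun B => f B + g B) = av V k f + av V k g := by
  unfold av
  rw [Finset.sum_add_distrib, add_div]

lemma av_sub (V : Finset α) (k : ℕ) (f g : Finset α → ℝ) :
    av V k (fun B => f B - g B) = av V k f - av V k g := by
  unfold av
  rw [Finset.sum_sub_distrib, sub_div]

lemma av_const_mul (V : Finset α) (k : ℕ) (c : ℝ) (f : Finset α → ℝ) :
    av V k (fun B => c * f B) = c * av V k f := by
  unfold av
  rw [← Finset.mul_sum, mul_div_assoc]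

lemma av_const {V : Finset α} {k : ℕ} (hk : k ≤ V.card) (c : ℝ) :
    av V k (fun _ => c) = c := by
  unfold av
  rw [Finset.sum_const, Finset.card_powersetCard, nsmul_eq_mul]
  have := choose_pos (V := V) hk
  field_simp

lemma av_le_const {V : Finset α} {k : ℕ} (hk : k ≤ V.card) {c : ℝ} {f : Finset α → ℝ}
    (h : ∀ B ∈ V.powersetCard k, f B ≤ c) : av V k f ≤ c := by
  rw [← av_const (V := V) hk c]
  exact av_mono h

lemma av_comm (X Y : Finset α) (i j : ℕ) (g : Finset α → Finset α → ℝ) :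
    av X i (fun A => av Y j (fun B => g A B)) = av Y j (fun B => av X i (fun A => g A B)) := by
  unfold av
  simp only [Finset.sum_div]
  rw [Finset.sum_comm]
  refine Finset.sum_congr rfl fun B _ => ?_
  refine Finset.sum_congr rfl fun A _ => ?_
  rw [div_div, div_div, mul_comm]

/-- averages of monotone functions increase -/
lemma av_succ_le (V : Finset α) (k : ℕ) (hk : k + 1 ≤ V.card) (h : Finset α → ℝ)
    (hm : ∀ A B : Finset α, A ⊆ B → h A ≤ h B) : av V k h ≤ av V (k + 1) h := by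
  have h1 := av_exchange V k hk (fun B _ => h B)
  have h2 : av V (k + 1) (fun B => ∑ _y ∈ B, h B) = (k + 1 : ℝ) * av V (k + 1) h := by
    rw [← av_const_mul]
    unfold av
    congr 1
    refine Finset.sum_congr rfl fun B hB => ?_
    show ∑ _y ∈ B, h B = (k + 1 : ℝ) * h B
    rw [Finset.sum_const, (Finset.mem_powersetCard.1 hB).2, nsmul_eq_mul]
    push_cast
    ring
  have h3 : ((V.card : ℝ) - k) * av V k h ≤
      av V k (fun B => ∑ y ∈ V \ B, h (insert y B)) := by
    rw [← av_const_mul]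
    refine av_mono fun B hB => ?_
    obtain ⟨hB1, hB2⟩ := Finset.mem_powersetCard.1 hB
    have hc : ((V \ B).card : ℝ) = (V.card : ℝ) - k := by
      rw [Finset.card_sdiff_of_subset hB1, hB2, Nat.cast_sub (by omega)]
    calc ((V.card : ℝ) - k) * h B = ∑ _y ∈ V \ B, h B := by
          rw [Finset.sum_const, nsmul_eq_mul, hc]
      _ ≤ _ := Finset.sum_le_sum fun y _ => hm _ _ (Finset.subset_insert _ _)
  have hv : (0 : ℝ) < (V.card : ℝ) - k := by
    have : ((k + 1 : ℕ) : ℝ) ≤ V.card := by exact_mod_cast hk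
    push_cast at this
    linarith
  have h4 : (0 : ℝ) < (k : ℝ) + 1 := by positivity
  rw [h1, h2] at h3
  have h5 : ((V.card : ℝ) - k) / (k + 1) * ((k + 1) * av V (k + 1) h) =
      ((V.card : ℝ) - k) * av V (k + 1) h := by
    field_simp
  rw [h5] at h3
  exact le_of_mul_le_mul_left h3 hv

/-- the telescoping sum -/
lemma tele (X Y : Finset α) (k0 : ℕ) (hX : 2 * k0 ≤ X.card) (hY : 2 * k0 ≤ Y.card)
    (g : Finset α → Finset α → ℝ) (hg0 : ∀ A B, 0 ≤ g A B)
    (hm : ∀ A A' B B' : Finset α, A ⊆ A' → B ⊆ B' → g A B ≤ g A' B') (M : ℝ)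
    (hM : ∀ A ∈ X.powersetCard (2 * k0), ∀ B ∈ Y.powersetCard (2 * k0), g A B ≤ M) :
    ∑ k ∈ Finset.Ico k0 (2 * k0), (av X k (fun A => av Y (k + 1) (fun B => g A B)) -
      av X k (fun A => av Y k (fun B => g A B))) ≤ M := by
  set E : ℕ → ℝ := fun k => av X k (fun A => av Y k (fun B => g A B)) with hE
  have h1 : ∀ k ∈ Finset.Ico k0 (2 * k0),
      (av X k (fun A => av Y (k + 1) (fun B => g A B)) -
        av X k (fun A => av Y k (fun B => g A B))) ≤ E (k + 1) - E k := by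
    intro k hk
    rw [Finset.mem_Ico] at hk
    refine sub_le_sub_right ?_ _
    refine av_succ_le X k (by omega) _ ?_
    intro A A' hAA
    exact av_mono fun B _ => hm _ _ _ _ hAA (Finset.Subset.refl _)
  refine (Finset.sum_le_sum h1).trans ?_
  rw [Finset.sum_Ico_sub E (by omega)]
  have h2 : E (2 * k0) ≤ M := by
    refine av_le_const hX fun A hA => ?_
    exact av_le_const hY fun B hB => hM A hA B hB
  have h3 : 0 ≤ E k0 := by
    simp only [hE]
    unfold av
    refine div_nonneg (Finset.sum_nonneg fun A _ => ?_) (by positivity)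
    exact div_nonneg (Finset.sum_nonneg fun B _ => hg0 _ _) (by positivity)
  linarith

lemma new_le (X Y : Finset α) (k : ℕ) (hX : k ≤ X.card) (hY : k + 1 ≤ Y.card)
    (g : Finset α → Finset α → ℝ)
    (hm : ∀ A A' B B' : Finset α, A ⊆ A' → B ⊆ B' → g A B ≤ g A' B') :
    av X k (fun A => av Y k (fun B => ∑ y ∈ Y \ B, (g A (insert y B) - g A B))) ≤
      Y.card * (av X k (fun A => av Y (k + 1) (fun B => g A B)) -
        av X k (fun A => av Y k (fun B => g A B))) := by
  have hv : (0 : ℝ) ≤ (Y.card : ℝ) - k := by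
    have : ((k + 1 : ℕ) : ℝ) ≤ Y.card := by exact_mod_cast hY
    push_cast at this
    linarith
  have h1 : ∀ A, av Y k (fun B => ∑ y ∈ Y \ B, (g A (insert y B) - g A B)) =
      ((Y.card : ℝ) - k) * (av Y (k + 1) (fun B => g A B) - av Y k (fun B => g A B)) := by
    intro A
    have e1 : av Y k (fun B => ∑ y ∈ Y \ B, (g A (insert y B) - g A B)) =
        av Y k (fun B => ∑ y ∈ Y \ B, g A (insert y B)) -
          av Y k (fun B => ((Y.card : ℝ) - k) * g A B) := by
      rw [← av_sub]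
      unfold av
      congr 1
      refine Finset.sum_congr rfl fun B hB => ?_
      obtain ⟨hB1, hB2⟩ := Finset.mem_powersetCard.1 hB
      have hc : ((Y \ B).card : ℝ) = (Y.card : ℝ) - k := by
        rw [Finset.card_sdiff_of_subset hB1, hB2, Nat.cast_sub (by omega)]
      show ∑ y ∈ Y \ B, (g A (insert y B) - g A B) =
        ∑ y ∈ Y \ B, g A (insert y B) - ((Y.card : ℝ) - k) * g A B
      rw [Finset.sum_sub_distrib, Finset.sum_const, nsmul_eq_mul, hc]
    rw [e1, av_const_mul, av_exchange Y k hY (fun B _ => g A B)]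
    have e2 : av Y (k + 1) (fun B => ∑ _y ∈ B, g A B) =
        (k + 1 : ℝ) * av Y (k + 1) (fun B => g A B) := by
      rw [← av_const_mul]
      unfold av
      congr 1
      refine Finset.sum_congr rfl fun B hB => ?_
      show ∑ _y ∈ B, g A B = (k + 1 : ℝ) * g A B
      rw [Finset.sum_const, (Finset.mem_powersetCard.1 hB).2, nsmul_eq_mul]
      push_cast
      ring
    rw [e2]
    have h4 : (k : ℝ) + 1 ≠ 0 := by positivity
    field_simp
  have h2 : av X k (fun A => av Y k (fun B => ∑ y ∈ Y \ B, (g A (insert y B) - g A B))) =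
      ((Y.card : ℝ) - k) * (av X k (fun A => av Y (k + 1) (fun B => g A B)) -
        av X k (fun A => av Y k (fun B => g A B))) := by
    rw [← av_sub, ← av_const_mul]
    unfold av
    congr 1
    refine Finset.sum_congr rfl fun A _ => ?_
    exact h1 A
  rw [h2]
  refine mul_le_mul_of_nonneg_right (by linarith [(Nat.cast_nonneg k : (0 : ℝ) ≤ k)]) ?_
  rw [sub_nonneg]
  refine av_mono fun A _ => ?_
  exact av_succ_le Y k hY _ fun B B' hB => hm _ _ _ _ (Finset.Subset.refl _) hB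

lemma type_le (X Y : Finset α) (k : ℕ) (hX : k ≤ X.card) (hY : k + 1 ≤ Y.card)
    (F : Finset α → Finset α → α → ℝ) (c ρ : ℝ) (hc : 0 ≤ c) (hρ : 0 ≤ ρ) (R : Finset α → ℝ)
    (h : ∀ A ∈ X.powersetCard k, ∀ B ∈ Y.powersetCard (k + 1), ∑ y ∈ B, F A B y ≤ c * R B)
    (hR : av Y (k + 1) R ≤ ρ) :
    av X k (fun A => av Y k (fun B => ∑ y ∈ Y \ B, F A (insert y B) y)) ≤
      Y.card / (k + 1) * (c * ρ) := by
  refine av_le_const hX fun A hA => ?_
  rw [av_exchange Y k hY (fun B y => F A B y)]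
  have hv : (0 : ℝ) ≤ (Y.card : ℝ) - k := by
    have : ((k + 1 : ℕ) : ℝ) ≤ Y.card := by exact_mod_cast hY
    push_cast at this
    linarith
  have h4 : (0 : ℝ) < (k : ℝ) + 1 := by positivity
  have h1 : av Y (k + 1) (fun B => ∑ y ∈ B, F A B y) ≤ c * ρ := by
    calc av Y (k + 1) (fun B => ∑ y ∈ B, F A B y) ≤ av Y (k + 1) (fun B => c * R B) :=
          av_mono fun B hB => h A hA B hB
      _ = c * av Y (k + 1) R := av_const_mul _ _ _ _
      _ ≤ c * ρ := mul_le_mul_of_nonneg_left hR hc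
  calc ((Y.card : ℝ) - k) / (k + 1) * av Y (k + 1) (fun B => ∑ y ∈ B, F A B y) ≤
        ((Y.card : ℝ) - k) / (k + 1) * (c * ρ) :=
        mul_le_mul_of_nonneg_left h1 (div_nonneg hv h4.le)
    _ ≤ Y.card / (k + 1) * (c * ρ) := by
        refine mul_le_mul_of_nonneg_right ?_ (mul_nonneg hc hρ)
        exact div_le_div_of_nonneg_right (by linarith [(Nat.cast_nonneg k : (0 : ℝ) ≤ k)]) h4.le

/-- `T' ≤ δ T` from the square form -/
lemma le_of_sq {a b x x' δ : ℝ} (ha : 0 ≤ a) (hb : 0 ≤ b) (hx : 0 < x) (hδ : 0 ≤ δ)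
    (h : a ^ 2 * x ≤ x' * b ^ 2) (h' : x' ≤ δ ^ 2 * x) : a ≤ δ * b := by
  have h1 : a ^ 2 * x ≤ (δ * b) ^ 2 * x := by
    calc a ^ 2 * x ≤ x' * b ^ 2 := h
      _ ≤ δ ^ 2 * x * b ^ 2 := mul_le_mul_of_nonneg_right h' (by positivity)
      _ = _ := by ring
  have h2 : a ^ 2 ≤ (δ * b) ^ 2 := le_of_mul_le_mul_right h1 hx
  exact (sq_le_sq₀ ha (by positivity)).1 h2

open scoped Classical in
/-- number of bad points in `X` -/
noncomputable def nb (bad : Finset α → α → Prop) (X Om : Finset α) : ℕ :=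
  (X.filter fun x => bad Om x).card

lemma nb_mono {bad : Finset α → α → Prop} (mono : ∀ Om Om' z, Om ⊆ Om' → bad Om z → bad Om' z)
    (X : Finset α) {Om Om' : Finset α} (h : Om ⊆ Om') : nb bad X Om ≤ nb bad X Om' := by
  classical
  unfold nb
  refine Finset.card_le_card fun x hx => ?_
  rw [Finset.mem_filter] at hx ⊢
  exact ⟨hx.1, mono _ _ _ h hx.2⟩

open scoped Classical in
/-- type 1 pairs ending in `y` -/
noncomputable def F1 (NN : α → α → Prop) (bad : Finset α → α → Prop)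
    (o : Finset α → α → α → ℕ∞) (X A B : Finset α) (y : α) : ℕ :=
  (X.filter fun x => y ∉ A ∧ ¬ bad (A ∪ B) x ∧ NN x y ∧
    o ((A ∪ B).erase y) y x ≤ o ((A ∪ B).erase y) x y).card

open scoped Classical in
/-- the pointwise decomposition -/
lemma decomp (X Y : Finset α) (NN : α → α → Prop) (bad : Finset α → α → Prop)
    (mono : ∀ Om Om' z, Om ⊆ Om' → bad Om z → bad Om' z)
    (o : Finset α → α → α → ℕ∞) (hs : ∀ z w, NN z w → NN w z) (A B : Finset α) :
    (TP NN X Y : ℝ) ≤ TP NN (X ∩ (A ∪ B)) Y + TP NN X (Y ∩ (A ∪ B)) +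
      TP NN (X.filter fun x => bad (A ∪ B) x) Y + TP NN X (Y.filter fun y => bad (A ∪ B) y) +
      ∑ y ∈ Y \ B, ((nb bad X (A ∪ insert y B) : ℝ) - nb bad X (A ∪ B)) +
      ∑ x ∈ X \ A, ((nb bad Y (insert x A ∪ B) : ℝ) - nb bad Y (A ∪ B)) +
      ∑ y ∈ Y \ B, (F1 NN bad o X A (insert y B) y : ℝ) +
      ∑ x ∈ X \ A, (F1 NN bad o Y B (insert x A) x : ℝ) := by
  -- the eight sets
  set S1 := ((X ∩ (A ∪ B)) ×ˢ Y).filter fun p => NN p.1 p.2 with hS1
  set S2 := (X ×ˢ (Y ∩ (A ∪ B))).filter fun p => NN p.1 p.2 with hS2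
  set S3 := ((X.filter fun x => bad (A ∪ B) x) ×ˢ Y).filter fun p => NN p.1 p.2 with hS3
  set S4 := (X ×ˢ (Y.filter fun y => bad (A ∪ B) y)).filter fun p => NN p.1 p.2 with hS4
  set S5 := (X ×ˢ (Y \ B)).filter fun p => bad (A ∪ insert p.2 B) p.1 ∧ ¬ bad (A ∪ B) p.1 with hS5
  set S6 := ((X \ A) ×ˢ Y).filter fun p => bad (insert p.1 A ∪ B) p.2 ∧ ¬ bad (A ∪ B) p.2 with hS6
  set S7 := (X ×ˢ (Y \ B)).filter fun p => p.2 ∉ A ∧ ¬ bad (A ∪ insert p.2 B) p.1 ∧ NN p.1 p.2 ∧
    o ((A ∪ insert p.2 B).erase p.2) p.2 p.1 ≤ o ((A ∪ insert p.2 B).erase p.2) p.1 p.2 with hS7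
  set S8 := ((X \ A) ×ˢ Y).filter fun p => p.1 ∉ B ∧ ¬ bad (B ∪ insert p.1 A) p.2 ∧ NN p.2 p.1 ∧
    o ((B ∪ insert p.1 A).erase p.1) p.1 p.2 ≤ o ((B ∪ insert p.1 A).erase p.1) p.2 p.1 with hS8
  have hsub : ((X ×ˢ Y).filter fun p => NN p.1 p.2) ⊆
      S1 ∪ S2 ∪ S3 ∪ S4 ∪ S5 ∪ S6 ∪ S7 ∪ S8 := by
    rintro ⟨x, y⟩ h
    rw [Finset.mem_filter, Finset.mem_product] at h
    obtain ⟨⟨hx, hy⟩, hN⟩ := h
    simp only at hx hy hN
    by_cases h1 : x ∈ A ∪ B
    · simp only [Finset.mem_union]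
      left; left; left; left; left; left; left
      simp only [hS1, Finset.mem_filter, Finset.mem_product, Finset.mem_inter]
      exact ⟨⟨⟨hx, h1⟩, hy⟩, hN⟩
    by_cases h2 : y ∈ A ∪ B
    · simp only [Finset.mem_union]
      left; left; left; left; left; left; right
      simp only [hS2, Finset.mem_filter, Finset.mem_product, Finset.mem_inter]
      exact ⟨⟨hx, hy, h2⟩, hN⟩
    by_cases h3 : bad (A ∪ B) x
    · simp only [Finset.mem_union]
      left; left; left; left; left; right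
      simp only [hS3, Finset.mem_filter, Finset.mem_product]
      exact ⟨⟨⟨hx, h3⟩, hy⟩, hN⟩
    by_cases h4 : bad (A ∪ B) y
    · simp only [Finset.mem_union]
      left; left; left; left; right
      simp only [hS4, Finset.mem_filter, Finset.mem_product]
      exact ⟨⟨hx, hy, h4⟩, hN⟩
    rw [Finset.mem_union, not_or] at h1 h2
    by_cases h5 : bad (A ∪ insert y B) x
    · simp only [Finset.mem_union]
      left; left; left; right
      simp only [hS5, Finset.mem_filter, Finset.mem_product, Finset.mem_sdiff]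
      exact ⟨⟨hx, hy, h2.2⟩, h5, h3⟩
    by_cases h6 : bad (insert x A ∪ B) y
    · simp only [Finset.mem_union]
      left; left; right
      simp only [hS6, Finset.mem_filter, Finset.mem_product, Finset.mem_sdiff]
      exact ⟨⟨⟨hx, h1.1⟩, hy⟩, h6, h4⟩
    have e1 : (A ∪ insert y B).erase y = A ∪ B := by
      rw [Finset.union_insert, Finset.erase_insert]
      rw [Finset.mem_union, not_or]; exact h2
    have e2 : (B ∪ insert x A).erase x = A ∪ B := by
      rw [Finset.union_insert, Finset.erase_insert, Finset.union_comm]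
      rw [Finset.mem_union, not_or]; exact ⟨h1.2, h1.1⟩
    have e3 : B ∪ insert x A = insert x A ∪ B := Finset.union_comm _ _
    rcases le_total (o (A ∪ B) y x) (o (A ∪ B) x y) with h7 | h7
    · simp only [Finset.mem_union]
      left; right
      simp only [hS7, Finset.mem_filter, Finset.mem_product, Finset.mem_sdiff]
      exact ⟨⟨hx, hy, h2.2⟩, h2.1, h5, hN, by rw [e1]; exact h7⟩
    · simp only [Finset.mem_union]
      right
      simp only [hS8, Finset.mem_filter, Finset.mem_product, Finset.mem_sdiff]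
      exact ⟨⟨⟨hx, h1.1⟩, hy⟩, h1.2, by rw [e3]; exact h6, hs _ _ hN, by rw [e2]; exact h7⟩
  have hcard : ((X ×ˢ Y).filter fun p => NN p.1 p.2).card ≤
      S1.card + S2.card + S3.card + S4.card + S5.card + S6.card + S7.card + S8.card := by
    refine (Finset.card_le_card hsub).trans ?_
    have u1 := Finset.card_union_le S1 S2
    have u2 := Finset.card_union_le (S1 ∪ S2) S3
    have u3 := Finset.card_union_le (S1 ∪ S2 ∪ S3) S4
    have u4 := Finset.card_union_le (S1 ∪ S2 ∪ S3 ∪ S4) S5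
    have u5 := Finset.card_union_le (S1 ∪ S2 ∪ S3 ∪ S4 ∪ S5) S6
    have u6 := Finset.card_union_le (S1 ∪ S2 ∪ S3 ∪ S4 ∪ S5 ∪ S6) S7
    have u7 := Finset.card_union_le (S1 ∪ S2 ∪ S3 ∪ S4 ∪ S5 ∪ S6 ∪ S7) S8
    omega
  have c5 : (S5.card : ℝ) = ∑ y ∈ Y \ B, ((nb bad X (A ∪ insert y B) : ℝ) - nb bad X (A ∪ B)) := by
    rw [hS5, Finset.card_filter, Finset.sum_product_right, Nat.cast_sum]
    refine Finset.sum_congr rfl fun y _ => ?_
    rw [← Finset.card_filter]
    have h1 : (X.filter fun x => bad (A ∪ insert y B) x ∧ ¬ bad (A ∪ B) x) =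
        (X.filter fun x => bad (A ∪ insert y B) x) \ (X.filter fun x => bad (A ∪ B) x) := by
      ext x
      simp only [Finset.mem_filter, Finset.mem_sdiff, not_and]
      tauto
    have h2 : (X.filter fun x => bad (A ∪ B) x) ⊆ (X.filter fun x => bad (A ∪ insert y B) x) := by
      intro x hx
      rw [Finset.mem_filter] at hx ⊢
      exact ⟨hx.1, mono _ _ _ (Finset.union_subset_union_right (Finset.subset_insert _ _)) hx.2⟩
    rw [h1, Finset.card_sdiff_of_subset h2, Nat.cast_sub (Finset.card_le_card h2)]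
    unfold nb
    simp only [Finset.filter_congr_decidable]
  have c6 : (S6.card : ℝ) = ∑ x ∈ X \ A, ((nb bad Y (insert x A ∪ B) : ℝ) - nb bad Y (A ∪ B)) := by
    rw [hS6, Finset.card_filter, Finset.sum_product, Nat.cast_sum]
    refine Finset.sum_congr rfl fun y _ => ?_
    rw [← Finset.card_filter]
    have h1 : (Y.filter fun x => bad (insert y A ∪ B) x ∧ ¬ bad (A ∪ B) x) =
        (Y.filter fun x => bad (insert y A ∪ B) x) \ (Y.filter fun x => bad (A ∪ B) x) := by
      ext x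
      simp only [Finset.mem_filter, Finset.mem_sdiff, not_and]
      tauto
    have h2 : (Y.filter fun x => bad (A ∪ B) x) ⊆ (Y.filter fun x => bad (insert y A ∪ B) x) := by
      intro x hx
      rw [Finset.mem_filter] at hx ⊢
      exact ⟨hx.1, mono _ _ _ (Finset.union_subset_union_left (Finset.subset_insert _ _)) hx.2⟩
    rw [h1, Finset.card_sdiff_of_subset h2, Nat.cast_sub (Finset.card_le_card h2)]
    unfold nb
    simp only [Finset.filter_congr_decidable]
  have c7 : (S7.card : ℝ) = ∑ y ∈ Y \ B, (F1 NN bad o X A (insert y B) y : ℝ) := by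
    rw [hS7, Finset.card_filter, Finset.sum_product_right, Nat.cast_sum]
    refine Finset.sum_congr rfl fun y _ => ?_
    rw [← Finset.card_filter]
    rfl
  have c8 : (S8.card : ℝ) = ∑ x ∈ X \ A, (F1 NN bad o Y B (insert x A) x : ℝ) := by
    rw [hS8, Finset.card_filter, Finset.sum_product, Nat.cast_sum]
    refine Finset.sum_congr rfl fun y _ => ?_
    rw [← Finset.card_filter]
    rfl
  rw [← c5, ← c6, ← c7, ← c8]
  have h9 : (((X ×ˢ Y).filter fun p => NN p.1 p.2).card : ℝ) ≤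
      ((S1.card + S2.card + S3.card + S4.card + S5.card + S6.card + S7.card + S8.card : ℕ) : ℝ) :=
    Nat.cast_le.2 hcard
  push_cast at h9
  have t0 : TP NN X Y = ((X ×ˢ Y).filter fun p => NN p.1 p.2).card := rfl
  have t1 : TP NN (X ∩ (A ∪ B)) Y = S1.card := rfl
  have t2 : TP NN X (Y ∩ (A ∪ B)) = S2.card := rfl
  have t3 : TP NN (X.filter fun x => bad (A ∪ B) x) Y = S3.card := rfl
  have t4 : TP NN X (Y.filter fun y => bad (A ∪ B) y) = S4.card := rfl
  rw [t0, t1, t2, t3, t4]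
  exact h9

open scoped Classical in
lemma sum_F1_le (X A B : Finset α) (NN : α → α → Prop) (bad : Finset α → α → Prop)
    (o : Finset α → α → α → ℕ∞) (R : ℝ) (hR : 0 ≤ R)
    (h : ∀ x ∈ X, ¬ bad (A ∪ B) x → (((B \ A).filter fun y => NN x y ∧
      o ((A ∪ B).erase y) y x ≤ o ((A ∪ B).erase y) x y).card : ℝ) ≤ R) :
    ∑ y ∈ B, (F1 NN bad o X A B y : ℝ) ≤ X.card * R := by
  have h1 : ∑ y ∈ B, (F1 NN bad o X A B y : ℝ) =
      ∑ x ∈ X, ((B.filter fun y => y ∉ A ∧ ¬ bad (A ∪ B) x ∧ NN x y ∧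
        o ((A ∪ B).erase y) y x ≤ o ((A ∪ B).erase y) x y).card : ℝ) := by
    unfold F1
    simp only [Finset.card_filter, Nat.cast_sum]
    rw [Finset.sum_comm]
  rw [h1]
  calc ∑ x ∈ X, ((B.filter fun y => y ∉ A ∧ ¬ bad (A ∪ B) x ∧ NN x y ∧
        o ((A ∪ B).erase y) y x ≤ o ((A ∪ B).erase y) x y).card : ℝ) ≤ ∑ _x ∈ X, R := by
        refine Finset.sum_le_sum fun x hx => ?_
        by_cases hb : bad (A ∪ B) x
        · have : (B.filter fun y => y ∉ A ∧ ¬ bad (A ∪ B) x ∧ NN x y ∧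
              o ((A ∪ B).erase y) y x ≤ o ((A ∪ B).erase y) x y) = ∅ := by
            rw [Finset.filter_eq_empty_iff]
            intro y _ hcon
            exact hcon.2.1 hb
          rw [this]
          simpa using hR
        · refine le_trans ?_ (h x hx hb)
          refine Nat.cast_le.2 (Finset.card_le_card fun y hy => ?_)
          rw [Finset.mem_filter] at hy ⊢
          exact ⟨Finset.mem_sdiff.2 ⟨hy.1, hy.2.1⟩, hy.2.2.2⟩
    _ = X.card * R := by rw [Finset.sum_const, nsmul_eq_mul]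

open scoped Classical in
/-- **The exchange engine** (272 #15513, (E3)): `X`, `Y` finite, `NN` symmetric, `bad` monotone,
`o` arbitrary orders. -/
theorem engine (X Y : Finset α) (NN : α → α → Prop) (hs : ∀ z w, NN z w → NN w z)
    (bad : Finset α → α → Prop)
    (mono : ∀ Om Om' z, Om ⊆ Om' → bad Om z → bad Om' z)
    (o : Finset α → α → α → ℕ∞) (k0 : ℕ) (hk0 : 1 ≤ k0) (hX2 : 2 * k0 ≤ X.card)
    (hY2 : 2 * k0 ≤ Y.card) (η ρ : ℝ) (hη : 0 ≤ η) (hρ : 0 ≤ ρ)
    (hTX : ∀ X' ⊆ X, (TP NN X' Y : ℝ) ^ 2 * X.card ≤ X'.card * (TP NN X Y : ℝ) ^ 2)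
    (hTY : ∀ Y' ⊆ Y, (TP NN X Y' : ℝ) ^ 2 * Y.card ≤ Y'.card * (TP NN X Y : ℝ) ^ 2)
    (hbX : ∀ A ⊆ X, ∀ B ⊆ Y, A.card ≤ 2 * k0 → B.card ≤ 2 * k0 →
      ((X.filter fun x => bad (A ∪ B) x).card : ℝ) ≤ η * X.card)
    (hbY : ∀ A ⊆ X, ∀ B ⊆ Y, A.card ≤ 2 * k0 → B.card ≤ 2 * k0 →
      ((Y.filter fun y => bad (A ∪ B) y).card : ℝ) ≤ η * Y.card)
    (R1 R2 : Finset α → ℝ) (hR1 : ∀ B, 0 ≤ R1 B) (hR2 : ∀ A, 0 ≤ R2 A)
    (RX : ∀ A ⊆ X, ∀ B ⊆ Y, A.card ≤ 2 * k0 → B.card ≤ 2 * k0 → ∀ x ∈ X, ¬ bad (A ∪ B) x →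
      (((B \ A).filter fun y => NN x y ∧
        o ((A ∪ B).erase y) y x ≤ o ((A ∪ B).erase y) x y).card : ℝ) ≤ R1 B)
    (RY : ∀ A ⊆ X, ∀ B ⊆ Y, A.card ≤ 2 * k0 → B.card ≤ 2 * k0 → ∀ y ∈ Y, ¬ bad (A ∪ B) y →
      (((A \ B).filter fun x => NN y x ∧
        o ((A ∪ B).erase x) x y ≤ o ((A ∪ B).erase x) y x).card : ℝ) ≤ R2 A)
    (avY : ∀ k, k0 < k → k ≤ 2 * k0 →
      ∑ B ∈ Y.powersetCard k, R1 B ≤ ρ * (Y.card.choose k : ℝ))
    (avX : ∀ k, k0 < k → k ≤ 2 * k0 →
      ∑ A ∈ X.powersetCard k, R2 A ≤ ρ * (X.card.choose k : ℝ)) :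
    (TP NN X Y : ℝ) ≤
      (√(4 * k0 / X.card) + √(4 * k0 / Y.card) + 2 * √η) * TP NN X Y +
        (X.card : ℝ) * Y.card * (2 * ρ + 2 * η) / k0 := by
  set T : ℝ := (TP NN X Y : ℝ) with hT
  have hT0 : 0 ≤ T := Nat.cast_nonneg _
  have hk0' : (0 : ℝ) < (k0 : ℝ) := by exact_mod_cast hk0
  have hX0 : (0 : ℝ) < (X.card : ℝ) := by exact_mod_cast (by omega : 0 < X.card)
  have hY0 : (0 : ℝ) < (Y.card : ℝ) := by exact_mod_cast (by omega : 0 < Y.card)
  -- the increments
  set gX : Finset α → Finset α → ℝ := fun A B => (nb bad X (A ∪ B) : ℝ) with hgX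
  set gY : Finset α → Finset α → ℝ := fun B A => (nb bad Y (A ∪ B) : ℝ) with hgY
  have mX : ∀ A A' B B' : Finset α, A ⊆ A' → B ⊆ B' → gX A B ≤ gX A' B' := by
    intro A A' B B' h1 h2
    exact Nat.cast_le.2 (nb_mono mono X (Finset.union_subset_union h1 h2))
  have mY : ∀ B B' A A' : Finset α, B ⊆ B' → A ⊆ A' → gY B A ≤ gY B' A' := by
    intro B B' A A' h1 h2
    exact Nat.cast_le.2 (nb_mono mono Y (Finset.union_subset_union h2 h1))
  set dX : ℕ → ℝ := fun k => av X k (fun A => av Y (k + 1) (fun B => gX A B)) -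
    av X k (fun A => av Y k (fun B => gX A B)) with hdX
  set dY : ℕ → ℝ := fun k => av Y k (fun B => av X (k + 1) (fun A => gY B A)) -
    av Y k (fun B => av X k (fun A => gY B A)) with hdY
  have sX : ∑ k ∈ Finset.Ico k0 (2 * k0), dX k ≤ η * X.card := by
    refine tele X Y k0 hX2 hY2 gX (fun _ _ => Nat.cast_nonneg _) mX _ ?_
    intro A hA B hB
    rw [Finset.mem_powersetCard] at hA hB
    exact hbX A hA.1 B hB.1 hA.2.le hB.2.le
  have sY : ∑ k ∈ Finset.Ico k0 (2 * k0), dY k ≤ η * Y.card := by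
    refine tele Y X k0 hY2 hX2 gY (fun _ _ => Nat.cast_nonneg _) mY _ ?_
    intro B hB A hA
    rw [Finset.mem_powersetCard] at hA hB
    exact hbY A hA.1 B hB.1 hA.2.le hB.2.le
  -- one value of `k`
  have one : ∀ k ∈ Finset.Ico k0 (2 * k0), T ≤
      (√(4 * k0 / X.card) + √(4 * k0 / Y.card) + 2 * √η) * T +
        Y.card * dX k + X.card * dY k + 2 * ((X.card : ℝ) * Y.card * ρ / k0) := by
    intro k hk
    rw [Finset.mem_Ico] at hk
    have hkX : k + 1 ≤ X.card := by omega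
    have hkY : k + 1 ≤ Y.card := by omega
    have hk4 : (2 * k : ℝ) ≤ 4 * k0 := by
      have : ((2 * k : ℕ) : ℝ) ≤ ((4 * k0 : ℕ) : ℝ) := by exact_mod_cast (by omega)
      push_cast at this; exact this
    have hkk : (k0 : ℝ) ≤ (k : ℝ) + 1 := by
      have : ((k0 : ℕ) : ℝ) ≤ ((k + 1 : ℕ) : ℝ) := by exact_mod_cast (by omega)
      push_cast at this; exact this
    -- pointwise
    have pt : ∀ A ∈ X.powersetCard k, ∀ B ∈ Y.powersetCard k, T ≤
        (√(4 * k0 / X.card) + √(4 * k0 / Y.card) + 2 * √η) * T +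
        ∑ y ∈ Y \ B, (gX A (insert y B) - gX A B) + ∑ x ∈ X \ A, (gY B (insert x A) - gY B A) +
        ∑ y ∈ Y \ B, (F1 NN bad o X A (insert y B) y : ℝ) +
        ∑ x ∈ X \ A, (F1 NN bad o Y B (insert x A) x : ℝ) := by
      intro A hA B hB
      rw [Finset.mem_powersetCard] at hA hB
      have hAk : A.card ≤ 2 * k0 := by omega
      have hBk : B.card ≤ 2 * k0 := by omega
      have hcU : ((A ∪ B).card : ℝ) ≤ 4 * k0 := by
        have := Finset.card_union_le A B
        have h2 : (A ∪ B).card ≤ 2 * k := by omega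
        have h3 : ((A ∪ B).card : ℝ) ≤ ((2 * k : ℕ) : ℝ) := by exact_mod_cast h2
        push_cast at h3
        linarith
      have d := decomp X Y NN bad mono o hs A B
      have q1 : (TP NN (X ∩ (A ∪ B)) Y : ℝ) ≤ √(4 * k0 / X.card) * T := by
        refine le_of_sq (Nat.cast_nonneg _) hT0 hX0 (Real.sqrt_nonneg _)
          (hTX _ Finset.inter_subset_left) ?_
        rw [Real.sq_sqrt (by positivity), div_mul_cancel₀ _ hX0.ne']
        refine le_trans ?_ hcU
        exact_mod_cast Finset.card_le_card Finset.inter_subset_right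
      have q2 : (TP NN X (Y ∩ (A ∪ B)) : ℝ) ≤ √(4 * k0 / Y.card) * T := by
        refine le_of_sq (Nat.cast_nonneg _) hT0 hY0 (Real.sqrt_nonneg _)
          (hTY _ Finset.inter_subset_left) ?_
        rw [Real.sq_sqrt (by positivity), div_mul_cancel₀ _ hY0.ne']
        refine le_trans ?_ hcU
        exact_mod_cast Finset.card_le_card Finset.inter_subset_right
      have q3 : (TP NN (X.filter fun x => bad (A ∪ B) x) Y : ℝ) ≤ √η * T := by
        refine le_of_sq (Nat.cast_nonneg _) hT0 hX0 (Real.sqrt_nonneg _)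
          (hTX _ (Finset.filter_subset _ _)) ?_
        rw [Real.sq_sqrt hη]
        exact hbX A hA.1 B hB.1 hAk hBk
      have q4 : (TP NN X (Y.filter fun y => bad (A ∪ B) y) : ℝ) ≤ √η * T := by
        refine le_of_sq (Nat.cast_nonneg _) hT0 hY0 (Real.sqrt_nonneg _)
          (hTY _ (Finset.filter_subset _ _)) ?_
        rw [Real.sq_sqrt hη]
        exact hbY A hA.1 B hB.1 hAk hBk
      simp only [hgX, hgY]
      linarith
    -- averages
    have step : T ≤ av X k (fun A => av Y k (fun B =>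
        ((√(4 * k0 / X.card) + √(4 * k0 / Y.card) + 2 * √η) * T +
        ∑ y ∈ Y \ B, (gX A (insert y B) - gX A B) + ∑ x ∈ X \ A, (gY B (insert x A) - gY B A) +
        ∑ y ∈ Y \ B, (F1 NN bad o X A (insert y B) y : ℝ) +
        ∑ x ∈ X \ A, (F1 NN bad o Y B (insert x A) x : ℝ)))) := by
      calc T = av X k (fun _ => T) := (av_const (by omega) T).symm
        _ ≤ _ := by
          refine av_mono fun A hA => ?_
          calc T = av Y k (fun _ => T) := (av_const (by omega) T).symm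
            _ ≤ _ := av_mono fun B hB => pt A hA B hB
    simp only [av_add] at step
    have e0 : av X k (fun _A => av Y k (fun _B =>
        (√(4 * k0 / X.card) + √(4 * k0 / Y.card) + 2 * √η) * T)) =
        (√(4 * k0 / X.card) + √(4 * k0 / Y.card) + 2 * √η) * T := by
      rw [av_const (by omega), av_const (by omega)]
    rw [e0] at step
    have e1 := new_le X Y k (by omega) hkY gX mX
    have e2 : av X k (fun A => av Y k (fun B => ∑ x ∈ X \ A, (gY B (insert x A) - gY B A))) ≤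
        X.card * dY k := by
      rw [av_comm]
      exact new_le Y X k (by omega) hkX gY mY
    have e3 : av X k (fun A => av Y k (fun B =>
        ∑ y ∈ Y \ B, (F1 NN bad o X A (insert y B) y : ℝ))) ≤
        (X.card : ℝ) * Y.card * ρ / k0 := by
      refine (type_le X Y k (by omega) hkY (fun A B y => (F1 NN bad o X A B y : ℝ)) X.card ρ
        hX0.le hρ R1 ?_ ?_).trans ?_
      · intro A hA B hB
        rw [Finset.mem_powersetCard] at hA hB
        exact sum_F1_le X A B NN bad o (R1 B) (hR1 B) (RX A hA.1 B hB.1 (by omega) (by omega))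
      · unfold av
        rw [div_le_iff₀ (choose_pos hkY)]
        exact avY (k + 1) (by omega) (by omega)
      · have : (Y.card : ℝ) / (k + 1) ≤ Y.card / k0 := div_le_div_of_nonneg_left hY0.le hk0' hkk
        calc (Y.card : ℝ) / (k + 1) * (X.card * ρ) ≤ Y.card / k0 * (X.card * ρ) :=
              mul_le_mul_of_nonneg_right this (by positivity)
          _ = _ := by ring
    have e4 : av X k (fun A => av Y k (fun B =>
        ∑ x ∈ X \ A, (F1 NN bad o Y B (insert x A) x : ℝ))) ≤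
        (X.card : ℝ) * Y.card * ρ / k0 := by
      rw [av_comm]
      refine (type_le Y X k (by omega) hkX (fun B A x => (F1 NN bad o Y B A x : ℝ)) Y.card ρ
        hY0.le hρ R2 ?_ ?_).trans ?_
      · intro B hB A hA
        rw [Finset.mem_powersetCard] at hA hB
        refine sum_F1_le Y B A NN bad o (R2 A) (hR2 A) ?_
        rw [Finset.union_comm B A]
        exact RY A hA.1 B hB.1 (by omega) (by omega)
      · unfold av
        rw [div_le_iff₀ (choose_pos hkX)]
        exact avX (k + 1) (by omega) (by omega)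
      · have : (X.card : ℝ) / (k + 1) ≤ X.card / k0 := div_le_div_of_nonneg_left hX0.le hk0' hkk
        calc (X.card : ℝ) / (k + 1) * (Y.card * ρ) ≤ X.card / k0 * (Y.card * ρ) :=
              mul_le_mul_of_nonneg_right this (by positivity)
          _ = _ := by ring
    simp only [hdX]
    linarith
  -- sum over `k`
  have tot := Finset.sum_le_sum one
  rw [Finset.sum_const, Nat.card_Ico, nsmul_eq_mul] at tot
  have hn : ((2 * k0 - k0 : ℕ) : ℝ) = k0 := by
    rw [show 2 * k0 - k0 = k0 by omega]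
  rw [hn, Finset.sum_add_distrib, Finset.sum_add_distrib, Finset.sum_add_distrib,
    Finset.sum_const, Finset.sum_const, Nat.card_Ico, nsmul_eq_mul, nsmul_eq_mul, hn,
    ← Finset.mul_sum, ← Finset.mul_sum] at tot
  have f1 : (Y.card : ℝ) * ∑ k ∈ Finset.Ico k0 (2 * k0), dX k ≤ Y.card * (η * X.card) :=
    mul_le_mul_of_nonneg_left sX hY0.le
  have f2 : (X.card : ℝ) * ∑ k ∈ Finset.Ico k0 (2 * k0), dY k ≤ X.card * (η * Y.card) :=
    mul_le_mul_of_nonneg_left sY hX0.le
  have f3 : (k0 : ℝ) * T ≤ k0 * ((√(4 * k0 / X.card) + √(4 * k0 / Y.card) + 2 * √η) * T +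
      (X.card : ℝ) * Y.card * (2 * ρ + 2 * η) / k0) := by
    have : (k0 : ℝ) * ((√(4 * k0 / X.card) + √(4 * k0 / Y.card) + 2 * √η) * T +
      (X.card : ℝ) * Y.card * (2 * ρ + 2 * η) / k0) =
      k0 * ((√(4 * k0 / X.card) + √(4 * k0 / Y.card) + 2 * √η) * T) +
      k0 * (2 * ((X.card : ℝ) * Y.card * ρ / k0)) + 2 * (X.card * Y.card * η) := by
      field_simp
      ring
    rw [this]
    nlinarith [f1, f2, tot]
  exact le_of_mul_le_mul_left f3 hk0'

end Crest.Agent.R065.D4eng812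
end

-- ▼ part R065/Nu_397
section

/-!
# Row 65, `d ≥ 4`: pairwise null subsets of a random sample (E4 of 272's engine)
-/

set_option autoImplicit false

open Finset Module

namespace Crest.Agent.R065.Nu397

open scoped InnerProductSpace

/-- Euclidean space -/
abbrev E (d : ℕ) := EuclideanSpace ℝ (Fin d)

variable {d : ℕ}

/-- equal distances -/
def NN (z w : E d × E d) : Prop := dist z.1 w.1 = dist z.2 w.2

/-- pairwise null -/
def Clq (N : Finset (E d × E d)) : Prop := ∀ z ∈ N, ∀ w ∈ N, NN z w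

open scoped Classical in
/-- maximal size of a pairwise null subset -/
noncomputable def nu (Om : Finset (E d × E d)) : ℕ :=
  (Om.powerset.filter fun N => Clq N).sup Finset.card


lemma Clq.mono {N N' : Finset (E d × E d)} (h : N' ⊆ N) (hN : Clq N) : Clq N' :=
  fun z hz w hw => hN z (h hz) w (h hw)

lemma le_nu {N Om : Finset (E d × E d)} (h : N ⊆ Om) (hN : Clq N) : N.card ≤ nu Om := by
  classical
  unfold nu
  exact Finset.le_sup (f := Finset.card) (Finset.mem_filter.2 ⟨Finset.mem_powerset.2 h, hN⟩)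

lemma clq_empty : Clq (∅ : Finset (E d × E d)) := fun z hz => by simp at hz

lemma exists_clq (Om : Finset (E d × E d)) : ∃ N ⊆ Om, Clq N ∧ N.card = nu Om := by
  classical
  have hne : (Om.powerset.filter fun N => Clq N).Nonempty :=
    ⟨∅, Finset.mem_filter.2 ⟨Finset.mem_powerset.2 (Finset.empty_subset _), clq_empty⟩⟩
  obtain ⟨N, hN, hN'⟩ := Finset.exists_mem_eq_sup _ hne Finset.card
  refine ⟨N, Finset.mem_powerset.1 (Finset.mem_filter.1 hN).1, (Finset.mem_filter.1 hN).2, ?_⟩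
  unfold nu
  convert hN'.symm

lemma exists_clq_of_le {Om : Finset (E d × E d)} {s : ℕ} (hs : s ≤ nu Om) :
    ∃ N ⊆ Om, Clq N ∧ N.card = s := by
  obtain ⟨N, hN, hc, hN'⟩ := exists_clq Om
  obtain ⟨N', h1, h2⟩ := Finset.exists_subset_card_eq (s := N) (n := s) (by omega)
  exact ⟨N', h1.trans hN, hc.mono h1, h2⟩

lemma nu_le_card (Om : Finset (E d × E d)) : nu Om ≤ Om.card := by
  obtain ⟨N, hN, _, h⟩ := exists_clq Om
  rw [← h]
  exact Finset.card_le_card hN




/-! ### rigidity -/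

/-- affine relations are transported by a pairwise null set -/
lemma mem_span_snd {N T : Finset (E d × E d)} (hN : Clq N) (hT : T ⊆ N) {z : E d × E d}
    (hz : z ∈ N) (h : z.1 ∈ affineSpan ℝ (Prod.fst '' (T : Set (E d × E d)))) :
    z.2 ∈ affineSpan ℝ (Prod.snd '' (T : Set (E d × E d))) := by
  classical
  have hr : Prod.fst '' (T : Set (E d × E d)) = Set.range (fun t : T => t.1.1) := by
    ext x
    constructor
    · rintro ⟨t, ht, rfl⟩
      exact ⟨⟨t, ht⟩, rfl⟩
    · rintro ⟨t, rfl⟩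
      exact ⟨t.1, t.2, rfl⟩
  rw [hr] at h
  obtain ⟨w, hw, hz1⟩ := eq_affineCombination_of_mem_affineSpan_of_fintype h
  have hinner : ∀ s t : T, ⟪z.1 - s.1.1, z.1 - t.1.1⟫_ℝ = ⟪z.2 - s.1.2, z.2 - t.1.2⟫_ℝ := by
    intro s t
    have a1 : dist z.1 s.1.1 = dist z.2 s.1.2 := hN z hz s.1 (hT s.2)
    have a2 : dist z.1 t.1.1 = dist z.2 t.1.2 := hN z hz t.1 (hT t.2)
    have a3 : dist s.1.1 t.1.1 = dist s.1.2 t.1.2 := hN s.1 (hT s.2) t.1 (hT t.2)
    have key : ∀ x y w : E d, ⟪x - y, x - w⟫_ℝ = (dist x y ^ 2 + dist x w ^ 2 - dist y w ^ 2) / 2 := by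
      intro x y w
      have h1 : (x - w) - (x - y) = y - w := by abel
      have h2 := @norm_sub_sq_real _ _ _ (x - w) (x - y)
      rw [h1, real_inner_comm] at h2
      rw [dist_eq_norm, dist_eq_norm, dist_eq_norm]
      linarith
    rw [key, key, a1, a2, a3]
  have hcomb : ∀ f : T → E d, ∀ x : E d,
      x - Finset.univ.affineCombination ℝ f w = ∑ t, w t • (x - f t) := by
    intro f x
    rw [Finset.affineCombination_eq_linear_combination _ _ _ hw]
    simp only [smul_sub, Finset.sum_sub_distrib, ← Finset.sum_smul, hw, one_smul]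
  have hnorm : ∀ f : T → E d, ‖∑ t, w t • f t‖ ^ 2 = ∑ s, ∑ t, w s * w t * ⟪f s, f t⟫_ℝ := by
    intro f
    rw [← real_inner_self_eq_norm_sq, sum_inner]
    refine Finset.sum_congr rfl fun s _ => ?_
    rw [inner_sum]
    refine Finset.sum_congr rfl fun t _ => ?_
    rw [real_inner_smul_left, real_inner_smul_right]
    ring
  have hz2 : z.2 = Finset.univ.affineCombination ℝ (fun t : T => t.1.2) w := by
    have e1 : z.1 - Finset.univ.affineCombination ℝ (fun t : T => t.1.1) w = 0 := by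
      rw [hz1, sub_self]
    rw [hcomb] at e1
    have e2 : ‖∑ t : T, w t • (z.2 - t.1.2)‖ ^ 2 = 0 := by
      rw [hnorm]
      have := hnorm (fun t : T => z.1 - t.1.1)
      rw [e1] at this
      simp only [norm_zero, ne_eq, OfNat.ofNat_ne_zero, not_false_eq_true, zero_pow] at this
      rw [this]
      refine Finset.sum_congr rfl fun s _ => Finset.sum_congr rfl fun t _ => ?_
      rw [hinner]
    have e3 : ∑ t : T, w t • (z.2 - t.1.2) = 0 := by
      rw [← norm_eq_zero]
      exact pow_eq_zero_iff (two_ne_zero) |>.1 e2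
    rw [← hcomb] at e3
    exact sub_eq_zero.1 e3
  rw [hz2]
  have hmem := affineCombination_mem_affineSpan (s := (Finset.univ : Finset T)) hw
    (fun t : T => t.1.2)
  refine affineSpan_mono ℝ ?_ hmem
  rintro x ⟨t, rfl⟩
  exact ⟨t.1, t.2, rfl⟩

/-- differences of points equidistant from `A` are orthogonal to `A` -/
lemma sub_mem_orth (A : Set (E d)) {b b' : E d} (h : ∀ a ∈ A, dist b a = dist b' a) :
    b - b' ∈ (vectorSpan ℝ A)ᗮ := by
  rw [Submodule.mem_orthogonal]
  have key : ∀ a ∈ A, 2 * ⟪a, b - b'⟫_ℝ = ‖b‖ ^ 2 - ‖b'‖ ^ 2 := by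
    intro a ha
    have h1 : dist b a ^ 2 = dist b' a ^ 2 := by rw [h a ha]
    rw [dist_eq_norm, dist_eq_norm, @norm_sub_sq_real, @norm_sub_sq_real] at h1
    rw [inner_sub_right, real_inner_comm b a, real_inner_comm b' a]
    linarith
  intro u hu
  unfold vectorSpan at hu
  induction hu using Submodule.span_induction with
  | mem x hx =>
    obtain ⟨a, ha, a', ha', rfl⟩ := hx
    simp only [vsub_eq_sub]
    rw [inner_sub_left]
    linarith [key a ha, key a' ha']
  | zero => simp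
  | add x y _ _ hx hy => rw [inner_add_left, hx, hy, add_zero]
  | smul c x _ hx => rw [real_inner_smul_left, hx, mul_zero]

open scoped Classical in
/-- the possible further members of a clique spanned by `T` -/
noncomputable def VV (Y T : Finset (E d × E d)) : Finset (E d × E d) :=
  Y.filter fun w => w.2 ∈ affineSpan ℝ (Prod.snd '' (T : Set (E d × E d))) ∧ ∀ t ∈ T, NN w t

open scoped Classical in
lemma card_VV_le {P : Finset (E d)} {Y T : Finset (E d × E d)} (hY : Y ⊆ P ×ˢ P) :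
    (VV Y T).card ≤ P.card := by
  have hinj : Set.InjOn Prod.fst (VV Y T : Set (E d × E d)) := by
    intro z hz w hw h
    have hz' := (Finset.mem_filter.1 hz).2
    have hw' := (Finset.mem_filter.1 hw).2
    refine Prod.ext h ?_
    have h1 : z.2 - w.2 ∈ (vectorSpan ℝ (Prod.snd '' (T : Set (E d × E d))))ᗮ := by
      apply sub_mem_orth
      rintro a ⟨t, ht, rfl⟩
      have a1 : dist z.1 t.1 = dist z.2 t.2 := hz'.2 t ht
      have a2 : dist w.1 t.1 = dist w.2 t.2 := hw'.2 t ht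
      rw [← a1, ← a2, h]
    have h2 : z.2 - w.2 ∈ vectorSpan ℝ (Prod.snd '' (T : Set (E d × E d))) := by
      have := AffineSubspace.vsub_mem_direction hz'.1 hw'.1
      rw [direction_affineSpan] at this
      exact this
    have h3 := Submodule.inner_right_of_mem_orthogonal h2 h1
    exact sub_eq_zero.1 (inner_self_eq_zero.1 h3)
  rw [← Finset.card_image_of_injOn hinj]
  refine Finset.card_le_card ?_
  intro x hx
  obtain ⟨z, hz, rfl⟩ := Finset.mem_image.1 hx
  exact (Finset.mem_product.1 (hY (Finset.mem_filter.1 hz).1)).1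

/-- a small spanning subset -/
lemma exists_span (N : Finset (E d × E d)) :
    ∃ T ⊆ N, T.card ≤ d + 1 ∧
      ∀ z ∈ N, z.1 ∈ affineSpan ℝ (Prod.fst '' (T : Set (E d × E d))) := by
  classical
  obtain ⟨t, hts, hspan, hind⟩ := exists_affineIndependent ℝ (E d)
    (Prod.fst '' (N : Set (E d × E d)))
  have hfin : (Prod.fst '' (N : Set (E d × E d))).Finite := N.finite_toSet.image _
  have htfin : t.Finite := hfin.subset hts
  have hch : ∀ x ∈ t, ∃ z ∈ N, z.1 = x := by
    intro x hx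
    obtain ⟨z, hz, h⟩ := hts hx
    exact ⟨z, hz, h⟩
  choose! g hg1 hg2 using hch
  have : Fintype t := htfin.fintype
  have hcard : t.toFinset.card ≤ d + 1 := by
    have h1 : Fintype.card t ≤ finrank ℝ (vectorSpan ℝ (Set.range ((↑) : t → E d))) + 1 :=
      hind.card_le_finrank_succ
    have h2 : finrank ℝ (vectorSpan ℝ (Set.range ((↑) : t → E d))) ≤ d := by
      have := Submodule.finrank_le (vectorSpan ℝ (Set.range ((↑) : t → E d)))
      rwa [finrank_euclideanSpace, Fintype.card_fin] at this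
    rw [Set.toFinset_card]
    exact h1.trans (by gcongr)
  refine ⟨t.toFinset.image g, ?_, ?_, ?_⟩
  · intro z hz
    obtain ⟨x, hx, rfl⟩ := Finset.mem_image.1 hz
    exact hg1 x (Set.mem_toFinset.1 hx)
  · exact Finset.card_image_le.trans hcard
  · intro z hz
    have himg : Prod.fst '' ((t.toFinset.image g : Finset (E d × E d)) : Set (E d × E d)) = t := by
      ext x
      constructor
      · rintro ⟨w, hw, rfl⟩
        obtain ⟨y, hy, rfl⟩ := Finset.mem_image.1 (Finset.mem_coe.1 hw)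
        rw [hg2 y (Set.mem_toFinset.1 hy)]
        exact Set.mem_toFinset.1 hy
      · intro hx
        exact ⟨g x, Finset.mem_coe.2 (Finset.mem_image.2 ⟨x, Set.mem_toFinset.2 hx, rfl⟩), hg2 x hx⟩
    rw [himg, hspan]
    exact subset_affineSpan ℝ _ ⟨z, hz, rfl⟩

/-! ### counting -/

lemma desc_le (k Y s : ℕ) (hk : k ≤ Y) :
    k.descFactorial s * Y ^ s ≤ k ^ s * Y.descFactorial s := by
  induction s with
  | zero => simp
  | succ s ih =>
    rw [Nat.descFactorial_succ, Nat.descFactorial_succ, pow_succ, pow_succ]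
    have h1 : (k - s) * Y ≤ k * (Y - s) := by
      rcases Nat.le_total k s with h | h
      · rw [Nat.sub_eq_zero_of_le h, zero_mul]; exact Nat.zero_le _
      · rw [Nat.sub_mul, Nat.mul_sub]
        have : k * s ≤ s * Y := by rw [mul_comm s Y]; exact Nat.mul_le_mul_right _ hk
        omega
    calc (k - s) * k.descFactorial s * (Y ^ s * Y)
        = (k.descFactorial s * Y ^ s) * ((k - s) * Y) := by ring
      _ ≤ (k ^ s * Y.descFactorial s) * (k * (Y - s)) := Nat.mul_le_mul ih h1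
      _ = k ^ s * k * ((Y - s) * Y.descFactorial s) := by ring

lemma choose_le (k Y s : ℕ) (hk : k ≤ Y) : k.choose s * Y ^ s ≤ k ^ s * Y.choose s := by
  have h := desc_le k Y s hk
  rw [Nat.descFactorial_eq_factorial_mul_choose, Nat.descFactorial_eq_factorial_mul_choose] at h
  have hf : 0 < s.factorial := Nat.factorial_pos s
  refine le_of_mul_le_mul_left (a := s.factorial) ?_ hf
  calc s.factorial * (k.choose s * Y ^ s) = s.factorial * k.choose s * Y ^ s := by ring
    _ ≤ k ^ s * (s.factorial * Y.choose s) := h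
    _ = s.factorial * (k ^ s * Y.choose s) := by ring

/-- `P(S ⊆ Om) ≤ (k/|Y|)^|S|` -/
lemma card_super_le {α : Type*} [DecidableEq α] (Y S : Finset α) (k : ℕ) (hk : k ≤ Y.card)
    (hS : S ⊆ Y) :
    ((Y.powersetCard k).filter fun Om => S ⊆ Om).card * Y.card ^ S.card ≤
      k ^ S.card * Y.card.choose k := by
  rcases Nat.lt_or_ge k S.card with hlt | hge
  · have : (Y.powersetCard k).filter (fun Om => S ⊆ Om) = ∅ := by
      refine Finset.filter_eq_empty_iff.2 fun Om hOm h => ?_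
      have := Finset.card_le_card h
      rw [(Finset.mem_powersetCard.1 hOm).2] at this
      omega
    rw [this]
    simp
  · have hinj : ((Y.powersetCard k).filter fun Om => S ⊆ Om).card ≤
        ((Y \ S).powersetCard (k - S.card)).card := by
      refine Finset.card_le_card_of_injOn (fun Om => Om \ S) ?_ ?_
      · intro Om hOm
        obtain ⟨h1, h2⟩ := Finset.mem_filter.1 (Finset.mem_coe.1 hOm)
        obtain ⟨h3, h4⟩ := Finset.mem_powersetCard.1 h1
        refine Finset.mem_coe.2 (Finset.mem_powersetCard.2 ⟨Finset.sdiff_subset_sdiff h3 le_rfl, ?_⟩)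
        rw [Finset.card_sdiff_of_subset h2, h4]
      · intro Om hOm Om' hOm' h
        have h1 := (Finset.mem_filter.1 (Finset.mem_coe.1 hOm)).2
        have h2 := (Finset.mem_filter.1 (Finset.mem_coe.1 hOm')).2
        have h' : Om \ S = Om' \ S := h
        rw [← Finset.sdiff_union_of_subset h1, h', Finset.sdiff_union_of_subset h2]
    rw [Finset.card_powersetCard, Finset.card_sdiff_of_subset hS] at hinj
    have h1 := Nat.choose_mul (n := Y.card) (k := k) (s := S.card) hge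
    have h2 := choose_le k Y.card S.card hk
    have hpos : 0 < Y.card.choose S.card := Nat.choose_pos (Finset.card_le_card hS)
    refine le_of_mul_le_mul_left (a := Y.card.choose S.card) ?_ hpos
    calc Y.card.choose S.card *
          (((Y.powersetCard k).filter fun Om => S ⊆ Om).card * Y.card ^ S.card)
        ≤ Y.card.choose S.card * ((Y.card - S.card).choose (k - S.card) * Y.card ^ S.card) := by
          gcongr
      _ = (Y.card.choose S.card * (Y.card - S.card).choose (k - S.card)) * Y.card ^ S.card := by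
          ring
      _ = (Y.card.choose k * k.choose S.card) * Y.card ^ S.card := by rw [h1]
      _ = Y.card.choose k * (k.choose S.card * Y.card ^ S.card) := by ring
      _ ≤ Y.card.choose k * (k ^ S.card * Y.card.choose S.card) := by gcongr
      _ = Y.card.choose S.card * (k ^ S.card * Y.card.choose k) := by ring

open scoped Classical in
/-- the cliques of size `s` in the sample -/
theorem count_cliques (P : Finset (E d)) (Y : Finset (E d × E d)) (hY : Y ⊆ P ×ˢ P) (k s : ℕ)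
    (hk : k ≤ Y.card) (hY0 : 0 < Y.card) (hs : d + 1 ≤ s) :
    ((((Y.powersetCard k).filter fun Om => s ≤ nu Om).card : ℕ) : ℝ) ≤
      (∑ j ∈ range (d + 2), (k : ℝ) ^ j * (P.card.choose (s - j) : ℝ) *
        ((k : ℝ) / Y.card) ^ (s - j)) * (Y.card.choose k : ℝ) := by
  -- union bound
  have hcov : (Y.powersetCard k).filter (fun Om => s ≤ nu Om) ⊆
      (range (d + 2)).biUnion fun j => (Y.powersetCard j).biUnion fun T =>
        ((VV Y T \ T).powersetCard (s - j)).biUnion fun R =>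
          (Y.powersetCard k).filter fun Om => T ∪ R ⊆ Om := by
    intro Om hOm
    obtain ⟨hOm1, hOm2⟩ := Finset.mem_filter.1 hOm
    have hOmY := (Finset.mem_powersetCard.1 hOm1).1
    obtain ⟨N, hN, hc, hNs⟩ := exists_clq_of_le hOm2
    obtain ⟨T, hT, hTc, hspan⟩ := exists_span N
    simp only [Finset.mem_biUnion, Finset.mem_range]
    refine ⟨T.card, by omega, T, Finset.mem_powersetCard.2 ⟨(hT.trans hN).trans hOmY, rfl⟩,
      N \ T, ?_, ?_⟩
    · refine Finset.mem_powersetCard.2 ⟨?_, ?_⟩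
      · refine Finset.sdiff_subset_sdiff ?_ le_rfl
        intro w hw
        refine Finset.mem_filter.2 ⟨hOmY (hN hw), ?_, fun t ht => hc w hw t (hT ht)⟩
        exact mem_span_snd hc hT hw (hspan w hw)
      · rw [Finset.card_sdiff_of_subset hT, hNs]
    · refine Finset.mem_filter.2 ⟨hOm1, ?_⟩
      rw [Finset.union_sdiff_of_subset hT]
      exact hN
  have hYr : (0 : ℝ) < Y.card := by exact_mod_cast hY0
  have h1 : ((((Y.powersetCard k).filter fun Om => s ≤ nu Om).card : ℕ) : ℝ) ≤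
      ∑ j ∈ range (d + 2), ∑ T ∈ Y.powersetCard j, ∑ R ∈ (VV Y T \ T).powersetCard (s - j),
        (((Y.powersetCard k).filter fun Om => T ∪ R ⊆ Om).card : ℝ) := by
    have := Finset.card_le_card hcov
    have h2 := this.trans Finset.card_biUnion_le
    have h3 : ∑ j ∈ range (d + 2), ((Y.powersetCard j).biUnion fun T =>
        ((VV Y T \ T).powersetCard (s - j)).biUnion fun R =>
          (Y.powersetCard k).filter fun Om => T ∪ R ⊆ Om).card ≤
        ∑ j ∈ range (d + 2), ∑ T ∈ Y.powersetCard j, ∑ R ∈ (VV Y T \ T).powersetCard (s - j),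
        ((Y.powersetCard k).filter fun Om => T ∪ R ⊆ Om).card := by
      refine Finset.sum_le_sum fun j _ => Finset.card_biUnion_le.trans ?_
      exact Finset.sum_le_sum fun T _ => Finset.card_biUnion_le
    exact_mod_cast h2.trans h3
  refine h1.trans ?_
  rw [Finset.sum_mul]
  refine Finset.sum_le_sum fun j hj => ?_
  have hj' : j ≤ d + 1 := by
    have := Finset.mem_range.1 hj
    omega
  -- a single term
  have hterm : ∀ T ∈ Y.powersetCard j, ∀ R ∈ (VV Y T \ T).powersetCard (s - j),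
      (((Y.powersetCard k).filter fun Om => T ∪ R ⊆ Om).card : ℝ) ≤
        ((k : ℝ) / Y.card) ^ s * (Y.card.choose k : ℝ) := by
    intro T hT R hR
    obtain ⟨hT1, hT2⟩ := Finset.mem_powersetCard.1 hT
    obtain ⟨hR1, hR2⟩ := Finset.mem_powersetCard.1 hR
    have hRY : R ⊆ Y := fun x hx =>
      (Finset.mem_filter.1 (Finset.mem_sdiff.1 (hR1 hx)).1).1
    have hdisj : Disjoint T R := by
      rw [Finset.disjoint_left]
      intro x hx hx'
      exact (Finset.mem_sdiff.1 (hR1 hx')).2 hx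
    have hcard : (T ∪ R).card = s := by
      rw [Finset.card_union_of_disjoint hdisj, hT2, hR2]
      omega
    have h2 := card_super_le Y (T ∪ R) k hk (Finset.union_subset hT1 hRY)
    rw [hcard] at h2
    have h3 : ((((Y.powersetCard k).filter fun Om => T ∪ R ⊆ Om).card : ℕ) : ℝ) *
        (Y.card : ℝ) ^ s ≤ (k : ℝ) ^ s * (Y.card.choose k : ℝ) := by exact_mod_cast h2
    rw [div_pow, div_mul_eq_mul_div, le_div_iff₀ (pow_pos hYr s)]
    exact h3
  have hinner : ∀ T ∈ Y.powersetCard j, ∑ R ∈ (VV Y T \ T).powersetCard (s - j),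
      (((Y.powersetCard k).filter fun Om => T ∪ R ⊆ Om).card : ℝ) ≤
        (P.card.choose (s - j) : ℝ) * (((k : ℝ) / Y.card) ^ s * (Y.card.choose k : ℝ)) := by
    intro T hT
    refine (Finset.sum_le_card_nsmul _ _ _ (hterm T hT)).trans ?_
    rw [nsmul_eq_mul, Finset.card_powersetCard]
    gcongr
    exact (Finset.card_le_card Finset.sdiff_subset).trans (card_VV_le hY)
  refine (Finset.sum_le_card_nsmul _ _ _ hinner).trans ?_
  rw [nsmul_eq_mul, Finset.card_powersetCard]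
  have hYj : (Y.card.choose j : ℝ) ≤ (Y.card : ℝ) ^ j := by
    exact_mod_cast Nat.choose_le_pow Y.card j
  calc (Y.card.choose j : ℝ) * ((P.card.choose (s - j) : ℝ) *
        (((k : ℝ) / Y.card) ^ s * (Y.card.choose k : ℝ)))
      ≤ (Y.card : ℝ) ^ j * ((P.card.choose (s - j) : ℝ) *
        (((k : ℝ) / Y.card) ^ s * (Y.card.choose k : ℝ))) := by gcongr
    _ = (k : ℝ) ^ j * (P.card.choose (s - j) : ℝ) * ((k : ℝ) / Y.card) ^ (s - j) *
        (Y.card.choose k : ℝ) := by
        have hsj : s = j + (s - j) := by omega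
        have h5 : ((k : ℝ) / Y.card) ^ s = ((k : ℝ) / Y.card) ^ j * ((k : ℝ) / Y.card) ^ (s - j) := by
          rw [← pow_add]
          congr 1
        rw [h5, div_pow _ _ j]
        have h6 : (Y.card : ℝ) ^ j * ((k : ℝ) ^ j / (Y.card : ℝ) ^ j) = (k : ℝ) ^ j :=
          mul_div_cancel₀ _ (pow_pos hYr j).ne'
        calc (Y.card : ℝ) ^ j * ((P.card.choose (s - j) : ℝ) *
              ((k : ℝ) ^ j / (Y.card : ℝ) ^ j * ((k : ℝ) / Y.card) ^ (s - j) *
                (Y.card.choose k : ℝ)))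
            = ((Y.card : ℝ) ^ j * ((k : ℝ) ^ j / (Y.card : ℝ) ^ j)) * (P.card.choose (s - j) : ℝ) *
              ((k : ℝ) / Y.card) ^ (s - j) * (Y.card.choose k : ℝ) := by ring
          _ = _ := by rw [h6]

lemma choose_mul_pow_le (n r : ℕ) (q : ℝ) (hq : 0 ≤ q) (hr : 1 ≤ r) :
    (n.choose r : ℝ) * q ^ r ≤ (Real.exp 1 * (n * q) / r) ^ r := by
  have hr' : (0 : ℝ) < r := by exact_mod_cast hr
  have h1 : (n.choose r : ℝ) ≤ (n : ℝ) ^ r / (r.factorial : ℝ) := Nat.choose_le_pow_div r n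
  have h2 : (r : ℝ) ^ r / (r.factorial : ℝ) ≤ Real.exp r :=
    Real.pow_div_factorial_le_exp (r : ℝ) hr'.le r
  have hf : (0 : ℝ) < (r.factorial : ℝ) := by exact_mod_cast Nat.factorial_pos r
  have h3 : (1 : ℝ) / (r.factorial : ℝ) ≤ Real.exp r / (r : ℝ) ^ r := by
    rw [le_div_iff₀ (pow_pos hr' r)]
    calc (1 : ℝ) / (r.factorial : ℝ) * (r : ℝ) ^ r = (r : ℝ) ^ r / (r.factorial : ℝ) := by ring
      _ ≤ Real.exp r := h2
  calc (n.choose r : ℝ) * q ^ r ≤ (n : ℝ) ^ r / (r.factorial : ℝ) * q ^ r := by gcongr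
    _ = (n * q) ^ r * (1 / (r.factorial : ℝ)) := by rw [mul_pow]; ring
    _ ≤ (n * q) ^ r * (Real.exp r / (r : ℝ) ^ r) := by gcongr
    _ = (Real.exp 1 * (n * q) / r) ^ r := by
        rw [div_pow, mul_pow (Real.exp 1)]
        have : Real.exp (r : ℝ) = Real.exp 1 ^ r := by
          rw [← Real.exp_nat_mul, mul_one]
        rw [this]
        ring

/-- **the average clique number of a random sample** -/
theorem avg_nu (d : ℕ) (hd : 4 ≤ d) (ε : ℝ) (hε : 0 < ε) :
    ∃ (m0 : ℕ) (θ : ℝ), 0 < θ ∧ ∀ (P : Finset (E d)) (Y : Finset (E d × E d)), Y ⊆ P ×ˢ P →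
      ∀ m k : ℕ, m0 ≤ m → k ≤ m ^ d → k ≤ Y.card →
      (P.card : ℝ) * k ≤ θ * (m : ℝ) ^ (d - 2) * Y.card →
      ∑ Om ∈ Y.powersetCard k, (nu Om : ℝ) ≤ ε * (m : ℝ) ^ (d - 2) * (Y.card.choose k : ℝ) := by
  classical
  have hb : 0 < ε / 8 := by positivity
  have hη : 0 < ε / (2 * ((d : ℝ) + 2)) := by positivity
  -- threshold
  have htend := tendsto_rpow_mul_exp_neg_mul_atTop_nhds_zero ((d * (d + 2) : ℕ) : ℝ) (ε / 8) hb
  have hev := htend.eventually_lt_const hη
  obtain ⟨X, hX⟩ := Filter.eventually_atTop.1 hev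
  refine ⟨max 1 (max ⌈8 * ((d : ℝ) + 1) / ε⌉₊ ⌈X⌉₊), ε * Real.exp (-2) / 8, by positivity, ?_⟩
  intro P Y hY m k hm hkm hkY hnk
  have hm1 : 1 ≤ m := (le_max_left _ _).trans hm
  have hm2 : 8 * ((d : ℝ) + 1) / ε ≤ m :=
    Nat.ceil_le.1 (((le_max_left _ _).trans (le_max_right _ _)).trans hm)
  have hm3 : X ≤ m := Nat.ceil_le.1 (((le_max_right _ _).trans (le_max_right _ _)).trans hm)
  have hm1' : (1 : ℝ) ≤ m := by exact_mod_cast hm1
  have hm0' : (0 : ℝ) < m := by linarith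
  set M : ℝ := (m : ℝ) ^ (d - 2) with hM
  have hmM : (m : ℝ) ≤ M := by
    calc (m : ℝ) = (m : ℝ) ^ 1 := (pow_one _).symm
      _ ≤ (m : ℝ) ^ (d - 2) := pow_le_pow_right₀ hm1' (by omega)
  have hM1 : 1 ≤ M := hm1'.trans hmM
  rcases Nat.eq_zero_or_pos Y.card with hY0 | hY0
  · have hYe : Y = ∅ := Finset.card_eq_zero.1 hY0
    have hk0 : k = 0 := by omega
    subst hk0
    have : ∑ Om ∈ Y.powersetCard 0, (nu Om : ℝ) = 0 := by
      rw [Finset.powersetCard_zero, Finset.sum_singleton]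
      have := nu_le_card (∅ : Finset (E d × E d))
      rw [Finset.card_empty] at this
      have h0 : nu (∅ : Finset (E d × E d)) = 0 := by omega
      rw [h0]
      simp
    rw [this]
    positivity
  have hYr : (0 : ℝ) < Y.card := by exact_mod_cast hY0
  have hk8 : 8 * ((d : ℝ) + 1) ≤ ε * M := by
    rw [div_le_iff₀ hε] at hm2
    nlinarith [mul_le_mul_of_nonneg_left hmM hε.le]
  set s : ℕ := ⌊ε / 2 * M⌋₊ with hs
  have hs1 : (s : ℝ) ≤ ε / 2 * M := Nat.floor_le (by positivity)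
  have hs2 : ε / 2 * M < s + 1 := Nat.lt_floor_add_one _
  have hd0 : (0 : ℝ) ≤ d := Nat.cast_nonneg d
  have hs3 : 2 * ((d : ℝ) + 1) ≤ s := by nlinarith
  have hs4 : 2 * (d + 1) ≤ s := by exact_mod_cast hs3
  have hs5 : ε / 4 * M ≤ s := by nlinarith
  -- the bound for the number of bad samples
  have hcnt := count_cliques P Y hY k s hkY hY0 (by omega)
  set q : ℝ := (k : ℝ) / Y.card with hq
  have hq0 : 0 ≤ q := by positivity
  have hnq : (P.card : ℝ) * q ≤ ε * Real.exp (-2) / 8 * M := by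
    rw [hq, mul_div_assoc', div_le_iff₀ hYr]
    exact hnk
  have hkm' : (k : ℝ) ≤ (m : ℝ) ^ d := by exact_mod_cast hkm
  have hterm : ∀ j ∈ range (d + 2), (k : ℝ) ^ j * (P.card.choose (s - j) : ℝ) * q ^ (s - j) ≤
      ((m : ℝ) ^ d) ^ (d + 1) * Real.exp (-(ε / 8) * m) := by
    intro j hj
    have hj' : j ≤ d + 1 := by
      have := Finset.mem_range.1 hj
      omega
    have hr1 : 1 ≤ s - j := by omega
    have hr2 : ε / 8 * M ≤ ((s - j : ℕ) : ℝ) := by
      have h1 : ((s - j : ℕ) : ℝ) = (s : ℝ) - j := by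
        rw [Nat.cast_sub (by omega)]
      have h2 : (j : ℝ) ≤ (d : ℝ) + 1 := by exact_mod_cast hj'
      rw [h1]
      nlinarith
    have hr0 : (0 : ℝ) < ((s - j : ℕ) : ℝ) := by exact_mod_cast hr1
    have h1 := choose_mul_pow_le P.card (s - j) q hq0 hr1
    have h2 : Real.exp 1 * ((P.card : ℝ) * q) / ((s - j : ℕ) : ℝ) ≤ Real.exp (-1) := by
      rw [div_le_iff₀ hr0]
      calc Real.exp 1 * ((P.card : ℝ) * q) ≤ Real.exp 1 * (ε * Real.exp (-2) / 8 * M) := by gcongr
        _ = (Real.exp 1 * Real.exp (-2)) * (ε / 8 * M) := by ring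
        _ = Real.exp (-1) * (ε / 8 * M) := by
            rw [← Real.exp_add]
            norm_num
        _ ≤ Real.exp (-1) * ((s - j : ℕ) : ℝ) := by gcongr
    have h3 : (P.card.choose (s - j) : ℝ) * q ^ (s - j) ≤ Real.exp (-(ε / 8) * m) := by
      calc (P.card.choose (s - j) : ℝ) * q ^ (s - j)
          ≤ (Real.exp 1 * ((P.card : ℝ) * q) / ((s - j : ℕ) : ℝ)) ^ (s - j) := h1
        _ ≤ Real.exp (-1) ^ (s - j) := by gcongr
        _ = Real.exp (-((s - j : ℕ) : ℝ)) := by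
            rw [← Real.exp_nat_mul]
            ring_nf
        _ ≤ Real.exp (-(ε / 8) * m) := by
            apply Real.exp_le_exp.2
            have : ε / 8 * (m : ℝ) ≤ ε / 8 * M := by gcongr
            linarith
    have hmd : (1 : ℝ) ≤ (m : ℝ) ^ d := one_le_pow₀ hm1'
    calc (k : ℝ) ^ j * (P.card.choose (s - j) : ℝ) * q ^ (s - j)
        = (k : ℝ) ^ j * ((P.card.choose (s - j) : ℝ) * q ^ (s - j)) := by ring
      _ ≤ ((m : ℝ) ^ d) ^ j * Real.exp (-(ε / 8) * m) := by gcongr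
      _ ≤ ((m : ℝ) ^ d) ^ (d + 1) * Real.exp (-(ε / 8) * m) := by
          gcongr
  have hsum : (k : ℝ) * ∑ j ∈ range (d + 2), (k : ℝ) ^ j * (P.card.choose (s - j) : ℝ) *
      q ^ (s - j) ≤ ε / 2 := by
    have h1 := Finset.sum_le_card_nsmul _ _ _ hterm
    rw [nsmul_eq_mul, Finset.card_range] at h1
    have h2 := (hX m hm3).le
    rw [Real.rpow_natCast] at h2
    have hpos : (0 : ℝ) ≤ Real.exp (-(ε / 8) * m) := (Real.exp_pos _).le
    calc (k : ℝ) * ∑ j ∈ range (d + 2), (k : ℝ) ^ j * (P.card.choose (s - j) : ℝ) * q ^ (s - j)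
        ≤ (m : ℝ) ^ d * (((d + 2 : ℕ) : ℝ) *
          (((m : ℝ) ^ d) ^ (d + 1) * Real.exp (-(ε / 8) * m))) := by
          refine mul_le_mul hkm' h1 ?_ (by positivity)
          exact Finset.sum_nonneg fun j _ => by positivity
      _ = ((d : ℝ) + 2) * ((m : ℝ) ^ (d * (d + 2)) * Real.exp (-(ε / 8) * m)) := by
          have : (m : ℝ) ^ (d * (d + 2)) = (m : ℝ) ^ d * ((m : ℝ) ^ d) ^ (d + 1) := by
            rw [← pow_mul, ← pow_add]
            congr 1
            ring
          rw [this]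
          push_cast
          ring
      _ ≤ ((d : ℝ) + 2) * (ε / (2 * ((d : ℝ) + 2))) := by gcongr
      _ = ε / 2 := by field_simp
  -- split
  have hsplit : ∀ Om ∈ Y.powersetCard k, (nu Om : ℝ) ≤ s + (if s ≤ nu Om then (k : ℝ) else 0) := by
    intro Om hOm
    split_ifs with h
    · have h1 : (nu Om : ℝ) ≤ k := by
        have := nu_le_card Om
        rw [(Finset.mem_powersetCard.1 hOm).2] at this
        exact_mod_cast this
      have : (0 : ℝ) ≤ s := Nat.cast_nonneg s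
      linarith
    · have : nu Om ≤ s := by omega
      have h1 : (nu Om : ℝ) ≤ s := by exact_mod_cast this
      linarith
  have hC0 : (0 : ℝ) ≤ (Y.card.choose k : ℝ) := Nat.cast_nonneg _
  calc ∑ Om ∈ Y.powersetCard k, (nu Om : ℝ)
      ≤ ∑ Om ∈ Y.powersetCard k, ((s : ℝ) + (if s ≤ nu Om then (k : ℝ) else 0)) :=
        Finset.sum_le_sum hsplit
    _ = s * (Y.card.choose k : ℝ) +
        (((Y.powersetCard k).filter fun Om => s ≤ nu Om).card : ℝ) * k := by
        rw [Finset.sum_add_distrib, Finset.sum_const, Finset.card_powersetCard, nsmul_eq_mul,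
          ← Finset.sum_filter, Finset.sum_const, nsmul_eq_mul]
        ring
    _ ≤ s * (Y.card.choose k : ℝ) + ((∑ j ∈ range (d + 2), (k : ℝ) ^ j *
        (P.card.choose (s - j) : ℝ) * q ^ (s - j)) * (Y.card.choose k : ℝ)) * k := by
        gcongr
    _ = (s + (k : ℝ) * ∑ j ∈ range (d + 2), (k : ℝ) ^ j *
        (P.card.choose (s - j) : ℝ) * q ^ (s - j)) * (Y.card.choose k : ℝ) := by ring
    _ ≤ (ε / 2 * M + ε / 2 * M) * (Y.card.choose k : ℝ) := by
        refine mul_le_mul_of_nonneg_right ?_ hC0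
        have : ε / 2 * 1 ≤ ε / 2 * M := by gcongr
        linarith
    _ = ε * M * (Y.card.choose k : ℝ) := by ring

end Crest.Agent.R065.Nu397
end

-- ▼ part R065/O1Y_477

/-!
# Row 65, `d ≥ 4`: Lemma (O1Y) of the bipartite engine

A prime of dimension `d - 1` contains at most `C t₀ T^{d-2} deg P` or at most `ν` elements of `Y`,
if every element of `Y` is null to at least `|X| / (2 t₀)` elements of `X`, and `X`, `Y` are
separated in degree `T`.
-/

set_option autoImplicit false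

open MvPolynomial Module Finset

namespace Crest.Agent.R065.O1Y477

open Crest.Agent.R065.HF669 Crest.Agent.R065.Base348 Crest.Agent.R065.Top348
  Crest.Agent.R065.Pins348 Crest.Agent.R065.Cut477

section flat

variable {k : Type*} [Field k] [Infinite k] {σ : Type*} [Fintype σ]

/-- separated points on a prime -/
lemma card_le_prime {A : Finset (σ → k)} {T : ℕ} (hA : Sep (A : Set (σ → k)) T)
    (P : Ideal (MvPolynomial σ k)) [P.IsPrime] (h : (A : Set (σ → k)) ⊆ ZV P) :
    A.card ≤ degP P * (T + dimP P).choose (dimP P) :=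
  (card_le_HF h hA).trans (HF_le_degP P T)

/-- separated points on a hypersurface section of a prime -/
lemma card_le_cut {A : Finset (σ → k)} {T : ℕ} (hA : Sep (A : Set (σ → k)) T)
    (P : Ideal (MvPolynomial σ k)) [P.IsPrime] (h : (A : Set (σ → k)) ⊆ ZV P)
    {g : MvPolynomial σ k} (hg : g ∉ P) {e : ℕ} (he : g.totalDegree ≤ e)
    (h0 : ∀ a ∈ A, eval a g = 0) {r : ℕ} (hr : dimP P = r + 1) :
    A.card ≤ e * degP P * (T + r).choose r := by
  classical
  obtain ⟨S, h1, _, h3, h4⟩ := exists_cut hg he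
  have hsub : A ⊆ S.biUnion fun Q => A.filter fun a => a ∈ ZV Q := by
    intro a ha
    obtain ⟨Q, hQ, haQ⟩ := h3 a (h ha) (h0 a ha)
    rw [mem_biUnion]
    exact ⟨Q, hQ, mem_filter.2 ⟨ha, haQ⟩⟩
  have h5 : A.card ≤ ∑ Q ∈ S, (A.filter fun a => a ∈ ZV Q).card :=
    (card_le_card hsub).trans card_biUnion_le
  refine h5.trans ?_
  have h6 : ∀ Q ∈ S, (A.filter fun a => a ∈ ZV Q).card ≤ degP Q * (T + r).choose r := by
    intro Q hQ
    have := (h1 Q hQ).1
    have hd : dimP Q = r := by have := (h1 Q hQ).2.2.2; omega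
    have h7 := card_le_prime (A := A.filter fun a => a ∈ ZV Q) (T := T)
      (hA.subset (by
        intro a ha
        rw [mem_coe, mem_filter] at ha
        exact ha.1)) Q (by
        intro a ha
        rw [mem_coe, mem_filter] at ha
        exact ha.2)
    rwa [hd] at h7
  refine (sum_le_sum h6).trans ?_
  rw [← sum_mul]
  exact Nat.mul_le_mul_right _ h4

omit [Infinite k] in
/-- parametrisation of the affine span of a finite set -/
lemma exists_param {A : Finset (σ → k)} {a0 : σ → k} (ha0 : a0 ∈ A) {w : ℕ}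
    (hw : finrank k (vectorSpan k (A : Set (σ → k))) = w) :
    ∃ (L : (Fin w → k) →ₗ[k] (σ → k)) (φ : MvPolynomial σ k →ₐ[k] MvPolynomial (Fin w) k),
      Function.Injective L ∧ (∀ a ∈ A, ∃ u, a0 + L u = a) ∧
      (∀ (f : MvPolynomial σ k) (m : ℕ), f.totalDegree ≤ m → (φ f).totalDegree ≤ m) ∧
      ∀ (f : MvPolynomial σ k) (u : Fin w → k), eval u (φ f) = eval (a0 + L u) f := by
  classical
  set V := vectorSpan k (A : Set (σ → k)) with hV
  set b := finBasisOfFinrankEq k V hw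
  set L : (Fin w → k) →ₗ[k] (σ → k) := V.subtype ∘ₗ (b.equivFun.symm : (Fin w → k) →ₗ[k] V)
    with hL
  set G : σ → MvPolynomial (Fin w) k :=
    fun i => C (a0 i) + ∑ j, C (L (Pi.single j 1) i) * X j with hG
  have hG1 : ∀ i, G i ∈ W k (Fin w) 1 := by
    intro i
    refine Submodule.add_mem _ (C_mem_W _ _) (Submodule.sum_mem _ fun j _ => ?_)
    have := mul_mem_W (C_mem_W (σ := Fin w) (L (Pi.single j 1) i) 0)
      (X_mem_W (k := k) (σ := Fin w) j (le_refl 1))
    rwa [zero_add] at this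
  have hG2 : ∀ i u, eval u (G i) = a0 i + L u i := by
    intro i u
    have h1 : L u = ∑ j, u j • L (Pi.single j 1) := by
      rw [LinearMap.pi_apply_eq_sum_univ L u]
      refine sum_congr rfl fun j _ => ?_
      congr 2
      funext l
      rw [Pi.single_apply]
      simp only [eq_comm]
    simp only [hG, map_add, map_sum, map_mul, eval_C, eval_X]
    rw [h1, Finset.sum_apply]
    congr 1
    refine sum_congr rfl fun j _ => ?_
    rw [Pi.smul_apply, smul_eq_mul, mul_comm]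
  refine ⟨L, aeval G, ?_, ?_, ?_, ?_⟩
  · exact V.injective_subtype.comp (b.equivFun.symm.injective)
  · intro a ha
    have h1 : a - a0 ∈ V := by
      have := vsub_mem_vectorSpan k (s := (A : Set (σ → k))) (p₁ := a) (p₂ := a0) ha ha0
      simpa using this
    refine ⟨b.equivFun ⟨a - a0, h1⟩, ?_⟩
    have : L (b.equivFun ⟨a - a0, h1⟩) = a - a0 := by
      simp [hL]
    rw [this]; abel
  · intro f m hf
    exact totalDegree_aeval_le G hG1 f hf
  · intro f u
    rw [← MvPolynomial.coe_aeval_eq_eval, ← MvPolynomial.coe_aeval_eq_eval]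
    change ((aeval u).comp (aeval G)) f = (aeval (a0 + L u)) f
    congr 1
    apply MvPolynomial.algHom_ext
    intro i
    rw [AlgHom.comp_apply, aeval_X, aeval_X]
    have := hG2 i u
    rw [← MvPolynomial.coe_aeval_eq_eval] at this
    exact this

lemma choose_mono' {T v w : ℕ} (h : v ≤ w) : (T + v).choose v ≤ (T + w).choose w := by
  rw [← Nat.choose_symm_add, ← Nat.choose_symm_add (a := T) (b := w)]
  exact Nat.choose_le_choose _ (by omega)

omit [Infinite k] in
/-- a separated set whose vector span has dimension at most `w` -/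
lemma flat_card {A : Finset (σ → k)} {T w : ℕ} (hA : Sep (A : Set (σ → k)) T)
    (hw : finrank k (vectorSpan k (A : Set (σ → k))) ≤ w) : A.card ≤ (T + w).choose w := by
  classical
  rcases A.eq_empty_or_nonempty with rfl | ⟨a0, ha0⟩
  · simp
  obtain ⟨v, hv⟩ : ∃ v, finrank k (vectorSpan k (A : Set (σ → k))) = v := ⟨_, rfl⟩
  rw [hv] at hw
  obtain ⟨L, φ, hL, hsurj, hdeg, hev⟩ := exists_param ha0 hv
  choose! u hu using hsurj
  have hinj : Set.InjOn u (A : Set (σ → k)) := by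
    intro a ha b hb hab
    rw [← hu a ha, ← hu b hb, hab]
  have hsep : Sep ((A.image u : Finset (Fin v → k)) : Set (Fin v → k)) T := by
    intro x hx
    rw [coe_image] at hx
    obtain ⟨a, ha, rfl⟩ := hx
    obtain ⟨f, h1, h2, h3⟩ := hA a ha
    refine ⟨φ f, hdeg f T h1, by rw [hev, hu a ha, h2], ?_⟩
    intro y hy hya
    rw [coe_image] at hy
    obtain ⟨b, hb, rfl⟩ := hy
    rw [hev, hu b hb]
    exact h3 b hb (fun h => hya (by rw [h]))
  have h1 := card_le_HF (I := (⊥ : Ideal (MvPolynomial (Fin v) k))) (by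
    intro x _ p hp
    rw [Submodule.mem_bot] at hp
    rw [hp, map_zero]) hsep
  rw [card_image_of_injOn hinj, HF_bot, Fintype.card_fin] at h1
  exact h1.trans (choose_mono' hw)

/-- a separated set whose vector span has dimension `w + 1`, in a hypersurface not containing the
affine span -/
lemma flat_quad {A : Finset (σ → k)} {T w : ℕ} (hA : Sep (A : Set (σ → k)) T)
    (hw : finrank k (vectorSpan k (A : Set (σ → k))) = w + 1) {g : MvPolynomial σ k} {e : ℕ}
    (he : g.totalDegree ≤ e) (h0 : ∀ a ∈ A, eval a g = 0) :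
    A.card ≤ e * (T + w).choose w ∨ ∀ a ∈ A, ∀ b ∈ A, ∀ s : k, eval (a + s • (b - a)) g = 0 := by
  classical
  rcases A.eq_empty_or_nonempty with rfl | ⟨a0, ha0⟩
  · simp
  obtain ⟨L, φ, hL, hsurj, hdeg, hev⟩ := exists_param ha0 hw
  choose! u hu using hsurj
  have hinj : Set.InjOn u (A : Set (σ → k)) := by
    intro a ha b hb hab
    rw [← hu a ha, ← hu b hb, hab]
  have hsep : Sep ((A.image u : Finset (Fin (w + 1) → k)) : Set (Fin (w + 1) → k)) T := by
    intro x hx
    rw [coe_image] at hx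
    obtain ⟨a, ha, rfl⟩ := hx
    obtain ⟨f, h1, h2, h3⟩ := hA a ha
    refine ⟨φ f, hdeg f T h1, by rw [hev, hu a ha, h2], ?_⟩
    intro y hy hya
    rw [coe_image] at hy
    obtain ⟨b, hb, rfl⟩ := hy
    rw [hev, hu b hb]
    exact h3 b hb (fun h => hya (by rw [h]))
  by_cases hg : φ g = 0
  · right
    intro a ha b hb s
    have e1 : a + s • (b - a) = a0 + L (u a + s • (u b - u a)) := by
      rw [map_add, map_smul, map_sub]
      have h1 := hu a ha
      have h2 := hu b hb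
      have h3 : L (u a) = a - a0 := by rw [← h1]; abel_nf; simp [h1]
      have h4 : L (u b) = b - a0 := by rw [← h2]; abel_nf; simp [h2]
      rw [h3, h4]
      have : b - a0 - (a - a0) = b - a := by abel
      rw [this]; abel
    rw [e1, ← hev, hg, map_zero]
  · left
    have h1 := card_le_cut hsep (⊥ : Ideal (MvPolynomial (Fin (w + 1)) k)) (by
      intro x _ p hp
      rw [Submodule.mem_bot] at hp
      rw [hp, map_zero]) (g := φ g) (by rwa [Submodule.mem_bot]) (hdeg g e he) (by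
      intro x hx
      rw [mem_image] at hx
      obtain ⟨a, ha, rfl⟩ := hx
      rw [hev, hu a ha, h0 a ha]) (r := w) (by rw [dimP_bot, Fintype.card_fin])
    rw [card_image_of_injOn hinj, degP_bot, mul_one] at h1
    exact h1

end flat

section quad

variable {k : Type*} [Field k] {d : ℕ}

/-- the quadric `q(· - y)` -/
noncomputable def qy (y : Pt d k) : MvPolynomial (Fin d ⊕ Fin d) k :=
  ∑ i, (X (Sum.inl i) - C (y.1 i)) * (X (Sum.inr i) - C (y.2 i))

lemma qy_deg (y : Pt d k) : (qy y).totalDegree ≤ 2 := by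
  rw [← mem_W]
  refine Submodule.sum_mem _ fun i _ => ?_
  exact mul_mem_W (a := 1) (b := 1) (Submodule.sub_mem _ (X_mem_W _ le_rfl) (C_mem_W _ _))
    (Submodule.sub_mem _ (X_mem_W _ le_rfl) (C_mem_W _ _))

/-- `q` on vectors indexed by the sum type -/
def qf (v : Fin d ⊕ Fin d → k) : k := ∑ i, v (Sum.inl i) * v (Sum.inr i)

lemma eval_qy (y : Pt d k) (v : Fin d ⊕ Fin d → k) : eval v (qy y) = qf (v - toFn y) := by
  unfold qy qf
  rw [map_sum]
  refine sum_congr rfl fun i _ => ?_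
  simp [toFn]

lemma qf_toFn_sub (z w : Pt d k) : qf (toFn z - toFn w) = q (z - w) := by
  unfold qf q
  refine sum_congr rfl fun i _ => ?_
  simp [toFn]

lemma eval_qy_toFn (y z : Pt d k) : eval (toFn z) (qy y) = 0 ↔ Null z y := by
  rw [eval_qy, qf_toFn_sub]; rfl

/-- bilinear form -/
def Bf (v w : Fin d ⊕ Fin d → k) : k :=
  ∑ i, (v (Sum.inl i) * w (Sum.inr i) + v (Sum.inr i) * w (Sum.inl i))

lemma qf_add (v w : Fin d ⊕ Fin d → k) : qf (v + w) = qf v + qf w + Bf v w := by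
  unfold qf Bf
  rw [← sum_add_distrib, ← sum_add_distrib]
  refine sum_congr rfl fun i _ => ?_
  simp only [Pi.add_apply]; ring

lemma qf_sub (v w : Fin d ⊕ Fin d → k) : qf (v - w) = qf v + qf w - Bf v w := by
  unfold qf Bf
  rw [← sum_add_distrib, ← sum_sub_distrib]
  refine sum_congr rfl fun i _ => ?_
  simp only [Pi.sub_apply]; ring

/-- the form as a linear map to the dual space -/
noncomputable def Phi : (Fin d ⊕ Fin d → k) →ₗ[k] Dual k (Fin d ⊕ Fin d → k) where
  toFun w := ∑ i, (w (Sum.inr i) • LinearMap.proj (Sum.inl i) +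
    w (Sum.inl i) • LinearMap.proj (Sum.inr i))
  map_add' v w := by
    rw [← sum_add_distrib]
    refine sum_congr rfl fun i _ => ?_
    simp only [Pi.add_apply, add_smul]; abel
  map_smul' c w := by
    rw [RingHom.id_apply, smul_sum]
    refine sum_congr rfl fun i _ => ?_
    simp only [Pi.smul_apply, smul_eq_mul, smul_add, mul_smul]

lemma Phi_apply (w v : Fin d ⊕ Fin d → k) : Phi w v = Bf v w := by
  unfold Phi Bf
  simp only [LinearMap.coe_mk, AddHom.coe_mk, LinearMap.sum_apply, LinearMap.add_apply,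
    LinearMap.smul_apply, LinearMap.proj_apply, smul_eq_mul]
  refine sum_congr rfl fun i _ => ?_
  ring

lemma Bf_single_inl (i : Fin d) (w : Fin d ⊕ Fin d → k) :
    Bf (Pi.single (Sum.inl i) 1) w = w (Sum.inr i) := by
  unfold Bf
  rw [sum_eq_single i]
  · simp
  · intro j _ hj
    simp [hj]
  · intro h; exact absurd (mem_univ _) h

lemma Bf_single_inr (i : Fin d) (w : Fin d ⊕ Fin d → k) :
    Bf (Pi.single (Sum.inr i) 1) w = w (Sum.inl i) := by
  unfold Bf
  rw [sum_eq_single i]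
  · simp
  · intro j _ hj
    simp [hj]
  · intro h; exact absurd (mem_univ _) h

lemma Phi_injective : Function.Injective (Phi : (Fin d ⊕ Fin d → k) →ₗ[k] _) := by
  rw [← LinearMap.ker_eq_bot, LinearMap.ker_eq_bot']
  intro w hw
  funext i
  rcases i with i | i
  · have := DFunLike.congr_fun hw (Pi.single (Sum.inr i) 1)
    rw [Phi_apply, Bf_single_inr] at this
    simpa using this
  · have := DFunLike.congr_fun hw (Pi.single (Sum.inl i) 1)
    rw [Phi_apply, Bf_single_inl] at this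
    simpa using this

/-- orthogonal subspaces -/
lemma finrank_add_le {V U : Submodule k (Fin d ⊕ Fin d → k)} (h : ∀ v ∈ V, ∀ u ∈ U, Bf v u = 0) :
    finrank k V + finrank k U ≤ 2 * d := by
  have h1 : U.map Phi ≤ V.dualAnnihilator := by
    rintro _ ⟨u, hu, rfl⟩
    rw [Submodule.mem_dualAnnihilator]
    intro v hv
    rw [Phi_apply]
    exact h v hv u hu
  have h2 := Submodule.finrank_mono h1
  rw [← LinearEquiv.finrank_eq (Submodule.equivMapOfInjective Phi Phi_injective U)] at h2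
  have h3 := Subspace.finrank_add_finrank_dualAnnihilator_eq V
  rw [finrank_pi, Fintype.card_sum, Fintype.card_fin] at h3
  omega

/-- orthogonality of the directions of two sets all of whose pairs are null -/
lemma span_orth {A B : Set (Fin d ⊕ Fin d → k)} (h : ∀ a ∈ A, ∀ b ∈ B, qf (a - b) = 0) :
    ∀ v ∈ vectorSpan k A, ∀ u ∈ vectorSpan k B, Bf v u = 0 := by
  have key : ∀ a ∈ A, ∀ a' ∈ A, ∀ b ∈ B, ∀ b' ∈ B, Bf (a - a') (b - b') = 0 := by
    intro a ha a' ha' b hb b' hb'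
    have h1 := h a ha b hb
    have h2 := h a' ha' b hb
    have h3 := h a ha b' hb'
    have h4 := h a' ha' b' hb'
    rw [qf_sub] at h1 h2 h3 h4
    have e : Bf (a - a') (b - b') = Bf a b - Bf a' b - Bf a b' + Bf a' b' := by
      unfold Bf
      rw [← sum_sub_distrib, ← sum_sub_distrib, ← sum_add_distrib]
      refine sum_congr rfl fun i _ => ?_
      simp only [Pi.sub_apply]; ring
    rw [e]
    linear_combination h2 + h3 - h1 - h4
  intro v hv u hu
  have h1 : ∀ u ∈ B -ᵥ B, ∀ v ∈ vectorSpan k A, Bf v u = 0 := by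
    rintro _ ⟨b, hb, b', hb', rfl⟩ v hv
    rw [vectorSpan_def] at hv
    rw [← Phi_apply]
    refine Submodule.span_induction (p := fun v _ => Phi (b -ᵥ b') v = 0) ?_ ?_ ?_ ?_ hv
    · rintro _ ⟨a, ha, a', ha', rfl⟩
      rw [Phi_apply]
      exact key a ha a' ha' b hb b' hb'
    · simp
    · intro x y _ _ hx hy; rw [map_add, hx, hy, add_zero]
    · intro c x _ hx; rw [map_smul, hx, smul_zero]
  rw [vectorSpan_def] at hu
  rw [← Phi_apply]
  refine Submodule.span_induction (p := fun u _ => Phi u v = 0) ?_ ?_ ?_ ?_ hu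
  · intro x hx
    rw [Phi_apply]; exact h1 x hx v hv
  · simp
  · intro x y _ _ hx hy; rw [map_add, LinearMap.add_apply, hx, hy, add_zero]
  · intro c x _ hx; rw [map_smul, LinearMap.smul_apply, hx, smul_zero]

end quad

section main

variable {d : ℕ}

lemma null_of_line {y : Pt d ℂ} {a b : Fin d ⊕ Fin d → ℂ}
    (h : ∀ s : ℂ, eval (a + s • (b - a)) (qy y) = 0) : qf (b - a) = 0 := by
  have h0 := h 0
  have h1 := h 1
  have h2 := h (-1)
  rw [eval_qy] at h0 h1 h2
  have e0 : a + (0 : ℂ) • (b - a) - toFn y = a - toFn y := by rw [zero_smul, add_zero]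
  have e1 : a + (1 : ℂ) • (b - a) - toFn y = (a - toFn y) + (b - a) := by
    rw [one_smul]; abel
  have e2 : a + (-1 : ℂ) • (b - a) - toFn y = (a - toFn y) - (b - a) := by
    rw [neg_smul, one_smul]; abel
  rw [e0] at h0
  rw [e1, qf_add] at h1
  rw [e2, qf_sub] at h2
  have : 2 * qf (b - a) = 0 := by linear_combination h1 + h2 - 2 * h0
  exact (mul_eq_zero.1 this).resolve_left two_ne_zero

/-- a separated set of points null to `y` whose span has dimension `w + 1` -/
lemma quad_alt {A : Finset (Pt d ℂ)} {T w : ℕ}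
    (hA : Sep (toFn '' (A : Set (Pt d ℂ))) T)
    (hw : finrank ℂ (vectorSpan ℂ (toFn '' (A : Set (Pt d ℂ)))) = w + 1) {y : Pt d ℂ}
    (h0 : ∀ a ∈ A, Null a y) :
    A.card ≤ 2 * (T + w).choose w ∨ ∀ a ∈ A, ∀ b ∈ A, Null a b := by
  classical
  have e : ((A.image toFn : Finset _) : Set (Fin d ⊕ Fin d → ℂ)) =
      toFn '' (A : Set (Pt d ℂ)) := coe_image
  rw [← e] at hA hw
  rcases flat_quad hA hw (qy_deg y) (by
    intro a ha
    rw [mem_image] at ha
    obtain ⟨z, hz, rfl⟩ := ha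
    exact (eval_qy_toFn y z).2 (h0 z hz)) with h | h
  · left
    rwa [card_image_of_injective _ toFn_injective] at h
  · right
    intro a ha b hb
    have h1 := null_of_line (h (toFn b) (mem_image_of_mem _ hb) (toFn a) (mem_image_of_mem _ ha))
    rwa [qf_toFn_sub] at h1

lemma flat_card' {A : Finset (Pt d ℂ)} {T w : ℕ}
    (hA : Sep (toFn '' (A : Set (Pt d ℂ))) T)
    (hw : finrank ℂ (vectorSpan ℂ (toFn '' (A : Set (Pt d ℂ)))) ≤ w) :
    A.card ≤ (T + w).choose w := by
  classical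
  have e : ((A.image toFn : Finset _) : Set (Fin d ⊕ Fin d → ℂ)) =
      toFn '' (A : Set (Pt d ℂ)) := coe_image
  rw [← e] at hA hw
  have := flat_card hA hw
  rwa [card_image_of_injective _ toFn_injective] at this

open scoped Classical in
/-- points of `Y` on the prime `P` -/
noncomputable def onP (Y : Finset (Pt d ℂ)) (P : Ideal (MvPolynomial (Fin d ⊕ Fin d) ℂ)) :
    Finset (Pt d ℂ) :=
  Y.filter fun w => ∀ g ∈ P, eval (toFn w) g = 0

lemma mem_onP {Y : Finset (Pt d ℂ)} {P : Ideal (MvPolynomial (Fin d ⊕ Fin d) ℂ)} {w : Pt d ℂ} :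
    w ∈ onP Y P ↔ w ∈ Y ∧ ∀ g ∈ P, eval (toFn w) g = 0 := by
  classical
  simp [onP]

lemma onP_subset (Y : Finset (Pt d ℂ)) (P : Ideal (MvPolynomial (Fin d ⊕ Fin d) ℂ)) :
    onP Y P ⊆ Y := fun _ h => (mem_onP.1 h).1



open scoped Classical in
/-- points of a separated set on a prime and null to `x` -/
lemma card_onP_null_le {Y : Finset (Pt d ℂ)} {T : ℕ}
    (hY : Sep (toFn '' (Y : Set (Pt d ℂ))) T)
    (P : Ideal (MvPolynomial (Fin d ⊕ Fin d) ℂ)) [P.IsPrime] {r : ℕ} (hr : dimP P = r + 1)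
    {x : Pt d ℂ} (hx : qy x ∉ P) :
    ((onP Y P).filter fun y => Null x y).card ≤ 2 * degP P * (T + r).choose r := by
  set F := (onP Y P).filter fun y => Null x y with hF
  have e : ((F.image toFn : Finset _) : Set (Fin d ⊕ Fin d → ℂ)) =
      toFn '' (F : Set (Pt d ℂ)) := coe_image
  have hsub : F ⊆ onP Y P := filter_subset _ _
  have h1 := card_le_cut (A := F.image toFn) (T := T)
    (by rw [e]; exact hY.subset (Set.image_mono (hsub.trans (onP_subset Y P)))) P
    (by
      rw [e]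
      rintro _ ⟨z, hz, rfl⟩
      exact (mem_onP.1 (hsub hz)).2) hx (qy_deg x) (by
      intro a ha
      rw [mem_image] at ha
      obtain ⟨z, hz, rfl⟩ := ha
      exact (eval_qy_toFn x z).2 (null_symm (mem_filter.1 hz).2)) hr
  rwa [card_image_of_injective _ toFn_injective] at h1

open scoped Classical in
/-- **Lemma (O1Y).** -/
theorem o1y (hd : 2 ≤ d) {X Y : Finset (Pt d ℂ)} {T : ℕ} {t0 ν : ℝ} (ht0 : 1 ≤ t0)
    (hX : Sep (toFn '' (X : Set (Pt d ℂ))) T) (hY : Sep (toFn '' (Y : Set (Pt d ℂ))) T)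
    (hdeg : ∀ y ∈ Y, (X.card : ℝ) ≤ 2 * t0 * (X.filter fun x => Null x y).card)
    (hνX : ∀ S ⊆ X, (∀ w ∈ S, ∀ w' ∈ S, Null w w') → (S.card : ℝ) ≤ ν)
    (hνY : ∀ S ⊆ Y, (∀ w ∈ S, ∀ w' ∈ S, Null w w') → (S.card : ℝ) ≤ ν)
    (hbig : 4 * t0 * (2 * (T + (d - 1)).choose (d - 1) + ν) < X.card)
    (P : Ideal (MvPolynomial (Fin d ⊕ Fin d) ℂ)) (hP : P.IsPrime) (hdim : dimP P + 1 = d) :
    ((onP Y P).card : ℝ) ≤ max (8 * t0 * (T + (d - 2)).choose (d - 2) * degP P) ν := by
  have hν0 : 0 ≤ ν := by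
    have := hνX ∅ (empty_subset _) (by simp)
    simpa using this
  have hX0 : (0 : ℝ) < X.card := lt_of_le_of_lt (by positivity) hbig
  have hdP : (1 : ℝ) ≤ degP P := by exact_mod_cast degP_pos P
  have hr : dimP P = (d - 2) + 1 := by omega
  set N := onP Y P with hN
  set Xp := X.filter fun x => qy x ∈ P with hXp
  have hXpY : ∀ x ∈ Xp, ∀ y ∈ N, Null x y := by
    intro x hx y hy
    exact null_symm ((eval_qy_toFn x y).1 ((mem_onP.1 hy).2 _ (mem_filter.1 hx).2))
  rcases le_or_gt ((Xp.card : ℝ) * (4 * t0)) X.card with hsmall | hlarge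
  · -- few common partners
    refine le_max_of_le_left ?_
    have h1 : (N.card : ℝ) * X.card ≤ 2 * t0 * ∑ y ∈ N, ((X.filter fun x => Null x y).card : ℝ) := by
      rw [mul_sum]
      calc (N.card : ℝ) * X.card = ∑ _y ∈ N, (X.card : ℝ) := by
            rw [sum_const, nsmul_eq_mul]
        _ ≤ _ := sum_le_sum fun y hy => hdeg y (onP_subset _ _ hy)
    have h2 : ∑ y ∈ N, (X.filter fun x => Null x y).card =
        ∑ x ∈ X, (N.filter fun y => Null x y).card := by
      simp only [card_filter]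
      exact sum_comm
    have h3 : ∑ y ∈ N, ((X.filter fun x => Null x y).card : ℝ) =
        ∑ x ∈ X, ((N.filter fun y => Null x y).card : ℝ) := by exact_mod_cast h2
    have h4 : ∀ x ∈ X, ((N.filter fun y => Null x y).card : ℝ) ≤
        2 * degP P * (T + (d - 2)).choose (d - 2) + if qy x ∈ P then (N.card : ℝ) else 0 := by
      intro x _
      by_cases hx : qy x ∈ P
      · rw [if_pos hx]
        have : ((N.filter fun y => Null x y).card : ℝ) ≤ N.card := by
          exact_mod_cast card_filter_le _ _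
        have h5 : (0 : ℝ) ≤ 2 * degP P * (T + (d - 2)).choose (d - 2) := by positivity
        linarith
      · rw [if_neg hx, add_zero]
        exact_mod_cast card_onP_null_le hY P hr hx
    have h5 : ∑ x ∈ X, ((N.filter fun y => Null x y).card : ℝ) ≤
        X.card * (2 * degP P * (T + (d - 2)).choose (d - 2)) + Xp.card * N.card := by
      refine (sum_le_sum h4).trans ?_
      rw [sum_add_distrib, sum_const, nsmul_eq_mul, ← sum_filter, sum_const, nsmul_eq_mul]
    rw [h3] at h1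
    have h6 : (N.card : ℝ) * X.card ≤ 2 * t0 *
        (X.card * (2 * degP P * (T + (d - 2)).choose (d - 2))) + X.card / 2 * N.card := by
      have h7 : 2 * t0 * ((Xp.card : ℝ) * N.card) ≤ X.card / 2 * N.card := by
        have : 2 * t0 * ((Xp.card : ℝ) * N.card) = (Xp.card * (4 * t0)) / 2 * N.card := by ring
        rw [this]
        exact mul_le_mul_of_nonneg_right (by linarith) (Nat.cast_nonneg _)
      have h8 := mul_le_mul_of_nonneg_left h5 (show (0 : ℝ) ≤ 2 * t0 by linarith)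
      linarith
    have h9 : (X.card : ℝ) * N.card ≤
        X.card * (8 * t0 * (T + (d - 2)).choose (d - 2) * degP P) := by nlinarith
    exact le_of_mul_le_mul_left h9 hX0
  · -- many common partners
    rcases N.eq_empty_or_nonempty with hNe | ⟨y0, hy0⟩
    · rw [hNe, card_empty]
      refine le_max_of_le_right ?_
      simpa using hν0
    have hXpbig : 2 * ((T + (d - 1)).choose (d - 1) : ℝ) + ν < Xp.card := by
      have : 4 * t0 * (2 * (T + (d - 1)).choose (d - 1) + ν) < 4 * t0 * Xp.card := by linarith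
      exact lt_of_mul_lt_mul_left this (by linarith)
    have hXpX : Xp ⊆ X := filter_subset _ _
    have hXpsep : Sep (toFn '' (Xp : Set (Pt d ℂ))) T := hX.subset (Set.image_mono hXpX)
    have hNsep : Sep (toFn '' (N : Set (Pt d ℂ))) T :=
      hY.subset (Set.image_mono (onP_subset Y P))
    have hXp0 : 0 < Xp.card := by
      have h1 : (0 : ℝ) < Xp.card := lt_of_le_of_lt (by positivity) hXpbig
      exact_mod_cast h1
    obtain ⟨x0, hx0⟩ := card_pos.1 hXp0
    -- the span of `Xp` has dimension at least `d + 1`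
    have hw : d + 1 ≤ finrank ℂ (vectorSpan ℂ (toFn '' (Xp : Set (Pt d ℂ)))) := by
      by_contra hcon
      rcases Nat.lt_or_ge (d - 1) (finrank ℂ (vectorSpan ℂ (toFn '' (Xp : Set (Pt d ℂ))))) with h | h
      · rcases quad_alt hXpsep (w := d - 1) (by omega) (y := y0)
          (fun x hx => hXpY x hx y0 hy0) with h1 | h1
        · have h2 : (Xp.card : ℝ) ≤ 2 * (T + (d - 1)).choose (d - 1) := by exact_mod_cast h1
          linarith
        · have h2 := hνX Xp hXpX h1
          have h3 : (0 : ℝ) ≤ 2 * (T + (d - 1)).choose (d - 1) := by positivity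
          linarith
      · have h1 := flat_card' hXpsep h
        have h2 : (Xp.card : ℝ) ≤ (T + (d - 1)).choose (d - 1) := by exact_mod_cast h1
        have h3 : (0 : ℝ) ≤ (T + (d - 1)).choose (d - 1) := by positivity
        linarith
    have horth := finrank_add_le (span_orth
      (A := toFn '' (Xp : Set (Pt d ℂ))) (B := toFn '' (N : Set (Pt d ℂ))) (by
        rintro _ ⟨x, hx, rfl⟩ _ ⟨y, hy, rfl⟩
        rw [qf_toFn_sub]
        exact hXpY x hx y hy))
    have hfin : ((2 * (T + (d - 2)).choose (d - 2) : ℕ) : ℝ) ≤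
        8 * t0 * (T + (d - 2)).choose (d - 2) * degP P := by
      push_cast
      have h1 : (0 : ℝ) ≤ (T + (d - 2)).choose (d - 2) := Nat.cast_nonneg _
      have h2 : (1 : ℝ) * 1 ≤ t0 * degP P := mul_le_mul ht0 hdP zero_le_one (by linarith)
      nlinarith
    rcases Nat.lt_or_ge (d - 2) (finrank ℂ (vectorSpan ℂ (toFn '' (N : Set (Pt d ℂ))))) with h | h
    · rcases quad_alt hNsep (w := d - 2) (by omega) (y := x0)
        (fun y hy => null_symm (hXpY x0 hx0 y hy)) with h1 | h1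
      · refine le_max_of_le_left (le_trans ?_ hfin)
        exact_mod_cast h1
      · exact le_max_of_le_right (hνY N (onP_subset Y P) h1)
    · refine le_max_of_le_left (le_trans ?_ hfin)
      have h1 := flat_card' hNsep h
      have : N.card ≤ 2 * (T + (d - 2)).choose (d - 2) := by omega
      exact_mod_cast this

end main

end Crest.Agent.R065.O1Y477

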