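import Crest.Agent.R065.Flags_669
import Crest.Agent.R065.Mult_496d
import Crest.Agent.R065.MblkFin_474
import Crest.Agent.R065.Frac_234
import Crest.Agent.R065.Pins_348
import Crest.Agent.R065.Wt_639

-- ▼ part R065/Glue_795
section

/-!
# Row 65: glue lemmas for the swept theorem (helper795)

* `derivation_flag` : derivation lemma in terms of `flagTop P`
* `swept_dim_deg` : dimension and degree of the constant variety
-/

set_option autoImplicit false

open MvPolynomial Module Filter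

namespace Crest.Agent.R065.Glue795

open Crest.Agent.R065.HF669 Crest.Agent.R065.Base348 Crest.Agent.R065.Mblk474

/-- the constant of the derivation lemma -/
def KL (N : ℕ) : ℕ := KA N ^ (N + 2)

lemma one_le_KL (N : ℕ) : 1 ≤ KL N := Nat.one_le_pow _ _ (one_le_KA N)

/-- **derivation lemma through flags**: if `E` maps the elements of `P` of degree
`≤ D' + KL N * D` into `P`, `D' ≥ flagTop P`, then it maps `P` into `P`. -/
theorem derivation_flag {k : Type*} [Field k] [Infinite k] [CharZero k] {σ : Type*} [Fintype σ]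
    {P : Ideal (MvPolynomial σ k)} [hP : P.IsPrime] {D D' : ℕ} (hD' : flagTop P ≤ D')
    (E : Derivation ℤ (MvPolynomial σ k) (MvPolynomial σ k))
    (hE : ∀ g, (E g).totalDegree ≤ g.totalDegree + D)
    (hE' : ∀ g ∈ P, g.totalDegree ≤ D' + KL (Fintype.card σ) * D → E g ∈ P) :
    ∀ w ∈ P, E w ∈ P := by
  have hN := dimP_le_card P
  refine Mult496.derivation_mem (P := P) (c := Fintype.card σ - dimP P) (by omega)
    (fun j => flag P (j + 1)) (D := D) (D' := D') (L := KL (Fintype.card σ)) ?_ ?_ ?_ E hE hE'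
  · intro j hj
    exact (flag_mono (P := P) (by omega) (by omega)).trans hD'
  · intro j hj Q hQ hQP h
    exact cod_flag (P := P) (l := j + 1) (by omega) Q hQ hQP h
  · have h1 := flagProd_le_degP (P := P)
    have h2 := degP_pos P
    unfold flagProd at h1
    unfold KL
    calc _ ≤ KA (Fintype.card σ) ^ (Fintype.card σ + 2) * degP P := h1
      _ < (KA (Fintype.card σ) ^ (Fintype.card σ + 2) + 1) * degP P :=
        Nat.mul_lt_mul_of_pos_right (Nat.lt_succ_self _) h2

section main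

variable {k : Type*} [Field k] {d : ℕ}
  {K : Type*} [Field K] [Algebra (MvPolynomial (Pr d) k) K]
  [IsFractionRing (MvPolynomial (Pr d) k) K]
  {F : Type*} [Field F] [Algebra K F] [Algebra k F] [Algebra k K] [IsScalarTower k K F]
  [IsScalarTower k (MvPolynomial (Pr d) k) K]

/-- **the constant variety**: `Q = ker (k[x, y] → F)` has the dimension of `P = ker (K[θ] → F)`
and degree at most `[F : K(θ)] * degP P`. -/
theorem swept_dim_deg [CharZero k] [Infinite k] [Infinite K] (D : Pr d → Derivation ℤ F F)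
    (hD : ∀ p (g : MvPolynomial (Pr d) k),
      D p (algebraMap K F (algebraMap (MvPolynomial (Pr d) k) K g)) =
        algebraMap K F (algebraMap (MvPolynomial (Pr d) k) K (pderiv p g)))
    (ξ η θ : Fin d → F) (hθ : ∀ i, θ i = η i + act (sF k K F) ξ i)
    (hξ : ∀ i p, D p (ξ i) = 0) (hη : ∀ i p, D p (η i) = 0)
    [hfd : FiniteDimensional (IntermediateField.adjoin K (Set.range θ)) F]
    (hdep : ¬ AlgebraicIndependent K θ)
    (P : Ideal (MvPolynomial (Fin d) K)) (hP : P = RingHom.ker (aeval θ : _ →ₐ[K] F))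
    (Q : Ideal (MvPolynomial (Fin d ⊕ Fin d) k))
    (hQ : Q = RingHom.ker (aeval (Sum.elim ξ η) : _ →ₐ[k] F)) :
    Q.IsPrime ∧ dimP Q = dimP P ∧
      degP Q ≤ finrank (IntermediateField.adjoin K (Set.range θ)) F * degP P ∧
      ∀ m, HF Q m ≤ finrank (IntermediateField.adjoin K (Set.range θ)) F * degP P *
        (m + dimP P).choose (dimP P) := by
  classical
  have hQp : Q.IsPrime := by rw [hQ]; exact RingHom.ker_isPrime _
  have hPp : P.IsPrime := by rw [hP]; exact RingHom.ker_isPrime _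
  have hHQ : ∀ m, HF Q m = finrank k (U k (Sum.elim ξ η : Fin d ⊕ Fin d → F) m) := fun m => by
    rw [hQ]; exact HF_ker_aeval _ m
  have hHP : ∀ m, HF P m = finrank K (U K θ m) := fun m => by rw [hP]; exact HF_ker_aeval θ m
  have hzc : ∀ i p, D p ((Sum.elim ξ η : Fin d ⊕ Fin d → F) i) = 0 := by
    rintro (i | i) p
    · exact hξ i p
    · exact hη i p
  have hkK : ∀ m, finrank k (U k (Sum.elim ξ η : Fin d ⊕ Fin d → F) m) =
      finrank K (U K (Sum.elim ξ η : Fin d ⊕ Fin d → F) m) := finrank_U_eq D hD _ hzc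
  have hθz : ∀ q, U K θ q ≤ U K (Sum.elim ξ η : Fin d ⊕ Fin d → F) q := by
    refine U_le_U fun i => ?_
    rw [hθ]
    exact Submodule.add_mem _ (self_mem_U (Sum.elim ξ η : Fin d ⊕ Fin d → F) (Sum.inr i))
      (act_mem_U (fun i => self_mem_U (Sum.elim ξ η : Fin d ⊕ Fin d → F) (Sum.inl i)) i)
  have hle : ∀ m, HF P m ≤ HF Q m := fun m => by
    rw [hHP, hHQ, hkK]
    exact Submodule.finrank_mono (hθz m)
  have hge : ∀ m, HF Q m ≤ finrank (IntermediateField.adjoin K (Set.range θ)) F * degP P *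
      (m + dimP P).choose (dimP P) := fun m => by
    rw [hHQ]
    exact M_main D hD ξ η θ hθ hξ hη hdep P hP m
  have h1 : dimP P ≤ dimP Q := (isDimDeg P).dim_le (c := 0) (C := 1) (isDimDeg Q)
    (Eventually.of_forall fun m => by rw [one_mul]; exact hle m)
  have h2 : dimP Q ≤ dimP P := by
    obtain ⟨b, hb⟩ := (isDimDeg Q).ge
    refine exp_le_of_choose_le (δ₁ := degP Q) (c₁ := 0) (c₂ := b) (degP_pos Q)
      (δ₂ := finrank (IntermediateField.adjoin K (Set.range θ)) F * degP P) ?_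
    refine Eventually.of_forall fun m => ?_
    have h5 := (hb m).trans (hge (m + b))
    simpa using h5
  have h3 : dimP Q = dimP P := le_antisymm h2 h1
  refine ⟨hQp, h3, ?_, hge⟩
  obtain ⟨b, hb⟩ := (isDimDeg Q).ge
  refine le_of_choose_le (r := dimP P) (c₁ := 0) (c₂ := b) (Eventually.of_forall fun m => ?_)
  have h5 := (hb m).trans (hge (m + b))
  rw [h3] at h5
  simpa using h5

end main

end Crest.Agent.R065.Glue795
end

-- ▼ part R065/Swept2_795
section

/-!
# Row 65: the swept theorem in codimension at least two (helper795)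

`swept2` : if `P` is a prime of `K[θ_1..θ_e]`, `K = Frac k[S]`, with `dimP P + 2 ≤ e`, and every
polynomial of degree `≤ CS * flagTop P` vanishing at the points `θ_z = y + S x`, `z ∈ Sig`, lies
in `P`, then all `z ∈ Sig` outside one hypersurface lie on a variety `Q` over `k` with
`dimP Q = dimP P` and `degP Q ≤ degP P`.
-/

set_option autoImplicit false

open MvPolynomial Module Filter

namespace Crest.Agent.R065.Glue795

open Crest.Agent.R065.HF669 Crest.Agent.R065.Base348 Crest.Agent.R065.Mblk474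
  Crest.Agent.R065.Cramer234

/-- an element of degree `≤ flagTop P`, of minimal degree -/
lemma exists_min {k : Type*} [Field k] [Infinite k] {σ : Type*} [Fintype σ]
    {P : Ideal (MvPolynomial σ k)} [hP : P.IsPrime] (hdim : dimP P + 1 ≤ Fintype.card σ) :
    ∃ f ∈ P, f ≠ 0 ∧ f.totalDegree ≤ flagTop P ∧
      ∀ g ∈ P, g.totalDegree < f.totalDegree → g = 0 := by
  classical
  have h1 : ∃ f ∈ P, f ≠ 0 ∧ f.totalDegree ≤ flag P 1 := by
    by_contra hcon
    push Not at hcon
    have h2 := cod_flag (P := P) hdim ⊥ inferInstance bot_le (fun f hf hfd => by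
      by_contra hne
      have := hcon f hf hne
      omega)
    rw [dimP_bot] at h2
    omega
  have h3 : flag P 1 ≤ flagTop P := flag_mono (P := P) (by omega) (by omega)
  have hex : ∃ n, ∃ f ∈ P, f ≠ 0 ∧ f.totalDegree = n := by
    obtain ⟨f, h4, h5, _⟩ := h1
    exact ⟨_, f, h4, h5, rfl⟩
  obtain ⟨f, hfP, hf0, hfn⟩ := Nat.find_spec hex
  refine ⟨f, hfP, hf0, ?_, fun g hg hgf => ?_⟩
  · obtain ⟨f', h4, h5, h6⟩ := h1
    rw [hfn]
    exact (Nat.find_min' hex ⟨f', h4, h5, rfl⟩).trans (h6.trans h3)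
  · by_contra hne
    rw [hfn] at hgf
    exact Nat.find_min hex hgf ⟨g, hg, hne, rfl⟩

section delta

variable (k : Type*) [Field k] (τ : Type*) (K : Type*) [Field K]
  [Algebra (MvPolynomial τ k) K] [IsFractionRing (MvPolynomial τ k) K]

/-- the derivations `∂/∂S_p` of `K = Frac k[S]` -/
theorem exists_delta : ∃ δ : τ → Derivation ℤ K K, ∀ p (g : MvPolynomial τ k),
    δ p (algebraMap (MvPolynomial τ k) K g) = algebraMap (MvPolynomial τ k) K (pderiv p g) := by
  have h : ∀ p : τ, ∃ D : Derivation ℤ K K, ∀ g : MvPolynomial τ k,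
      D (algebraMap (MvPolynomial τ k) K g) = algebraMap (MvPolynomial τ k) K (pderiv p g) := by
    intro p
    refine exists_der_ext (algebraMap (MvPolynomial τ k) K) ?_
      (pD p) ?_
    · intro x
      obtain ⟨a, b, hb, hx⟩ := IsFractionRing.div_surjective (A := MvPolynomial τ k) x
      refine ⟨a, b, ?_, hx.symm⟩
      rw [Ne, map_eq_zero_iff _ (IsFractionRing.injective _ _)]
      exact nonZeroDivisors.ne_zero hb
    · intro r hr
      rw [map_eq_zero_iff _ (IsFractionRing.injective _ _)] at hr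
      rw [hr]
      change algebraMap (MvPolynomial τ k) K (pderiv p 0) = 0
      rw [map_zero, map_zero]
  choose δ hδ using h
  exact ⟨δ, hδ⟩

end delta

/-- the constant of the swept theorem -/
def CS (e : ℕ) : ℕ := (KL e + 1) ^ 2 + 3 * (KL e + 2)

/-- a point over `K` -/
def toK {k : Type*} [Field k] (K : Type*) [Field K] [Algebra k K] {e : ℕ} (z : Pt e k) : Pt e K :=
  (fun i => algebraMap k K (z.1 i), fun i => algebraMap k K (z.2 i))

section main

variable {k : Type*} [Field k] {e : ℕ}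
  {K : Type*} [Field K] [Algebra (MvPolynomial (Pr e) k) K]
  [IsFractionRing (MvPolynomial (Pr e) k) K] [Algebra k K]
  [IsScalarTower k (MvPolynomial (Pr e) k) K]

/-- the point `θ_z = y + S x` over `K = Frac k[S]` -/
noncomputable def thz (k : Type*) [Field k] {e : ℕ} (K : Type*) [Field K]
    [Algebra (MvPolynomial (Pr e) k) K] [Algebra k K] (z : Pt e k) : Fin e → K :=
  th (fun p => algebraMap (MvPolynomial (Pr e) k) K (X p)) (toK K z)

omit [IsFractionRing (MvPolynomial (Pr e) k) K] in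
lemma delta_C {δ : Pr e → Derivation ℤ K K} (hδ : ∀ p (g : MvPolynomial (Pr e) k),
    δ p (algebraMap (MvPolynomial (Pr e) k) K g) =
      algebraMap (MvPolynomial (Pr e) k) K (pderiv p g)) (p : Pr e) (c : k) :
    δ p (algebraMap k K c) = 0 := by
  rw [IsScalarTower.algebraMap_apply k (MvPolynomial (Pr e) k) K, hδ, algebraMap_eq, pderiv_C,
    map_zero]

/-- **from a velocity to the constant variety**, `F` any model of the function field -/
theorem variety_of_velocity [CharZero k] [Infinite k] [Infinite K]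
    {δ : Pr e → Derivation ℤ K K} (hδ : ∀ p (g : MvPolynomial (Pr e) k),
      δ p (algebraMap (MvPolynomial (Pr e) k) K g) =
        algebraMap (MvPolynomial (Pr e) k) K (pderiv p g))
    {P : Ideal (MvPolynomial (Fin e) K)} [hP : P.IsPrime] (hP0 : P ≠ ⊥) {Sig : Set (Pt e K)}
    {D : ℕ} {B : MvPolynomial (Fin e) K} {A : Fin e → MvPolynomial (Fin e) K}
    (hV : Velocity δ (fun p => algebraMap (MvPolynomial (Pr e) k) K (X p)) P Sig D B A)
    (F : Type*) [Field F] [Algebra K F]
    [Algebra (MvPolynomial (Fin e) K ⧸ P) F] [IsFractionRing (MvPolynomial (Fin e) K ⧸ P) F]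
    [IsScalarTower K (MvPolynomial (Fin e) K ⧸ P) F] [Algebra k F] [IsScalarTower k K F] :
    ∃ Q : Ideal (MvPolynomial (Fin e ⊕ Fin e) k), Q.IsPrime ∧ dimP Q = dimP P ∧
      degP Q ≤ degP P ∧ ∀ z : Pt e k, toK K z ∈ Sig →
        (∀ g ∈ P, MvPolynomial.eval (thz k K z) g = 0) →
        MvPolynomial.eval (thz k K z) B ≠ 0 →
        ∀ q ∈ Q, MvPolynomial.eval (Pins348.toFn z) q = 0 := by
  classical
  let S : Pr e → K := fun p => algebraMap (MvPolynomial (Pr e) k) K (X p)
  have hS : DS δ S := by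
    intro p q
    simp only [S]
    rw [hδ, pderiv_X]
    by_cases h : q = p
    · subst h; simp
    · rw [Pi.single_apply, if_neg h]; simp [h]
  let θ : Fin e → F := fun i => algebraMap (MvPolynomial (Fin e) K ⧸ P) F
    (Ideal.Quotient.mk P (X i))
  have hθ : ∀ g, aeval θ g = algebraMap (MvPolynomial (Fin e) K ⧸ P) F (Ideal.Quotient.mk P g) := by
    intro g
    have h1 : (aeval θ : MvPolynomial (Fin e) K →ₐ[K] F) =
        ((IsScalarTower.toAlgHom K (MvPolynomial (Fin e) K ⧸ P) F).comp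
          (Ideal.Quotient.mkₐ K P)) := by
      apply MvPolynomial.algHom_ext
      intro i
      simp [θ]
    rw [h1]; rfl
  have hker : ∀ g, aeval θ g = 0 ↔ g ∈ P := fun g => by
    rw [hθ, map_eq_zero_iff _ (IsFractionRing.injective _ _), Ideal.Quotient.eq_zero_iff_mem]
  have hfrac : ∀ x : F, ∃ a b : MvPolynomial (Fin e) K, aeval θ b ≠ 0 ∧
      x = aeval θ a / aeval θ b := fun x => by
    obtain ⟨a, b, hb, hx⟩ := IsFractionRing.div_surjective (A := MvPolynomial (Fin e) K ⧸ P) x
    obtain ⟨a, rfl⟩ := Ideal.Quotient.mk_surjective a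
    obtain ⟨b, rfl⟩ := Ideal.Quotient.mk_surjective b
    refine ⟨a, b, ?_, ?_⟩
    · rw [hθ, Ne, map_eq_zero_iff _ (IsFractionRing.injective _ _)]
      exact nonZeroDivisors.ne_zero hb
    · rw [hθ, hθ, hx]
  obtain ⟨Dd, ξ, η, hc, hξ⟩ := hV.constData hS θ hker hfrac
  -- `K(θ) = F`
  have htop : IntermediateField.adjoin K (Set.range θ) = ⊤ := by
    rw [eq_top_iff]
    intro x _
    obtain ⟨a, b, -, hx⟩ := hfrac x
    have h2 : ∀ g : MvPolynomial (Fin e) K, aeval θ g ∈ IntermediateField.adjoin K (Set.range θ) := by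
      intro g
      have h3 : aeval θ g ∈ Algebra.adjoin K (Set.range θ) := by
        rw [Algebra.adjoin_range_eq_range_aeval]
        exact ⟨g, rfl⟩
      exact IntermediateField.algebra_adjoin_le_adjoin K _ h3
    rw [hx]
    exact div_mem (h2 a) (h2 b)
  have hfr : finrank (IntermediateField.adjoin K (Set.range θ)) F = 1 := by
    rw [htop]; exact IntermediateField.finrank_top
  have hfd : FiniteDimensional (IntermediateField.adjoin K (Set.range θ)) F :=
    FiniteDimensional.of_finrank_pos (by rw [hfr]; exact one_pos)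
  have hdep : ¬ AlgebraicIndependent K θ := by
    intro h
    apply hP0
    rw [eq_bot_iff]
    intro g hg
    have h1 : aeval θ g = 0 := (hker g).2 hg
    exact (map_eq_zero_iff _ h).1 h1
  obtain ⟨h1, h2, h3, -⟩ := swept_dim_deg (k := k) Dd (fun p g => by rw [hc.ext, hδ]) ξ η θ
    (fun i => hc.theta i) (fun i p => hc.xi p i) (fun i p => hc.eta p i) hdep P
    (by ext g; rw [RingHom.mem_ker]; exact (hker g).symm)
    (RingHom.ker (aeval (Sum.elim ξ η) : MvPolynomial (Fin e ⊕ Fin e) k →ₐ[k] F)) rfl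
  rw [hfr, one_mul] at h3
  refine ⟨_, h1, h2, h3, fun z hz hzP hB q hq => ?_⟩
  have h4 : aeval (Sum.elim ξ η) (MvPolynomial.map (algebraMap k K) q) = 0 := by
    rw [aeval_map_algebraMap]
    exact hq
  have h5 := hV.spec θ hker hξ (fun i => hc.theta i) hz hzP hB _ h4
  have h6 : (Sum.elim (toK K z).1 (toK K z).2 : Fin e ⊕ Fin e → K) =
      fun i => algebraMap k K (Pins348.toFn z i) := by
    funext i
    rcases i with i | i <;> rfl
  rw [h6, eval_map, ← aeval_def] at h5
  have h7 := MvPolynomial.aeval_algebraMap_apply (B := K) (Pins348.toFn z) q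
  rw [show (algebraMap k K ∘ Pins348.toFn z) = fun i => algebraMap k K (Pins348.toFn z i)
    from rfl, h5] at h7
  have h8 := (map_eq_zero_iff _ (algebraMap k K).injective).1 h7.symm
  simpa [aeval_eq_eval] using h8

/-- **swept theorem, codimension at least two.** -/
theorem swept2 [CharZero k] [Infinite k] [CharZero K] [Infinite K]
    {P : Ideal (MvPolynomial (Fin e) K)} [hP : P.IsPrime] (hdim : dimP P + 2 ≤ e)
    {Sig : Set (Pt e k)} (hSigP : ∀ z ∈ Sig, ∀ g ∈ P, MvPolynomial.eval (thz k K z) g = 0)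
    {Dd : ℕ} (hflag : flagTop P ≤ Dd)
    (hD : ∀ g : MvPolynomial (Fin e) K, g.totalDegree ≤ CS e * Dd →
      (∀ z ∈ Sig, MvPolynomial.eval (thz k K z) g = 0) → g ∈ P) :
    ∃ B : MvPolynomial (Fin e) K, B ∉ P ∧ B.totalDegree ≤ CS e * Dd ∧
      ∃ Q : Ideal (MvPolynomial (Fin e ⊕ Fin e) k), Q.IsPrime ∧ dimP Q = dimP P ∧
        degP Q ≤ degP P ∧ ∀ z ∈ Sig, MvPolynomial.eval (thz k K z) B ≠ 0 →
        ∀ q ∈ Q, MvPolynomial.eval (Pins348.toFn z) q = 0 := by
  classical
  obtain ⟨δ, hδ⟩ := exists_delta k (Pr e) K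
  have hcard : Fintype.card (Fin e) = e := Fintype.card_fin e
  obtain ⟨f, hfP, hf0, hfD, hmin⟩ := exists_min (P := P) (by rw [hcard]; omega)
  have hS : DS δ (fun p => algebraMap (MvPolynomial (Pr e) k) K (X p)) := by
    intro p q
    simp only []
    rw [hδ, pderiv_X]
    by_cases h : q = p
    · subst h; simp
    · rw [Pi.single_apply, if_neg h]; simp [h]
  have hK1 := one_le_KL e
  set κ := KL e with hκ
  have hder : ∀ D, ∀ E : Derivation ℤ (MvPolynomial (Fin e) K) (MvPolynomial (Fin e) K),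
      (∀ g, (E g).totalDegree ≤ g.totalDegree + D) →
      (∀ u ∈ P, u.totalDegree ≤ Dd + κ * D → E u ∈ P) → ∀ u ∈ P, E u ∈ P := by
    intro D E hE hE'
    refine derivation_flag (P := P) hflag E hE ?_
    rw [hcard]
    exact hE'
  obtain ⟨B, A, hV⟩ := exists_velocity (P := P) hS hdim (Sig := toK K '' Sig)
    (by
      rintro _ ⟨z, -, rfl⟩
      exact ⟨fun p i => delta_C hδ p _, fun p i => delta_C hδ p _⟩)
    (by
      rintro _ ⟨z, hz, rfl⟩ g hg
      exact hSigP z hz g hg)
    (D := Dd) (D' := Dd + κ * Dd) (D'' := Dd + κ * (Dd + (Dd + κ * Dd))) hfP hf0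
    (hfD.trans hflag) hmin (hder Dd) (hder _)
    (by
      intro g hg hg'
      refine hD g (hg.trans ?_) fun z hz => hg' _ ⟨z, hz, rfl⟩
      unfold CS
      rw [← hκ]
      refine max_le ?_ ?_
      · nlinarith [Nat.zero_le (κ * Dd), Nat.zero_le (κ * κ * Dd)]
      · nlinarith [Nat.zero_le (κ * Dd), Nat.zero_le (κ * κ * Dd)])
  have hP0 : P ≠ ⊥ := by
    rintro rfl
    exact hf0 (by simpa using hfP)
  obtain ⟨Q, hQ, h1, h2, h3⟩ := variety_of_velocity (k := k) hδ hP0 hV
    (FractionRing (MvPolynomial (Fin e) K ⧸ P))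
  refine ⟨B, hV.B_notMem, ?_, Q, hQ, h1, h2, fun z hz => h3 z ⟨z, hz, rfl⟩ (hSigP z hz)⟩
  refine hV.degB.trans ?_
  unfold CS
  rw [← hκ]
  nlinarith [Nat.zero_le (κ * Dd), Nat.zero_le (κ * κ * Dd)]

end main

end Crest.Agent.R065.Glue795
end

-- ▼ part R065/SplDefs_795

/-!
# Row 65: literal Props of the trunk in INDEX form (helper795)

`ExtrP K e` (extremal variety, weight `1 + ordP P h`) and `SweptP k K e` (swept theorem), used
both by LEVEL-0 (`e = d`) and by the rank lemma (`e = d - 1`).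
-/

set_option autoImplicit false

open MvPolynomial Module

namespace Crest.Agent.R065.Glue795

open Crest.Agent.R065.HF669 Crest.Agent.R065.Base348 Crest.Agent.R065.Wt639

open scoped Classical in
/-- the indices whose point lies on `P` -/
noncomputable def onI {ι : Type} {K : Type*} [Field K] {e : ℕ} (Sg : Finset ι)
    (p : ι → (Fin e → K)) (P : Ideal (MvPolynomial (Fin e) K)) : Finset ι :=
  Sg.filter fun i => ∀ g ∈ P, eval (p i) g = 0

open scoped Classical in
/-- the indices where `g` vanishes -/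
noncomputable def zeI {ι : Type} {K : Type*} [Field K] {e : ℕ} (Sg : Finset ι)
    (p : ι → (Fin e → K)) (g : MvPolynomial (Fin e) K) : Finset ι :=
  Sg.filter fun i => eval (p i) g = 0

/-- EXTREMAL VARIETY, index form, weight `1 + ordP P h` -/
def ExtrP (K : Type*) [Field K] [Infinite K] (e : ℕ) : Prop :=
  ∀ Ce : ℕ, ∃ C : ℕ, ∀ (ι : Type) (Sg : Finset ι) (p : ι → (Fin e → K)) (m : ℕ)
    (h : MvPolynomial (Fin e) K), 1 ≤ m → h ≠ 0 → h.totalDegree ≤ m →
    (∀ i ∈ Sg, eval (p i) h = 0) → Sg.Nonempty →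
    ∃ P : Ideal (MvPolynomial (Fin e) K), P.IsPrime ∧ h ∈ P ∧ ∃ Dd : ℕ, m ≤ Dd ∧ flagTop P ≤ Dd ∧
      (∀ g : MvPolynomial (Fin e) K, g.totalDegree ≤ Ce * Dd →
        (onI Sg p P).card ≤ 8 * (zeI (onI Sg p P) p g).card → g ∈ P) ∧
      Sg.card * ((1 + ordP P h) * degP P) ≤ C * ((onI Sg p P).card * m ^ (e - dimP P))

open scoped Classical in
/-- SWEPT THEOREM, index form -/
def SweptP (k : Type*) [Field k] [Infinite k] (K : Type*) [Field K] [Infinite K] (e : ℕ)
    [Algebra (MvPolynomial (Pr e) k) K] [Algebra k K] : Prop :=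
  ∃ Ce : ℕ, ∀ (P : Ideal (MvPolynomial (Fin e) K)), P.IsPrime → P ≠ ⊥ →
    ∀ (ι : Type) (Sg : Finset ι) (ω : ι → Pt e k) (Dd : ℕ), Sg.Nonempty → 1 ≤ Dd →
    (∀ i ∈ Sg, ∀ g ∈ P, eval (thz k K (ω i)) g = 0) → flagTop P ≤ Dd →
    (∀ g : MvPolynomial (Fin e) K, g.totalDegree ≤ Ce * Dd →
      Sg.card ≤ 8 * (zeI Sg (fun i => thz k K (ω i)) g).card → g ∈ P) →
    (dimP P + 1 = e ∧ (∃ l ∈ P, l ≠ 0 ∧ l.totalDegree ≤ 1) ∧
      ∀ i ∈ Sg, ∀ j ∈ Sg, Null (ω i) (ω j)) ∨
    ∃ Q : Ideal (MvPolynomial (Fin e ⊕ Fin e) k), Q.IsPrime ∧ dimP Q = dimP P ∧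
      degP Q ≤ 2 * degP P ∧
      Sg.card ≤ 4 * (Sg.filter fun i => ∀ q ∈ Q, eval (Pins348.toFn (ω i)) q = 0).card

end Crest.Agent.R065.Glue795
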