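import Mathlib

-- ▼ part R065/STa_397
section

set_option autoImplicit false

/-!
# Straight-line planar graphs: `|E| ≤ 3 |V|` by an elementary charging argument
-/

namespace Crest.Agent.R065.ST397

open Finset

abbrev Pt := ℝ × ℝ
abbrev Edge := Pt × Pt

/-- slope of an edge -/
noncomputable def sl (e : Edge) : ℝ := (e.2.2 - e.1.2) / (e.2.1 - e.1.1)

/-- height of the line through the edge at abscissa `x` -/
noncomputable def val (e : Edge) (x : ℝ) : ℝ := e.2.2 + sl e * (x - e.2.1)

lemma val_right (e : Edge) : val e e.2.1 = e.2.2 := by simp [val]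

lemma val_left (e : Edge) (h : e.1.1 < e.2.1) : val e e.1.1 = e.1.2 := by
  have h0 : e.2.1 - e.1.1 ≠ 0 := (sub_pos.mpr h).ne'
  unfold val sl
  have : (e.2.2 - e.1.2) / (e.2.1 - e.1.1) * (e.1.1 - e.2.1) = -(e.2.2 - e.1.2) := by
    rw [div_mul_eq_mul_div, div_eq_iff h0]; ring
  rw [this]; ring

lemma continuous_val (e : Edge) : Continuous (val e) := by
  unfold val; fun_prop

/-- straight-line graph without vertices in the interior of edges -/
structure Gr (V : Finset Pt) (E : Finset Edge) : Prop where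
  inj : ∀ u ∈ V, ∀ v ∈ V, u.1 = v.1 → u = v
  meml : ∀ e ∈ E, e.1 ∈ V
  memr : ∀ e ∈ E, e.2 ∈ V
  lt : ∀ e ∈ E, e.1.1 < e.2.1
  nv : ∀ e ∈ E, ∀ u ∈ V, e.1.1 < u.1 → u.1 < e.2.1 → val e u.1 ≠ u.2

/-- two edges cross at an interior point -/
def Cr (e g : Edge) : Prop :=
  ∃ x, e.1.1 < x ∧ g.1.1 < x ∧ x < e.2.1 ∧ x < g.2.1 ∧ val e x = val g x

lemma Cr.symm {e g : Edge} (h : Cr e g) : Cr g e := by
  obtain ⟨x, h1, h2, h3, h4, h5⟩ := h
  exact ⟨x, h2, h1, h4, h3, h5.symm⟩

lemma root {e g : Edge} {x0 x1 : ℝ} (hx : x0 < x1) (h0 : val e x0 < val g x0)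
    (h1 : val g x1 < val e x1) : ∃ x, x0 < x ∧ x < x1 ∧ val e x = val g x := by
  have hc : ContinuousOn (fun x => val e x - val g x) (Set.Icc x0 x1) :=
    ((continuous_val e).sub (continuous_val g)).continuousOn
  have := intermediate_value_Ioo hx.le hc
  have h : (0 : ℝ) ∈ Set.Ioo (val e x0 - val g x0) (val e x1 - val g x1) :=
    ⟨by linarith, by linarith⟩
  obtain ⟨x, hx', hx''⟩ := this h
  exact ⟨x, hx'.1, hx'.2, by simpa [sub_eq_zero] using hx''⟩

lemma Gr.mono {V : Finset Pt} {E E' : Finset Edge} (h : Gr V E) (hE : E' ⊆ E) : Gr V E' :=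
  ⟨h.inj, fun e he => h.meml e (hE he), fun e he => h.memr e (hE he),
    fun e he => h.lt e (hE he), fun e he => h.nv e (hE he)⟩

lemma Gr.monoV {V V' : Finset Pt} {E : Finset Edge} (h : Gr V E) (hV : V' ⊆ V)
    (h1 : ∀ e ∈ E, e.1 ∈ V') (h2 : ∀ e ∈ E, e.2 ∈ V') : Gr V' E :=
  ⟨fun u hu v hv => h.inj u (hV hu) v (hV hv), h1, h2, h.lt,
    fun e he u hu => h.nv e he u (hV hu)⟩

/-- edges with the same right end and the same slope are equal -/
lemma Gr.eq_of_sl {V : Finset Pt} {E : Finset Edge} (h : Gr V E) {e g : Edge} (he : e ∈ E)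
    (hg : g ∈ E) (h2 : e.2 = g.2) (hs : sl e = sl g) : e = g := by
  have hv : ∀ x, val e x = val g x := by intro x; simp [val, h2, hs]
  have key : ∀ e g : Edge, e ∈ E → g ∈ E → e.2 = g.2 → (∀ x, val e x = val g x) →
      ¬ e.1.1 < g.1.1 := by
    intro e g he hg h2 hv hlt
    have h3 : g.1.1 < e.2.1 := by rw [h2]; exact h.lt g hg
    refine h.nv e he g.1 (h.meml g hg) hlt h3 ?_
    rw [hv, val_left g (h.lt g hg)]
  have h1 : e.1.1 = g.1.1 := le_antisymm (not_lt.1 (key g e hg he h2.symm (fun x => (hv x).symm)))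
    (not_lt.1 (key e g he hg h2 hv))
  have h3 : e.1 = g.1 := h.inj _ (h.meml e he) _ (h.meml g hg) h1
  exact Prod.ext h3 h2

/-- the data attached to a non-lowest edge -/
structure Wd (V : Finset Pt) (E : Finset Edge) (e n : Edge) (w : Pt) : Prop where
  he : e ∈ E
  hn : n ∈ E
  h2 : n.2 = e.2
  hs : sl e < sl n
  hmin : ∀ g ∈ E, g.2 = e.2 → sl e < sl g → sl n ≤ sl g
  hw : w ∈ V
  hwv : w.1 < e.2.1
  hlo : val n w.1 ≤ w.2
  hup : w.2 ≤ val e w.1
  hel : e.1.1 ≤ w.1
  hnl : n.1.1 ≤ w.1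
  hmax : ∀ u ∈ V, u.1 < e.2.1 → val n u.1 ≤ u.2 → u.2 ≤ val e u.1 → u.1 ≤ w.1

lemma val_le_val {e n : Edge} (h2 : n.2 = e.2) (hs : sl e ≤ sl n) {x : ℝ} (hx : x ≤ e.2.1) :
    val n x ≤ val e x := by
  unfold val
  rw [h2]
  nlinarith

lemma exists_wd {V : Finset Pt} {E : Finset Edge} (h : Gr V E) {e : Edge} (he : e ∈ E)
    (hex : ∃ g ∈ E, g.2 = e.2 ∧ sl e < sl g) : ∃ n w, Wd V E e n w := by
  classical
  obtain ⟨g0, hg0, hg1, hg2⟩ := hex
  obtain ⟨n, hn, hmin⟩ := Finset.exists_min_image (E.filter fun g => g.2 = e.2 ∧ sl e < sl g) sl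
    ⟨g0, by simp [hg0, hg1, hg2]⟩
  simp only [mem_filter] at hn
  obtain ⟨hnE, hn2, hns⟩ := hn
  have hleft : ∀ g ∈ E, g.2 = e.2 → sl e ≤ sl g → sl g ≤ sl n →
      g.1 ∈ V.filter (fun u => u.1 < e.2.1 ∧ val n u.1 ≤ u.2 ∧ u.2 ≤ val e u.1) := by
    intro g hg hg2 hge hgn
    have hlt := h.lt g hg
    simp only [mem_filter]
    refine ⟨h.meml g hg, by rw [← hg2]; exact hlt, ?_, ?_⟩
    · rw [← val_left g hlt]
      exact val_le_val (by rw [hg2, hn2]) hgn hlt.le
    · conv_lhs => rw [← val_left g hlt]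
      exact val_le_val hg2 hge (by rw [← hg2]; exact hlt.le)
  obtain ⟨w, hw, hmax⟩ := Finset.exists_max_image
    (V.filter fun u => u.1 < e.2.1 ∧ val n u.1 ≤ u.2 ∧ u.2 ≤ val e u.1) Prod.fst
    ⟨e.1, hleft e he rfl le_rfl hns.le⟩
  have hwel := hmax _ (hleft e he rfl le_rfl hns.le)
  have hwnl := hmax _ (hleft n hnE hn2 hns.le le_rfl)
  simp only [mem_filter] at hw
  obtain ⟨hwV, hwv, hlo, hup⟩ := hw
  refine ⟨n, w, he, hnE, hn2, hns, ?_, hwV, hwv, hlo, hup, hwel, hwnl, ?_⟩
  · intro g hg h1 h2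
    exact hmin g (by simp [hg, h1, h2])
  · intro u hu h1 h2 h3
    exact hmax u (by simp only [mem_filter]; exact ⟨hu, h1, h2, h3⟩)

section
variable {V : Finset Pt} {E : Finset Edge}

lemma Wd.hwn {e n : Edge} {w : Pt} (d : Wd V E e n w) : w.1 < n.2.1 := by
  rw [d.h2]; exact d.hwv

/-- the lower edge is strictly below `w` unless it starts there -/
lemma Wd.lo_lt (h : Gr V E) {e n : Edge} {w : Pt} (d : Wd V E e n w) (hne : w ≠ n.1) :
    val n w.1 < w.2 := by
  refine lt_of_le_of_ne d.hlo ?_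
  refine h.nv n d.hn w d.hw (lt_of_le_of_ne d.hnl ?_) d.hwn
  intro h1
  exact hne (h.inj _ (h.meml n d.hn) _ d.hw h1).symm

lemma Wd.lt_up (h : Gr V E) {e n : Edge} {w : Pt} (d : Wd V E e n w) (hne : w ≠ e.1) :
    w.2 < val e w.1 := by
  refine lt_of_le_of_ne d.hup ?_
  refine (h.nv e d.he w d.hw (lt_of_le_of_ne d.hel ?_) d.hwv).symm
  intro h1
  exact hne (h.inj _ (h.meml e d.he) _ d.hw h1).symm

lemma Wd.ne {e n : Edge} {w : Pt} (d : Wd V E e n w) : e ≠ n := by
  intro h1
  have := d.hs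
  rw [h1] at this
  exact lt_irrefl _ this

/-- same right end: the two edges coincide -/
lemma Wd.same_right (h : Gr V E) {e1 n1 e2 n2 : Edge} {w : Pt} (d1 : Wd V E e1 n1 w)
    (d2 : Wd V E e2 n2 w) (hv : e1.2 = e2.2) (hb : (w = n1.1) ↔ (w = n2.1)) : e1 = e2 := by
  -- it is enough to exclude `sl e1 < sl e2` (by symmetry)
  have key : ∀ (e1 n1 e2 n2 : Edge), Wd V E e1 n1 w → Wd V E e2 n2 w → e1.2 = e2.2 →
      ((w = n1.1) ↔ (w = n2.1)) → ¬ sl e1 < sl e2 := by
    intro e1 n1 e2 n2 d1 d2 hv hb hlt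
    have h1 : sl n1 ≤ sl e2 := d1.hmin e2 d2.he hv.symm hlt
    by_cases hw : w = n1.1
    · have hw2 := hb.1 hw
      have : n1 = n2 := by
        refine Prod.ext (hw.symm.trans hw2) ?_
        rw [d1.h2, d2.h2, hv]
      have h3 := d2.hs
      rw [← this] at h3
      linarith
    · have h3 := d1.lo_lt h hw
      have h4 : val e2 w.1 ≤ val n1 w.1 :=
        val_le_val (by rw [d1.h2, hv]) h1 (by rw [d1.h2]; exact d1.hwv.le)
      have h5 := d2.hup
      linarith
  have hs : sl e1 = sl e2 := by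
    rcases lt_trichotomy (sl e1) (sl e2) with h1 | h1 | h1
    · exact absurd h1 (key e1 n1 e2 n2 d1 d2 hv hb)
    · exact h1
    · exact absurd h1 (key e2 n2 e1 n1 d2 d1 hv.symm hb.symm)
  exact h.eq_of_sl d1.he d2.he hv hs

/-- different right ends are impossible -/
lemma Wd.no_lt (h : Gr V E) (hn : ∀ e ∈ E, ∀ g ∈ E, e ≠ g → ¬ Cr e g)
    {e1 n1 e2 n2 : Edge} {w : Pt} (d1 : Wd V E e1 n1 w)
    (d2 : Wd V E e2 n2 w) (hb : (w = n1.1) ↔ (w = n2.1)) : ¬ e1.2.1 < e2.2.1 := by
  intro hlt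
  have hv1 : e1.2 ∈ V := h.memr e1 d1.he
  have hw1 : w.1 < e1.2.1 := d1.hwv
  -- a crossing in `(w.1, v1.1)` between an edge ending at `v1` and one ending at `v2`
  have cross : ∀ g1 g2 : Edge, g1 ∈ E → g2 ∈ E → g1.2 = e1.2 → g2.2 = e2.2 → g1.1.1 ≤ w.1 →
      g2.1.1 ≤ w.1 → (∃ x, w.1 < x ∧ x < e1.2.1 ∧ val g1 x = val g2 x) → False := by
    rintro g1 g2 hg1 hg2 h1 h2 h3 h4 ⟨x, hx1, hx2, hx3⟩
    refine hn g1 hg1 g2 hg2 ?_ ⟨x, by linarith, by linarith, by rw [h1]; exact hx2, by
      rw [h2]; linarith, hx3⟩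
    intro heq
    rw [heq, h2] at h1
    rw [h1] at hlt
    exact lt_irrefl _ hlt
  have hn1v : val n1 e1.2.1 = e1.2.2 := by rw [← d1.h2]; exact val_right n1
  have he1v : val e1 e1.2.1 = e1.2.2 := val_right e1
  -- position of `v1` with respect to wedge 2
  have hpos : e1.2.2 < val n2 e1.2.1 ∨ val e2 e1.2.1 < e1.2.2 := by
    by_contra hcon
    push Not at hcon
    have := d2.hmax e1.2 hv1 hlt hcon.1 hcon.2
    linarith
  by_cases hw : w = n1.1
  · have hw2 := hb.1 hw
    have hn1w : val n1 w.1 = w.2 := by rw [hw]; exact val_left n1 (h.lt n1 d1.hn)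
    have hn2w : val n2 w.1 = w.2 := by rw [hw2]; exact val_left n2 (h.lt n2 d2.hn)
    have hne1 : w ≠ e1.1 := by
      intro h1
      exact d1.ne (Prod.ext (h1.symm.trans hw) d1.h2.symm)
    have hne2 : w ≠ e2.1 := by
      intro h1
      exact d2.ne (Prod.ext (h1.symm.trans hw2) d2.h2.symm)
    have hu1 := d1.lt_up h hne1
    have hu2 := d2.lt_up h hne2
    rcases hpos with hp | hp
    · -- `n2` crosses `e1`
      refine cross e1 n2 d1.he d2.hn rfl d2.h2 d1.hel d2.hnl ?_
      obtain ⟨x, hx1, hx2, hx3⟩ := root (e := n2) (g := e1) hw1 (by rw [hn2w]; exact hu1)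
        (by rw [he1v]; exact hp)
      exact ⟨x, hx1, hx2, hx3.symm⟩
    · -- `n1` crosses `e2`
      refine cross n1 e2 d1.hn d2.he d1.h2 rfl d1.hnl d2.hel ?_
      exact root (e := n1) (g := e2) hw1 (by rw [hn1w]; exact hu2) (by rw [hn1v]; exact hp)
  · have hw2 : w ≠ n2.1 := fun h1 => hw (hb.2 h1)
    have hl1 := d1.lo_lt h hw
    have hl2 := d2.lo_lt h hw2
    rcases hpos with hp | hp
    · -- `n2` crosses `e1`
      refine cross e1 n2 d1.he d2.hn rfl d2.h2 d1.hel d2.hnl ?_
      obtain ⟨x, hx1, hx2, hx3⟩ := root (e := n2) (g := e1) hw1 (lt_of_lt_of_le hl2 d1.hup)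
        (by rw [he1v]; exact hp)
      exact ⟨x, hx1, hx2, hx3.symm⟩
    · -- `n1` crosses `e2`
      refine cross n1 e2 d1.hn d2.he d1.h2 rfl d1.hnl d2.hel ?_
      exact root (e := n1) (g := e2) hw1 (lt_of_lt_of_le hl1 d2.hup) (by rw [hn1v]; exact hp)

end

/-- **planar straight-line graphs have at most `3 |V|` edges** -/
theorem planar {V : Finset Pt} {E : Finset Edge} (h : Gr V E)
    (hn : ∀ e ∈ E, ∀ g ∈ E, e ≠ g → ¬ Cr e g) : E.card ≤ 3 * V.card := by
  classical
  set E1 := E.filter (fun e => ∃ g ∈ E, g.2 = e.2 ∧ sl e < sl g) with hE1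
  set E2 := E.filter (fun e => ¬ ∃ g ∈ E, g.2 = e.2 ∧ sl e < sl g) with hE2
  have hsum : E1.card + E2.card = E.card := by
    rw [hE1, hE2]; exact Finset.card_filter_add_card_filter_not _
  have h2 : E2.card ≤ V.card := by
    refine Finset.card_le_card_of_injOn (fun e => e.2) ?_ ?_
    · intro e he
      have he' := (Finset.mem_filter.1 (Finset.mem_coe.1 he)).1
      exact Finset.mem_coe.2 (h.memr e he')
    · intro e he g hg heg
      have he' := Finset.mem_filter.1 (Finset.mem_coe.1 he)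
      have hg' := Finset.mem_filter.1 (Finset.mem_coe.1 hg)
      simp only at heg
      refine h.eq_of_sl he'.1 hg'.1 heg ?_
      refine le_antisymm ?_ ?_
      · by_contra hlt
        exact hg'.2 ⟨e, he'.1, heg, not_le.1 hlt⟩
      · by_contra hlt
        exact he'.2 ⟨g, hg'.1, heg.symm, not_le.1 hlt⟩
  have h1 : E1.card ≤ 2 * V.card := by
    have hex : ∀ e : Edge, ∃ nw : Edge × Pt, e ∈ E1 → Wd V E e nw.1 nw.2 := by
      intro e
      by_cases he : e ∈ E1
      · have he' := Finset.mem_filter.1 he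
        obtain ⟨n, w, hw⟩ := exists_wd h he'.1 he'.2
        exact ⟨(n, w), fun _ => hw⟩
      · exact ⟨(e, e.1), fun h => absurd h he⟩
    choose nw hnw using hex
    have hcard : (V ×ˢ (Finset.univ : Finset Bool)).card = 2 * V.card := by
      rw [Finset.card_product]; simp [mul_comm]
    rw [← hcard]
    refine Finset.card_le_card_of_injOn
      (fun e => ((nw e).2, decide ((nw e).2 = (nw e).1.1))) ?_ ?_
    · intro e he
      have := hnw e (Finset.mem_coe.1 he)
      simp only [Finset.coe_product, Set.mem_prod, Finset.mem_coe, Finset.mem_univ, and_true]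
      exact this.hw
    · intro e he g hg heg
      have d1 := hnw e (Finset.mem_coe.1 he)
      have d2 := hnw g (Finset.mem_coe.1 hg)
      simp only [Prod.mk.injEq] at heg
      obtain ⟨hw, hb⟩ := heg
      have hb' : ((nw e).2 = (nw e).1.1) ↔ ((nw e).2 = (nw g).1.1) := by
        have h3 : ((nw e).2 = (nw e).1.1) ↔ ((nw g).2 = (nw g).1.1) := by
          constructor
          · intro h4
            have : decide ((nw g).2 = (nw g).1.1) = true := by rw [← hb]; simpa using h4
            simpa using this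
          · intro h4
            have : decide ((nw e).2 = (nw e).1.1) = true := by rw [hb]; simpa using h4
            simpa using this
        rw [h3, hw]
      rw [← hw] at d2
      have hx : e.2.1 = g.2.1 := le_antisymm (not_lt.1 (Wd.no_lt h hn d2 d1 hb'.symm))
        (not_lt.1 (Wd.no_lt h hn d1 d2 hb'))
      have hv : e.2 = g.2 := h.inj _ (h.memr e d1.he) _ (h.memr g d2.he) hx
      exact Wd.same_right h d1 d2 hv hb'
  omega

end Crest.Agent.R065.ST397
end

-- ▼ part R065/STb_397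
section

set_option autoImplicit false

/-!
# Crossing lemma for straight-line graphs
-/

namespace Crest.Agent.R065.ST397

open Finset
open scoped Classical in
/-- ordered crossing pairs -/
noncomputable def crs (E : Finset Edge) : Finset (Edge × Edge) :=
  (E ×ˢ E).filter fun p => p.1 ≠ p.2 ∧ Cr p.1 p.2

lemma mem_crs {E : Finset Edge} {p : Edge × Edge} :
    p ∈ crs E ↔ p.1 ∈ E ∧ p.2 ∈ E ∧ p.1 ≠ p.2 ∧ Cr p.1 p.2 := by
  classical
  simp [crs, and_assoc]

lemma crs_mono {E E' : Finset Edge} (h : E ⊆ E') : crs E ⊆ crs E' := by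
  intro p hp
  rw [mem_crs] at hp ⊢
  exact ⟨h hp.1, h hp.2.1, hp.2.2⟩

/-- removing one edge of every crossing pair -/
theorem card_le_crs {V : Finset Pt} {E : Finset Edge} (h : Gr V E) :
    E.card ≤ 3 * V.card + (crs E).card := by
  classical
  induction E using Finset.strongInduction with
  | H E ih =>
    by_cases hn : ∀ e ∈ E, ∀ g ∈ E, e ≠ g → ¬ Cr e g
    · exact (planar h hn).trans (Nat.le_add_right _ _)
    · push Not at hn
      obtain ⟨e, he, g, hg, hne, hc⟩ := hn
      have h1 := ih (E.erase e) (Finset.erase_ssubset he) (h.mono (Finset.erase_subset _ _))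
      rw [Finset.card_erase_of_mem he] at h1
      have h2 : (crs (E.erase e)).card < (crs E).card := by
        refine Finset.card_lt_card ?_
        refine Finset.ssubset_iff_subset_ne.2 ⟨crs_mono (Finset.erase_subset _ _), ?_⟩
        intro heq
        have : (e, g) ∈ crs E := by rw [mem_crs]; exact ⟨he, hg, hne, hc⟩
        rw [← heq, mem_crs] at this
        exact (Finset.notMem_erase e E) this.1
      omega

/-- crossing edges have four distinct end points -/
lemma cr_ne {V : Finset Pt} {E : Finset Edge} (h : Gr V E) {e g : Edge} (he : e ∈ E)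
    (hg : g ∈ E) (hne : e ≠ g) (hc : Cr e g) :
    e.1 ≠ e.2 ∧ g.1 ≠ g.2 ∧ e.1 ≠ g.1 ∧ e.2 ≠ g.2 ∧ e.1 ≠ g.2 ∧ e.2 ≠ g.1 := by
  obtain ⟨x, h1, h2, h3, h4, h5⟩ := hc
  have hle := h.lt e he
  have hlg := h.lt g hg
  refine ⟨?_, ?_, ?_, ?_, ?_, ?_⟩
  · intro heq; rw [heq] at hle; exact lt_irrefl _ hle
  · intro heq; rw [heq] at hlg; exact lt_irrefl _ hlg
  · -- same left end
    intro heq
    have ha : val e e.1.1 = val g e.1.1 := by
      rw [val_left e hle, heq, val_left g hlg]
    have hs : sl e = sl g := by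
      have : (sl e - sl g) * (x - e.1.1) = 0 := by
        unfold val at h5 ha
        linear_combination h5 - ha
      rcases mul_eq_zero.1 this with h6 | h6
      · linarith
      · linarith
    have hv : ∀ y, val e y = val g y := by
      intro y
      unfold val at ha ⊢
      rw [← hs] at ha ⊢
      linear_combination ha
    rcases lt_trichotomy e.2.1 g.2.1 with h6 | h6 | h6
    · refine h.nv g hg e.2 (h.memr e he) (by rw [← heq]; exact hle) h6 ?_
      rw [← hv, val_right]
    · exact hne (h.eq_of_sl he hg (h.inj _ (h.memr e he) _ (h.memr g hg) h6) hs)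
    · refine h.nv e he g.2 (h.memr g hg) (by rw [heq]; exact hlg) h6 ?_
      rw [hv, val_right]
  · intro heq
    have ha : val e e.2.1 = val g e.2.1 := by
      rw [val_right e, heq, val_right g]
    have hs : sl e = sl g := by
      have : (sl e - sl g) * (x - e.2.1) = 0 := by
        unfold val at h5 ha
        linear_combination h5 - ha
      rcases mul_eq_zero.1 this with h6 | h6
      · linarith
      · linarith
    exact hne (h.eq_of_sl he hg heq hs)
  · intro heq
    rw [heq] at h1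
    linarith
  · intro heq
    rw [heq] at h3
    linarith

/-- product weight of a subset -/
noncomputable def wt (V : Finset Pt) (p : ℝ) (S : Finset Pt) : ℝ :=
  p ^ S.card * (1 - p) ^ (V.card - S.card)

lemma wt_nonneg {V : Finset Pt} {p : ℝ} (hp0 : 0 ≤ p) (hp1 : p ≤ 1) (S : Finset Pt) :
    0 ≤ wt V p S := by
  unfold wt
  have : 0 ≤ 1 - p := by linarith
  positivity

lemma sum_wt_superset [DecidableEq Pt] (V T : Finset Pt) (hT : T ⊆ V) (p : ℝ) :
    ∑ S ∈ V.powerset, (if T ⊆ S then wt V p S else 0) = p ^ T.card := by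
  rw [← Finset.sum_filter]
  have h1 : V.powerset.filter (fun S => T ⊆ S) = (V \ T).powerset.image (fun S => T ∪ S) := by
    ext S
    simp only [mem_filter, mem_powerset, mem_image]
    constructor
    · rintro ⟨h1, h2⟩
      refine ⟨S \ T, Finset.sdiff_subset_sdiff h1 (Finset.Subset.refl _), ?_⟩
      exact Finset.union_sdiff_of_subset h2
    · rintro ⟨S', h1, rfl⟩
      refine ⟨Finset.union_subset hT (h1.trans Finset.sdiff_subset), Finset.subset_union_left⟩
  rw [h1, Finset.sum_image]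
  · have h2 : ∀ S ∈ (V \ T).powerset, wt V p (T ∪ S) =
        p ^ T.card * (p ^ S.card * (1 - p) ^ ((V \ T).card - S.card)) := by
      intro S hS
      rw [mem_powerset] at hS
      have hd : Disjoint T S := by
        rw [Finset.disjoint_left]
        intro a ha hb
        exact (Finset.mem_sdiff.1 (hS hb)).2 ha
      unfold wt
      rw [Finset.card_union_of_disjoint hd, Finset.card_sdiff_of_subset hT, pow_add]
      have : V.card - (T.card + S.card) = V.card - T.card - S.card := by omega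
      rw [this]
      ring
    rw [Finset.sum_congr rfl h2, ← Finset.mul_sum]
    have h3 := Finset.sum_pow_mul_eq_add_pow p (1 - p) (V \ T)
    rw [h3]
    simp
  · intro S1 h1 S2 h2 heq
    have h1' := Finset.mem_powerset.1 (Finset.mem_coe.1 h1)
    have h2' := Finset.mem_powerset.1 (Finset.mem_coe.1 h2)
    simp only at heq
    have e1 : (T ∪ S1) \ T = S1 := by
      ext a
      simp only [mem_sdiff, mem_union]
      constructor
      · rintro ⟨h3 | h3, h4⟩
        · exact absurd h3 h4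
        · exact h3
      · intro h3
        exact ⟨Or.inr h3, (Finset.mem_sdiff.1 (h1' h3)).2⟩
    have e2 : (T ∪ S2) \ T = S2 := by
      ext a
      simp only [mem_sdiff, mem_union]
      constructor
      · rintro ⟨h3 | h3, h4⟩
        · exact absurd h3 h4
        · exact h3
      · intro h3
        exact ⟨Or.inr h3, (Finset.mem_sdiff.1 (h2' h3)).2⟩
    rw [← e1, ← e2, heq]

open scoped Classical in
/-- expectation of the number of objects whose support survives -/
lemma sum_wt_card {α : Type*} (V : Finset Pt) (X : Finset α) (supp : α → Finset Pt) (k : ℕ)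
    (h1 : ∀ x ∈ X, supp x ⊆ V) (h2 : ∀ x ∈ X, (supp x).card = k) (p : ℝ) :
    ∑ S ∈ V.powerset, wt V p S * ((X.filter fun x => supp x ⊆ S).card : ℝ) = X.card * p ^ k := by
  have h3 : ∀ S ∈ V.powerset, wt V p S * ((X.filter fun x => supp x ⊆ S).card : ℝ) =
      ∑ x ∈ X, (if supp x ⊆ S then wt V p S else 0) := by
    intro S _
    rw [Finset.card_filter]
    push_cast
    rw [Finset.mul_sum]
    refine Finset.sum_congr rfl fun x _ => ?_
    split_ifs <;> simp
  rw [Finset.sum_congr rfl h3, Finset.sum_comm]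
  rw [Finset.sum_congr rfl (fun x hx => sum_wt_superset V (supp x) (h1 x hx) p)]
  rw [Finset.sum_congr rfl (fun x hx => by rw [h2 x hx])]
  simp

open scoped Classical in
theorem sampled {V : Finset Pt} {E : Finset Edge} (h : Gr V E) {p : ℝ} (hp0 : 0 ≤ p)
    (hp1 : p ≤ 1) :
    (E.card : ℝ) * p ^ 2 ≤ 3 * (V.card * p) + (crs E).card * p ^ 4 := by
  have hV := sum_wt_card V V (fun v => {v}) 1 (by intro x hx; simpa using hx) (by simp) p
  have hE := sum_wt_card V E (fun e => {e.1, e.2}) 2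
    (by
      intro e he a ha
      simp only [mem_insert, mem_singleton] at ha
      rcases ha with rfl | rfl
      · exact h.meml e he
      · exact h.memr e he)
    (by
      intro e he
      refine Finset.card_pair ?_
      intro heq
      have := h.lt e he
      rw [heq] at this
      exact lt_irrefl _ this) p
  have hC := sum_wt_card V (crs E) (fun q => {q.1.1, q.1.2, q.2.1, q.2.2}) 4
    (by
      intro q hq a ha
      rw [mem_crs] at hq
      simp only [mem_insert, mem_singleton] at ha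
      rcases ha with rfl | rfl | rfl | rfl
      · exact h.meml _ hq.1
      · exact h.memr _ hq.1
      · exact h.meml _ hq.2.1
      · exact h.memr _ hq.2.1)
    (by
      intro q hq
      rw [mem_crs] at hq
      obtain ⟨a1, a2, a3, a4, a5, a6⟩ := cr_ne h hq.1 hq.2.1 hq.2.2.1 hq.2.2.2
      rw [Finset.card_insert_of_notMem, Finset.card_insert_of_notMem, Finset.card_pair a2]
      · simp only [mem_insert, mem_singleton, not_or]; exact ⟨a6, a4⟩
      · simp only [mem_insert, mem_singleton, not_or]; exact ⟨a1, a3, a5⟩) p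
  have key : ∀ S ∈ V.powerset, wt V p S * ((E.filter fun e => {e.1, e.2} ⊆ S).card : ℝ) ≤
      3 * (wt V p S * ((V.filter fun v => {v} ⊆ S).card : ℝ)) +
      wt V p S * (((crs E).filter fun q => {q.1.1, q.1.2, q.2.1, q.2.2} ⊆ S).card : ℝ) := by
    intro S hS
    rw [mem_powerset] at hS
    have hw := wt_nonneg (V := V) hp0 hp1 S
    set ES := E.filter fun e => {e.1, e.2} ⊆ S with hES
    have hsub : ES ⊆ E := Finset.filter_subset _ _
    have hG : Gr S ES := by
      refine (h.mono hsub).monoV hS ?_ ?_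
      · intro e he
        have := (Finset.mem_filter.1 he).2
        exact this (by simp)
      · intro e he
        have := (Finset.mem_filter.1 he).2
        exact this (by simp)
    have h1 := card_le_crs hG
    have h2 : (crs ES).card ≤
        ((crs E).filter fun q => {q.1.1, q.1.2, q.2.1, q.2.2} ⊆ S).card := by
      refine Finset.card_le_card ?_
      intro q hq
      rw [Finset.mem_filter]
      refine ⟨crs_mono hsub hq, ?_⟩
      rw [mem_crs] at hq
      have h3 := (Finset.mem_filter.1 hq.1).2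
      have h4 := (Finset.mem_filter.1 hq.2.1).2
      intro a ha
      simp only [mem_insert, mem_singleton] at ha
      rcases ha with rfl | rfl | rfl | rfl
      · exact h3 (by simp)
      · exact h3 (by simp)
      · exact h4 (by simp)
      · exact h4 (by simp)
    have h3 : S.card ≤ (V.filter fun v => {v} ⊆ S).card := by
      refine Finset.card_le_card ?_
      intro v hv
      rw [Finset.mem_filter]
      exact ⟨hS hv, by simpa using hv⟩
    have h4 : (ES.card : ℝ) ≤ 3 * ((V.filter fun v => {v} ⊆ S).card : ℝ) +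
        (((crs E).filter fun q => {q.1.1, q.1.2, q.2.1, q.2.2} ⊆ S).card : ℝ) := by
      have : ES.card ≤ 3 * (V.filter fun v => {v} ⊆ S).card +
        ((crs E).filter fun q => {q.1.1, q.1.2, q.2.1, q.2.2} ⊆ S).card := by omega
      exact_mod_cast this
    nlinarith
  have hs := Finset.sum_le_sum key
  rw [Finset.sum_add_distrib, ← Finset.mul_sum] at hs
  rw [hE, hC, hV] at hs
  simpa using hs

/-- **crossing lemma** (cubic form) -/
theorem crossing {V : Finset Pt} {E : Finset Edge} (h : Gr V E) :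
    E.card ≤ 6 * V.card ∨ E.card ^ 3 ≤ 72 * V.card ^ 2 * (crs E).card := by
  by_cases hle : E.card ≤ 6 * V.card
  · exact Or.inl hle
  · right
    push Not at hle
    rcases Nat.eq_zero_or_pos V.card with hV | hV
    · -- no vertices, no edges
      have : E = ∅ := by
        rw [Finset.eq_empty_iff_forall_notMem]
        intro e he
        have h1 := h.meml e he
        rw [Finset.card_eq_zero] at hV
        rw [hV] at h1
        exact Finset.notMem_empty _ h1
      rw [this] at hle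
      simp at hle
    · have hE : (0 : ℝ) < E.card := by
        have : 0 < E.card := by omega
        exact_mod_cast this
      have hVr : (0 : ℝ) < V.card := by exact_mod_cast hV
      have hle' : 6 * (V.card : ℝ) < E.card := by exact_mod_cast hle
      have hp1 : 6 * (V.card : ℝ) / E.card ≤ 1 := by
        rw [div_le_one hE]; exact hle'.le
      have hs := sampled h (p := 6 * (V.card : ℝ) / E.card) (by positivity) hp1
      have h1 : (E.card : ℝ) * (6 * (V.card : ℝ) / E.card) ^ 2 =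
          36 * (V.card : ℝ) ^ 2 / E.card := by
        field_simp
        ring
      have h2 : 3 * ((V.card : ℝ) * (6 * (V.card : ℝ) / E.card)) =
          18 * (V.card : ℝ) ^ 2 / E.card := by
        field_simp
        ring
      rw [h1, h2] at hs
      have h3 : 18 * (V.card : ℝ) ^ 2 / E.card ≤
          ((crs E).card : ℝ) * (6 * (V.card : ℝ) / E.card) ^ 4 := by
        have : 36 * (V.card : ℝ) ^ 2 / E.card = 18 * (V.card : ℝ) ^ 2 / E.card +
          18 * (V.card : ℝ) ^ 2 / E.card := by ring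
        linarith
      have h4 : 18 * (V.card : ℝ) ^ 2 / E.card * (E.card : ℝ) ^ 4 ≤
          ((crs E).card : ℝ) * (6 * (V.card : ℝ) / E.card) ^ 4 * (E.card : ℝ) ^ 4 :=
        mul_le_mul_of_nonneg_right h3 (by positivity)
      have h5 : 18 * (V.card : ℝ) ^ 2 / E.card * (E.card : ℝ) ^ 4 =
          18 * (V.card : ℝ) ^ 2 * (E.card : ℝ) ^ 3 := by
        field_simp
      have h6 : ((crs E).card : ℝ) * (6 * (V.card : ℝ) / E.card) ^ 4 * (E.card : ℝ) ^ 4 =
          18 * (V.card : ℝ) ^ 2 * (72 * (V.card : ℝ) ^ 2 * (crs E).card) := by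
        field_simp
        ring
      rw [h5, h6] at h4
      have h7 : (E.card : ℝ) ^ 3 ≤ 72 * (V.card : ℝ) ^ 2 * (crs E).card :=
        le_of_mul_le_mul_left h4 (by positivity)
      exact_mod_cast h7

end Crest.Agent.R065.ST397
end

-- ▼ part R065/STc_397

set_option autoImplicit false

/-!
# Szemerédi–Trotter for points with distinct abscissae and non-vertical lines `y = m x + b`
-/

namespace Crest.Agent.R065.ST397

open Finset

/-- incidence of a point with the line `y = l.1 * x + l.2` -/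
def On (p : Pt) (l : ℝ × ℝ) : Prop := p.2 = l.1 * p.1 + l.2

open scoped Classical in
noncomputable def inc (P : Finset Pt) (l : ℝ × ℝ) : Finset Pt := P.filter fun p => On p l

lemma mem_inc {P : Finset Pt} {l : ℝ × ℝ} {p : Pt} : p ∈ inc P l ↔ p ∈ P ∧ On p l := by
  classical
  simp [inc]

/-- consecutive points of `P` on the line `l` -/
def Con (P : Finset Pt) (l : ℝ × ℝ) (e : Edge) : Prop :=
  e.1 ∈ P ∧ e.2 ∈ P ∧ On e.1 l ∧ On e.2 l ∧ e.1.1 < e.2.1 ∧
    ∀ u ∈ P, On u l → e.1.1 < u.1 → ¬ u.1 < e.2.1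

open scoped Classical in
noncomputable def edgesOn (P : Finset Pt) (l : ℝ × ℝ) : Finset Edge :=
  (P ×ˢ P).filter fun e => Con P l e

lemma mem_edgesOn {P : Finset Pt} {l : ℝ × ℝ} {e : Edge} : e ∈ edgesOn P l ↔ Con P l e := by
  classical
  simp only [edgesOn, mem_filter, mem_product]
  exact ⟨fun h => h.2, fun h => ⟨⟨h.1, h.2.1⟩, h⟩⟩

open scoped Classical in
noncomputable def edges (P : Finset Pt) (L : Finset (ℝ × ℝ)) : Finset Edge :=
  L.biUnion fun l => edgesOn P l

lemma mem_edges {P : Finset Pt} {L : Finset (ℝ × ℝ)} {e : Edge} :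
    e ∈ edges P L ↔ ∃ l ∈ L, Con P l e := by
  classical
  simp [edges, mem_edgesOn]

lemma line_unique {p q : Pt} {l l' : ℝ × ℝ} (hpq : p.1 < q.1) (h1 : On p l) (h2 : On q l)
    (h3 : On p l') (h4 : On q l') : l = l' := by
  unfold On at *
  have h5 : (l.1 - l'.1) * (q.1 - p.1) = 0 := by linear_combination h1 - h2 - h3 + h4
  have h6 : l.1 = l'.1 := by
    rcases mul_eq_zero.1 h5 with h | h
    · linarith
    · linarith
  refine Prod.ext h6 ?_
  rw [h6] at h1
  linarith

lemma val_of_con {P : Finset Pt} {l : ℝ × ℝ} {e : Edge} (h : Con P l e) (x : ℝ) :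
    val e x = l.1 * x + l.2 := by
  obtain ⟨_, _, h1, h2, h3, _⟩ := h
  have h0 : e.2.1 - e.1.1 ≠ 0 := (sub_pos.mpr h3).ne'
  have hs : sl e = l.1 := by
    unfold sl
    rw [div_eq_iff h0]
    unfold On at h1 h2
    rw [h1, h2]; ring
  unfold val
  rw [hs]
  unfold On at h2
  rw [h2]; ring

lemma con_eq {P : Finset Pt} (hinj : ∀ u ∈ P, ∀ v ∈ P, u.1 = v.1 → u = v) {l : ℝ × ℝ}
    {e g : Edge} (he : Con P l e) (hg : Con P l g) {x : ℝ} (h1 : e.1.1 < x) (h2 : x < e.2.1)
    (h3 : g.1.1 < x) (h4 : x < g.2.1) : e = g := by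
  obtain ⟨a1, a2, a3, a4, a5, a6⟩ := he
  obtain ⟨b1, b2, b3, b4, b5, b6⟩ := hg
  have c1 : e.1.1 = g.1.1 := by
    refine le_antisymm ?_ ?_
    · by_contra h
      exact b6 e.1 a1 a3 (not_le.1 h) (by linarith)
    · by_contra h
      exact a6 g.1 b1 b3 (not_le.1 h) (by linarith)
  have c2 : e.2.1 = g.2.1 := by
    refine le_antisymm ?_ ?_
    · by_contra h
      exact a6 g.2 b2 b4 (by linarith) (not_le.1 h)
    · by_contra h
      exact b6 e.2 a2 a4 (by linarith) (not_le.1 h)
  exact Prod.ext (hinj _ a1 _ b1 c1) (hinj _ a2 _ b2 c2)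

lemma gr_edges {P : Finset Pt} (hinj : ∀ u ∈ P, ∀ v ∈ P, u.1 = v.1 → u = v)
    (L : Finset (ℝ × ℝ)) : Gr P (edges P L) := by
  refine ⟨hinj, ?_, ?_, ?_, ?_⟩
  · intro e he
    obtain ⟨l, _, h⟩ := mem_edges.1 he
    exact h.1
  · intro e he
    obtain ⟨l, _, h⟩ := mem_edges.1 he
    exact h.2.1
  · intro e he
    obtain ⟨l, _, h⟩ := mem_edges.1 he
    exact h.2.2.2.2.1
  · intro e he u hu h1 h2 h3
    obtain ⟨l, _, h⟩ := mem_edges.1 he
    rw [val_of_con h] at h3
    exact h.2.2.2.2.2 u hu h3.symm h1 h2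

lemma card_edgesOn {P : Finset Pt} (hinj : ∀ u ∈ P, ∀ v ∈ P, u.1 = v.1 → u = v)
    (l : ℝ × ℝ) : (inc P l).card - 1 ≤ (edgesOn P l).card := by
  classical
  rcases Finset.eq_empty_or_nonempty (inc P l) with h | h
  · simp [h]
  · obtain ⟨m, hm, hmax⟩ := Finset.exists_max_image (inc P l) Prod.fst h
    rw [← Finset.card_erase_of_mem hm]
    have hsub : (inc P l).erase m ⊆ (edgesOn P l).image Prod.fst := by
      intro p hp
      rw [mem_erase] at hp
      obtain ⟨hne, hp⟩ := hp
      have hpP := mem_inc.1 hp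
      have hmP := mem_inc.1 hm
      have hlt : p.1 < m.1 := by
        refine lt_of_le_of_ne (hmax p hp) ?_
        intro heq
        exact hne (hinj _ hpP.1 _ hmP.1 heq)
      obtain ⟨q, hq, hmin⟩ := Finset.exists_min_image ((inc P l).filter fun q => p.1 < q.1)
        Prod.fst ⟨m, by simp [hm, hlt]⟩
      rw [mem_filter] at hq
      have hqP := mem_inc.1 hq.1
      rw [mem_image]
      refine ⟨(p, q), ?_, rfl⟩
      rw [mem_edgesOn]
      refine ⟨hpP.1, hqP.1, hpP.2, hqP.2, hq.2, ?_⟩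
      intro u hu hul h1 h2
      have := hmin u (by rw [mem_filter, mem_inc]; exact ⟨⟨hu, hul⟩, h1⟩)
      simp only at h2
      linarith
    exact (Finset.card_le_card hsub).trans Finset.card_image_le

lemma card_edges {P : Finset Pt} (hinj : ∀ u ∈ P, ∀ v ∈ P, u.1 = v.1 → u = v)
    (L : Finset (ℝ × ℝ)) : ∑ l ∈ L, ((inc P l).card - 1) ≤ (edges P L).card := by
  classical
  unfold edges
  rw [Finset.card_biUnion]
  · exact Finset.sum_le_sum fun l _ => card_edgesOn hinj l
  · intro l _ l' _ hne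
    rw [Function.onFun, Finset.disjoint_left]
    intro e h1 h2
    rw [mem_edgesOn] at h1 h2
    exact hne (line_unique h1.2.2.2.2.1 h1.2.2.1 h1.2.2.2.1 h2.2.2.1 h2.2.2.2.1)

lemma card_crs_edges {P : Finset Pt} (hinj : ∀ u ∈ P, ∀ v ∈ P, u.1 = v.1 → u = v)
    (L : Finset (ℝ × ℝ)) : (crs (edges P L)).card ≤ L.card ^ 2 := by
  classical
  have hex : ∀ e : Edge, ∃ l : ℝ × ℝ, e ∈ edges P L → l ∈ L ∧ Con P l e := by
    intro e
    by_cases he : e ∈ edges P L
    · obtain ⟨l, hl, h⟩ := mem_edges.1 he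
      exact ⟨l, fun _ => ⟨hl, h⟩⟩
    · exact ⟨(0, 0), fun h => absurd h he⟩
  choose ln hln using hex
  have hcard : (L ×ˢ L).card = L.card ^ 2 := by rw [Finset.card_product, sq]
  rw [← hcard]
  refine Finset.card_le_card_of_injOn (fun q => (ln q.1, ln q.2)) ?_ ?_
  · intro q hq
    have hq' := mem_crs.1 (Finset.mem_coe.1 hq)
    simp only [Finset.coe_product, Set.mem_prod, Finset.mem_coe]
    exact ⟨(hln _ hq'.1).1, (hln _ hq'.2.1).1⟩
  · intro q hq r hr heq
    have hq' := mem_crs.1 (Finset.mem_coe.1 hq)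
    have hr' := mem_crs.1 (Finset.mem_coe.1 hr)
    simp only [Prod.mk.injEq] at heq
    obtain ⟨e1, e2⟩ := heq
    obtain ⟨hq1, hq2, hq3, x, hx1, hx2, hx3, hx4, hx5⟩ := hq'
    obtain ⟨hr1, hr2, hr3, y, hy1, hy2, hy3, hy4, hy5⟩ := hr'
    have cq1 := (hln _ hq1).2
    have cq2 := (hln _ hq2).2
    have cr1 := (hln _ hr1).2
    have cr2 := (hln _ hr2).2
    rw [← e1] at cr1
    rw [← e2] at cr2
    rw [val_of_con cq1, val_of_con cq2] at hx5
    rw [val_of_con cr1, val_of_con cr2] at hy5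
    -- the two lines are different
    have hsl : (ln q.1).1 ≠ (ln q.2).1 := by
      intro heq1
      have h2 : (ln q.1).2 = (ln q.2).2 := by rw [heq1] at hx5; linarith
      have h3 : ln q.1 = ln q.2 := Prod.ext heq1 h2
      rw [← h3] at cq2
      exact hq3 (con_eq hinj cq1 cq2 hx1 hx3 hx2 hx4)
    have hxy : x = y := by
      have : ((ln q.1).1 - (ln q.2).1) * (x - y) = 0 := by linear_combination hx5 - hy5
      rcases mul_eq_zero.1 this with h | h
      · exact absurd (sub_eq_zero.1 h) hsl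
      · linarith
    subst hxy
    exact Prod.ext (con_eq hinj cq1 cr1 hx1 hx3 hy1 hy3) (con_eq hinj cq2 cr2 hx2 hx4 hy2 hy4)

/-- **Szemerédi–Trotter**, cubic form: with `I' = ∑_l (|P ∩ l| - 1)` either `I' ≤ 6 |P|` or
`I'^3 ≤ 72 |P|^2 |L|^2`. -/
theorem szemeredi_trotter {P : Finset Pt} (hinj : ∀ u ∈ P, ∀ v ∈ P, u.1 = v.1 → u = v)
    (L : Finset (ℝ × ℝ)) :
    ∑ l ∈ L, ((inc P l).card - 1) ≤ 6 * P.card ∨
      (∑ l ∈ L, ((inc P l).card - 1)) ^ 3 ≤ 72 * P.card ^ 2 * L.card ^ 2 := by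
  have h1 := card_edges hinj L
  rcases crossing (gr_edges hinj L) with h | h
  · exact Or.inl (h1.trans h)
  · right
    calc (∑ l ∈ L, ((inc P l).card - 1)) ^ 3 ≤ (edges P L).card ^ 3 := Nat.pow_le_pow_left h1 3
      _ ≤ 72 * P.card ^ 2 * (crs (edges P L)).card := h
      _ ≤ 72 * P.card ^ 2 * L.card ^ 2 := Nat.mul_le_mul_left _ (card_crs_edges hinj L)

/-- number of rich lines -/
theorem rich_lines {P : Finset Pt} (hinj : ∀ u ∈ P, ∀ v ∈ P, u.1 = v.1 → u = v)
    (L : Finset (ℝ × ℝ)) {k : ℕ} (hk : 2 ≤ k) (hL : ∀ l ∈ L, k ≤ (inc P l).card) :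
    k * L.card ≤ 12 * P.card ∨ k ^ 3 * L.card ≤ 576 * P.card ^ 2 := by
  have h1 : L.card * (k - 1) ≤ ∑ l ∈ L, ((inc P l).card - 1) := by
    rw [← smul_eq_mul, ← Finset.sum_const]
    exact Finset.sum_le_sum fun l hl => Nat.sub_le_sub_right (hL l hl) 1
  have h2 : k ≤ 2 * (k - 1) := by omega
  have h3 : k * L.card ≤ 2 * ∑ l ∈ L, ((inc P l).card - 1) := by
    calc k * L.card ≤ 2 * (k - 1) * L.card := Nat.mul_le_mul_right _ h2
      _ = 2 * (L.card * (k - 1)) := by ring
      _ ≤ _ := Nat.mul_le_mul_left _ h1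
  rcases szemeredi_trotter hinj L with h | h
  · left; omega
  · right
    rcases Nat.eq_zero_or_pos L.card with h0 | h0
    · simp [h0]
    · have h4 : (k * L.card) ^ 3 ≤ 8 * (72 * P.card ^ 2 * L.card ^ 2) := by
        calc (k * L.card) ^ 3 ≤ (2 * ∑ l ∈ L, ((inc P l).card - 1)) ^ 3 :=
              Nat.pow_le_pow_left h3 3
          _ = 8 * (∑ l ∈ L, ((inc P l).card - 1)) ^ 3 := by ring
          _ ≤ _ := Nat.mul_le_mul_left _ h
      have h5 : L.card ^ 2 * (k ^ 3 * L.card) ≤ L.card ^ 2 * (576 * P.card ^ 2) := by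
        calc L.card ^ 2 * (k ^ 3 * L.card) = (k * L.card) ^ 3 := by ring
          _ ≤ 8 * (72 * P.card ^ 2 * L.card ^ 2) := h4
          _ = L.card ^ 2 * (576 * P.card ^ 2) := by ring
      exact Nat.le_of_mul_le_mul_left h5 (by positivity)

end Crest.Agent.R065.ST397
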