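import Crest.Agent.R065.Hyp_348
import Mathlib

-- ▼ part R065/Reg_348
section

/-!
# Row 65: regularity by quantiles (helper382 #12062 (a)-(d)), finite combinatorics of distances
-/

set_option autoImplicit false

namespace Crest.Agent.R065.Reg348

open Finset Crest.Agent.R065.Top348 Crest.Agent.R065.Pins348 Crest.Agent.R065.Hyp348

variable {d : ℕ} (P : Finset (EuclideanSpace ℝ (Fin d)))

lemma Rc_le (p b : EuclideanSpace ℝ (Fin d)) : Rc P p b ≤ P.card := by
  classical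
  unfold Rc
  exact card_le_card (filter_subset _ _)

open Classical in
lemma exists_quantile (b : EuclideanSpace ℝ (Fin d)) :
    ∃ l : ℕ, 3 * P.card ≤ 4 * (P.filter fun p => Rc P p b ≤ l).card := by
  refine ⟨P.card, ?_⟩
  rw [filter_true_of_mem fun p _ => Rc_le P p b]
  omega

open Classical in
/-- the `3/4` quantile -/
noncomputable def lam (b : EuclideanSpace ℝ (Fin d)) : ℕ := Nat.find (exists_quantile P b)

open Classical in
lemma lam_spec1 (b : EuclideanSpace ℝ (Fin d)) :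
    3 * P.card ≤ 4 * (P.filter fun p => Rc P p b ≤ lam P b).card :=
  Nat.find_spec (exists_quantile P b)

open Classical in
lemma lam_spec2 (b : EuclideanSpace ℝ (Fin d)) :
    P.card ≤ 4 * (P.filter fun p => lam P b ≤ Rc P p b).card := by
  rcases Nat.eq_zero_or_pos (lam P b) with h | h
  · rw [h, filter_true_of_mem fun p _ => Nat.zero_le _]; omega
  · have h1 := Nat.find_min (exists_quantile P b) (m := lam P b - 1)
      (by have : Nat.find (exists_quantile P b) = lam P b := rfl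
          omega)
    rw [not_le] at h1
    have h2 := card_filter_add_card_filter_not (s := P) (fun p => Rc P p b ≤ lam P b - 1)
    have h3 : (P.filter fun p => ¬ Rc P p b ≤ lam P b - 1) =
        P.filter fun p => lam P b ≤ Rc P p b := by
      apply filter_congr
      intro p _
      omega
    rw [h3] at h2
    omega

lemma good_of_lam {τ : ℕ} {b : EuclideanSpace ℝ (Fin d)} (h : P.card ≤ τ * lam P b) :
    Good P τ b := by
  classical
  refine (lam_spec2 P b).trans (Nat.mul_le_mul_left 4 (card_le_card ?_))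
  intro p hp
  rw [mem_filter] at hp
  unfold pinsOf
  rw [mem_filter]
  exact ⟨hp.1, h.trans (Nat.mul_le_mul_left τ hp.2)⟩

open Classical in
/-- regular pairs -/
noncomputable def Bs : Finset (EuclideanSpace ℝ (Fin d) × EuclideanSpace ℝ (Fin d)) :=
  (P ×ˢ P).filter fun p => Rc P p.1 p.2 ≤ lam P p.1 ∧ Rc P p.1 p.2 ≤ lam P p.2

lemma mem_Bs {p : EuclideanSpace ℝ (Fin d) × EuclideanSpace ℝ (Fin d)} :
    p ∈ Bs P ↔ (p.1 ∈ P ∧ p.2 ∈ P) ∧ Rc P p.1 p.2 ≤ lam P p.1 ∧ Rc P p.1 p.2 ≤ lam P p.2 := by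
  classical
  unfold Bs; rw [mem_filter, mem_product]

open Classical in
lemma exists_median : ∃ l : ℕ, P.card ≤ 2 * (P.filter fun b => lam P b ≤ l).card := by
  refine ⟨P.sup (lam P), ?_⟩
  rw [filter_true_of_mem fun p hp => le_sup hp]
  omega

lemma card_Bs : P.card ^ 2 ≤ 8 * (Bs P).card := by
  classical
  set l0 := Nat.find (exists_median P) with hl0
  have hU : P.card ≤ 2 * (P.filter fun b => lam P b ≤ l0).card := Nat.find_spec (exists_median P)
  have hV : P.card ≤ 2 * (P.filter fun b => l0 ≤ lam P b).card := by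
    rcases Nat.eq_zero_or_pos l0 with h | h
    · rw [h, filter_true_of_mem fun p _ => Nat.zero_le _]; omega
    · have h1 := Nat.find_min (exists_median P) (m := l0 - 1) (by omega)
      rw [not_le] at h1
      have h2 := card_filter_add_card_filter_not (s := P) (fun b => lam P b ≤ l0 - 1)
      have h3 : (P.filter fun b => ¬ lam P b ≤ l0 - 1) = P.filter fun b => l0 ≤ lam P b := by
        apply filter_congr
        intro p _
        omega
      rw [h3] at h2
      omega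
  set U := P.filter fun b => lam P b ≤ l0 with hUdef
  set V := P.filter fun b => l0 ≤ lam P b with hVdef
  have key : ∀ b ∈ U, P.card ≤ 4 * (V.filter fun a => Rc P a b ≤ lam P b).card := by
    intro b _
    have h1 := lam_spec1 P b
    have h2 : (P.filter fun p => Rc P p b ≤ lam P b).card ≤
        (V.filter fun a => Rc P a b ≤ lam P b).card + (P \ V).card := by
      rw [← card_union_of_disjoint]
      · apply card_le_card
        intro p hp
        rw [mem_filter] at hp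
        rw [mem_union, mem_filter, mem_sdiff]
        by_cases hpV : p ∈ V
        · exact Or.inl ⟨hpV, hp.2⟩
        · exact Or.inr ⟨hp.1, hpV⟩
      · rw [disjoint_left]
        intro p hp hp'
        exact (mem_sdiff.1 hp').2 (mem_filter.1 hp).1
    have h3 : (P \ V).card = P.card - V.card := card_sdiff_of_subset (filter_subset _ _)
    have h4 : V.card ≤ P.card := card_le_card (filter_subset _ _)
    omega
  have h5 : ∑ b ∈ U, (V.filter fun a => Rc P a b ≤ lam P b).card ≤ (Bs P).card := by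
    rw [← card_sigma]
    refine card_le_card_of_injOn (fun p => (p.2, p.1)) ?_ ?_
    · rintro ⟨b, a⟩ hp
      simp only [coe_sigma, Set.mem_sigma_iff, mem_coe, mem_filter] at hp
      obtain ⟨hb, ha, hab⟩ := hp
      rw [mem_coe, mem_Bs]
      have hb' := mem_filter.1 hb
      have ha' := mem_filter.1 ha
      exact ⟨⟨ha'.1, hb'.1⟩, (hab.trans hb'.2).trans ha'.2, hab⟩
    · rintro ⟨b, a⟩ _ ⟨b', a'⟩ _ h
      simp only [Prod.mk.injEq] at h
      obtain ⟨rfl, rfl⟩ := h
      rfl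
  have h6 : U.card * P.card ≤ 4 * (Bs P).card := by
    calc U.card * P.card = ∑ b ∈ U, P.card := by rw [sum_const, smul_eq_mul]
      _ ≤ ∑ b ∈ U, 4 * (V.filter fun a => Rc P a b ≤ lam P b).card := sum_le_sum key
      _ = 4 * ∑ b ∈ U, (V.filter fun a => Rc P a b ≤ lam P b).card := by rw [mul_sum]
      _ ≤ _ := Nat.mul_le_mul_left 4 h5
  calc P.card ^ 2 = P.card * P.card := sq _
    _ ≤ 2 * U.card * P.card := Nat.mul_le_mul_right _ hU
    _ = 2 * (U.card * P.card) := by ring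
    _ ≤ 2 * (4 * (Bs P).card) := Nat.mul_le_mul_left 2 h6
    _ = 8 * (Bs P).card := by ring

open Classical in
/-- partners of `z` -/
noncomputable def Nb (z : EuclideanSpace ℝ (Fin d) × EuclideanSpace ℝ (Fin d)) :
    Finset (EuclideanSpace ℝ (Fin d) × EuclideanSpace ℝ (Fin d)) :=
  (P ×ˢ P).filter fun w => dist z.1 w.1 = dist z.2 w.2 ∧ (z.1, w.1) ∈ Bs P ∧ (z.2, w.2) ∈ Bs P

lemma mem_Nb {z w : EuclideanSpace ℝ (Fin d) × EuclideanSpace ℝ (Fin d)} :
    w ∈ Nb P z ↔ (w.1 ∈ P ∧ w.2 ∈ P) ∧ dist z.1 w.1 = dist z.2 w.2 ∧ (z.1, w.1) ∈ Bs P ∧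
      (z.2, w.2) ∈ Bs P := by
  classical
  unfold Nb; rw [mem_filter, mem_product]

open Classical in
/-- all distances, including `0` -/
noncomputable def dists : Finset ℝ := (P ×ˢ P).image fun p => dist p.1 p.2

lemma card_dists : (dists P).card ≤ nd P + 1 := by
  classical
  have h : (dists P : Set ℝ) ⊆
      insert 0 {t : ℝ | ∃ p ∈ P, ∃ q ∈ P, p ≠ q ∧ dist p q = t} := by
    intro r hr
    obtain ⟨⟨p, q⟩, hpq, rfl⟩ := mem_image.1 (mem_coe.1 hr)
    rw [mem_product] at hpq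
    by_cases h : p = q
    · left; simp [h]
    · right; exact ⟨p, hpq.1, q, hpq.2, h, rfl⟩
  have h1 := Set.ncard_le_ncard h ((nd_set_finite P).insert 0)
  rw [Set.ncard_coe_finset] at h1
  exact h1.trans (Set.ncard_insert_le _ _)

lemma sum_Nb : (Bs P).card ^ 2 ≤ (dists P).card * ∑ z ∈ P ×ˢ P, (Nb P z).card := by
  classical
  have h1 : (Bs P).card = ∑ r ∈ dists P, ((Bs P).filter fun p => dist p.1 p.2 = r).card := by
    apply card_eq_sum_card_fiberwise
    intro p hp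
    rw [mem_coe, mem_Bs] at hp
    exact mem_coe.2 (mem_image.2 ⟨p, mem_product.2 hp.1, rfl⟩)
  have h2 : ∑ r ∈ dists P, ((Bs P).filter fun p => dist p.1 p.2 = r).card ^ 2 ≤
      ∑ z ∈ P ×ˢ P, (Nb P z).card := by
    rw [← card_sigma]
    have h3 : ∑ r ∈ dists P, ((Bs P).filter fun p => dist p.1 p.2 = r).card ^ 2 =
        ((dists P).sigma fun r => ((Bs P).filter fun p => dist p.1 p.2 = r) ×ˢ
          ((Bs P).filter fun p => dist p.1 p.2 = r)).card := by
      rw [card_sigma]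
      refine sum_congr rfl fun r _ => ?_
      rw [card_product, sq]
    rw [h3]
    refine card_le_card_of_injOn
      (fun x => ⟨(x.2.1.1, x.2.2.1), (x.2.1.2, x.2.2.2)⟩) ?_ ?_
    · rintro ⟨r, ⟨⟨a, b⟩, ⟨c, e⟩⟩⟩ hx
      simp only [coe_sigma, Set.mem_sigma_iff, mem_coe, mem_product, mem_filter] at hx
      obtain ⟨_, ⟨h1, h1'⟩, h2, h2'⟩ := hx
      simp only [coe_sigma, Set.mem_sigma_iff, mem_coe, mem_product]
      have m1 := (mem_Bs P).1 h1
      have m2 := (mem_Bs P).1 h2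
      refine ⟨⟨m1.1.1, m2.1.1⟩, ?_⟩
      rw [mem_Nb]
      exact ⟨⟨m1.1.2, m2.1.2⟩, h1'.trans h2'.symm, h1, h2⟩
    · rintro ⟨r, ⟨⟨a, b⟩, ⟨c, e⟩⟩⟩ hx ⟨r', ⟨⟨a', b'⟩, ⟨c', e'⟩⟩⟩ hx' h
      simp only [coe_sigma, Set.mem_sigma_iff, mem_coe, mem_product, mem_filter] at hx hx'
      obtain ⟨_, ⟨h1, h1'⟩, h2, h2'⟩ := hx
      obtain ⟨_, ⟨g1, g1'⟩, g2, g2'⟩ := hx'
      simp only [Sigma.mk.injEq, Prod.mk.injEq, heq_eq_eq] at h
      obtain ⟨⟨rfl, rfl⟩, rfl, rfl⟩ := h
      have : r = r' := h1'.symm.trans g1'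
      subst this
      rfl
  calc (Bs P).card ^ 2 = (∑ r ∈ dists P, ((Bs P).filter fun p => dist p.1 p.2 = r).card) ^ 2 := by
        rw [← h1]
    _ ≤ (dists P).card * ∑ r ∈ dists P, ((Bs P).filter fun p => dist p.1 p.2 = r).card ^ 2 :=
        sq_sum_le_card_mul_sum_sq
    _ ≤ _ := Nat.mul_le_mul_left _ h2

variable {P}

/-- general row bound -/
lemma card_le_of_rows {Y : Finset (EuclideanSpace ℝ (Fin d) × EuclideanSpace ℝ (Fin d))}
    (hY : ∀ w ∈ Y, w.1 ∈ P) {l : ℕ}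
    (h : ∀ b ∈ P, ∀ e, (b, e) ∈ Y → ∃ S : Finset (EuclideanSpace ℝ (Fin d)),
      S.card ≤ l ∧ ∀ e', (b, e') ∈ Y → e' ∈ S) : Y.card ≤ P.card * l := by
  classical
  have h1 : Y.card = ∑ b ∈ P, (Y.filter fun w => w.1 = b).card := by
    apply card_eq_sum_card_fiberwise
    intro w hw
    exact hY w hw
  rw [h1, ← smul_eq_mul, ← sum_const]
  refine sum_le_sum fun b hb => ?_
  rcases (Y.filter fun w => w.1 = b).eq_empty_or_nonempty with he | ⟨⟨b', e⟩, hw⟩
  · rw [he]; simp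
  · rw [mem_filter] at hw
    obtain ⟨hw1, hw2⟩ := hw
    simp only at hw2
    subst hw2
    obtain ⟨S, hS, hS'⟩ := h b' hb e hw1
    refine le_trans (card_le_card_of_injOn (fun w => w.2) ?_ ?_) hS
    · rintro ⟨b, e'⟩ hw
      rw [mem_coe, mem_filter] at hw
      obtain ⟨hw, rfl⟩ := hw
      exact hS' e' hw
    · rintro ⟨b, e'⟩ hw ⟨c, e''⟩ hw' heq
      rw [mem_coe, mem_filter] at hw hw'
      exact Prod.ext (hw.2.trans hw'.2.symm) heq

/-- general column bound -/
lemma card_le_of_cols {Y : Finset (EuclideanSpace ℝ (Fin d) × EuclideanSpace ℝ (Fin d))}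
    (hY : ∀ w ∈ Y, w.2 ∈ P) {l : ℕ}
    (h : ∀ e ∈ P, ∀ b, (b, e) ∈ Y → ∃ S : Finset (EuclideanSpace ℝ (Fin d)),
      S.card ≤ l ∧ ∀ b', (b', e) ∈ Y → b' ∈ S) : Y.card ≤ P.card * l := by
  classical
  have h1 : (Y.map (Equiv.prodComm _ _).toEmbedding).card ≤ P.card * l := by
    apply card_le_of_rows (P := P)
    · intro w hw
      obtain ⟨⟨b, e⟩, hv, rfl⟩ := mem_map.1 hw
      exact hY _ hv
    · intro e he b hb
      obtain ⟨⟨b', e'⟩, hv, hv'⟩ := mem_map.1 hb
      simp only [Equiv.toEmbedding_apply, Equiv.prodComm_apply, Prod.swap_prod_mk,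
        Prod.mk.injEq] at hv'
      obtain ⟨rfl, rfl⟩ := hv'
      obtain ⟨S, hS, hS'⟩ := h _ he _ hv
      refine ⟨S, hS, fun e'' h'' => ?_⟩
      obtain ⟨⟨b2, e2⟩, hv2, hv2'⟩ := mem_map.1 h''
      simp only [Equiv.toEmbedding_apply, Equiv.prodComm_apply, Prod.swap_prod_mk,
        Prod.mk.injEq] at hv2'
      obtain ⟨rfl, rfl⟩ := hv2'
      exact hS' _ hv2
  rwa [card_map] at h1

open Classical in
/-- the sphere around `p` of radius `dist p b` inside `P` -/
noncomputable def sph (P : Finset (EuclideanSpace ℝ (Fin d))) (p b : EuclideanSpace ℝ (Fin d)) :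
    Finset (EuclideanSpace ℝ (Fin d)) := P.filter fun q => dist p q = dist p b

lemma card_sph (p b : EuclideanSpace ℝ (Fin d)) : (sph P p b).card = Rc P p b := rfl

lemma mem_sph {p b q : EuclideanSpace ℝ (Fin d)} :
    q ∈ sph P p b ↔ q ∈ P ∧ dist p q = dist p b := by
  classical
  unfold sph; rw [mem_filter]

lemma Nb_le_lam2 (z : EuclideanSpace ℝ (Fin d) × EuclideanSpace ℝ (Fin d)) :
    (Nb P z).card ≤ P.card * lam P z.2 := by
  apply card_le_of_rows
  · intro w hw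
    exact ((mem_Nb P).1 hw).1.1
  · intro b _ e he
    obtain ⟨_, h1, _, h2⟩ := (mem_Nb P).1 he
    refine ⟨sph P z.2 e, ?_, ?_⟩
    · rw [card_sph]; exact ((mem_Bs P).1 h2).2.1
    · intro e' he'
      obtain ⟨⟨_, h3⟩, h4, _, _⟩ := (mem_Nb P).1 he'
      exact mem_sph.2 ⟨h3, h4.symm.trans h1⟩

lemma Nb_le_lam1 (z : EuclideanSpace ℝ (Fin d) × EuclideanSpace ℝ (Fin d)) :
    (Nb P z).card ≤ P.card * lam P z.1 := by
  apply card_le_of_cols
  · intro w hw
    exact ((mem_Nb P).1 hw).1.2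
  · intro e _ b hb
    obtain ⟨_, h1, h2, _⟩ := (mem_Nb P).1 hb
    refine ⟨sph P z.1 b, ?_, ?_⟩
    · rw [card_sph]; exact ((mem_Bs P).1 h2).2.1
    · intro b' hb'
      obtain ⟨⟨h3, _⟩, h4, _, _⟩ := (mem_Nb P).1 hb'
      exact mem_sph.2 ⟨h3, h4.trans h1.symm⟩

open Classical in
lemma Nb_small1 (z : EuclideanSpace ℝ (Fin d) × EuclideanSpace ℝ (Fin d)) (l : ℕ) :
    ((Nb P z).filter fun w => lam P w.1 ≤ l).card ≤ P.card * l := by
  apply card_le_of_cols
  · intro w hw
    exact ((mem_Nb P).1 (mem_filter.1 hw).1).1.2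
  · intro e _ b hb
    obtain ⟨hb, hl⟩ := mem_filter.1 hb
    obtain ⟨_, h1, h2, _⟩ := (mem_Nb P).1 hb
    refine ⟨sph P z.1 b, ?_, ?_⟩
    · rw [card_sph]; exact ((mem_Bs P).1 h2).2.2.trans hl
    · intro b' hb'
      obtain ⟨⟨h3, _⟩, h4, _, _⟩ := (mem_Nb P).1 (mem_filter.1 hb').1
      exact mem_sph.2 ⟨h3, h4.trans h1.symm⟩

open Classical in
lemma Nb_small2 (z : EuclideanSpace ℝ (Fin d) × EuclideanSpace ℝ (Fin d)) (l : ℕ) :
    ((Nb P z).filter fun w => lam P w.2 ≤ l).card ≤ P.card * l := by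
  apply card_le_of_rows
  · intro w hw
    exact ((mem_Nb P).1 (mem_filter.1 hw).1).1.1
  · intro b _ e he
    obtain ⟨he, hl⟩ := mem_filter.1 he
    obtain ⟨_, h1, _, h2⟩ := (mem_Nb P).1 he
    refine ⟨sph P z.2 e, ?_, ?_⟩
    · rw [card_sph]; exact ((mem_Bs P).1 h2).2.2.trans hl
    · intro e' he'
      obtain ⟨⟨_, h3⟩, h4, _, _⟩ := (mem_Nb P).1 (mem_filter.1 he').1
      exact mem_sph.2 ⟨h3, h4.symm.trans h1⟩

open Classical in
/-- good partners at level `τ` -/
noncomputable def Yg (P : Finset (EuclideanSpace ℝ (Fin d))) (τ : ℕ)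
    (z : EuclideanSpace ℝ (Fin d) × EuclideanSpace ℝ (Fin d)) :
    Finset (EuclideanSpace ℝ (Fin d) × EuclideanSpace ℝ (Fin d)) :=
  (Nb P z).filter fun w => P.card ≤ τ * lam P w.1 ∧ P.card ≤ τ * lam P w.2

lemma mem_Yg {τ : ℕ} {z w : EuclideanSpace ℝ (Fin d) × EuclideanSpace ℝ (Fin d)} :
    w ∈ Yg P τ z ↔ w ∈ Nb P z ∧ P.card ≤ τ * lam P w.1 ∧ P.card ≤ τ * lam P w.2 := by
  classical
  unfold Yg; rw [mem_filter]

/-- rich `z` are good at the level -/
lemma good_of_rich {τ M : ℕ} (hτ : 4 * P.card ^ 2 ≤ τ * M)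
    {z : EuclideanSpace ℝ (Fin d) × EuclideanSpace ℝ (Fin d)} (hz : M ≤ (Nb P z).card) :
    Good P τ z.1 ∧ Good P τ z.2 := by
  rcases Nat.eq_zero_or_pos P.card with h0 | h0
  · constructor <;> (unfold Good; omega)
  have key : ∀ l, (Nb P z).card ≤ P.card * l → P.card ≤ τ * l := by
    intro l hl
    have h1 : P.card * P.card ≤ P.card * (τ * l) := by
      calc P.card * P.card ≤ 4 * P.card ^ 2 := by nlinarith
        _ ≤ τ * M := hτ
        _ ≤ τ * (P.card * l) := Nat.mul_le_mul_left _ (hz.trans hl)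
        _ = P.card * (τ * l) := by ring
    exact Nat.le_of_mul_le_mul_left h1 h0
  exact ⟨good_of_lam P (key _ (Nb_le_lam1 z)), good_of_lam P (key _ (Nb_le_lam2 z))⟩

/-- at least half of the partners are good -/
lemma card_Yg {τ M : ℕ} (hτ0 : 0 < τ) (hτ : 4 * P.card ^ 2 ≤ τ * M)
    {z : EuclideanSpace ℝ (Fin d) × EuclideanSpace ℝ (Fin d)} (hz : M ≤ (Nb P z).card) :
    (Nb P z).card ≤ 2 * (Yg P τ z).card := by
  classical
  rcases Nat.eq_zero_or_pos P.card with h0 | h0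
  · have := Nb_le_lam1 (P := P) z
    rw [h0] at this
    omega
  set l := (P.card - 1) / τ with hl
  have hl1 : τ * l < P.card := by
    have h9 := Nat.mul_div_le (P.card - 1) τ
    rw [← hl] at h9
    omega
  have hl2 : ∀ x, ¬ P.card ≤ τ * x → x ≤ l := by
    intro x hx
    rw [hl, Nat.le_div_iff_mul_le hτ0]
    have : x * τ = τ * x := mul_comm _ _
    omega
  have hsmall : 4 * (P.card * l) ≤ M := by
    have h1 : τ * (4 * (P.card * l)) ≤ τ * M := by
      calc τ * (4 * (P.card * l)) = 4 * (P.card * (τ * l)) := by ring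
        _ ≤ 4 * (P.card * P.card) := by gcongr
        _ = 4 * P.card ^ 2 := by ring
        _ ≤ τ * M := hτ
    exact Nat.le_of_mul_le_mul_left h1 hτ0
  have h1 := Nb_small1 (P := P) z l
  have h2 := Nb_small2 (P := P) z l
  have h3 : (Nb P z) ⊆ Yg P τ z ∪ ((Nb P z).filter fun w => lam P w.1 ≤ l) ∪
      ((Nb P z).filter fun w => lam P w.2 ≤ l) := by
    intro w hw
    rw [mem_union, mem_union, mem_Yg, mem_filter, mem_filter]
    by_cases c1 : P.card ≤ τ * lam P w.1
    · by_cases c2 : P.card ≤ τ * lam P w.2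
      · exact Or.inl (Or.inl ⟨hw, c1, c2⟩)
      · exact Or.inr ⟨hw, hl2 _ c2⟩
    · exact Or.inl (Or.inr ⟨hw, hl2 _ c1⟩)
  have h4 := (card_le_card h3).trans ((card_union_le _ _).trans
    (Nat.add_le_add_right (card_union_le _ _) _))
  omega

end Crest.Agent.R065.Reg348
end

-- ▼ part R065/Samp_348

/-!
# Row 65: product sampling (second moment), pure finite combinatorics
-/

set_option autoImplicit false

namespace Crest.Agent.R065.Samp348

open Finset

variable {α : Type*} [Fintype α] [DecidableEq α]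

lemma card_fun_zero (K : ℕ) [NeZero K] (S : Finset α) :
    (univ.filter fun χ : α → Fin K => ∀ x ∈ S, χ x = 0).card * K ^ S.card =
      K ^ Fintype.card α := by
  classical
  have h1 : (univ.filter fun χ : α → Fin K => ∀ x ∈ S, χ x = 0) =
      Fintype.piFinset fun x => if x ∈ S then ({0} : Finset (Fin K)) else univ := by
    ext χ
    simp only [mem_filter, mem_univ, true_and, Fintype.mem_piFinset]
    refine forall_congr' fun x => ?_
    split_ifs with h <;> simp [h]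
  rw [h1, Fintype.card_piFinset]
  have h2 : ∀ x : α, (if x ∈ S then ({0} : Finset (Fin K)) else univ).card =
      if x ∈ S then 1 else K := by
    intro x; split_ifs <;> simp
  rw [Finset.prod_congr rfl fun x _ => h2 x, Finset.prod_ite]
  simp only [prod_const_one, one_mul, prod_const]
  rw [← pow_add]
  congr 1
  have h3 : (univ.filter fun x => x ∉ S).card = Fintype.card α - S.card := by
    rw [← Finset.card_compl]
    congr 1
    ext x; simp
  rw [h3]
  have := Finset.card_le_univ S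
  omega

variable {β : Type*} [DecidableEq β]

/-- `b` is selected by the colouring `χ` of `P` -/
def Sel {P : Finset β} {K : ℕ} [NeZero K] (χ : P → Fin K) (b : β) : Prop :=
  ∃ h : b ∈ P, χ ⟨b, h⟩ = 0

open Classical in
/-- indicator -/
noncomputable def ind {P : Finset β} {K : ℕ} [NeZero K] (χ : P → Fin K) (b : β) : ℝ :=
  if Sel χ b then 1 else 0

/-- expectation over colourings -/
noncomputable def Ex (P : Finset β) (K : ℕ) (g : (P → Fin K) → ℝ) : ℝ :=
  (∑ χ, g χ) / (K : ℝ) ^ P.card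

lemma Ex_mono {P : Finset β} {K : ℕ} {g h : (P → Fin K) → ℝ} (H : ∀ χ, g χ ≤ h χ) :
    Ex P K g ≤ Ex P K h := by
  unfold Ex
  gcongr with χ
  exact H χ

lemma Ex_sum {P : Finset β} {K : ℕ} {ι : Type*} (s : Finset ι) (g : ι → (P → Fin K) → ℝ) :
    Ex P K (fun χ => ∑ i ∈ s, g i χ) = ∑ i ∈ s, Ex P K (g i) := by
  unfold Ex
  rw [Finset.sum_comm, Finset.sum_div]

lemma Ex_mul {P : Finset β} {K : ℕ} (c : ℝ) (g : (P → Fin K) → ℝ) :
    Ex P K (fun χ => c * g χ) = c * Ex P K g := by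
  unfold Ex
  rw [← Finset.mul_sum, mul_div_assoc]

lemma Ex_const {P : Finset β} {K : ℕ} [NeZero K] (c : ℝ) : Ex P K (fun _ => c) = c := by
  unfold Ex
  have hK : (K : ℝ) ≠ 0 := by exact_mod_cast NeZero.ne K
  rw [Finset.sum_const, Finset.card_univ]
  simp only [Fintype.card_pi, Fintype.card_fin, prod_const, card_univ, Fintype.card_coe,
    nsmul_eq_mul]
  push_cast
  rw [mul_comm, mul_div_assoc, div_self (pow_ne_zero _ hK), mul_one]

lemma Ex_ind {P : Finset β} {K : ℕ} [NeZero K] {b : β} (hb : b ∈ P) :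
    Ex P K (fun χ => ind χ b) = 1 / K := by
  classical
  have hK : (K : ℝ) ≠ 0 := by exact_mod_cast NeZero.ne K
  have h := card_fun_zero K ({⟨b, hb⟩} : Finset P)
  have h1 : (univ.filter fun χ : P → Fin K => Sel χ b) =
      univ.filter fun χ : P → Fin K => ∀ x ∈ ({⟨b, hb⟩} : Finset P), χ x = 0 := by
    ext χ
    simp [Sel, hb]
  unfold Ex ind
  rw [← Finset.sum_filter, Finset.sum_const, nsmul_eq_mul, mul_one, h1,
    div_eq_div_iff (pow_ne_zero _ hK) hK, one_mul]
  have h2 : (((univ.filter fun χ : P → Fin K =>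
      ∀ x ∈ ({⟨b, hb⟩} : Finset P), χ x = 0).card * K ^ ({⟨b, hb⟩} : Finset P).card : ℕ) : ℝ) =
      ((K ^ Fintype.card P : ℕ) : ℝ) := by rw [h]
  push_cast at h2
  simpa using h2

lemma Ex_ind_ind {P : Finset β} {K : ℕ} [NeZero K] {b c : β} (hb : b ∈ P) (hc : c ∈ P) :
    Ex P K (fun χ => ind χ b * ind χ c) ≤ 1 / K ^ 2 + if b = c then 1 / (K : ℝ) else 0 := by
  classical
  have hK : (K : ℝ) ≠ 0 := by exact_mod_cast NeZero.ne K
  by_cases hbc : b = c
  · subst hbc
    have : (fun χ : P → Fin K => ind χ b * ind χ b) = fun χ => ind χ b := by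
      funext χ; unfold ind; split_ifs <;> simp
    rw [this, Ex_ind hb, if_pos rfl]
    have : (0 : ℝ) ≤ 1 / K ^ 2 := by positivity
    linarith
  · rw [if_neg hbc, add_zero]
    apply le_of_eq
    have h := card_fun_zero K ({⟨b, hb⟩, ⟨c, hc⟩} : Finset P)
    have hcard : ({⟨b, hb⟩, ⟨c, hc⟩} : Finset P).card = 2 := by
      rw [Finset.card_pair]
      intro h'
      exact hbc (congrArg Subtype.val h')
    have h1 : (univ.filter fun χ : P → Fin K => Sel χ b ∧ Sel χ c) =
        univ.filter fun χ : P → Fin K => ∀ x ∈ ({⟨b, hb⟩, ⟨c, hc⟩} : Finset P), χ x = 0 := by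
      ext χ
      simp [Sel, hb, hc]
    have h3 : (fun χ : P → Fin K => ind χ b * ind χ c) =
        fun χ => if Sel χ b ∧ Sel χ c then (1 : ℝ) else 0 := by
      funext χ
      unfold ind
      by_cases h1 : Sel χ b <;> by_cases h2 : Sel χ c <;> simp [h1, h2]
    rw [h3]
    unfold Ex
    rw [← Finset.sum_filter, Finset.sum_const, nsmul_eq_mul, mul_one, h1,
      div_eq_div_iff (pow_ne_zero _ hK) (pow_ne_zero _ hK), one_mul]
    have h2 : (((univ.filter fun χ : P → Fin K => ∀ x ∈ ({⟨b, hb⟩, ⟨c, hc⟩} : Finset P),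
        χ x = 0).card * K ^ ({⟨b, hb⟩, ⟨c, hc⟩} : Finset P).card : ℕ) : ℝ) =
        ((K ^ Fintype.card P : ℕ) : ℝ) := by rw [h]
    rw [hcard] at h2
    push_cast at h2
    simpa using h2

/-! ### the count in a product sample -/

/-- the number of elements of `Y` in the product sample -/
noncomputable def cnt {P : Finset β} {K : ℕ} [NeZero K] (Y : Finset (β × β))
    (χ χ' : P → Fin K) : ℝ := ∑ p ∈ Y, ind χ p.1 * ind χ' p.2

/-- double expectation -/
noncomputable def Ex2 (P : Finset β) (K : ℕ) (g : (P → Fin K) → (P → Fin K) → ℝ) : ℝ :=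
  Ex P K fun χ => Ex P K fun χ' => g χ χ'

lemma Ex2_mono {P : Finset β} {K : ℕ} {g h : (P → Fin K) → (P → Fin K) → ℝ}
    (H : ∀ χ χ', g χ χ' ≤ h χ χ') : Ex2 P K g ≤ Ex2 P K h :=
  Ex_mono fun χ => Ex_mono fun χ' => H χ χ'

lemma Ex2_sum {P : Finset β} {K : ℕ} {ι : Type*} (s : Finset ι)
    (g : ι → (P → Fin K) → (P → Fin K) → ℝ) :
    Ex2 P K (fun χ χ' => ∑ i ∈ s, g i χ χ') = ∑ i ∈ s, Ex2 P K (g i) := by
  unfold Ex2
  rw [← Ex_sum]
  congr 1
  funext χ
  rw [Ex_sum]

lemma Ex2_mul {P : Finset β} {K : ℕ} (c : ℝ) (g : (P → Fin K) → (P → Fin K) → ℝ) :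
    Ex2 P K (fun χ χ' => c * g χ χ') = c * Ex2 P K g := by
  unfold Ex2
  rw [← Ex_mul]
  congr 1
  funext χ
  rw [Ex_mul]

lemma Ex2_const {P : Finset β} {K : ℕ} [NeZero K] (c : ℝ) : Ex2 P K (fun _ _ => c) = c := by
  unfold Ex2; rw [Ex_const, Ex_const]

lemma Ex2_add {P : Finset β} {K : ℕ} (g h : (P → Fin K) → (P → Fin K) → ℝ) :
    Ex2 P K (fun χ χ' => g χ χ' + h χ χ') = Ex2 P K g + Ex2 P K h := by
  unfold Ex2 Ex
  rw [← add_div, ← Finset.sum_add_distrib]
  congr 1
  refine Finset.sum_congr rfl fun χ _ => ?_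
  rw [← add_div, ← Finset.sum_add_distrib]

lemma Ex2_prod {P : Finset β} {K : ℕ} (g h : (P → Fin K) → ℝ) :
    Ex2 P K (fun χ χ' => g χ * h χ') = Ex P K g * Ex P K h := by
  unfold Ex2
  simp only [Ex_mul]
  have : (fun χ => g χ * Ex P K h) = fun χ => Ex P K h * g χ := by funext χ; ring
  rw [this, Ex_mul, mul_comm]

lemma Ex2_cnt {P : Finset β} {K : ℕ} [NeZero K] {Y : Finset (β × β)} (hY : Y ⊆ P ×ˢ P) :
    Ex2 P K (fun χ χ' => cnt Y χ χ') = Y.card / K ^ 2 := by
  unfold cnt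
  rw [Ex2_sum]
  have : ∀ p ∈ Y, Ex2 P K (fun χ χ' => ind χ p.1 * ind χ' p.2) = 1 / (K : ℝ) ^ 2 := by
    intro p hp
    have := Finset.mem_product.1 (hY hp)
    rw [Ex2_prod (fun χ => ind χ p.1) (fun χ' => ind χ' p.2), Ex_ind this.1, Ex_ind this.2]
    rw [sq, div_mul_div_comm, one_mul]
  rw [Finset.sum_congr rfl this, Finset.sum_const, nsmul_eq_mul, mul_one_div]

omit [DecidableEq β] in
lemma sum_sum_eq_le {ι : Type*} [DecidableEq ι] (Y : Finset (β × β)) (f : β × β → ι) (n : ℝ)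
    (h : ∀ i, ((Y.filter fun p => f p = i).card : ℝ) ≤ n) :
    ∑ p ∈ Y, ∑ p' ∈ Y, (if f p = f p' then (1 : ℝ) else 0) ≤ n * Y.card := by
  have : ∀ p ∈ Y, ∑ p' ∈ Y, (if f p = f p' then (1 : ℝ) else 0) ≤ n := by
    intro p _
    rw [← Finset.sum_filter, Finset.sum_const, nsmul_eq_mul, mul_one]
    refine le_trans ?_ (h (f p))
    apply le_of_eq
    congr 2
    ext q
    simp only [mem_filter]
    constructor <;> rintro ⟨h1, h2⟩ <;> exact ⟨h1, h2.symm⟩
  refine (Finset.sum_le_sum this).trans ?_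
  rw [Finset.sum_const, nsmul_eq_mul, mul_comm]

lemma Ex2_cnt_sq {P : Finset β} {K : ℕ} [NeZero K] {Y : Finset (β × β)} (hY : Y ⊆ P ×ˢ P) :
    Ex2 P K (fun χ χ' => cnt Y χ χ' ^ 2) ≤
      (Y.card / K ^ 2) ^ 2 + 2 * P.card * Y.card / K ^ 3 + Y.card / K ^ 2 := by
  have hK0 : (0 : ℝ) < K := by exact_mod_cast NeZero.pos K
  have hexp : (fun χ χ' : P → Fin K => cnt Y χ χ' ^ 2) = fun χ χ' =>
      ∑ p ∈ Y, ∑ p' ∈ Y, (ind χ p.1 * ind χ p'.1) * (ind χ' p.2 * ind χ' p'.2) := by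
    funext χ χ'
    unfold cnt
    rw [sq, Finset.sum_mul_sum]
    refine Finset.sum_congr rfl fun p _ => Finset.sum_congr rfl fun p' _ => by ring
  rw [hexp, Ex2_sum]
  have h1 : ∀ p ∈ Y, Ex2 P K (fun χ χ' => ∑ p' ∈ Y,
      (ind χ p.1 * ind χ p'.1) * (ind χ' p.2 * ind χ' p'.2)) ≤
      ∑ p' ∈ Y, (1 / (K : ℝ) ^ 4 + (1 / (K : ℝ) ^ 3) * (if p.1 = p'.1 then (1 : ℝ) else 0) +
        (1 / (K : ℝ) ^ 3) * (if p.2 = p'.2 then (1 : ℝ) else 0) +
        (1 / (K : ℝ) ^ 2) * (if p = p' then (1 : ℝ) else 0)) := by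
    intro p hp
    rw [Ex2_sum]
    refine Finset.sum_le_sum fun p' hp' => ?_
    have m1 := Finset.mem_product.1 (hY hp)
    have m2 := Finset.mem_product.1 (hY hp')
    rw [Ex2_prod (fun χ => ind χ p.1 * ind χ p'.1) (fun χ' => ind χ' p.2 * ind χ' p'.2)]
    have e1 := Ex_ind_ind (K := K) m1.1 m2.1
    have e2 := Ex_ind_ind (K := K) m1.2 m2.2
    have n2 : 0 ≤ Ex P K (fun χ' => ind χ' p.2 * ind χ' p'.2) := by
      have : Ex P K (fun _ => (0 : ℝ)) ≤ Ex P K (fun χ' => ind χ' p.2 * ind χ' p'.2) := by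
        apply Ex_mono
        intro χ
        unfold ind
        positivity
      rwa [Ex_const] at this
    have n1 : (0 : ℝ) ≤ 1 / K ^ 2 + if p.1 = p'.1 then 1 / (K : ℝ) else 0 := by positivity
    refine (mul_le_mul e1 e2 n2 n1).trans (le_of_eq ?_)
    by_cases c1 : p.1 = p'.1
    · by_cases c2 : p.2 = p'.2
      · have c3 : p = p' := Prod.ext c1 c2
        simp only [c3, if_true]
        field_simp
        ring
      · have c3 : p ≠ p' := fun h => c2 (by rw [h])
        simp only [c1, c2, c3, if_true, if_false]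
        field_simp
        ring
    · have c3 : p ≠ p' := fun h => c1 (by rw [h])
      by_cases c2 : p.2 = p'.2
      · simp only [c1, c2, c3, if_true, if_false]
        field_simp
        ring
      · simp only [c1, c2, c3, if_false]
        field_simp
        ring
  refine (Finset.sum_le_sum h1).trans ?_
  simp only [Finset.sum_add_distrib, ← Finset.mul_sum]
  have s0 : ∑ _p ∈ Y, ∑ _p' ∈ Y, (1 / (K : ℝ) ^ 4) = ((Y.card : ℝ) / (K : ℝ) ^ 2) ^ 2 := by
    simp only [Finset.sum_const, nsmul_eq_mul]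
    field_simp
  have s1 := sum_sum_eq_le Y (fun p => p.1) (P.card : ℝ) (by
    intro i
    have : (Y.filter fun p => p.1 = i).card ≤ P.card := by
      refine Finset.card_le_card_of_injOn (fun p => p.2) ?_ ?_
      · intro p hp
        exact (Finset.mem_product.1 (hY (Finset.mem_filter.1 hp).1)).2
      · intro p hp q hq h
        exact Prod.ext ((Finset.mem_filter.1 hp).2.trans (Finset.mem_filter.1 hq).2.symm) h
    exact_mod_cast this)
  have s2 := sum_sum_eq_le Y (fun p => p.2) (P.card : ℝ) (by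
    intro i
    have : (Y.filter fun p => p.2 = i).card ≤ P.card := by
      refine Finset.card_le_card_of_injOn (fun p => p.1) ?_ ?_
      · intro p hp
        exact (Finset.mem_product.1 (hY (Finset.mem_filter.1 hp).1)).1
      · intro p hp q hq h
        exact Prod.ext h ((Finset.mem_filter.1 hp).2.trans (Finset.mem_filter.1 hq).2.symm)
    exact_mod_cast this)
  have s3 := sum_sum_eq_le Y (fun p => p) (1 : ℝ) (by
    intro i
    have : (Y.filter fun p => p = i).card ≤ 1 := by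
      rw [Finset.card_le_one]
      intro a ha b hb
      rw [(Finset.mem_filter.1 ha).2, (Finset.mem_filter.1 hb).2]
    exact_mod_cast this)
  rw [s0]
  have t1 : (1 / (K : ℝ) ^ 3) * ∑ p ∈ Y, ∑ p' ∈ Y, (if p.1 = p'.1 then (1 : ℝ) else 0) ≤
      P.card * Y.card / K ^ 3 := by
    rw [one_div_mul_eq_div]
    gcongr
  have t2 : (1 / (K : ℝ) ^ 3) * ∑ p ∈ Y, ∑ p' ∈ Y, (if p.2 = p'.2 then (1 : ℝ) else 0) ≤
      P.card * Y.card / K ^ 3 := by
    rw [one_div_mul_eq_div]
    gcongr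
  have t3 : (1 / (K : ℝ) ^ 2) * ∑ p ∈ Y, ∑ p' ∈ Y, (if p = p' then (1 : ℝ) else 0) ≤
      Y.card / K ^ 2 := by
    rw [one_div_mul_eq_div]
    gcongr
    linarith
  have e : (2 : ℝ) * P.card * Y.card / K ^ 3 = P.card * Y.card / K ^ 3 + P.card * Y.card / K ^ 3 := by
    ring
  rw [e]
  linarith

open Classical in
lemma cnt_eq {P : Finset β} {K : ℕ} [NeZero K] {Y : Finset (β × β)} (χ χ' : P → Fin K) :
    cnt Y χ χ' = ((Y.filter fun p => p.1 ∈ P.filter (Sel χ) ∧ p.2 ∈ P.filter (Sel χ')).card : ℝ) := by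
  unfold cnt
  rw [Finset.card_eq_sum_ones, Finset.sum_filter]
  push_cast
  refine Finset.sum_congr rfl fun p hp => ?_
  unfold ind
  have h1 : p.1 ∈ P.filter (Sel χ) ↔ Sel χ p.1 := by
    rw [Finset.mem_filter]
    exact ⟨fun h => h.2, fun h => ⟨h.1, h⟩⟩
  have h2 : p.2 ∈ P.filter (Sel χ') ↔ Sel χ' p.2 := by
    rw [Finset.mem_filter]
    exact ⟨fun h => h.2, fun h => ⟨h.1, h⟩⟩
  by_cases c1 : Sel χ p.1 <;> by_cases c2 : Sel χ' p.2 <;> simp [c1, c2, h1, h2]

open Classical in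
lemma Ex_card {P : Finset β} {K : ℕ} [NeZero K] :
    Ex P K (fun χ => ((P.filter (Sel χ)).card : ℝ)) = P.card / K := by
  have : (fun χ : P → Fin K => ((P.filter (Sel χ)).card : ℝ)) = fun χ => ∑ b ∈ P, ind χ b := by
    funext χ
    rw [Finset.card_eq_sum_ones, Finset.sum_filter]
    push_cast
    rfl
  rw [this, Ex_sum, Finset.sum_congr rfl fun b hb => Ex_ind hb, Finset.sum_const, nsmul_eq_mul,
    mul_one_div]

open Classical in
/-- indicator of a bad index -/
noncomputable def bad {P : Finset β} {K : ℕ} [NeZero K] (Y : Finset (β × β))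
    (χ χ' : P → Fin K) : ℝ := if 2 * (K : ℝ) ^ 2 * cnt Y χ χ' < Y.card then 1 else 0

lemma Ex2_bad {P : Finset β} {K : ℕ} [NeZero K] {Y : Finset (β × β)} (hY : Y ⊆ P ×ˢ P)
    (hbig : 32 * (2 * (P.card : ℝ) * K + (K : ℝ) ^ 2) ≤ (Y.card : ℝ)) :
    Ex2 P K (fun χ χ' => bad Y χ χ') ≤ 1 / 8 := by
  have hK0 : (0 : ℝ) < K := by exact_mod_cast NeZero.pos K
  have hYpos : (0 : ℝ) < Y.card := lt_of_lt_of_le (by positivity) hbig
  set μ : ℝ := Y.card / K ^ 2 with hμ
  have hμ0 : 0 < μ := by positivity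
  have h1 : ∀ χ χ' : P → Fin K, bad Y χ χ' ≤
      (4 / μ ^ 2) * cnt Y χ χ' ^ 2 + ((-(8 / μ)) * cnt Y χ χ' + 4) := by
    intro χ χ'
    have e : (4 / μ ^ 2) * cnt Y χ χ' ^ 2 + ((-(8 / μ)) * cnt Y χ χ' + 4) =
        (4 / μ ^ 2) * (cnt Y χ χ' - μ) ^ 2 := by
      field_simp
      ring
    rw [e]
    unfold bad
    split_ifs with h
    · have h2 : cnt Y χ χ' < μ / 2 := by
        rw [hμ, div_div, lt_div_iff₀ (by positivity)]
        linarith
      have h3 : (μ / 2) ^ 2 ≤ (cnt Y χ χ' - μ) ^ 2 := by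
        rw [← neg_sub, neg_sq]
        exact pow_le_pow_left₀ (by positivity) (by linarith) 2
      calc (1 : ℝ) = (4 / μ ^ 2) * (μ / 2) ^ 2 := by field_simp; norm_num
        _ ≤ _ := by gcongr
    · positivity
  refine (Ex2_mono h1).trans ?_
  rw [Ex2_add, Ex2_mul, Ex2_add, Ex2_mul, Ex2_const, Ex2_cnt hY]
  have h2 := Ex2_cnt_sq (K := K) hY
  have h3 : (4 / μ ^ 2) * Ex2 P K (fun χ χ' => cnt Y χ χ' ^ 2) ≤
      (4 / μ ^ 2) * (μ ^ 2 + 2 * P.card * Y.card / K ^ 3 + Y.card / K ^ 2) := by gcongr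
  have h4 : (4 / μ ^ 2) * (μ ^ 2 + 2 * P.card * Y.card / K ^ 3 + Y.card / K ^ 2) +
      (-(8 / μ) * μ + 4) = 4 * (2 * P.card * K + (K : ℝ) ^ 2) / Y.card := by
    rw [hμ]
    field_simp
    ring
  have h5 : 4 * (2 * P.card * K + (K : ℝ) ^ 2) / Y.card ≤ 1 / 8 := by
    rw [div_le_div_iff₀ hYpos (by norm_num)]
    linarith
  linarith

open Classical in
/-- **Product sampling.** -/
theorem sampling {ι : Type*} (P : Finset β) (K : ℕ) [NeZero K] (F : Finset ι)
    (Y : ι → Finset (β × β)) (hY : ∀ z ∈ F, Y z ⊆ P ×ˢ P)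
    (hbig : ∀ z ∈ F, 32 * (2 * (P.card : ℝ) * K + (K : ℝ) ^ 2) ≤ ((Y z).card : ℝ)) :
    ∃ A ⊆ P, ∃ B ⊆ P, ((A.card : ℝ) * K ≤ 8 * P.card) ∧ ((B.card : ℝ) * K ≤ 8 * P.card) ∧
      ∃ F' ⊆ F, F.card ≤ 2 * F'.card ∧ ∀ z ∈ F', ((Y z).card : ℝ) ≤
        2 * (K : ℝ) ^ 2 * (((Y z).filter fun p => p.1 ∈ A ∧ p.2 ∈ B).card : ℝ) := by
  have hK0 : (0 : ℝ) < K := by exact_mod_cast NeZero.pos K
  rcases F.eq_empty_or_nonempty with hF | hF
  · subst hF
    exact ⟨∅, by simp, ∅, by simp, by simp, by simp, ∅, by simp, by simp, by simp⟩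
  rcases P.eq_empty_or_nonempty with hP | hP
  · subst hP
    refine ⟨∅, by simp, ∅, by simp, by simp, by simp, F, subset_rfl, by omega, ?_⟩
    intro z hz
    have : Y z = ∅ := by
      have := hY z hz
      simpa using this
    rw [this]; simp
  have hn : (0 : ℝ) < P.card := by exact_mod_cast Finset.card_pos.2 hP
  have hFc : (0 : ℝ) < F.card := by exact_mod_cast Finset.card_pos.2 hF
  by_contra hcon
  push Not at hcon
  -- pointwise inequality
  have hpt : ∀ χ χ' : P → Fin K, (1 : ℝ) ≤ (K / (8 * P.card)) * ((P.filter (Sel χ)).card : ℝ) +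
      ((K / (8 * P.card)) * ((P.filter (Sel χ')).card : ℝ) +
        (2 / F.card) * ∑ z ∈ F, bad (Y z) χ χ') := by
    intro χ χ'
    have hb0 : 0 ≤ ∑ z ∈ F, bad (Y z) χ χ' :=
      Finset.sum_nonneg fun z _ => by unfold bad; positivity
    by_cases h1 : ((P.filter (Sel χ)).card : ℝ) * K ≤ 8 * P.card
    · by_cases h2 : ((P.filter (Sel χ')).card : ℝ) * K ≤ 8 * P.card
      · have h3 := hcon _ (Finset.filter_subset _ _) _ (Finset.filter_subset _ _) h1 h2
          (F.filter fun z => ¬ 2 * (K : ℝ) ^ 2 * cnt (Y z) χ χ' < (Y z).card)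
          (Finset.filter_subset _ _)
        by_cases h4 : F.card ≤ 2 * (F.filter fun z =>
            ¬ 2 * (K : ℝ) ^ 2 * cnt (Y z) χ χ' < (Y z).card).card
        · exfalso
          obtain ⟨z, hz, hlt⟩ := h3 h4
          have h5 := (Finset.mem_filter.1 hz).2
          rw [cnt_eq] at h5
          exact h5 hlt
        · rw [not_le] at h4
          have h5 := Finset.card_filter_add_card_filter_not (s := F)
            (fun z => 2 * (K : ℝ) ^ 2 * cnt (Y z) χ χ' < (Y z).card)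
          have h6 : (∑ z ∈ F, bad (Y z) χ χ') =
              ((F.filter fun z => 2 * (K : ℝ) ^ 2 * cnt (Y z) χ χ' < (Y z).card).card : ℝ) := by
            unfold bad
            rw [Finset.card_eq_sum_ones, Finset.sum_filter]
            push_cast
            rfl
          have h7 : (F.card : ℝ) ≤ 2 * ∑ z ∈ F, bad (Y z) χ χ' := by
            rw [h6]
            have : F.card ≤ 2 * (F.filter fun z =>
              2 * (K : ℝ) ^ 2 * cnt (Y z) χ χ' < (Y z).card).card := by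
              omega
            exact_mod_cast this
          have h8 : 1 ≤ (2 / F.card) * ∑ z ∈ F, bad (Y z) χ χ' := by
            rw [div_mul_eq_mul_div, le_div_iff₀ hFc, one_mul]
            exact h7
          have h9 : (0 : ℝ) ≤ (K / (8 * P.card)) * ((P.filter (Sel χ)).card : ℝ) := by positivity
          have h10 : (0 : ℝ) ≤ (K / (8 * P.card)) * ((P.filter (Sel χ')).card : ℝ) := by
            positivity
          linarith
      · push Not at h2
        have h8 : 1 ≤ (K / (8 * P.card)) * ((P.filter (Sel χ')).card : ℝ) := by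
          rw [div_mul_eq_mul_div, le_div_iff₀ (by positivity)]
          linarith
        have h9 : (0 : ℝ) ≤ (K / (8 * P.card)) * ((P.filter (Sel χ)).card : ℝ) := by positivity
        have h10 : 0 ≤ (2 / F.card) * ∑ z ∈ F, bad (Y z) χ χ' := by positivity
        linarith
    · push Not at h1
      have h8 : 1 ≤ (K / (8 * P.card)) * ((P.filter (Sel χ)).card : ℝ) := by
        rw [div_mul_eq_mul_div, le_div_iff₀ (by positivity)]
        linarith
      have h9 : (0 : ℝ) ≤ (K / (8 * P.card)) * ((P.filter (Sel χ')).card : ℝ) := by positivity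
      have h10 : 0 ≤ (2 / F.card) * ∑ z ∈ F, bad (Y z) χ χ' := by positivity
      linarith
  have hE := Ex2_mono hpt
  rw [Ex2_const, Ex2_add, Ex2_add, Ex2_mul, Ex2_mul, Ex2_mul, Ex2_sum] at hE
  have e1 : Ex2 P K (fun χ _ => ((P.filter (Sel χ)).card : ℝ)) = P.card / K := by
    unfold Ex2
    simp only [Ex_const]
    exact Ex_card
  have e2 : Ex2 P K (fun _ χ' => ((P.filter (Sel χ')).card : ℝ)) = P.card / K := by
    unfold Ex2
    change Ex P K (fun _ => Ex P K (fun χ' => ((P.filter (Sel χ')).card : ℝ))) = _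
    rw [Ex_card, Ex_const]
  rw [e1, e2] at hE
  have e3 : ∑ z ∈ F, Ex2 P K (fun χ χ' => bad (Y z) χ χ') ≤ F.card * (1 / 8) := by
    rw [← nsmul_eq_mul, ← Finset.sum_const]
    exact Finset.sum_le_sum fun z hz => Ex2_bad (hY z hz) (hbig z hz)
  have e4 : (K : ℝ) / (8 * P.card) * (P.card / K) = 1 / 8 := by field_simp
  have e5 : (2 / F.card) * ∑ z ∈ F, Ex2 P K (fun χ χ' => bad (Y z) χ χ') ≤ 1 / 4 := by
    calc (2 / F.card) * ∑ z ∈ F, Ex2 P K (fun χ χ' => bad (Y z) χ χ') ≤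
        (2 / F.card) * (F.card * (1 / 8)) := by gcongr
      _ = 1 / 4 := by field_simp; norm_num
  rw [e4] at hE
  linarith

end Crest.Agent.R065.Samp348
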