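import Crest.Agent.R065.DimDeg_669
import Crest.Agent.R065.Cramer_234

/-!
# Row 65: the slice model and the rank bound (helper417)

Geometric + linear algebra half of helper272's RANK LEMMA (#14572): `d = e + 1`,
`so(d) = so(e) × k^e`, the last column of the skew matrix is the slice variable `-X_i`.
-/

set_option autoImplicit false

open MvPolynomial Module

namespace Crest.Agent.R065.Slice417

open Crest.Agent.R065.HF669 Crest.Agent.R065.Base348 Crest.Agent.R065.Cramer234

/-! ### degree control along a filtration -/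

lemma aeval_mem_fil {R E σ : Type*} [CommSemiring R] [CommSemiring E] [Algebra R E]
    (F : ℕ → Submodule R E) (hmono : Monotone F) (h1 : (1 : E) ∈ F 0)
    (hmul : ∀ a b x y, x ∈ F a → y ∈ F b → x * y ∈ F (a + b)) (g : σ → E)
    (hg : ∀ i, g i ∈ F 1) (f : MvPolynomial σ R) {m : ℕ} (hf : f.totalDegree ≤ m) :
    aeval g f ∈ F m := by
  classical
  have hpow : ∀ (i : σ) (n : ℕ), g i ^ n ∈ F n := by
    intro i n
    induction n with
    | zero => simpa using h1
    | succ n ih => rw [pow_succ]; exact hmul _ _ _ _ ih (hg i)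
  have hprod : ∀ (n : σ →₀ ℕ) (s : Finset σ), ∏ i ∈ s, g i ^ n i ∈ F (∑ i ∈ s, n i) := by
    intro n s
    induction s using Finset.induction_on with
    | empty => simpa using h1
    | insert a s ha ih =>
      rw [Finset.prod_insert ha, Finset.sum_insert ha]
      exact hmul _ _ _ _ (hpow a _) ih
  rw [aeval_def, eval₂_eq]
  refine Submodule.sum_mem _ fun n hn => ?_
  rw [← Algebra.smul_def]
  refine Submodule.smul_mem _ _ (hmono ?_ (hprod n n.support))
  exact (le_totalDegree hn).trans hf

/-- degree control for algebra maps into a polynomial ring over an extension -/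
lemma totalDegree_aeval_le' {k K : Type*} [Field k] [Field K] [Algebra k K] {σ τ : Type*}
    (g : σ → MvPolynomial τ K) (hg : ∀ i, (g i).totalDegree ≤ 1) (f : MvPolynomial σ k) {m : ℕ}
    (hf : f.totalDegree ≤ m) : (aeval g f).totalDegree ≤ m := by
  have h := aeval_mem_fil (fun n => (W K τ n).restrictScalars k)
    (fun a b hab => W_mono hab) (one_mem_W 0)
    (fun a b x y hx hy => mul_mem_W hx hy) g (fun i => mem_W.2 (hg i)) f hf
  exact mem_W.1 h

/-! ### the slice matrix -/

section slice

variable {e : ℕ} {K : Type*} [CommRing K]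

/-- the generic matrix of the slice -/
noncomputable def slM (S : Pr e → K) (i j : Fin (e + 1)) : MvPolynomial (Fin e) K :=
  Fin.lastCases (motive := fun _ => MvPolynomial (Fin e) K)
    (Fin.lastCases (motive := fun _ => MvPolynomial (Fin e) K) 0 (fun j' => X j') j)
    (fun i' => Fin.lastCases (motive := fun _ => MvPolynomial (Fin e) K) (-X i')
      (fun j' => C (sk S i' j')) j) i

@[simp] lemma slM_last_last (S : Pr e → K) : slM S (Fin.last e) (Fin.last e) = 0 := by
  simp [slM]

@[simp] lemma slM_last_castSucc (S : Pr e → K) (j : Fin e) :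
    slM S (Fin.last e) j.castSucc = X j := by
  simp [slM]

@[simp] lemma slM_castSucc_last (S : Pr e → K) (i : Fin e) :
    slM S i.castSucc (Fin.last e) = -X i := by
  simp [slM]

@[simp] lemma slM_castSucc_castSucc (S : Pr e → K) (i j : Fin e) :
    slM S i.castSucc j.castSucc = C (sk S i j) := by
  simp [slM]

lemma slM_self (S : Pr e → K) (i : Fin (e + 1)) : slM S i i = 0 := by
  induction i using Fin.lastCases with
  | last => simp
  | cast i => rw [slM_castSucc_castSucc, sk_self, C_0]

lemma slM_swap (S : Pr e → K) (i j : Fin (e + 1)) : slM S i j = -slM S j i := by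
  induction i using Fin.lastCases with
  | last =>
    induction j using Fin.lastCases with
    | last => simp
    | cast j => simp
  | cast i =>
    induction j using Fin.lastCases with
    | last => simp
    | cast j => rw [slM_castSucc_castSucc, slM_castSucc_castSucc, sk_swap, C_neg]

/-- the coordinates of the slice matrix -/
noncomputable def sl (S : Pr e → K) (p : Pr (e + 1)) : MvPolynomial (Fin e) K :=
  slM S p.1.1 p.1.2

lemma sk_sl (S : Pr e → K) (i j : Fin (e + 1)) : sk (sl S) i j = slM S i j := by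
  unfold sk sl
  split_ifs with h h'
  · rfl
  · rw [slM_swap, neg_neg]
  · have : i = j := le_antisymm (not_lt.1 h') (not_lt.1 h)
    subst this
    rw [slM_self]

lemma act_sl_castSucc (S : Pr e → K) (x : Fin (e + 1) → MvPolynomial (Fin e) K) (i : Fin e) :
    act (sl S) x i.castSucc =
      ∑ j : Fin e, C (sk S i j) * x j.castSucc - X i * x (Fin.last e) := by
  unfold act
  rw [Fin.sum_univ_castSucc]
  simp only [sk_sl, slM_castSucc_castSucc, slM_castSucc_last]
  ring

lemma act_sl_last (S : Pr e → K) (x : Fin (e + 1) → MvPolynomial (Fin e) K) :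
    act (sl S) x (Fin.last e) = ∑ j : Fin e, X j * x j.castSucc := by
  unfold act
  rw [Fin.sum_univ_castSucc]
  simp only [sk_sl, slM_last_castSucc, slM_last_last, zero_mul, add_zero]

end slice

/-! ### the slice of a polynomial -/

section field

variable {e : ℕ} {k K : Type*} [Field k] [Field K] [Algebra k K]

lemma totalDegree_sl_le (S : Pr e → K) (p : Pr (e + 1)) : (sl S p).totalDegree ≤ 1 := by
  have key : ∀ i j, (slM S i j).totalDegree ≤ 1 := by
    intro i j
    induction i using Fin.lastCases with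
    | last =>
      induction j using Fin.lastCases with
      | last => simp
      | cast j => simp [totalDegree_X]
    | cast i =>
      induction j using Fin.lastCases with
      | last => simp [totalDegree_X, totalDegree_neg]
      | cast j => simp
  exact key _ _

/-- restriction of a polynomial on `so(e+1)` to the slice through the generic point of `so(e)` -/
noncomputable def slice (S : Pr e → K) : MvPolynomial (Pr (e + 1)) k →ₐ[k] MvPolynomial (Fin e) K :=
  aeval (sl S)

lemma slice_totalDegree_le (S : Pr e → K) (f : MvPolynomial (Pr (e + 1)) k) {m : ℕ}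
    (hf : f.totalDegree ≤ m) : (slice S f).totalDegree ≤ m :=
  totalDegree_aeval_le' _ (totalDegree_sl_le S) f hf

lemma slice_C (S : Pr e → K) (a : k) : slice S (C a) = C (algebraMap k K a) := by
  rw [← algebraMap_eq, AlgHom.commutes, IsScalarTower.algebraMap_apply k K (MvPolynomial (Fin e) K)]
  rfl

/-- the restriction of `θ_i` to the flat of `w`, in the slice -/
noncomputable def thX (S : Pr e → K) (w : Pt (e + 1) k) (i : Fin (e + 1)) :
    MvPolynomial (Fin e) K :=
  C (algebraMap k K (w.2 i)) + act (sl S) (fun j => C (algebraMap k K (w.1 j))) i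

lemma slice_actX (S : Pr e → K) (x : Fin (e + 1) → k) (i : Fin (e + 1)) :
    slice S (actX x i) = act (sl S) (fun j => C (algebraMap k K (x j))) i := by
  unfold slice actX act
  rw [map_sum]
  refine Finset.sum_congr rfl fun j _ => ?_
  rw [map_mul]
  congr 1
  · have := sk_map ((aeval (sl S) : MvPolynomial (Pr (e + 1)) k →ₐ[k] MvPolynomial (Fin e) K) :
      MvPolynomial (Pr (e + 1)) k →+* MvPolynomial (Fin e) K) (fun p => X p) i j
    rw [RingHom.coe_coe] at this
    rw [← this]
    congr 1
    funext p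
    exact aeval_X _ _
  · rw [← algebraMap_eq, AlgHom.commutes, IsScalarTower.algebraMap_apply k K (MvPolynomial (Fin e) K)]
    rfl

/-- the polynomial `f(S, θ)` in the slice -/
noncomputable def sliceF (S : Pr e → K) : MvPolynomial (Pr (e + 1) ⊕ Fin (e + 1)) k →ₐ[k]
    MvPolynomial (Fin e ⊕ Fin (e + 1)) K :=
  aeval (Sum.elim (fun p => rename Sum.inl (sl S p)) fun i => X (Sum.inr i))

lemma sliceF_totalDegree_le (S : Pr e → K) (f : MvPolynomial (Pr (e + 1) ⊕ Fin (e + 1)) k) {m : ℕ}
    (hf : f.totalDegree ≤ m) : (sliceF S f).totalDegree ≤ m := by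
  refine totalDegree_aeval_le' _ ?_ f hf
  rintro (p | i)
  · exact (totalDegree_rename_le _ _).trans (totalDegree_sl_le S p)
  · simp [totalDegree_X]

/-- restriction to the flat of `w`, in the slice -/
noncomputable def resK (S : Pr e → K) (w : Pt (e + 1) k) :
    MvPolynomial (Fin e ⊕ Fin (e + 1)) K →ₐ[K] MvPolynomial (Fin e) K :=
  aeval (Sum.elim X (thX S w))

lemma resK_sliceF (S : Pr e → K) (w : Pt (e + 1) k)
    (f : MvPolynomial (Pr (e + 1) ⊕ Fin (e + 1)) k) :
    resK S w (sliceF S f) = slice S (res w f) := by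
  have h : ((resK S w).restrictScalars k).comp (sliceF S) =
      (slice (k := k) S).comp (res w) := by
    apply MvPolynomial.algHom_ext
    rintro (p | i)
    · simp only [AlgHom.comp_apply, sliceF, aeval_X, Sum.elim_inl, AlgHom.restrictScalars_apply,
        resK, res, slice]
      rw [aeval_rename]
      simp [Function.comp_def]
    · simp only [AlgHom.comp_apply, sliceF, aeval_X, Sum.elim_inr, AlgHom.restrictScalars_apply,
        resK, res, map_add, slice_actX, thX, slice_C]
  exact congrArg (fun g : MvPolynomial (Pr (e + 1) ⊕ Fin (e + 1)) k →ₐ[k]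
    MvPolynomial (Fin e) K => g f) h

/-! ### the point of the slice on the leaf of `0` and `w` -/

/-- direction of the leaf of `0` and `w` -/
def dir (w : Pt (e + 1) k) : Pt e k :=
  (fun i => w.1 i.castSucc / w.1 (Fin.last e), fun i => w.2 i.castSucc / w.1 (Fin.last e))

/-- the direction as a point of `k^{2e}` -/
def om (w : Pt (e + 1) k) : Fin e ⊕ Fin e → k := Sum.elim (dir w).1 (dir w).2

/-- base change of a point -/
def ptK (K : Type*) [Field K] [Algebra k K] (v : Pt e k) : Pt e K :=
  (fun i => algebraMap k K (v.1 i), fun i => algebraMap k K (v.2 i))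

/-- the point of the slice in direction `v` -/
def pS (S : Pr e → K) (v : Pt e k) : Fin e → K := th S (ptK K v)

lemma pS_apply (S : Pr e → K) (v : Pt e k) (i : Fin e) :
    pS S v i = algebraMap k K (v.2 i) + ∑ j, sk S i j * algebraMap k K (v.1 j) := rfl

lemma dir_neg (w : Pt (e + 1) k) : dir (-w) = dir w := by
  unfold dir
  ext i <;> simp [neg_div_neg_eq]


lemma rho_mul_pS (S : Pr e → K) {w : Pt (e + 1) k} (hρ : w.1 (Fin.last e) ≠ 0) (i : Fin e) :
    algebraMap k K (w.1 (Fin.last e)) * pS S (dir w) i =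
      algebraMap k K (w.2 i.castSucc) + ∑ j : Fin e, sk S i j * algebraMap k K (w.1 j.castSucc) := by
  have h0 : algebraMap k K (w.1 (Fin.last e)) ≠ 0 :=
    (map_ne_zero_iff _ (algebraMap k K).injective).2 hρ
  rw [pS_apply, mul_add, Finset.mul_sum]
  simp only [dir, map_div₀]
  congr 1
  · field_simp
  · refine Finset.sum_congr rfl fun j _ => ?_
    field_simp

lemma shift_thX_castSucc (S : Pr e → K) {w : Pt (e + 1) k} (hρ : w.1 (Fin.last e) ≠ 0)
    (i : Fin e) : shift (pS S (dir w)) (thX S w i.castSucc) =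
      -(C (algebraMap k K (w.1 (Fin.last e))) * X i) := by
  have h1 := congrArg (C : K → MvPolynomial (Fin e) K) (rho_mul_pS S hρ i)
  simp only [C_mul, C_add, map_sum] at h1
  unfold thX shift
  rw [act_sl_castSucc, map_add, map_sub, map_sum, map_mul, aeval_X]
  simp only [aeval_C, map_mul, algebraMap_eq]
  linear_combination -h1

lemma shift_thX_last [NeZero (2 : K)] (S : Pr e → K) {w : Pt (e + 1) k}
    (hρ : w.1 (Fin.last e) ≠ 0) (hw : q w = 0) :
    shift (pS S (dir w)) (thX S w (Fin.last e)) =
      C (algebraMap k K (w.1 (Fin.last e))) *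
        ∑ j, C (algebraMap k K ((dir w).1 j)) * X j := by
  have h0 : algebraMap k K (w.1 (Fin.last e)) ≠ 0 :=
    (map_ne_zero_iff _ (algebraMap k K).injective).2 hρ
  -- the constant term vanishes
  have h1 : algebraMap k K (w.1 (Fin.last e)) * (algebraMap k K (w.2 (Fin.last e)) +
      ∑ j : Fin e, pS S (dir w) j * algebraMap k K (w.1 j.castSucc)) = 0 := by
    rw [mul_add, Finset.mul_sum]
    have e1 : ∀ j : Fin e, algebraMap k K (w.1 (Fin.last e)) *
        (pS S (dir w) j * algebraMap k K (w.1 j.castSucc)) =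
        algebraMap k K (w.1 j.castSucc) * algebraMap k K (w.2 j.castSucc) +
        algebraMap k K (w.1 j.castSucc) *
          act S (fun j => algebraMap k K (w.1 (Fin.castSucc j))) j := by
      intro j
      rw [← mul_assoc, rho_mul_pS S hρ]
      unfold act
      ring
    rw [Finset.sum_congr rfl fun j _ => e1 j, Finset.sum_add_distrib,
      dot_act_self S (fun j : Fin e => algebraMap k K (w.1 (Fin.castSucc j)))]
    have h2 := congrArg (algebraMap k K) hw
    unfold q at h2
    rw [Fin.sum_univ_castSucc, map_add, map_sum, map_mul, map_zero] at h2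
    simp only [map_mul] at h2
    linear_combination h2
  have h2 := (mul_eq_zero.1 h1).resolve_left h0
  have h3 := congrArg (C : K → MvPolynomial (Fin e) K) h2
  simp only [C_mul, C_add, map_sum, C_0] at h3
  unfold thX shift
  rw [act_sl_last, map_add, map_sum]
  simp only [aeval_C, map_mul, algebraMap_eq, aeval_X]
  have e2 : ∀ j : Fin e, (X j + C (pS S (dir w) j)) * C (algebraMap k K (w.1 j.castSucc)) =
      C (algebraMap k K (w.1 (Fin.last e))) * (C (algebraMap k K ((dir w).1 j)) * X j) +
      C (pS S (dir w) j) * C (algebraMap k K (w.1 j.castSucc)) := by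
    intro j
    have e3 : C (algebraMap k K (w.1 (Fin.last e))) * C (algebraMap k K ((dir w).1 j)) =
        (C (algebraMap k K (w.1 j.castSucc)) : MvPolynomial (Fin e) K) := by
      rw [← C_mul, ← map_mul]
      congr 2
      unfold dir
      field_simp
    rw [← mul_assoc, e3]; ring
  rw [Finset.sum_congr rfl fun j _ => e2 j, Finset.sum_add_distrib, Finset.mul_sum]
  linear_combination h3

/-- restriction to the flat of `w` near the leaf, in the coordinates of the leaf -/
noncomputable def Psi (S : Pr e → K) (w : Pt (e + 1) k) :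
    MvPolynomial (Fin e ⊕ Fin (e + 1)) K →ₐ[K] MvPolynomial (Fin e) K :=
  aeval (Sum.elim (fun i => X i + C (pS S (dir w) i))
    (Fin.lastCases (motive := fun _ => MvPolynomial (Fin e) K)
      (C (algebraMap k K (w.1 (Fin.last e))) * ∑ j, C (algebraMap k K ((dir w).1 j)) * X j)
      (fun i => -(C (algebraMap k K (w.1 (Fin.last e))) * X i))))

lemma shift_resK [NeZero (2 : K)] (S : Pr e → K) {w : Pt (e + 1) k}
    (hρ : w.1 (Fin.last e) ≠ 0) (hw : q w = 0) (G : MvPolynomial (Fin e ⊕ Fin (e + 1)) K) :
    shift (pS S (dir w)) (resK S w G) = Psi S w G := by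
  have h : (shift (pS S (dir w))).comp (resK S w) = Psi S w := by
    apply MvPolynomial.algHom_ext
    rintro (i | i)
    · simp [resK, Psi, shift]
    · simp only [AlgHom.comp_apply, resK, aeval_X, Sum.elim_inr, Psi]
      induction i using Fin.lastCases with
      | last => rw [shift_thX_last S hρ hw, Fin.lastCases_last]
      | cast i => rw [shift_thX_castSucc S hρ, Fin.lastCases_castSucc]
  exact congrArg (fun g : MvPolynomial (Fin e ⊕ Fin (e + 1)) K →ₐ[K]
    MvPolynomial (Fin e) K => g G) h

end field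

/-! ### Taylor expansion along a ray -/

section ray

variable {e : ℕ} {K : Type*} [Field K]

/-- restriction to the ray `T σ` -/
noncomputable def ray (σ : Fin e → K) : MvPolynomial (Fin e) K →ₐ[K] Polynomial K :=
  aeval fun i => Polynomial.C (σ i) * Polynomial.X

lemma coeff_ray (σ : Fin e → K) (g : MvPolynomial (Fin e) K) (n : ℕ) :
    (ray σ g).coeff n = eval σ (homogeneousComponent n g) := by
  classical
  have h1 : ∀ s : Fin e →₀ ℕ, ∏ i ∈ s.support, (Polynomial.C (σ i) * Polynomial.X) ^ s i =
      Polynomial.C (∏ i ∈ s.support, σ i ^ s i) * Polynomial.X ^ s.degree := by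
    intro s
    simp only [mul_pow, Finset.prod_mul_distrib, map_prod, map_pow]
    rw [Finset.prod_pow_eq_pow_sum]
    rfl
  rw [ray, aeval_def, eval₂_eq, Polynomial.finsetSum_coeff, homogeneousComponent_apply, map_sum,
    Finset.sum_filter]
  refine Finset.sum_congr rfl fun s _ => ?_
  rw [h1, Polynomial.algebraMap_eq, ← mul_assoc, ← Polynomial.C_mul, Polynomial.coeff_C_mul_X_pow]
  by_cases hs : s.degree = n
  · rw [if_pos hs, if_pos hs.symm, eval_monomial]
    rfl
  · rw [if_neg hs, if_neg (Ne.symm hs)]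

lemma exists_component_ne_zero {a : ℕ} {g : MvPolynomial (Fin e) K} (h : ¬ Ord (a + 1) g) :
    ∃ o ≤ a, homogeneousComponent o g ≠ 0 := by
  classical
  rw [ord_iff] at h
  push Not at h
  obtain ⟨n, hn, hne⟩ := h
  refine ⟨n.degree, by omega, fun h0 => hne ?_⟩
  have h1 := congrArg (coeff n) h0
  rwa [coeff_homogeneousComponent, if_pos rfl, coeff_zero] at h1

end ray

/-! ### separation of the variable `ρ` -/

section theta

variable {e : ℕ} {K : Type*} [Field K]

/-- the polynomial ring in the coordinates of a direction -/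
abbrev AA (e : ℕ) (K : Type*) [Field K] : Type _ := MvPolynomial (Fin e ⊕ Fin e) K

/-- the coordinates of the point of the slice, as linear polynomials in the direction -/
noncomputable def PP (S : Pr e → K) (i : Fin e) : AA e K :=
  X (Sum.inr i) + ∑ j, C (sk S i j) * X (Sum.inl j)

lemma totalDegree_PP_le (S : Pr e → K) (i : Fin e) : (PP S i).totalDegree ≤ 1 := by
  rw [← mem_W]
  refine Submodule.add_mem _ (X_mem_W _ le_rfl) (Submodule.sum_mem _ fun j _ => ?_)
  have := mul_mem_W (C_mem_W (σ := Fin e ⊕ Fin e) (sk S i j) 0)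
    (X_mem_W (k := K) (Sum.inl j : Fin e ⊕ Fin e) le_rfl)
  rwa [zero_add] at this

/-- the universal expansion; outer variable `T`, inner variable `U` -/
noncomputable def Theta (S : Pr e → K) (σ : Fin e → K) :
    MvPolynomial (Fin e ⊕ Fin (e + 1)) K →ₐ[K] Polynomial (Polynomial (AA e K)) :=
  aeval (Sum.elim
    (fun i => Polynomial.C (Polynomial.C (PP S i)) +
      Polynomial.C (Polynomial.C (C (σ i))) * Polynomial.X)
    (Fin.lastCases (motive := fun _ => Polynomial (Polynomial (AA e K)))
      (Polynomial.C (Polynomial.C (∑ j, C (σ j) * X (Sum.inl j)) * Polynomial.X))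
      (fun i => -Polynomial.C (Polynomial.C (C (σ i)) * Polynomial.X))))

/-- the filtration by degree of the coefficients -/
def Fil (e : ℕ) (K : Type*) [Field K] (n : ℕ) : Submodule K (Polynomial (Polynomial (AA e K))) where
  carrier := {P | ∀ i j, ((P.coeff i).coeff j).totalDegree ≤ n}
  zero_mem' := by intro i j; simp
  add_mem' := by
    intro P Q hP hQ i j
    rw [Polynomial.coeff_add, Polynomial.coeff_add]
    exact (totalDegree_add _ _).trans (max_le (hP i j) (hQ i j))
  smul_mem' := by
    intro c P hP i j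
    rw [Polynomial.coeff_smul, Polynomial.coeff_smul]
    exact (totalDegree_smul_le _ _).trans (hP i j)

lemma Fil_mono : Monotone (Fil e K) := fun _ _ hab _ hP i j => (hP i j).trans hab

lemma Fil_mul {a b : ℕ} {P Q : Polynomial (Polynomial (AA e K))} (hP : P ∈ Fil e K a)
    (hQ : Q ∈ Fil e K b) : P * Q ∈ Fil e K (a + b) := by
  intro i j
  rw [Polynomial.coeff_mul, Polynomial.finsetSum_coeff]
  rw [← mem_W]
  refine Submodule.sum_mem _ fun x _ => ?_
  rw [Polynomial.coeff_mul]
  refine Submodule.sum_mem _ fun y _ => ?_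
  exact mul_mem_W (mem_W.2 (hP _ _)) (mem_W.2 (hQ _ _))

lemma Fil_CC {p : AA e K} {n : ℕ} (hp : p.totalDegree ≤ n) :
    Polynomial.C (Polynomial.C p) ∈ Fil e K n := by
  intro i j
  rw [Polynomial.coeff_C]
  split_ifs
  · rw [Polynomial.coeff_C]
    split_ifs
    · exact hp
    · simp
  · simp

lemma Fil_one : (1 : Polynomial (Polynomial (AA e K))) ∈ Fil e K 0 := by
  have := Fil_CC (e := e) (K := K) (p := 1) (n := 0) (by simp)
  simpa using this

lemma Fil_T : (Polynomial.X : Polynomial (Polynomial (AA e K))) ∈ Fil e K 0 := by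
  intro i j
  rw [Polynomial.coeff_X]
  split_ifs
  · rw [Polynomial.coeff_one]
    split_ifs <;> simp
  · simp

lemma Fil_U : (Polynomial.C Polynomial.X : Polynomial (Polynomial (AA e K))) ∈ Fil e K 0 := by
  intro i j
  rw [Polynomial.coeff_C]
  split_ifs
  · rw [Polynomial.coeff_X]
    split_ifs <;> simp
  · simp

lemma Theta_mem_Fil (S : Pr e → K) (σ : Fin e → K) (G : MvPolynomial (Fin e ⊕ Fin (e + 1)) K)
    {m : ℕ} (hG : G.totalDegree ≤ m) : Theta S σ G ∈ Fil e K m := by
  have hmul : ∀ (a b : ℕ) (x y : Polynomial (Polynomial (AA e K))), x ∈ Fil e K a →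
      y ∈ Fil e K b → x * y ∈ Fil e K (a + b) := fun a b x y hx hy => Fil_mul hx hy
  unfold Theta
  refine aeval_mem_fil (R := K) (E := Polynomial (Polynomial (AA e K))) (Fil e K) Fil_mono Fil_one
    hmul _ ?_ G hG
  rintro (i | i)
  · refine Submodule.add_mem _ (Fil_CC (totalDegree_PP_le S i)) ?_
    have h0 : (C (σ i) : AA e K).totalDegree ≤ 0 := by simp
    have h1 := Fil_mul (Fil_CC h0) (Fil_T (e := e) (K := K))
    exact Fil_mono (by norm_num) h1
  · simp only [Sum.elim_inr]
    induction i using Fin.lastCases with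
    | last =>
      rw [Fin.lastCases_last, Polynomial.C_mul]
      have hsum : (∑ j, C (σ j) * X (Sum.inl j) : AA e K).totalDegree ≤ 1 := by
        rw [← mem_W]
        refine Submodule.sum_mem _ fun j _ => ?_
        have := mul_mem_W (C_mem_W (σ := Fin e ⊕ Fin e) (σ j) 0)
          (X_mem_W (k := K) (Sum.inl j : Fin e ⊕ Fin e) le_rfl)
        rwa [zero_add] at this
      exact Fil_mul (a := 1) (b := 0) (Fil_CC hsum) Fil_U
    | cast i =>
      rw [Fin.lastCases_castSucc, Polynomial.C_mul]
      have h0 : (C (σ i) : AA e K).totalDegree ≤ 0 := by simp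
      have h1 := Fil_mul (Fil_CC h0) (Fil_U (e := e) (K := K))
      have h2 : Polynomial.C (Polynomial.C (C (σ i) : AA e K)) * Polynomial.C Polynomial.X ∈
        Fil e K 1 := Fil_mono (by norm_num) h1
      intro a b
      rw [Polynomial.coeff_neg, Polynomial.coeff_neg, totalDegree_neg]
      exact h2 a b

/-- evaluation at a direction, `U ↦ ρ T` -/
noncomputable def evw (ρ : K) (ω : Fin e ⊕ Fin e → K) :
    Polynomial (Polynomial (AA e K)) →+* Polynomial K :=
  Polynomial.eval₂RingHom (Polynomial.eval₂RingHom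
    (Polynomial.C.comp (eval ω)) (Polynomial.C ρ * Polynomial.X)) Polynomial.X

lemma coeff_ev₁ (ρ : K) (ω : Fin e ⊕ Fin e → K) (Q : Polynomial (AA e K)) (i : ℕ) :
    (Polynomial.eval₂RingHom (Polynomial.C.comp (eval ω))
      (Polynomial.C ρ * Polynomial.X) Q).coeff i = ρ ^ i * eval ω (Q.coeff i) := by
  rw [Polynomial.coe_eval₂RingHom]
  induction Q using Polynomial.induction_on' with
  | add p q hp hq => rw [Polynomial.eval₂_add, Polynomial.coeff_add, hp, hq, Polynomial.coeff_add,
      map_add, mul_add]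
  | monomial n c =>
    rw [Polynomial.eval₂_monomial, RingHom.comp_apply, mul_pow, ← Polynomial.C_pow, ← mul_assoc,
      ← Polynomial.C_mul, Polynomial.coeff_C_mul_X_pow, Polynomial.coeff_monomial]
    by_cases h : n = i
    · subst h; rw [if_pos rfl, if_pos rfl]; ring
    · rw [if_neg h, if_neg (Ne.symm h), map_zero, mul_zero]

lemma coeff_evw (ρ : K) (ω : Fin e ⊕ Fin e → K) (P : Polynomial (Polynomial (AA e K))) (a : ℕ) :
    (evw ρ ω P).coeff a = ∑ i ∈ Finset.range (a + 1), ρ ^ i * eval ω ((P.coeff (a - i)).coeff i) := by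
  unfold evw
  rw [Polynomial.coe_eval₂RingHom]
  induction P using Polynomial.induction_on' with
  | add p q hp hq =>
    rw [Polynomial.eval₂_add, Polynomial.coeff_add, hp, hq, ← Finset.sum_add_distrib]
    refine Finset.sum_congr rfl fun i _ => ?_
    rw [Polynomial.coeff_add, Polynomial.coeff_add, map_add, mul_add]
  | monomial n Q =>
    rw [Polynomial.eval₂_monomial, Polynomial.coeff_mul_X_pow']
    by_cases h : n ≤ a
    · rw [if_pos h, coeff_ev₁, Finset.sum_eq_single (a - n)]
      · rw [Nat.sub_sub_self h, Polynomial.coeff_monomial, if_pos rfl]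
      · intro i hi hne
        rw [Finset.mem_range] at hi
        rw [Polynomial.coeff_monomial, if_neg (by omega), Polynomial.coeff_zero, map_zero, mul_zero]
      · intro hi
        rw [Finset.mem_range] at hi
        omega
    · rw [if_neg h, Finset.sum_eq_zero]
      intro i hi
      rw [Polynomial.coeff_monomial, if_neg (by omega), Polynomial.coeff_zero, map_zero, mul_zero]

end theta

section main

variable {e : ℕ} {k K : Type*} [Field k] [Field K] [Algebra k K]

/-- the direction over `K` -/
def omK (K : Type*) [Field K] [Algebra k K] (w : Pt (e + 1) k) : Fin e ⊕ Fin e → K :=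
  fun i => algebraMap k K (om w i)

lemma eval_PP (S : Pr e → K) (w : Pt (e + 1) k) (i : Fin e) :
    eval (omK K w) (PP S i) = pS S (dir w) i := by
  rw [PP, map_add, map_sum, eval_X, pS_apply]
  simp only [map_mul, eval_C, eval_X]
  rfl

lemma evw_Theta (S : Pr e → K) (σ : Fin e → K) (w : Pt (e + 1) k)
    (G : MvPolynomial (Fin e ⊕ Fin (e + 1)) K) :
    evw (algebraMap k K (w.1 (Fin.last e))) (omK K w) (Theta S σ G) = ray σ (Psi S w G) := by
  have h : (evw (algebraMap k K (w.1 (Fin.last e))) (omK K w)).comp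
      ((Theta S σ : MvPolynomial (Fin e ⊕ Fin (e + 1)) K →ₐ[K] Polynomial (Polynomial (AA e K))) :
        MvPolynomial (Fin e ⊕ Fin (e + 1)) K →+* Polynomial (Polynomial (AA e K))) =
      ((ray σ).comp (Psi S w) : MvPolynomial (Fin e ⊕ Fin (e + 1)) K →ₐ[K] Polynomial K) := by
    apply MvPolynomial.ringHom_ext
    · intro r
      simp only [RingHom.comp_apply, RingHom.coe_coe, AlgHom.comp_apply]
      rw [Theta, Psi, ray, aeval_C, aeval_C, algebraMap_eq, aeval_C]
      simp [evw, Polynomial.algebraMap_apply, algebraMap_eq]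
    · rintro (i | i)
      · simp only [RingHom.comp_apply, RingHom.coe_coe, AlgHom.comp_apply, Theta, Psi, aeval_X,
          Sum.elim_inl, map_add, map_mul, ray, aeval_C]
        simp only [evw, Polynomial.coe_eval₂RingHom, Polynomial.eval₂_C, Polynomial.eval₂_X,
          RingHom.comp_apply, eval_PP, eval_C, Polynomial.algebraMap_eq]
        ring
      · simp only [RingHom.comp_apply, RingHom.coe_coe, AlgHom.comp_apply, Theta, Psi, aeval_X,
          Sum.elim_inr]
        induction i using Fin.lastCases with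
        | last =>
          rw [Fin.lastCases_last, Fin.lastCases_last]
          simp only [evw, Polynomial.coe_eval₂RingHom, Polynomial.eval₂_C, Polynomial.eval₂_X,
            RingHom.comp_apply, map_mul, map_sum, ray, aeval_C, aeval_X, eval_C, eval_X,
            Polynomial.algebraMap_eq, Finset.sum_mul, Finset.mul_sum]
          refine Finset.sum_congr rfl fun j _ => ?_
          change _ = Polynomial.C (algebraMap k K (w.1 (Fin.last e))) *
            (Polynomial.C (algebraMap k K (om w (Sum.inl j))) * _)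
          rw [omK]
          ring
        | cast i =>
          rw [Fin.lastCases_castSucc, Fin.lastCases_castSucc]
          simp only [evw, Polynomial.coe_eval₂RingHom, Polynomial.eval₂_C, Polynomial.eval₂_X,
            RingHom.comp_apply, map_mul, map_neg, ray, aeval_C, aeval_X, eval_C, 
            Polynomial.algebraMap_eq, Polynomial.eval₂_mul, Polynomial.eval₂_neg]
          ring
  exact congrArg (fun g : MvPolynomial (Fin e ⊕ Fin (e + 1)) K →+* Polynomial K => g G) h

/-- the functional: coefficient of `T^a` of `f|F_w` at the point of the leaf, direction `σ` -/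
noncomputable def lam (S : Pr e → K) (σ : Fin e → K) (a : ℕ) (w : Pt (e + 1) k)
    (f : MvPolynomial (Pr (e + 1) ⊕ Fin (e + 1)) k) : K :=
  (ray σ (shift (pS S (dir w)) (slice S (res w f)))).coeff a

/-- the universal coefficients -/
noncomputable def gg (S : Pr e → K) (σ : Fin e → K) (a i : ℕ)
    (f : MvPolynomial (Pr (e + 1) ⊕ Fin (e + 1)) k) : AA e K :=
  ((Theta S σ (sliceF S f)).coeff (a - i)).coeff i

lemma totalDegree_gg_le (S : Pr e → K) (σ : Fin e → K) (a i : ℕ)
    {f : MvPolynomial (Pr (e + 1) ⊕ Fin (e + 1)) k} {m : ℕ} (hf : f.totalDegree ≤ m) :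
    (gg S σ a i f).totalDegree ≤ m :=
  Theta_mem_Fil S σ _ (sliceF_totalDegree_le S f hf) _ _

lemma lam_eq [NeZero (2 : K)] (S : Pr e → K) (σ : Fin e → K) (a : ℕ) {w : Pt (e + 1) k}
    (hρ : w.1 (Fin.last e) ≠ 0) (hw : q w = 0) (f : MvPolynomial (Pr (e + 1) ⊕ Fin (e + 1)) k) :
    lam S σ a w f = ∑ i ∈ Finset.range (a + 1),
      algebraMap k K (w.1 (Fin.last e)) ^ i * eval (omK K w) (gg S σ a i f) := by
  rw [lam, ← resK_sliceF, shift_resK S hρ hw, ← evw_Theta, coeff_evw]
  rfl

/-- evaluation at a family of points -/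
noncomputable def evF {τ ι R : Type*} [CommRing R] (y : ι → τ → R) :
    MvPolynomial τ R →ₗ[R] (ι → R) where
  toFun p i := eval (y i) p
  map_add' p p' := by ext i; simp
  map_smul' c p := by ext i; simp [MvPolynomial.smul_eval]

lemma evF_apply {τ ι R : Type*} [CommRing R] (y : ι → τ → R) (p : MvPolynomial τ R) (i : ι) :
    evF y p i = eval (y i) p := rfl

/-- base change: the space of values of polynomials of degree `≤ N` -/
lemma finrank_evF_le {τ ι : Type*} [Finite τ] [Fintype ι] (y : ι → τ → k)
    (J : Ideal (MvPolynomial τ k)) (hJ : ∀ i, ∀ g ∈ J, eval (y i) g = 0) (N : ℕ) :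
    finrank K ((W K τ N).map (evF fun i t => algebraMap k K (y i t))) ≤ HF J N := by
  classical
  have h1 : finrank k ((W k τ N).map (evF y)) ≤ HF J N := by
    refine le_HF_of_ker (evF y) J N fun p _ hp => ?_
    ext i
    exact hJ i p hp
  refine le_trans ?_ h1
  let b := Module.finBasis k ((W k τ N).map (evF y))
  let v : Fin (finrank k ((W k τ N).map (evF y))) → (ι → K) := fun l i =>
    algebraMap k K ((b l : ι → k) i)
  have h2 : (W K τ N).map (evF fun i t => algebraMap k K (y i t)) ≤
      Submodule.span K (Set.range v) := by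
    rintro _ ⟨p, hp, rfl⟩
    have hp' := mem_W.1 hp
    have e1 : evF (fun i t => algebraMap k K (y i t)) p = ∑ n ∈ p.support,
        coeff n p • fun i => algebraMap k K (eval (y i) (monomial n 1)) := by
      funext i
      rw [evF_apply, Finset.sum_apply, eval_eq]
      refine Finset.sum_congr rfl fun n _ => ?_
      rw [Pi.smul_apply, smul_eq_mul, eval_monomial, one_mul, Finsupp.prod, map_prod]
      simp only [map_pow]
    rw [e1]
    refine Submodule.sum_mem _ fun n hn => Submodule.smul_mem _ _ ?_
    have hmem : evF y (monomial n 1) ∈ (W k τ N).map (evF y) := by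
      refine ⟨_, mem_W.2 ?_, rfl⟩
      refine (totalDegree_monomial_le _ _).trans ((le_totalDegree hn).trans hp')
    have h3 := b.sum_repr ⟨_, hmem⟩
    have h4 : (fun i => algebraMap k K (eval (y i) (monomial n 1))) =
        ∑ l, algebraMap k K (b.repr ⟨_, hmem⟩ l) • v l := by
      funext i
      rw [Finset.sum_apply]
      have h5 := congrArg (fun g : ((W k τ N).map (evF y)) => (g : ι → k) i) h3
      simp only [AddSubmonoidClass.coe_finsetSum, SetLike.val_smul, Finset.sum_apply,
        Pi.smul_apply, smul_eq_mul] at h5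
      rw [evF_apply] at h5
      rw [← h5, map_sum]
      refine Finset.sum_congr rfl fun l _ => ?_
      rw [map_mul]
      rfl
    rw [h4]
    exact Submodule.sum_mem _ fun l _ => Submodule.smul_mem _ _
      (Submodule.subset_span (Set.mem_range_self l))
  refine (Submodule.finrank_mono h2).trans ?_
  refine (finrank_range_le_card v).trans ?_
  simp

/-- **the rank bound** for functionals with diagonal matrix -/
theorem card_le_of_diag [NeZero (2 : K)] (S : Pr e → K) (σ : Fin e → K) (a N : ℕ)
    (Sig : Finset (Pt (e + 1) k)) (hρ : ∀ w ∈ Sig, w.1 (Fin.last e) ≠ 0)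
    (hq : ∀ w ∈ Sig, q w = 0) (F : Pt (e + 1) k → MvPolynomial (Pr (e + 1) ⊕ Fin (e + 1)) k)
    (hF : ∀ w ∈ Sig, (F w).totalDegree ≤ N) (hdiag : ∀ w ∈ Sig, lam S σ a w (F w) ≠ 0)
    (hoff : ∀ w ∈ Sig, ∀ w' ∈ Sig, w' ≠ w → lam S σ a w' (F w) = 0)
    (J : Ideal (MvPolynomial (Fin e ⊕ Fin e) k))
    (hJ : ∀ w ∈ Sig, ∀ g ∈ J, eval (om w) g = 0) : Sig.card ≤ (a + 1) * HF J N := by
  classical
  set E := (W K (Fin e ⊕ Fin e) N).map (evF fun (w : Sig) => omK K (w : Pt (e + 1) k)) with hE
  have hE1 : finrank K E ≤ HF J N :=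
    finrank_evF_le (K := K) (fun (w : Sig) => om (w : Pt (e + 1) k)) J
      (fun w g hg => hJ w w.2 g hg) N
  let Φ : (Fin (a + 1) → E) →ₗ[K] (Sig → K) :=
    { toFun := fun c w => ∑ i : Fin (a + 1),
        algebraMap k K ((w : Pt (e + 1) k).1 (Fin.last e)) ^ (i : ℕ) * (c i : Sig → K) w
      map_add' := by
        intro c c'
        ext w
        simp [mul_add, Finset.sum_add_distrib]
      map_smul' := by
        intro r c
        ext w
        simp only [Pi.smul_apply, SetLike.val_smul, smul_eq_mul, RingHom.id_apply, Finset.mul_sum]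
        exact Finset.sum_congr rfl fun i _ => by ring }
  have hrange : ∀ w ∈ Sig, (fun w' : Sig => lam S σ a (w' : Pt (e + 1) k) (F w)) ∈
      LinearMap.range Φ := by
    intro w hw
    refine ⟨fun i => ⟨evF (fun (w : Sig) => omK K (w : Pt (e + 1) k)) (gg S σ a i (F w)),
      ⟨_, mem_W.2 (totalDegree_gg_le S σ a i (hF w hw)), rfl⟩⟩, ?_⟩
    funext w'
    change ∑ i : Fin (a + 1), algebraMap k K ((w' : Pt (e + 1) k).1 (Fin.last e)) ^ (i : ℕ) *
      eval (omK K (w' : Pt (e + 1) k)) (gg S σ a i (F w)) = _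
    rw [lam_eq S σ a (hρ w' w'.2) (hq w' w'.2), Finset.sum_range]
  have htop : LinearMap.range Φ = ⊤ := by
    rw [eq_top_iff]
    intro g _
    have hg : g = ∑ w : Sig, (g w / lam S σ a (w : Pt (e + 1) k) (F w)) •
        (fun w' : Sig => lam S σ a (w' : Pt (e + 1) k) (F w)) := by
      funext w'
      rw [Finset.sum_apply, Finset.sum_eq_single w']
      · rw [Pi.smul_apply, smul_eq_mul, div_mul_cancel₀ _ (hdiag w' w'.2)]
      · intro w _ hne
        rw [Pi.smul_apply, smul_eq_mul, hoff w w.2 w' w'.2 (fun h => hne (Subtype.ext h.symm)),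
          mul_zero]
      · intro h; exact absurd (Finset.mem_univ _) h
    rw [hg]
    exact Submodule.sum_mem _ fun w _ => Submodule.smul_mem _ _ (hrange w w.2)
  have h1 := LinearMap.finrank_range_le Φ
  rw [htop, finrank_top, Module.finrank_pi, Module.finrank_pi_fintype] at h1
  simp only [Fintype.card_coe, Finset.sum_const, Finset.card_univ, Fintype.card_fin,
    smul_eq_mul] at h1
  exact h1.trans (Nat.mul_le_mul_left _ hE1)

lemma slice_res_X (S : Pr e → K) (w : Pt (e + 1) k) (i : Fin (e + 1)) :
    slice S (res w (X (Sum.inr i))) = thX S w i := by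
  rw [res, aeval_X, Sum.elim_inr, map_add, slice_C, slice_actX, thX]

/-- **the rank bound** at the base point `0` -/
theorem card_le_rank₀ [Infinite k] [NeZero (2 : K)] (he : 0 < e) (S : Pr e → K) (a m : ℕ)
    (Sig : Finset (Pt (e + 1) k)) (hρ : ∀ w ∈ Sig, w.1 (Fin.last e) ≠ 0)
    (hq : ∀ w ∈ Sig, q w = 0) (F : Pt (e + 1) k → MvPolynomial (Pr (e + 1) ⊕ Fin (e + 1)) k)
    (hF : ∀ w ∈ Sig, (F w).totalDegree ≤ m)
    (hoff : ∀ w ∈ Sig, ∀ w' ∈ Sig, w' ≠ w → res w' (F w) = 0)
    (hord : ∀ w ∈ Sig, ¬ Ord (a + 1) (shift (pS S (dir w)) (slice S (res w (F w)))))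
    (J : Ideal (MvPolynomial (Fin e ⊕ Fin e) k))
    (hJ : ∀ w ∈ Sig, ∀ g ∈ J, eval (om w) g = 0) : Sig.card ≤ (a + 1) * HF J (m + a) := by
  classical
  have hinf : Infinite K := Infinite.of_injective _ (algebraMap k K).injective
  set g : Pt (e + 1) k → MvPolynomial (Fin e) K := fun w =>
    shift (pS S (dir w)) (slice S (res w (F w))) with hg
  have h1 : ∀ w, ∃ o, w ∈ Sig → o ≤ a ∧ homogeneousComponent o (g w) ≠ 0 := by
    intro w
    by_cases hw : w ∈ Sig
    · obtain ⟨o, h1, h2⟩ := exists_component_ne_zero (hord w hw)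
      exact ⟨o, fun _ => ⟨h1, h2⟩⟩
    · exact ⟨0, fun h => absurd h hw⟩
  choose o ho using h1
  let i0 : Fin e := ⟨0, he⟩
  obtain ⟨σ, hσ⟩ : ∃ σ : Fin e → K,
      eval σ (X i0 * ∏ w ∈ Sig, homogeneousComponent (o w) (g w)) ≠ 0 := by
    by_contra hcon
    push Not at hcon
    have h2 : (X i0 * ∏ w ∈ Sig, homogeneousComponent (o w) (g w) : MvPolynomial (Fin e) K) = 0 :=
      MvPolynomial.funext fun σ => by rw [hcon σ, map_zero]
    rcases mul_eq_zero.1 h2 with h3 | h3
    · exact X_ne_zero i0 h3
    · obtain ⟨w, hw, hw'⟩ := Finset.prod_eq_zero_iff.1 h3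
      exact (ho w hw).2 hw'
  rw [map_mul, eval_X, map_prod] at hσ
  have hσ0 : σ i0 ≠ 0 := left_ne_zero_of_mul hσ
  have hσw : ∀ w ∈ Sig, eval σ (homogeneousComponent (o w) (g w)) ≠ 0 := fun w hw =>
    Finset.prod_ne_zero_iff.1 (right_ne_zero_of_mul hσ) w hw
  refine card_le_of_diag S σ a (m + a) Sig hρ hq
    (fun w => F w * X (Sum.inr i0.castSucc) ^ (a - o w)) ?_ ?_ ?_ J hJ
  · intro w hw
    refine (totalDegree_mul _ _).trans (add_le_add (hF w hw) ((totalDegree_pow _ _).trans ?_))
    rw [totalDegree_X, mul_one]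
    omega
  · intro w hw
    have h0 : algebraMap k K (w.1 (Fin.last e)) ≠ 0 :=
      (map_ne_zero_iff _ (algebraMap k K).injective).2 (hρ w hw)
    have h3 : ray σ (shift (pS S (dir w)) (slice S (res w (X (Sum.inr i0.castSucc))))) =
        Polynomial.C (-(algebraMap k K (w.1 (Fin.last e)) * σ i0)) * Polynomial.X := by
      rw [slice_res_X, shift_thX_castSucc S (hρ w hw), map_neg, map_mul, ray, aeval_X, aeval_C,
        Polynomial.algebraMap_eq, Polynomial.C_neg, Polynomial.C_mul]
      ring
    have h4 : lam S σ a w (F w * X (Sum.inr i0.castSucc) ^ (a - o w)) =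
        eval σ (homogeneousComponent (o w) (g w)) *
          (-(algebraMap k K (w.1 (Fin.last e)) * σ i0)) ^ (a - o w) := by
      unfold lam
      rw [map_mul, map_mul, map_mul, map_mul, map_pow, map_pow, map_pow, map_pow, h3, mul_pow,
        ← Polynomial.C_pow, ← mul_assoc, Polynomial.coeff_mul_X_pow',
        if_pos (Nat.sub_le _ _), mul_comm, Polynomial.coeff_C_mul, coeff_ray,
        mul_comm, Nat.sub_sub_self (ho w hw).1]
    rw [h4]
    exact mul_ne_zero (hσw w hw) (pow_ne_zero _ (neg_ne_zero.2 (mul_ne_zero h0 hσ0)))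
  · intro w hw w' hw' hne
    unfold lam
    rw [map_mul, hoff w hw w' hw' hne, zero_mul, map_zero, map_zero, map_zero,
      Polynomial.coeff_zero]

/-! ### injectivity of the slice map -/

/-- `so(e+1) = so(e) × k^e` on the level of indices -/
def prEquivFun (e : ℕ) : Pr e ⊕ Fin e → Pr (e + 1)
  | Sum.inl p => ⟨(p.1.1.castSucc, p.1.2.castSucc), Fin.castSucc_lt_castSucc_iff.2 p.2⟩
  | Sum.inr i => ⟨(i.castSucc, Fin.last e), Fin.castSucc_lt_last i⟩

lemma prEquivFun_surjective (e : ℕ) : Function.Surjective (prEquivFun e) := by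
  rintro ⟨⟨i, j⟩, h⟩
  induction i using Fin.lastCases with
  | last => exact absurd h (not_lt.2 (Fin.le_last j))
  | cast i =>
    induction j using Fin.lastCases with
    | last => exact ⟨Sum.inr i, rfl⟩
    | cast j => exact ⟨Sum.inl ⟨(i, j), Fin.castSucc_lt_castSucc_iff.1 h⟩, rfl⟩

lemma prEquivFun_injective (e : ℕ) : Function.Injective (prEquivFun e) := by
  rintro (⟨⟨a, b⟩, h⟩ | i) (⟨⟨a', b'⟩, h'⟩ | j) hij
  · simp only [prEquivFun, Subtype.mk.injEq, Prod.mk.injEq, Fin.castSucc_inj] at hij
    obtain ⟨rfl, rfl⟩ := hij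
    rfl
  · simp only [prEquivFun, Subtype.mk.injEq, Prod.mk.injEq] at hij
    exact absurd hij.2 (Fin.castSucc_ne_last _)
  · simp only [prEquivFun, Subtype.mk.injEq, Prod.mk.injEq] at hij
    exact absurd hij.2.symm (Fin.castSucc_ne_last _)
  · simp only [prEquivFun, Subtype.mk.injEq, Prod.mk.injEq, Fin.castSucc_inj, and_true] at hij
    rw [hij]

/-- `so(e+1) = so(e) × k^e` on the level of indices -/
noncomputable def prEquiv (e : ℕ) : Pr e ⊕ Fin e ≃ Pr (e + 1) :=
  Equiv.ofBijective (prEquivFun e) ⟨prEquivFun_injective e, prEquivFun_surjective e⟩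

lemma sl_prEquiv_inl (S : Pr e → K) (p : Pr e) : sl S (prEquiv e (Sum.inl p)) = C (S p) := by
  change slM S p.1.1.castSucc p.1.2.castSucc = _
  rw [slM_castSucc_castSucc, sk_of_lt]

lemma sl_prEquiv_inr (S : Pr e → K) (i : Fin e) : sl S (prEquiv e (Sum.inr i)) = -X i := by
  change slM S i.castSucc (Fin.last e) = _
  rw [slM_castSucc_last]

lemma slice_injective {S : Pr e → K} (hS : AlgebraicIndependent k S) :
    Function.Injective (slice (k := k) S) := by
  -- composite with the sign change and the renaming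
  let ψ : MvPolynomial (Fin e) K →ₐ[K] MvPolynomial (Fin e) K := aeval fun i => -X i
  let r := renameEquiv k ((Equiv.sumComm (Fin e) (Pr e)).trans (prEquiv e))
  have h : ((ψ.restrictScalars k).comp (slice (k := k) S)).comp
      (r : MvPolynomial (Fin e ⊕ Pr e) k →ₐ[k] MvPolynomial (Pr (e + 1)) k) =
      ((MvPolynomial.mapAlgHom (aeval S : MvPolynomial (Pr e) k →ₐ[k] K)).comp
        (sumAlgEquiv k (Fin e) (Pr e) : MvPolynomial (Fin e ⊕ Pr e) k →ₐ[k]
          MvPolynomial (Fin e) (MvPolynomial (Pr e) k))) := by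
    apply MvPolynomial.algHom_ext
    rintro (i | p)
    · simp only [AlgHom.comp_apply, r, AlgEquiv.coe_toAlgHom, renameEquiv_apply, rename_X,
        Equiv.trans_apply, Equiv.sumComm_apply, Sum.swap_inl, slice, aeval_X, sl_prEquiv_inr,
        AlgHom.restrictScalars_apply, map_neg, ψ, neg_neg]
      rw [sumAlgEquiv_X_inl]
      simp
    · simp only [AlgHom.comp_apply, r, AlgEquiv.coe_toAlgHom, renameEquiv_apply, rename_X,
        Equiv.trans_apply, Equiv.sumComm_apply, Sum.swap_inr, slice, aeval_X, sl_prEquiv_inl,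
        AlgHom.restrictScalars_apply, ψ, aeval_C]
      rw [sumAlgEquiv_X_inr]
      simp [algebraMap_eq]
  have h1 : Function.Injective (((MvPolynomial.mapAlgHom
      (aeval S : MvPolynomial (Pr e) k →ₐ[k] K)).comp
        (sumAlgEquiv k (Fin e) (Pr e) : MvPolynomial (Fin e ⊕ Pr e) k →ₐ[k]
          MvPolynomial (Fin e) (MvPolynomial (Pr e) k)))) := by
    intro x y hxy
    exact (sumAlgEquiv k (Fin e) (Pr e)).injective (map_injective _ hS hxy)
  rw [← h] at h1
  intro x y hxy
  have h2 := h1 (a₁ := r.symm x) (a₂ := r.symm y) (by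
    simp only [AlgHom.comp_apply, AlgEquiv.coe_toAlgHom, AlgEquiv.apply_symm_apply, hxy])
  exact r.symm.injective h2

/-! ### translation of the base point -/

/-- translation to the base point `z` -/
noncomputable def tz (z : Pt (e + 1) k) : MvPolynomial (Pr (e + 1) ⊕ Fin (e + 1)) k →ₐ[k]
    MvPolynomial (Pr (e + 1) ⊕ Fin (e + 1)) k :=
  aeval (Sum.elim (fun p => X (Sum.inl p))
    fun i => X (Sum.inr i) + (C (z.2 i) + rename Sum.inl (actX z.1 i)))

lemma actX_add {d : ℕ} (x y : Fin d → k) (i : Fin d) : actX (x + y) i = actX x i + actX y i := by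
  unfold actX
  rw [← Finset.sum_add_distrib]
  refine Finset.sum_congr rfl fun j _ => ?_
  rw [Pi.add_apply, C_add]; ring

lemma res_tz (z w : Pt (e + 1) k) (f : MvPolynomial (Pr (e + 1) ⊕ Fin (e + 1)) k) :
    res w (tz z f) = res (w + z) f := by
  have h : (res w).comp (tz z) = res (w + z) := by
    apply MvPolynomial.algHom_ext
    rintro (p | i)
    · simp [res, tz]
    · simp only [AlgHom.comp_apply, tz, aeval_X, Sum.elim_inr, map_add, res, aeval_C,
        algebraMap_eq, Prod.snd_add, Prod.fst_add, Pi.add_apply, actX_add]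
      rw [aeval_rename]
      have : (aeval ((Sum.elim X fun i => C (w.2 i) + actX w.1 i) ∘ Sum.inl) :
          MvPolynomial (Pr (e + 1)) k →ₐ[k] MvPolynomial (Pr (e + 1)) k) = AlgHom.id k _ := by
        apply MvPolynomial.algHom_ext
        intro p
        simp
      rw [this, AlgHom.id_apply]
      ring
  exact congrArg (fun g : MvPolynomial (Pr (e + 1) ⊕ Fin (e + 1)) k →ₐ[k]
    MvPolynomial (Pr (e + 1)) k => g f) h

lemma totalDegree_tz_le (z : Pt (e + 1) k) (f : MvPolynomial (Pr (e + 1) ⊕ Fin (e + 1)) k) {m : ℕ}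
    (hf : f.totalDegree ≤ m) : (tz z f).totalDegree ≤ m := by
  refine totalDegree_aeval_le _ ?_ f hf
  rintro (p | i)
  · exact X_mem_W _ le_rfl
  · refine Submodule.add_mem _ (X_mem_W _ le_rfl) (Submodule.add_mem _ (C_mem_W _ _) ?_)
    exact mem_W.2 ((totalDegree_rename_le _ _).trans (mem_W.1 (actX_mem_W _ _)))

/-- the point of the slice on the leaf of `z` and `w` -/
def pZ (S : Pr e → K) (z w : Pt (e + 1) k) : Fin e → K := pS S (dir (w - z))

lemma pZ_comm (S : Pr e → K) (z w : Pt (e + 1) k) : pZ S z w = pZ S w z := by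
  unfold pZ; rw [← dir_neg, neg_sub]

/-- **the rank bound** -/
theorem card_le_rank [Infinite k] [NeZero (2 : K)] (he : 0 < e) (S : Pr e → K) (a m : ℕ)
    (z : Pt (e + 1) k) (Sig : Finset (Pt (e + 1) k))
    (hρ : ∀ w ∈ Sig, w.1 (Fin.last e) ≠ z.1 (Fin.last e))
    (hq : ∀ w ∈ Sig, Null w z) (F : Pt (e + 1) k → MvPolynomial (Pr (e + 1) ⊕ Fin (e + 1)) k)
    (hF : ∀ w ∈ Sig, (F w).totalDegree ≤ m)
    (hoff : ∀ w ∈ Sig, ∀ w' ∈ Sig, w' ≠ w → res w' (F w) = 0)
    (hord : ∀ w ∈ Sig, ¬ Ord (a + 1) (shift (pZ S z w) (slice S (res w (F w)))))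
    (J : Ideal (MvPolynomial (Fin e ⊕ Fin e) k))
    (hJ : ∀ w ∈ Sig, ∀ g ∈ J, eval (om (w - z)) g = 0) : Sig.card ≤ (a + 1) * HF J (m + a) := by
  classical
  have hinj : Function.Injective (fun w : Pt (e + 1) k => w - z) := fun a b h => by
    simpa using h
  rw [← Finset.card_image_of_injective Sig hinj]
  refine card_le_rank₀ he S a m (Sig.image fun w => w - z) ?_ ?_
    (fun v => tz z (F (v + z))) ?_ ?_ ?_ J ?_
  · simp only [Finset.forall_mem_image]
    intro w hw
    simpa [sub_eq_zero] using hρ w hw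
  · simp only [Finset.forall_mem_image]
    exact fun w hw => hq w hw
  · simp only [Finset.forall_mem_image, sub_add_cancel]
    exact fun w hw => totalDegree_tz_le z _ (hF w hw)
  · simp only [Finset.forall_mem_image, sub_add_cancel, res_tz]
    intro w hw w' hw' hne
    exact hoff w hw w' hw' fun h => hne (by rw [h])
  · simp only [Finset.forall_mem_image, sub_add_cancel, res_tz]
    exact fun w hw => hord w hw
  · simp only [Finset.forall_mem_image]
    exact fun w hw => hJ w hw

end main

end Crest.Agent.R065.Slice417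
private theorem rz_00911b1945 : type_of% @_root_.Crest.Agent.R065.Slice417.prEquivFun.eq_1 := @_root_.Crest.Agent.R065.Slice417.prEquivFun.eq_1 -- L797
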