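import Crest.Agent.R065.Frac_234
import Crest.Agent.R065.Cramer_234
import Crest.Agent.R065.MblkFin_474
import Crest.Agent.R065.Mult_496d
import Crest.Agent.R065.Flags_669
import Crest.Agent.R065.Pins_348
import Crest.Agent.R065.SweptIdx_795

-- ▼ part R065/Cod1a_392
section

/-!
# Row 65, codimension one: algebraic preliminaries   (helper392)

* `constData_of_lift`: constants from a ring `A` with derivations and a map to a field;
* pseudo-division and stability of kernels of evaluations.
-/

set_option autoImplicit false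

open Module

namespace Crest.Agent.R065.Cod1q392

open Crest.Agent.R065.HF669 Crest.Agent.R065.Base348 Crest.Agent.R065.Cramer234

section lift

open MvPolynomial

variable {e : ℕ} {K : Type*} [Field K] {δ : Pr e → Derivation ℤ K K} {S : Pr e → K}

/-- constants of `F` from a ring `A` with derivations `E p` and a map `φ : A → F` -/
theorem constData_of_lift (hS : DS δ S) {A : Type*} [CommRing A] {F : Type*} [Field F]
    [Algebra K F] (φ : A →+* F) (ι : K →+* A) (hι : ∀ a, φ (ι a) = algebraMap K F a)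
    (hfrac : ∀ x : F, ∃ a b : A, φ b ≠ 0 ∧ x = φ a / φ b)
    (E : Pr e → Derivation ℤ A A) (hker : ∀ p r, φ r = 0 → φ (E p r) = 0) (n : A) (hn : φ n ≠ 0)
    (Xv θv : Fin e → A) (hEK : ∀ p a, E p (ι a) = n * ι (δ p a))
    (hEθ : ∀ p i, E p (θv i) = act (Pi.single p 1) Xv i)
    (hconst : ∀ p j, φ (n * E p (Xv j) - Xv j * E p n) = 0) :
    ∃ (Dd : Pr e → Derivation ℤ F F) (ξ η : Fin e → F),
      ConstData δ S F (fun i => φ (θv i)) Dd ξ η ∧ (∀ i, φ n * ξ i = φ (Xv i)) ∧
      ∀ p r, φ n * Dd p (φ r) = φ (E p r) := by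
  have hE : ∀ p : Pr e, ∃ D : Derivation ℤ F F, ∀ r, D (φ r) = φ (E p r) :=
    fun p => exists_der_ext φ hfrac (E p) (hker p)
  choose D₁ hD₁ using hE
  let Dd : Pr e → Derivation ℤ F F := fun p => (φ n)⁻¹ • D₁ p
  have hDd : ∀ p r, Dd p (φ r) = (φ n)⁻¹ * φ (E p r) := by
    intro p r
    rw [← hD₁]; rfl
  have hext : ∀ p a, Dd p (algebraMap K F a) = algebraMap K F (δ p a) := by
    intro p a
    rw [← hι, hDd, hEK, map_mul, hι]
    field_simp
  let ξ : Fin e → F := fun i => φ (Xv i) / φ n
  have hxi : ∀ p i, Dd p (ξ i) = 0 := by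
    intro p i
    have h1 : φ (Xv i) = ξ i * φ n := by
      simp only [ξ]; field_simp
    have h2 := congrArg (Dd p) h1
    rw [Derivation.leibniz, hDd, hDd, smul_eq_mul, smul_eq_mul] at h2
    have h3 := hconst p i
    rw [map_sub, map_mul, map_mul] at h3
    have h5 : φ n * (φ n)⁻¹ = 1 := mul_inv_cancel₀ hn
    have h6 : φ n * (φ n * Dd p (ξ i)) = φ (E p (Xv i)) - ξ i * φ (E p n) := by
      linear_combination (-φ n) * h2 + (φ (E p (Xv i)) - ξ i * φ (E p n)) * h5
    have h7 : φ n * (φ n * (φ n * Dd p (ξ i))) = 0 := by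
      rw [h6]
      linear_combination h3 + (φ (E p n)) * h1
    exact (mul_eq_zero.1 ((mul_eq_zero.1 ((mul_eq_zero.1 h7).resolve_left hn)).resolve_left
      hn)).resolve_left hn
  have hDS : DS Dd (fun p => algebraMap K F (S p)) := by
    intro p q
    rw [hext, hS]; split_ifs <;> simp
  let η : Fin e → F := fun i => φ (θv i) - act (fun p => algebraMap K F (S p)) ξ i
  refine ⟨Dd, ξ, η, ⟨hext, hxi, fun p i => ?_, fun i => ?_⟩, fun i => ?_, fun p r => ?_⟩
  · have h1 : Dd p (act (fun p => algebraMap K F (S p)) ξ i) = act (Pi.single p (1 : F)) ξ i :=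
      der_act hDS hxi p i
    have h2 : Dd p (φ (θv i)) = act (Pi.single p (1 : F)) ξ i := by
      rw [hDd, hEθ, act_single, act_single, map_sub]
      split_ifs <;> simp only [ξ, map_zero, sub_zero, zero_sub, mul_neg, mul_zero, sub_self] <;>
        field_simp
    simp only [η]
    rw [map_sub, h1, h2, sub_self]
  · simp only [η]; ring
  · simp only [ξ]; field_simp
  · rw [hDd]; field_simp

end lift

/-! ### pseudo-division -/

section pdiv

variable {R : Type*} [CommRing R]

/-- pseudo-division by `g` (of degree at most `s`) -/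
lemma pdiv (g : Polynomial R) (s : ℕ) (hg : ∀ i, s < i → g.coeff i = 0)
    (c : Polynomial R → ℕ → Prop) (D : ℕ)
    (hc : ∀ G b n a, c G b → (∃ i, a = G.coeff i) →
      c (Polynomial.C (g.coeff s) * G - g * (Polynomial.C a * Polynomial.X ^ n)) (b + D)) :
    ∀ (n : ℕ) (G : Polynomial R), (∀ i, s + n ≤ i → G.coeff i = 0) → ∃ u r : Polynomial R,
      Polynomial.C (g.coeff s) ^ n * G = g * u + r ∧ (∀ i, s ≤ i → r.coeff i = 0) ∧
      ∀ b, c G b → c r (b + n * D) := by
  intro n
  induction n with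
  | zero =>
    intro G hG
    exact ⟨0, G, by simp, fun i hi => hG i (by omega), fun b hb => by simpa using hb⟩
  | succ n ih =>
    intro G hG
    set a := G.coeff (s + n) with ha
    set G1 := Polynomial.C (g.coeff s) * G - g * (Polynomial.C a * Polynomial.X ^ n) with hG1
    have h1 : ∀ i, s + n ≤ i → G1.coeff i = 0 := by
      intro i hi
      rw [hG1, Polynomial.coeff_sub, Polynomial.coeff_C_mul, mul_left_comm,
        Polynomial.coeff_C_mul, Polynomial.coeff_mul_X_pow', if_pos (by omega)]
      rcases eq_or_lt_of_le hi with rfl | hi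
      · rw [Nat.add_sub_cancel, ← ha]; ring
      · rw [hG i (by omega), hg (i - n) (by omega)]; ring
    obtain ⟨u, r, h2, h3, h4⟩ := ih G1 h1
    refine ⟨u + Polynomial.C (g.coeff s) ^ n * (Polynomial.C a * Polynomial.X ^ n), r, ?_, h3,
      fun b hb => ?_⟩
    · have : Polynomial.C (g.coeff s) ^ (n + 1) * G = Polynomial.C (g.coeff s) ^ n * G1 +
          Polynomial.C (g.coeff s) ^ n * (g * (Polynomial.C a * Polynomial.X ^ n)) := by
        rw [hG1]; ring
      rw [this, h2]; ring
    · have := h4 (b + D) (hc G b n a hb ⟨_, ha⟩)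
      have h5 : b + D + n * D = b + (n + 1) * D := by ring
      rwa [h5] at this

/-- pseudo-division without degree control -/
lemma pdiv' (g : Polynomial R) (s : ℕ) (hg : ∀ i, s < i → g.coeff i = 0) (G : Polynomial R) :
    ∃ (n : ℕ) (u r : Polynomial R),
      Polynomial.C (g.coeff s) ^ n * G = g * u + r ∧ (∀ i, s ≤ i → r.coeff i = 0) := by
  obtain ⟨u, r, h1, h2, -⟩ := pdiv g s hg (fun _ _ => True) 0 (fun _ _ _ _ _ _ => trivial)
    (G.natDegree + 1) G (fun i hi => Polynomial.coeff_eq_zero_of_natDegree_lt (by omega))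
  exact ⟨_, u, r, h1, h2⟩

end pdiv

/-! ### stability of the kernel of an evaluation -/

section stab

open Polynomial in
/-- if `α` is a simple root of `g` and the derivation `E` preserves `g` and the kernel of `φ` up
to the kernel of `φ_α : R[λ] → F`, then it preserves the kernel of `φ_α`. -/
theorem ker_stable {R F : Type*} [CommRing R] [Field F] (φ : R →+* F) (α : F) (g : R[X])
    (hg : eval₂ φ α g = 0) (hg' : eval₂ φ α (derivative g) ≠ 0) (E : Derivation ℤ R[X] R[X])
    (hE : eval₂ φ α (E g) = 0) (hP : ∀ w, φ w = 0 → eval₂ φ α (E (C w)) = 0) :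
    ∀ G, eval₂ φ α G = 0 → eval₂ φ α (E G) = 0 := by
  classical
  -- derivations preserve `P[λ]`
  have hPl : ∀ r : R[X], r.map φ = 0 → eval₂ φ α (E r) = 0 := by
    intro r hr
    have h1 : E r = ∑ i ∈ r.support, (C (r.coeff i) * E (X ^ i) + X ^ i * E (C (r.coeff i))) := by
      conv_lhs => rw [r.as_sum_support_C_mul_X_pow, map_sum]
      refine Finset.sum_congr rfl fun i _ => ?_
      rw [E.leibniz]; simp only [smul_eq_mul]
    rw [h1, eval₂_finsetSum]
    refine Finset.sum_eq_zero fun i _ => ?_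
    have h2 : φ (r.coeff i) = 0 := by
      have := congrArg (fun q => coeff q i) hr
      simpa using this
    rw [eval₂_add, eval₂_mul, eval₂_mul, eval₂_C, h2, hP _ h2]; ring
  -- an element of minimal degree in the kernel, not in `P[λ]`
  have hex : ∃ n, ∃ m : R[X], m.natDegree = n ∧ eval₂ φ α m = 0 ∧ m.map φ ≠ 0 := by
    refine ⟨_, g, rfl, hg, fun h => hg' ?_⟩
    rw [eval₂_eq_eval_map, ← derivative_map, h]; simp
  obtain ⟨m, hm1, hm2, hm3⟩ := Nat.find_spec hex
  have hmin : ∀ m' : R[X], m'.natDegree < m.natDegree → eval₂ φ α m' = 0 → m'.map φ = 0 := by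
    intro m' h1 h2
    by_contra h3
    rw [hm1] at h1
    exact Nat.find_min hex h1 ⟨m', rfl, h2, h3⟩
  have hlc : φ m.leadingCoeff ≠ 0 := by
    intro h
    have h1 : m.eraseLead.map φ = m.map φ := by
      conv_rhs => rw [← m.eraseLead_add_monomial_natDegree_leadingCoeff]
      rw [Polynomial.map_add, map_monomial, h]; simp
    have h2 : eval₂ φ α m.eraseLead = 0 := by
      rw [eval₂_eq_eval_map, h1, ← eval₂_eq_eval_map, hm2]
    by_cases h3 : m.eraseLead.natDegree < m.natDegree
    · exact hm3 (h1 ▸ hmin _ h3 h2)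
    · have h4 := eraseLead_natDegree_lt_or_eraseLead_eq_zero m
      rcases h4 with h4 | h4
      · exact h3 h4
      · rw [h4] at h1
        exact hm3 (by rw [← h1]; simp)
  have hpos : 0 < m.natDegree := by
    by_contra h
    have h0 : m.natDegree = 0 := by omega
    have h1 := eq_C_of_natDegree_eq_zero h0
    rw [h1, eval₂_C] at hm2
    apply hlc
    rw [leadingCoeff, h0, hm2]
  have hdiv : ∀ G : R[X], eval₂ φ α G = 0 → ∃ (n : ℕ) (u r : R[X]),
      C m.leadingCoeff ^ n * G = m * u + r ∧ r.map φ = 0 := by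
    intro G hG
    obtain ⟨n, u, r, h1, h2⟩ := pdiv' m m.natDegree
      (fun i hi => coeff_eq_zero_of_natDegree_lt hi) G
    refine ⟨n, u, r, h1, hmin r ?_ ?_⟩
    · by_contra hc
      have h3 : r.leadingCoeff = 0 := h2 _ (not_lt.1 hc)
      rw [leadingCoeff_eq_zero.1 h3, natDegree_zero] at hc
      exact hc hpos
    · have h3 := congrArg (eval₂ φ α) h1
      rw [eval₂_mul, hG, eval₂_add, eval₂_mul, hm2] at h3
      simpa using h3.symm
  -- `E m` is killed
  have hEm : eval₂ φ α (E m) = 0 := by
    obtain ⟨n, u, r, h1, h2⟩ := hdiv g hg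
    have h3 : eval₂ φ α u ≠ 0 := by
      intro h
      have h4 := congrArg (fun q => eval₂ φ α (derivative q)) h1
      simp only [derivative_mul, derivative_add, eval₂_add, eval₂_mul, hg, hm2, h] at h4
      have h5 : eval₂ φ α (derivative r) = 0 := by
        rw [eval₂_eq_eval_map, ← derivative_map, h2]; simp
      rw [h5] at h4
      simp only [mul_zero, zero_mul, add_zero, zero_add] at h4
      rcases mul_eq_zero.1 h4 with h6 | h6
      · rw [eval₂_pow, eval₂_C] at h6
        exact hlc (eq_zero_of_pow_eq_zero h6)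
      · exact hg' h6
    have h4 := congrArg (fun q => eval₂ φ α (E q)) h1
    simp only [Derivation.leibniz, map_add, smul_eq_mul, eval₂_add, eval₂_mul, hg, hE, hm2,
      hPl r h2] at h4
    simp only [mul_zero, zero_mul, add_zero, zero_add] at h4
    exact (mul_eq_zero.1 h4.symm).resolve_left h3
  intro G hG
  obtain ⟨n, u, r, h1, h2⟩ := hdiv G hG
  have h4 := congrArg (fun q => eval₂ φ α (E q)) h1
  simp only [Derivation.leibniz, map_add, smul_eq_mul, eval₂_add, eval₂_mul, hG, hEm, hm2,
    hPl r h2] at h4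
  simp only [mul_zero, zero_mul, add_zero] at h4
  refine (mul_eq_zero.1 h4).resolve_left ?_
  rw [eval₂_pow, eval₂_C]
  exact pow_ne_zero _ hlc

end stab

end Crest.Agent.R065.Cod1q392
end

-- ▼ part R065/Cod1defs_649
section

/-!
# Row 65: codimension one, the coefficients of `E_{p,j}`

`n_j = ∂_j f`, `c_j = cc δ f a j`, so that `n_a x_j = λ n_j - c_j` (`λ = x_a`) at the points;
`Δ_p = M_p + λ N_p`, `E_{p,j} = n_a Δ_p X_j - X_j Δ_p n_a = q2 λ² + q1 λ + q0`.
-/

set_option autoImplicit false

open MvPolynomial Module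

namespace Crest.Agent.R065.Cod1

open Crest.Agent.R065.HF669 Crest.Agent.R065.Base348 Crest.Agent.R065.Cramer234

variable {e : ℕ} {K : Type*} [Field K]

/-- `N_p G = Σ_k (T_p n)_k ∂_k G` -/
noncomputable def NN (f : MvPolynomial (Fin e) K) (p : Pr e) (G : MvPolynomial (Fin e) K) :
    MvPolynomial (Fin e) K :=
  ∑ k, act (Pi.single p 1) (fun j => pderiv j f) k * pderiv k G

/-- `M_p G = n_a δ_p G - Σ_k (T_p c)_k ∂_k G` -/
noncomputable def MM (δ : Pr e → Derivation ℤ K K) (f : MvPolynomial (Fin e) K) (a : Fin e)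
    (p : Pr e) (G : MvPolynomial (Fin e) K) : MvPolynomial (Fin e) K :=
  pderiv a f * cD (δ p) G - ∑ k, act (Pi.single p 1) (cc δ f a) k * pderiv k G

/-- the `λ²`-coefficient of `E_{p,j}` -/
noncomputable def q2 (f : MvPolynomial (Fin e) K) (a : Fin e) (p : Pr e) (j : Fin e) :
    MvPolynomial (Fin e) K :=
  pderiv a f * NN f p (pderiv j f) - pderiv j f * NN f p (pderiv a f)

/-- the `λ¹`-coefficient of `E_{p,j}` -/
noncomputable def q1 (δ : Pr e → Derivation ℤ K K) (f : MvPolynomial (Fin e) K) (a : Fin e)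
    (p : Pr e) (j : Fin e) : MvPolynomial (Fin e) K :=
  pderiv a f * (MM δ f a p (pderiv j f) - NN f p (cc δ f a j))
    - pderiv j f * MM δ f a p (pderiv a f) + cc δ f a j * NN f p (pderiv a f)

/-- the `λ⁰`-coefficient of `E_{p,j}` -/
noncomputable def q0 (δ : Pr e → Derivation ℤ K K) (f : MvPolynomial (Fin e) K) (a : Fin e)
    (p : Pr e) (j : Fin e) : MvPolynomial (Fin e) K :=
  cc δ f a j * MM δ f a p (pderiv a f) - pderiv a f * MM δ f a p (cc δ f a j)

variable {δ : Pr e → Derivation ℤ K K} {S : Pr e → K} {z : Pt e K}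

/-- `n_a x_j = λ n_j - c_j` at the points -/
lemma eval_X_eq (hS : DS δ S) (hx : Cst δ z.1) (hy : Cst δ z.2)
    {f : MvPolynomial (Fin e) K} (hf : eval (th S z) f = 0) (a j : Fin e) :
    eval (th S z) (pderiv a f) * z.1 j =
      z.1 a * eval (th S z) (pderiv j f) - eval (th S z) (cc δ f a j) := by
  rw [eval_cc hS hx hy hf]; ring

/-- `(M_p + λ N_p) G = n_a δ_p (G(θ_z))` at the points -/
lemma eval_MM_NN (hS : DS δ S) (hx : Cst δ z.1) (hy : Cst δ z.2)
    {f : MvPolynomial (Fin e) K} (hf : eval (th S z) f = 0) (a : Fin e) (p : Pr e)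
    (G : MvPolynomial (Fin e) K) :
    eval (th S z) (MM δ f a p G) + z.1 a * eval (th S z) (NN f p G) =
      eval (th S z) (pderiv a f) * δ p (eval (th S z) G) := by
  have h1 := deriv_eval (δ p) (th S z) G
  have h2 : ∀ k, δ p (th S z k) = act (Pi.single p (1 : K)) z.1 k :=
    fun k => der_theta hS hx hy p k
  rw [h1]
  unfold MM NN
  simp only [map_sub, map_mul, map_sum, mul_add, Finset.mul_sum, h2]
  rw [sub_add_eq_add_sub, add_sub_assoc, ← Finset.sum_sub_distrib]
  congr 1
  refine Finset.sum_congr rfl fun k _ => ?_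
  have h3 : z.1 a * eval (th S z) (act (Pi.single p 1) (fun j => pderiv j f) k) -
      eval (th S z) (act (Pi.single p 1) (cc δ f a) k) =
      eval (th S z) (pderiv a f) * act (Pi.single p (1 : K)) z.1 k := by
    simp only [act_single, map_sub]
    have h4 := eval_X_eq hS hx hy hf a p.1.1
    have h5 := eval_X_eq hS hx hy hf a p.1.2
    split_ifs <;> simp only [map_zero, mul_sub, mul_zero, h4, h5] <;> ring
  linear_combination (eval (th S z) (pderiv k G)) * h3


end Crest.Agent.R065.Cod1
end

-- ▼ part R065/Cod1b_392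
section

/-!
# Row 65, codimension one: relations `G(θ, λ) = 0`, `λ = x_a`   (helper392)
-/

set_option autoImplicit false

open MvPolynomial Module

namespace Crest.Agent.R065.Cod1q392

open Crest.Agent.R065.HF669 Crest.Agent.R065.Base348 Crest.Agent.R065.Cramer234

/-! ### coefficientwise derivations -/

section mC

variable {R : Type*} [CommRing R]

/-- the coefficientwise extension of a derivation to `R[λ]` -/
noncomputable def mC (d : Derivation ℤ R R) : Derivation ℤ (Polynomial R) (Polynomial R) :=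
  @Differential.mapCoeffs R _ ⟨d⟩

lemma coeff_mC (d : Derivation ℤ R R) (p : Polynomial R) (i : ℕ) :
    (mC d p).coeff i = d (p.coeff i) := rfl

lemma mC_C (d : Derivation ℤ R R) (a : R) : mC d (Polynomial.C a) = Polynomial.C (d a) :=
  @Differential.mapCoeffs_C R _ ⟨d⟩ a

lemma mC_X (d : Derivation ℤ R R) : mC d Polynomial.X = 0 := @Differential.mapCoeffs_X R _ ⟨d⟩

lemma natDegree_mC_le (d : Derivation ℤ R R) (p : Polynomial R) :
    (mC d p).natDegree ≤ p.natDegree := by
  rw [Polynomial.natDegree_le_iff_coeff_eq_zero]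
  intro i hi
  rw [coeff_mC, Polynomial.coeff_eq_zero_of_natDegree_lt hi, map_zero]

/-- a combination of coefficientwise derivations -/
noncomputable def vfC {ι : Type*} [Fintype ι] (b : Polynomial R) (d0 : Derivation ℤ R R)
    (a : ι → Polynomial R) (d : ι → Derivation ℤ R R) :
    Derivation ℤ (Polynomial R) (Polynomial R) :=
  b • mC d0 + ∑ j, a j • mC (d j)

lemma vfC_apply {ι : Type*} [Fintype ι] (b : Polynomial R) (d0 : Derivation ℤ R R)
    (a : ι → Polynomial R) (d : ι → Derivation ℤ R R) (G : Polynomial R) :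
    vfC b d0 a d G = b * mC d0 G + ∑ j, a j * mC (d j) G := by
  have h : (∑ j, a j • mC (d j)) G = ∑ j, a j * mC (d j) G := sum_apply_der _ _ _
  rw [vfC, Derivation.add_apply, h]
  rfl

end mC

section rel

variable {e : ℕ} {K : Type*} [Field K]

/-- all coefficients of degree at most `b` -/
def Cdeg (b : ℕ) (G : Polynomial (MvPolynomial (Fin e) K)) : Prop :=
  ∀ i, (G.coeff i).totalDegree ≤ b

lemma Cdeg.mono {b b' : ℕ} {G : Polynomial (MvPolynomial (Fin e) K)} (h : Cdeg b G)
    (hb : b ≤ b') : Cdeg b' G := fun i => (h i).trans hb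

lemma Cdeg.add {b : ℕ} {G H : Polynomial (MvPolynomial (Fin e) K)} (h : Cdeg b G)
    (h' : Cdeg b H) : Cdeg b (G + H) := fun i => by
  rw [Polynomial.coeff_add]
  exact (totalDegree_add _ _).trans (max_le (h i) (h' i))

lemma Cdeg.sub {b : ℕ} {G H : Polynomial (MvPolynomial (Fin e) K)} (h : Cdeg b G)
    (h' : Cdeg b H) : Cdeg b (G - H) := fun i => by
  rw [Polynomial.coeff_sub]
  exact (totalDegree_sub _ _).trans (max_le (h i) (h' i))

lemma Cdeg.mul {b b' : ℕ} {G H : Polynomial (MvPolynomial (Fin e) K)} (h : Cdeg b G)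
    (h' : Cdeg b' H) : Cdeg (b + b') (G * H) := fun i => by
  rw [Polynomial.coeff_mul]
  refine totalDegree_finsetSum_le fun x _ => ?_
  exact (totalDegree_mul _ _).trans (Nat.add_le_add (h _) (h' _))

lemma Cdeg.zero (b : ℕ) : Cdeg b (0 : Polynomial (MvPolynomial (Fin e) K)) := fun i => by simp

lemma Cdeg.sum {ι : Type*} (s : Finset ι) {b : ℕ}
    {G : ι → Polynomial (MvPolynomial (Fin e) K)} (h : ∀ i ∈ s, Cdeg b (G i)) :
    Cdeg b (∑ i ∈ s, G i) := by
  classical
  induction s using Finset.induction_on with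
  | empty => simpa using Cdeg.zero b
  | insert a s ha ih =>
    rw [Finset.sum_insert ha]
    exact (h a (Finset.mem_insert_self _ _)).add (ih fun i hi => h i (Finset.mem_insert_of_mem hi))

lemma Cdeg.C {b : ℕ} {g : MvPolynomial (Fin e) K} (h : g.totalDegree ≤ b) :
    Cdeg b (Polynomial.C g) := fun i => by
  rw [Polynomial.coeff_C]
  split_ifs
  · exact h
  · simp

lemma Cdeg.X (b : ℕ) : Cdeg b (Polynomial.X : Polynomial (MvPolynomial (Fin e) K)) := fun i => by
  rw [Polynomial.coeff_X]
  split_ifs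
  · simp
  · simp

lemma Cdeg.X_pow (b n : ℕ) : Cdeg b (Polynomial.X ^ n : Polynomial (MvPolynomial (Fin e) K)) :=
  fun i => by
  rw [Polynomial.coeff_X_pow]
  split_ifs
  · simp
  · simp

lemma Cdeg.mCc (δ : Derivation ℤ K K) {b : ℕ} {G : Polynomial (MvPolynomial (Fin e) K)}
    (h : Cdeg b G) : Cdeg b (mC (cD δ) G) := fun i => by
  rw [coeff_mC]
  exact (totalDegree_cD_le _ _).trans (h i)

lemma Cdeg.mCp (j : Fin e) {b : ℕ} {G : Polynomial (MvPolynomial (Fin e) K)}
    (h : Cdeg b G) : Cdeg b (mC (pD j) G) := fun i => by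
  change (pderiv j (G.coeff i)).totalDegree ≤ b
  exact (totalDegree_pderiv_le _ _).trans ((Nat.sub_le _ _).trans (h i))

variable (δ : Pr e → Derivation ℤ K K) (S : Pr e → K)

/-- numerators of the velocity: `n_a x_j = X_j(λ)` at the points, `λ = x_a` -/
noncomputable def XX (f : MvPolynomial (Fin e) K) (a j : Fin e) :
    Polynomial (MvPolynomial (Fin e) K) :=
  Polynomial.C (pderiv j f) * Polynomial.X - Polynomial.C (cc δ f a j)

/-- `Δ_p` -/
noncomputable def EL (f : MvPolynomial (Fin e) K) (a : Fin e) (p : Pr e) :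
    Derivation ℤ (Polynomial (MvPolynomial (Fin e) K)) (Polynomial (MvPolynomial (Fin e) K)) :=
  vfC (Polynomial.C (pderiv a f)) (cD (δ p)) (act (Pi.single p 1) (XX δ f a)) pD

lemma EL_apply (f : MvPolynomial (Fin e) K) (a : Fin e) (p : Pr e)
    (G : Polynomial (MvPolynomial (Fin e) K)) :
    EL δ f a p G = Polynomial.C (pderiv a f) * mC (cD (δ p)) G +
      ∑ j, act (Pi.single p 1) (XX δ f a) j * mC (pD j) G := vfC_apply _ _ _ _ _

lemma EL_lam (f : MvPolynomial (Fin e) K) (a : Fin e) (p : Pr e) :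
    EL δ f a p Polynomial.X = 0 := by
  rw [EL_apply]; simp [mC_X]

lemma EL_C (f : MvPolynomial (Fin e) K) (a : Fin e) (p : Pr e) (g : MvPolynomial (Fin e) K) :
    EL δ f a p (Polynomial.C g) = Polynomial.C (pderiv a f * cD (δ p) g) +
      ∑ j, act (Pi.single p 1) (XX δ f a) j * Polynomial.C (pderiv j g) := by
  rw [EL_apply, mC_C, Polynomial.C_mul]
  congr 1
  exact Finset.sum_congr rfl fun j _ => by rw [mC_C]; rfl

lemma EL_CC (f : MvPolynomial (Fin e) K) (a : Fin e) (p : Pr e) (x : K) :
    EL δ f a p (Polynomial.C (C x)) = Polynomial.C (pderiv a f) * Polynomial.C (C (δ p x)) := by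
  rw [EL_C, cD_C]; simp

lemma EL_CX (f : MvPolynomial (Fin e) K) (a : Fin e) (p : Pr e) (i : Fin e) :
    EL δ f a p (Polynomial.C (X i)) = act (Pi.single p 1) (XX δ f a) i := by
  classical
  rw [EL_C, cD_X, mul_zero, Polynomial.C_0, zero_add, Finset.sum_eq_single i]
  · simp
  · intro j _ hj
    rw [pderiv_X_of_ne (Ne.symm hj), Polynomial.C_0, mul_zero]
  · simp

lemma act_XX (f : MvPolynomial (Fin e) K) (a : Fin e) (p : Pr e) (k : Fin e) :
    act (Pi.single p 1) (XX δ f a) k =
      Polynomial.C (act (Pi.single p 1) (fun j => pderiv j f) k) * Polynomial.X -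
        Polynomial.C (act (Pi.single p 1) (cc δ f a) k) := by
  simp only [act_single, XX, Polynomial.C_sub]
  split_ifs <;> (try simp only [Polynomial.C_0]) <;> ring

/-- `Δ_p g = λ N_p g + M_p g` -/
lemma EL_C' (f : MvPolynomial (Fin e) K) (a : Fin e) (p : Pr e) (g : MvPolynomial (Fin e) K) :
    EL δ f a p (Polynomial.C g) = Polynomial.C (Cod1.NN f p g) * Polynomial.X +
      Polynomial.C (Cod1.MM δ f a p g) := by
  rw [EL_C]
  have h1 : ∑ j, act (Pi.single p 1) (XX δ f a) j * Polynomial.C (pderiv j g) =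
      (∑ j, Polynomial.C (act (Pi.single p 1) (fun j => pderiv j f) j * pderiv j g)) *
        Polynomial.X - ∑ j, Polynomial.C (act (Pi.single p 1) (cc δ f a) j * pderiv j g) := by
    rw [Finset.sum_mul, ← Finset.sum_sub_distrib]
    refine Finset.sum_congr rfl fun j _ => ?_
    rw [act_XX, Polynomial.C_mul, Polynomial.C_mul]
    ring
  rw [h1, ← map_sum, ← map_sum, Cod1.NN, Cod1.MM, Polynomial.C_sub]
  ring

/-! degrees -/

lemma Cdeg_XX {D : ℕ} {f : MvPolynomial (Fin e) K} (hf : f.totalDegree ≤ D) (a j : Fin e) :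
    Cdeg D (XX δ f a j) := by
  refine Cdeg.sub ?_ (Cdeg.C ((totalDegree_cc_le δ f a j).trans hf))
  have h1 := (Cdeg.C (b := D) ((totalDegree_pderiv_le j f).trans
    ((Nat.sub_le _ _).trans hf))).mul (Cdeg.X 0)
  simpa using h1

lemma natDegree_XX_le (f : MvPolynomial (Fin e) K) (a j : Fin e) :
    (XX δ f a j).natDegree ≤ 1 := by
  refine (Polynomial.natDegree_sub_le _ _).trans (max_le ?_ ?_)
  · exact (Polynomial.natDegree_C_mul_le _ _).trans Polynomial.natDegree_X_le
  · rw [Polynomial.natDegree_C]; exact Nat.zero_le _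

lemma Cdeg_act {D : ℕ} {f : MvPolynomial (Fin e) K} (hf : f.totalDegree ≤ D) (a : Fin e)
    (p : Pr e) (j : Fin e) : Cdeg D (act (Pi.single p 1) (XX δ f a) j) := by
  rw [act_single]
  refine Cdeg.sub ?_ ?_ <;>
  · split_ifs
    · exact Cdeg_XX δ hf _ _
    · exact Cdeg.zero _

lemma natDegree_act_le (f : MvPolynomial (Fin e) K) (a : Fin e) (p : Pr e) (j : Fin e) :
    (act (Pi.single p 1) (XX δ f a) j).natDegree ≤ 1 := by
  rw [act_single]
  refine (Polynomial.natDegree_sub_le _ _).trans (max_le ?_ ?_) <;>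
  · split_ifs
    · exact natDegree_XX_le δ f a _
    · simp

lemma Cdeg_EL {D b : ℕ} {f : MvPolynomial (Fin e) K} (hf : f.totalDegree ≤ D) (a : Fin e)
    (p : Pr e) {G : Polynomial (MvPolynomial (Fin e) K)} (hG : Cdeg b G) :
    Cdeg (b + D) (EL δ f a p G) := by
  rw [EL_apply, add_comm b D]
  refine Cdeg.add ?_ (Cdeg.sum _ fun j _ => ?_)
  · exact (Cdeg.C ((totalDegree_pderiv_le a f).trans ((Nat.sub_le _ _).trans hf))).mul
      (Cdeg.mCc _ hG)
  · exact (Cdeg_act δ hf a p j).mul (Cdeg.mCp j hG)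

lemma natDegree_EL_le (f : MvPolynomial (Fin e) K) (a : Fin e) (p : Pr e)
    (G : Polynomial (MvPolynomial (Fin e) K)) : (EL δ f a p G).natDegree ≤ G.natDegree + 1 := by
  rw [EL_apply]
  refine (Polynomial.natDegree_add_le _ _).trans (max_le ?_ ?_)
  · refine (Polynomial.natDegree_C_mul_le _ _).trans ((natDegree_mC_le _ _).trans (by omega))
  · refine Polynomial.natDegree_sum_le_of_forall_le _ _ fun j _ => ?_
    refine Polynomial.natDegree_mul_le.trans ?_
    have h1 := natDegree_act_le δ f a p j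
    have h2 := natDegree_mC_le (pD j) G
    omega

/-! evaluation at the points -/

/-- evaluation of `G(θ, λ)` at `θ_z`, `λ = x_a` -/
noncomputable def evz (a : Fin e) (z : Pt e K) : Polynomial (MvPolynomial (Fin e) K) →+* K :=
  Polynomial.eval₂RingHom (MvPolynomial.eval (th S z)) (z.1 a)

@[simp] lemma evz_C (a : Fin e) (z : Pt e K) (g : MvPolynomial (Fin e) K) :
    evz S a z (Polynomial.C g) = MvPolynomial.eval (th S z) g := by
  simp [evz]

@[simp] lemma evz_X (a : Fin e) (z : Pt e K) : evz S a z Polynomial.X = z.1 a := by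
  simp [evz]

variable {δ S}

lemma evz_XX (hS : DS δ S) {z : Pt e K} (hx : Cst δ z.1) (hy : Cst δ z.2)
    {f : MvPolynomial (Fin e) K} (hf : eval (th S z) f = 0) (a j : Fin e) :
    evz S a z (XX δ f a j) = eval (th S z) (pderiv a f) * z.1 j := by
  rw [XX, map_sub, map_mul, evz_C, evz_X, evz_C, eval_cc hS hx hy hf]
  ring

lemma evz_EL (hS : DS δ S) {z : Pt e K} (hx : Cst δ z.1) (hy : Cst δ z.2)
    {f : MvPolynomial (Fin e) K} (hf : eval (th S z) f = 0) (a : Fin e) (p : Pr e)
    (G : Polynomial (MvPolynomial (Fin e) K)) :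
    evz S a z (EL δ f a p G) = eval (th S z) (pderiv a f) * δ p (evz S a z G) := by
  induction G using Polynomial.induction_on' with
  | add G H hG hH => rw [map_add, map_add, map_add, map_add, hG, hH]; ring
  | monomial n g =>
    rw [← Polynomial.C_mul_X_pow_eq_monomial]
    have h1 : EL δ f a p (Polynomial.C g * Polynomial.X ^ n) =
        Polynomial.X ^ n * EL δ f a p (Polynomial.C g) := by
      rw [(EL δ f a p).leibniz, (EL δ f a p).leibniz_pow, EL_lam]
      simp
    have h2 : δ p (z.1 a ^ n) = 0 := by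
      rw [(δ p).leibniz_pow, hx p a]; simp
    rw [h1, map_mul, map_mul, map_pow, evz_C, evz_X, (δ p).leibniz, h2, EL_C', map_add, map_mul,
      evz_C, evz_C, evz_X]
    have h3 := Cod1.eval_MM_NN hS hx hy hf a p g
    simp only [smul_eq_mul]
    linear_combination (z.1 a ^ n) * h3

variable (δ)

/-- `E_{p,j} = n_a Δ_p X_j - X_j Δ_p n_a` -/
noncomputable def HH (f : MvPolynomial (Fin e) K) (a : Fin e) (p : Pr e) (j : Fin e) :
    Polynomial (MvPolynomial (Fin e) K) :=
  Polynomial.C (pderiv a f) * EL δ f a p (XX δ f a j) -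
    XX δ f a j * EL δ f a p (Polynomial.C (pderiv a f))

/-- `E_{p,j} = q₂ λ² + q₁ λ + q₀` with 649's coefficients -/
lemma HH_eq (f : MvPolynomial (Fin e) K) (a : Fin e) (p : Pr e) (j : Fin e) :
    HH δ f a p j = Polynomial.C (Cod1.q2 f a p j) * Polynomial.X ^ 2 +
      Polynomial.C (Cod1.q1 δ f a p j) * Polynomial.X + Polynomial.C (Cod1.q0 δ f a p j) := by
  have h1 : EL δ f a p (XX δ f a j) = EL δ f a p (Polynomial.C (pderiv j f)) * Polynomial.X -
      EL δ f a p (Polynomial.C (cc δ f a j)) := by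
    rw [XX, map_sub, (EL δ f a p).leibniz, EL_lam]
    simp [mul_comm]
  rw [HH, h1, EL_C', EL_C', EL_C', XX, Cod1.q2, Cod1.q1, Cod1.q0]
  simp only [Polynomial.C_add, Polynomial.C_sub, Polynomial.C_mul]
  ring

lemma Cdeg_HH {D : ℕ} {f : MvPolynomial (Fin e) K} (hf : f.totalDegree ≤ D) (a : Fin e)
    (p : Pr e) (j : Fin e) : Cdeg (3 * D) (HH δ f a p j) := by
  have hn : (pderiv a f).totalDegree ≤ D :=
    (totalDegree_pderiv_le a f).trans ((Nat.sub_le _ _).trans hf)
  refine Cdeg.sub ?_ ?_
  · exact ((Cdeg.C hn).mul (Cdeg_EL δ hf a p (Cdeg_XX δ hf a j))).mono (by omega)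
  · exact ((Cdeg_XX δ hf a j).mul (Cdeg_EL δ hf a p (Cdeg.C hn))).mono (by omega)

lemma natDegree_HH_le (f : MvPolynomial (Fin e) K) (a : Fin e) (p : Pr e) (j : Fin e) :
    (HH δ f a p j).natDegree ≤ 2 := by
  rw [HH_eq]
  refine (Polynomial.natDegree_add_le _ _).trans (max_le ?_ ?_)
  · refine (Polynomial.natDegree_add_le _ _).trans (max_le ?_ ?_)
    · exact (Polynomial.natDegree_C_mul_le _ _).trans (Polynomial.natDegree_X_pow_le 2)
    · exact (Polynomial.natDegree_C_mul_le _ _).trans (Polynomial.natDegree_X_le.trans (by omega))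
  · simp

variable {δ}

lemma evz_HH (hS : DS δ S) {z : Pt e K} (hx : Cst δ z.1) (hy : Cst δ z.2)
    {f : MvPolynomial (Fin e) K} (hf : eval (th S z) f = 0) (a : Fin e) (p : Pr e) (j : Fin e) :
    evz S a z (HH δ f a p j) = 0 := by
  rw [HH, map_sub, map_mul, map_mul, evz_EL hS hx hy hf, evz_EL hS hx hy hf, evz_XX hS hx hy hf,
    evz_C, (δ p).leibniz, hx p j]
  simp only [smul_eq_mul]
  ring

/-- a relation: coefficients of degree `≤ b`, vanishing at the points -/
structure Rel (S : Pr e → K) (Sig : Set (Pt e K)) (a : Fin e) (b : ℕ)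
    (G : Polynomial (MvPolynomial (Fin e) K)) : Prop where
  deg : Cdeg b G
  van : ∀ z ∈ Sig, evz S a z G = 0

variable {Sig : Set (Pt e K)} {a : Fin e}

lemma Rel.mono {b b' : ℕ} {G : Polynomial (MvPolynomial (Fin e) K)} (h : Rel S Sig a b G)
    (hb : b ≤ b') : Rel S Sig a b' G := ⟨h.deg.mono hb, h.van⟩

lemma Rel.EL {D b : ℕ} {f : MvPolynomial (Fin e) K} (hS : DS δ S) (hfD : f.totalDegree ≤ D)
    (hSig : ∀ z ∈ Sig, Cst δ z.1 ∧ Cst δ z.2) (hf : ∀ z ∈ Sig, eval (th S z) f = 0) (p : Pr e)
    {G : Polynomial (MvPolynomial (Fin e) K)} (h : Rel S Sig a b G) :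
    Rel S Sig a (b + D) (EL δ f a p G) :=
  ⟨Cdeg_EL δ hfD a p h.deg, fun z hz => by
    rw [evz_EL hS (hSig z hz).1 (hSig z hz).2 (hf z hz), h.van z hz, map_zero, mul_zero]⟩

lemma rel_HH {D : ℕ} {f : MvPolynomial (Fin e) K} (hS : DS δ S) (hfD : f.totalDegree ≤ D)
    (hSig : ∀ z ∈ Sig, Cst δ z.1 ∧ Cst δ z.2) (hf : ∀ z ∈ Sig, eval (th S z) f = 0) (p : Pr e)
    (j : Fin e) : Rel S Sig a (3 * D) (HH δ f a p j) :=
  ⟨Cdeg_HH δ hfD a p j, fun z hz => evz_HH hS (hSig z hz).1 (hSig z hz).2 (hf z hz) a p j⟩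

/-- pseudo-remainder of relations -/
lemma Rel.pdiv {b b0 s : ℕ} {g : Polynomial (MvPolynomial (Fin e) K)} (hg : Rel S Sig a b0 g)
    (hgs : g.natDegree ≤ s) {G : Polynomial (MvPolynomial (Fin e) K)} (hG : Rel S Sig a b G)
    {n : ℕ} (hn : G.natDegree < s + n) :
    ∃ u r : Polynomial (MvPolynomial (Fin e) K),
      Polynomial.C (g.coeff s) ^ n * G = g * u + r ∧ (∀ i, s ≤ i → r.coeff i = 0) ∧
      Rel S Sig a (b + n * b0) r := by
  obtain ⟨u, r, h1, h2, h3⟩ := Cod1q392.pdiv g s
    (fun i hi => Polynomial.coeff_eq_zero_of_natDegree_lt (by omega))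
    (fun G b => Cdeg b G) b0 (by
      rintro G b n c hG ⟨i, rfl⟩
      refine Cdeg.sub ?_ ?_
      · exact ((Cdeg.C (hg.deg s)).mul hG).mono (by omega)
      · exact (hg.deg.mul ((Cdeg.C (hG i)).mul (Cdeg.X_pow 0 n))).mono (by omega)) n G
    (fun i hi => Polynomial.coeff_eq_zero_of_natDegree_lt (by omega))
  refine ⟨u, r, h1, h2, h3 b hG.deg, fun z hz => ?_⟩
  have h4 := congrArg (evz S a z) h1
  rw [map_mul, map_add, map_mul, hG.van z hz, hg.van z hz] at h4
  simpa using h4.symm

end rel

end Crest.Agent.R065.Cod1q392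
end

-- ▼ part R065/Cod1c_392
section

/-!
# Row 65, codimension one: a separable relation of degree one or two in `λ`   (helper392)
-/

set_option autoImplicit false

open MvPolynomial Module

namespace Crest.Agent.R065.Cod1q392

open Crest.Agent.R065.HF669 Crest.Agent.R065.Base348 Crest.Agent.R065.Cramer234

section rel

variable {e : ℕ} {K : Type*} [Field K] {δ : Pr e → Derivation ℤ K K} {S : Pr e → K}
  {P : Ideal (MvPolynomial (Fin e) K)} {Sig : Set (Pt e K)} {a : Fin e}

lemma evz_le_one {G : Polynomial (MvPolynomial (Fin e) K)} (hG : G.natDegree ≤ 1) (z : Pt e K) :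
    evz S a z G = eval (th S z) (G.coeff 1) * z.1 a + eval (th S z) (G.coeff 0) := by
  have h : G = Polynomial.C (G.coeff 1) * Polynomial.X + Polynomial.C (G.coeff 0) :=
    Polynomial.eq_X_add_C_of_natDegree_le_one hG
  conv_lhs => rw [h]
  simp

lemma evz_le_two {G : Polynomial (MvPolynomial (Fin e) K)} (hG : G.natDegree ≤ 2) (z : Pt e K) :
    evz S a z G = eval (th S z) (G.coeff 2) * z.1 a ^ 2 + eval (th S z) (G.coeff 1) * z.1 a +
      eval (th S z) (G.coeff 0) := by
  rw [evz, Polynomial.coe_eval₂RingHom, Polynomial.eval₂_eq_sum_range' _ (n := 3) (by omega)]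
  simp [Finset.sum_range_succ]
  ring

/-- a separable relation `g` of degree `s ≤ 2` dividing all the `Δ_p g` and `E_{p,j}` -/
structure Good (δ : Pr e → Derivation ℤ K K) (S : Pr e → K)
    (P : Ideal (MvPolynomial (Fin e) K)) (Sig : Set (Pt e K)) (f : MvPolynomial (Fin e) K)
    (a : Fin e) (s : ℕ) (g : Polynomial (MvPolynomial (Fin e) K)) : Prop where
  na : pderiv a f ∉ P
  pos : 0 < s
  le : s ≤ 2
  deg : g.natDegree ≤ s
  lead : g.coeff s ∉ P
  van : ∀ z ∈ Sig, evz S a z g = 0
  disc : s = 2 → g.coeff 1 ^ 2 - 4 * g.coeff 2 * g.coeff 0 ∉ P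
  Eg : ∀ p, ∃ (n : ℕ) (u r : Polynomial (MvPolynomial (Fin e) K)),
    Polynomial.C (g.coeff s) ^ n * EL δ f a p g = g * u + r ∧ ∀ i, r.coeff i ∈ P
  EH : ∀ p j, ∃ (n : ℕ) (u r : Polynomial (MvPolynomial (Fin e) K)),
    Polynomial.C (g.coeff s) ^ n * HH δ f a p j = g * u + r ∧ ∀ i, r.coeff i ∈ P
  stab : ∀ p, ∀ w ∈ P, ∀ i, (EL δ f a p (Polynomial.C w)).coeff i ∈ P

lemma NN_self (f : MvPolynomial (Fin e) K) (p : Pr e) : Cod1.NN f p f = 0 := by
  classical
  unfold Cod1.NN
  simp only [act_single, sub_mul, ite_mul, zero_mul, Finset.sum_sub_distrib, Finset.sum_ite_eq',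
    Finset.mem_univ, if_true]
  ring

lemma totalDegree_MM_le {D : ℕ} {f : MvPolynomial (Fin e) K} (hf : f.totalDegree ≤ D)
    (p : Pr e) (g : MvPolynomial (Fin e) K) :
    (Cod1.MM δ f a p g).totalDegree ≤ g.totalDegree + D := by
  have h1 := Cdeg_EL δ hf a p (Cdeg.C (le_refl g.totalDegree)) 0
  rw [EL_C'] at h1
  simpa using h1

/-- stability -/
lemma stab_of (hS : DS δ S) {D : ℕ} {f : MvPolynomial (Fin e) K} (hfD : f.totalDegree ≤ D)
    (hPf : ∀ g ∈ P, f ∣ g) (hfP : f ∈ P) (hSig : ∀ z ∈ Sig, Cst δ z.1 ∧ Cst δ z.2)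
    (hSigf : ∀ z ∈ Sig, eval (th S z) f = 0)
    (hH : ∀ g : MvPolynomial (Fin e) K, g.totalDegree ≤ 31 * D →
      (∀ z ∈ Sig, eval (th S z) g = 0) → g ∈ P) (p : Pr e) :
    ∀ w ∈ P, ∀ i, (EL δ f a p (Polynomial.C w)).coeff i ∈ P := by
  intro w hw i
  obtain ⟨v, rfl⟩ := hPf w hw
  have hM : Cod1.MM δ f a p f ∈ P := by
    refine hH _ ((totalDegree_MM_le hfD p f).trans (by omega)) fun z hz => ?_
    have h1 := Cod1.eval_MM_NN hS (hSig z hz).1 (hSig z hz).2 (hSigf z hz) a p f
    rw [NN_self, hSigf z hz] at h1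
    simpa using h1
  rw [Polynomial.C_mul, (EL δ f a p).leibniz, smul_eq_mul, smul_eq_mul, EL_C' δ f a p f, NN_self,
    Polynomial.coeff_add, Polynomial.coeff_C_mul]
  refine P.add_mem (P.mul_mem_right _ hfP) ?_
  rw [Polynomial.C_0, zero_mul, zero_add, Polynomial.coeff_C_mul, Polynomial.coeff_C]
  split_ifs
  · exact P.mul_mem_left _ hM
  · simp

/-- **existence of a good relation** -/
theorem exists_good [CharZero K] (hS : DS δ S) [hP : P.IsPrime] {D : ℕ}
    {f : MvPolynomial (Fin e) K} (hfD : f.totalDegree ≤ D) (hPf : ∀ g ∈ P, f ∣ g) (hfP : f ∈ P)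
    (hSig : ∀ z ∈ Sig, Cst δ z.1 ∧ Cst δ z.2)
    (hSigP : ∀ z ∈ Sig, ∀ g ∈ P, eval (th S z) g = 0)
    (hH : ∀ g : MvPolynomial (Fin e) K, g.totalDegree ≤ 31 * D →
      (∀ z ∈ Sig, eval (th S z) g = 0) → g ∈ P)
    (hna : pderiv a f ∉ P) (hq : ∃ p j, Cod1.q2 f a p j ∉ P ∨ Cod1.q1 δ f a p j ∉ P) :
    ∃ s g, Good δ S P Sig f a s g ∧ Rel S Sig a (10 * D) g := by
  have hSigf : ∀ z ∈ Sig, eval (th S z) f = 0 := fun z hz => hSigP z hz f hfP
  have hstab : ∀ p, ∀ w ∈ P, ∀ i, (EL δ f a p (Polynomial.C w)).coeff i ∈ P := fun p =>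
    stab_of hS hfD hPf hfP hSig hSigf hH p
  by_cases h1 : ∃ G, Rel S Sig a (10 * D) G ∧ G.natDegree ≤ 1 ∧ ¬ ∀ i, G.coeff i ∈ P
  · -- rational case
    obtain ⟨G, hG, hG1, hGP⟩ := h1
    have hlead : G.coeff 1 ∉ P := by
      intro h
      apply hGP
      intro i
      rcases i with _ | _ | i
      · refine hH _ ((hG.deg 0).trans (by omega)) fun z hz => ?_
        have h2 := hG.van z hz
        rw [evz_le_one hG1, hSigP z hz _ h] at h2
        simpa using h2
      · exact h
      · rw [Polynomial.coeff_eq_zero_of_natDegree_lt (by omega)]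
        exact P.zero_mem
    have key : ∀ T, Rel S Sig a (11 * D) T → T.natDegree ≤ 2 →
        ∃ (n : ℕ) (u r : Polynomial (MvPolynomial (Fin e) K)),
          Polynomial.C (G.coeff 1) ^ n * T = G * u + r ∧ ∀ i, r.coeff i ∈ P := by
      intro T hT hT2
      obtain ⟨u, r, h3, h4, h5⟩ := hG.pdiv hG1 hT (n := 2) (by omega)
      refine ⟨2, u, r, h3, fun i => ?_⟩
      by_cases hi : 1 ≤ i
      · rw [h4 i hi]; exact P.zero_mem
      · obtain rfl : i = 0 := by omega
        refine hH _ ((h5.deg 0).trans (by omega)) fun z hz => ?_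
        have h6 := h5.van z hz
        have h7 : r.natDegree ≤ 1 := by
          rw [Polynomial.natDegree_le_iff_coeff_eq_zero]
          exact fun i hi => h4 i (by omega)
        rw [evz_le_one h7, h4 1 le_rfl] at h6
        simpa using h6
    refine ⟨1, G, ⟨hna, one_pos, by omega, hG1, hlead, hG.van, by omega, fun p => ?_,
      fun p j => ?_, hstab⟩, hG⟩
    · refine key _ ((hG.EL hS hfD hSig hSigf p).mono (by omega)) ?_
      exact (natDegree_EL_le δ f a p G).trans (by omega)
    · exact key _ ((rel_HH hS hfD hSig hSigf p j).mono (by omega)) (natDegree_HH_le δ f a p j)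
  · -- quadratic case
    push Not at h1
    obtain ⟨p₀, j₀, hpj⟩ := hq
    set G := HH δ f a p₀ j₀ with hGdef
    have hG : Rel S Sig a (3 * D) G := rel_HH hS hfD hSig hSigf p₀ j₀
    have hG2 : G.natDegree ≤ 2 := natDegree_HH_le δ f a p₀ j₀
    have hc2 : G.coeff 2 = Cod1.q2 f a p₀ j₀ := by
      rw [hGdef, HH_eq]; simp [Polynomial.coeff_X, Polynomial.coeff_C]
    have hc1 : G.coeff 1 = Cod1.q1 δ f a p₀ j₀ := by
      rw [hGdef, HH_eq]; simp [Polynomial.coeff_X_pow, Polynomial.coeff_C]
    have hlead : G.coeff 2 ∉ P := by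
      intro h
      have h2 : G.coeff 1 ∉ P := by
        rw [hc1]
        rw [hc2] at h
        exact hpj.resolve_left (fun h' => h' h)
      apply h2
      set G' := Polynomial.C (G.coeff 1) * Polynomial.X + Polynomial.C (G.coeff 0) with hG'
      have h3 := h1 G' ⟨?_, fun z hz => ?_⟩ ?_ 1
      · simpa [hG'] using h3
      · refine Cdeg.add ?_ (Cdeg.C ((hG.deg 0).trans (by omega)))
        have := (Cdeg.C (hG.deg 1)).mul (Cdeg.X 0)
        exact this.mono (by omega)
      · have h4 := hG.van z hz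
        rw [evz_le_two hG2, hSigP z hz _ h] at h4
        rw [hG']
        simpa using h4
      · rw [hG']
        refine (Polynomial.natDegree_add_le _ _).trans (max_le ?_ (by simp))
        exact (Polynomial.natDegree_C_mul_le _ _).trans Polynomial.natDegree_X_le
    have hdisc : G.coeff 1 ^ 2 - 4 * G.coeff 2 * G.coeff 0 ∉ P := by
      intro h
      set G' := Polynomial.C (2 * G.coeff 2) * Polynomial.X + Polynomial.C (G.coeff 1) with hG'
      have h3 := h1 G' ⟨?_, fun z hz => ?_⟩ ?_ 1
      · have h4 : 2 * G.coeff 2 ∈ P := by simpa [hG'] using h3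
        rcases hP.mem_or_mem h4 with h5 | h5
        · apply hP.ne_top
          rw [Ideal.eq_top_iff_one]
          have h6 := P.mul_mem_left (C (2 : K)⁻¹) h5
          have h7 : (2 : MvPolynomial (Fin e) K) = C 2 := (map_ofNat C 2).symm
          rwa [h7, ← C_mul, inv_mul_cancel₀ two_ne_zero, C_1] at h6
        · exact hlead h5
      · refine Cdeg.add ?_ (Cdeg.C ((hG.deg 1).trans (by omega)))
        have h5 : (2 * G.coeff 2).totalDegree ≤ 3 * D := by
          have h6 : (2 : MvPolynomial (Fin e) K) = C 2 := (map_ofNat C 2).symm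
          rw [h6]
          refine (totalDegree_mul _ _).trans ?_
          rw [totalDegree_C, zero_add]
          exact hG.deg 2
        have := (Cdeg.C h5).mul (Cdeg.X 0)
        exact this.mono (by omega)
      · have h4 := hG.van z hz
        have h5 := hSigP z hz _ h
        rw [evz_le_two hG2] at h4
        simp only [map_sub, map_pow, map_mul] at h5
        have h8 : eval (th S z) (4 : MvPolynomial (Fin e) K) = 4 := by
          have : (4 : MvPolynomial (Fin e) K) = C 4 := (map_ofNat C 4).symm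
          rw [this, eval_C]
        have h9 : eval (th S z) (2 : MvPolynomial (Fin e) K) = 2 := by
          have : (2 : MvPolynomial (Fin e) K) = C 2 := (map_ofNat C 2).symm
          rw [this, eval_C]
        rw [h8] at h5
        have h6 : (evz S a z G') ^ 2 = 0 := by
          rw [hG']
          simp only [map_add, map_mul, evz_C, evz_X, h9]
          linear_combination (4 * eval (th S z) (G.coeff 2)) * h4 + h5
        exact pow_eq_zero_iff (two_ne_zero) |>.1 h6
      · rw [hG']
        refine (Polynomial.natDegree_add_le _ _).trans (max_le ?_ (by simp))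
        exact (Polynomial.natDegree_C_mul_le _ _).trans Polynomial.natDegree_X_le
    have key : ∀ T, Rel S Sig a (4 * D) T → T.natDegree ≤ 3 →
        ∃ (n : ℕ) (u r : Polynomial (MvPolynomial (Fin e) K)),
          Polynomial.C (G.coeff 2) ^ n * T = G * u + r ∧ ∀ i, r.coeff i ∈ P := by
      intro T hT hT2
      obtain ⟨u, r, h3, h4, h5⟩ := hG.pdiv hG2 hT (n := 2) (by omega)
      refine ⟨2, u, r, h3, h1 r (h5.mono (by omega)) ?_⟩
      rw [Polynomial.natDegree_le_iff_coeff_eq_zero]
      exact fun i hi => h4 i (by omega)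
    refine ⟨2, G, ⟨hna, two_pos, le_rfl, hG2, hlead, hG.van, fun _ => hdisc, fun p => ?_,
      fun p j => ?_, hstab⟩, hG.mono (by omega)⟩
    · refine key _ ((hG.EL hS hfD hSig hSigf p).mono (by omega)) ?_
      exact (natDegree_EL_le δ f a p G).trans (by omega)
    · exact key _ ((rel_HH hS hfD hSig hSigf p j).mono (by omega))
        ((natDegree_HH_le δ f a p j).trans (by omega))

end rel

end Crest.Agent.R065.Cod1q392
end

-- ▼ part R065/Cod1d_392
section

/-!
# Row 65, codimension one: constants in `F = K(V)(λ)` and specialisation   (helper392)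
-/

set_option autoImplicit false

open MvPolynomial Module

namespace Crest.Agent.R065.Cod1q392

open Crest.Agent.R065.HF669 Crest.Agent.R065.Base348 Crest.Agent.R065.Cramer234

section fld

variable {e : ℕ} {K : Type*} [Field K] {δ : Pr e → Derivation ℤ K K} {S : Pr e → K}
  {P : Ideal (MvPolynomial (Fin e) K)} {Sig : Set (Pt e K)} {a : Fin e}
  {F : Type*} [Field F] [Algebra K F]

/-- `G ↦ G(θ, α)` -/
noncomputable def ev (θ : Fin e → F) (α : F) : Polynomial (MvPolynomial (Fin e) K) →+* F :=
  Polynomial.eval₂RingHom (aeval θ : MvPolynomial (Fin e) K →ₐ[K] F).toRingHom α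

lemma ev_eq (θ : Fin e → F) (α : F) (G : Polynomial (MvPolynomial (Fin e) K)) :
    ev θ α G = Polynomial.eval₂ (aeval θ : MvPolynomial (Fin e) K →ₐ[K] F).toRingHom α G := rfl

@[simp] lemma ev_C (θ : Fin e → F) (α : F) (g : MvPolynomial (Fin e) K) :
    ev θ α (Polynomial.C g) = aeval θ g := by
  rw [ev_eq, Polynomial.eval₂_C]; rfl

@[simp] lemma ev_X (θ : Fin e → F) (α : F) :
    ev θ α (Polynomial.X : Polynomial (MvPolynomial (Fin e) K)) = α := by
  rw [ev_eq, Polynomial.eval₂_X]

lemma ev_of_coeff_mem {θ : Fin e → F} (hker : ∀ g, aeval θ g = 0 ↔ g ∈ P) (α : F)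
    {r : Polynomial (MvPolynomial (Fin e) K)} (hr : ∀ i, r.coeff i ∈ P) : ev θ α r = 0 := by
  rw [ev_eq, Polynomial.eval₂_eq_sum_range]
  refine Finset.sum_eq_zero fun i _ => ?_
  have : (aeval θ : MvPolynomial (Fin e) K →ₐ[K] F).toRingHom (r.coeff i) = 0 := (hker _).2 (hr i)
  rw [this, zero_mul]

lemma ev_derivative {θ : Fin e → F} {α : F} {g : Polynomial (MvPolynomial (Fin e) K)}
    (hg : g.natDegree ≤ 2) :
    ev θ α (Polynomial.derivative g) = 2 * aeval θ (g.coeff 2) * α + aeval θ (g.coeff 1) := by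
  have h : g = Polynomial.C (g.coeff 2) * Polynomial.X ^ 2 + Polynomial.C (g.coeff 1) *
      Polynomial.X + Polynomial.C (g.coeff 0) := by
    ext i : 1
    rcases i with _ | _ | _ | i
    · simp
    · simp [Polynomial.coeff_C]
    · simp [Polynomial.coeff_X, Polynomial.coeff_C]
    · rw [Polynomial.coeff_eq_zero_of_natDegree_lt (by omega)]
      simp [Polynomial.coeff_X, Polynomial.coeff_C, Polynomial.coeff_X_pow]
  have h2 : Polynomial.derivative g = Polynomial.C (2 * g.coeff 2) * Polynomial.X +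
      Polynomial.C (g.coeff 1) := by
    conv_lhs => rw [h]
    have h3 : (Polynomial.C (2 : MvPolynomial (Fin e) K)) = 2 := map_ofNat Polynomial.C 2
    simp [h3]
    ring
  rw [h2]
  simp

lemma ev_le_two {θ : Fin e → F} {α : F} {g : Polynomial (MvPolynomial (Fin e) K)}
    (hg : g.natDegree ≤ 2) :
    ev θ α g = aeval θ (g.coeff 2) * α ^ 2 + aeval θ (g.coeff 1) * α + aeval θ (g.coeff 0) := by
  rw [ev_eq, Polynomial.eval₂_eq_sum_range' _ (n := 3) (by omega)]
  simp [Finset.sum_range_succ]
  ring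

variable {f : MvPolynomial (Fin e) K} {s : ℕ} {g : Polynomial (MvPolynomial (Fin e) K)}

lemma Good.sep (hG : Good δ S P Sig f a s g) {θ : Fin e → F}
    (hker : ∀ g, aeval θ g = 0 ↔ g ∈ P) {α : F} (hα : ev θ α g = 0) :
    ev θ α (Polynomial.derivative g) ≠ 0 := by
  have hg2 : g.natDegree ≤ 2 := hG.deg.trans hG.le
  rw [ev_derivative hg2]
  rw [ev_le_two hg2] at hα
  have hs : s = 1 ∨ s = 2 := by
    have := hG.pos; have := hG.le; omega
  rcases hs with rfl | rfl
  · have h0 : g.coeff 2 = 0 := Polynomial.coeff_eq_zero_of_natDegree_lt (by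
      have := hG.deg; omega)
    rw [h0, map_zero, mul_zero, zero_mul, zero_add]
    exact fun h => hG.lead ((hker _).1 h)
  · intro h
    apply hG.disc rfl
    rw [← hker]
    simp only [map_sub, map_mul, map_pow, map_ofNat]
    linear_combination (2 * aeval θ (g.coeff 2) * α + aeval θ (g.coeff 1)) * h -
      (4 * aeval θ (g.coeff 2)) * hα

lemma ev_eq_zero_of_dvd (hlead : g.coeff s ∉ P) {θ : Fin e → F}
    (hker : ∀ g, aeval θ g = 0 ↔ g ∈ P) {α : F} (hα : ev θ α g = 0)
    {T : Polynomial (MvPolynomial (Fin e) K)} (hT : ∃ (n : ℕ)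
      (u r : Polynomial (MvPolynomial (Fin e) K)),
      Polynomial.C (g.coeff s) ^ n * T = g * u + r ∧ ∀ i, r.coeff i ∈ P) : ev θ α T = 0 := by
  obtain ⟨n, u, r, h1, h2⟩ := hT
  have h3 := congrArg (ev θ α) h1
  rw [map_mul, map_add, map_mul, hα, ev_of_coeff_mem hker α h2, zero_mul, zero_add, map_pow,
    ev_C] at h3
  refine (mul_eq_zero.1 h3).resolve_left (pow_ne_zero _ fun h => hlead ((hker _).1 h))

/-- **constants for a root `α` of a good relation** -/
theorem Good.constData (hS : DS δ S) (hG : Good δ S P Sig f a s g) {θ : Fin e → F}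
    (hker : ∀ g, aeval θ g = 0 ↔ g ∈ P) {α : F} (hα : ev θ α g = 0)
    (hfrac : ∀ x : F, ∃ u v : Polynomial (MvPolynomial (Fin e) K),
      ev θ α v ≠ 0 ∧ x = ev θ α u / ev θ α v) :
    ∃ (Dd : Pr e → Derivation ℤ F F) (ξ η : Fin e → F), ConstData δ S F θ Dd ξ η ∧
      ∀ i, aeval θ (pderiv a f) * ξ i = ev θ α (XX δ f a i) := by
  have hn : ev θ α (Polynomial.C (pderiv a f)) ≠ 0 := by
    rw [ev_C]
    exact fun h => hG.na ((hker _).1 h)
  obtain ⟨Dd, ξ, η, h1, h2, -⟩ := constData_of_lift hS (ev θ α)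
    (Polynomial.C.comp C) (fun x => by simp) hfrac (EL δ f a)
    (fun p => ker_stable _ α g hα (hG.sep hker hα) (EL δ f a p)
      (ev_eq_zero_of_dvd hG.lead hker hα (hG.Eg p))
      (fun w hw => ev_of_coeff_mem hker α (hG.stab p w ((hker w).1 hw))))
    (Polynomial.C (pderiv a f)) hn (XX δ f a) (fun i => Polynomial.C (X i))
    (fun p x => EL_CC δ f a p x) (fun p i => EL_CX δ f a p i)
    (fun p j => ev_eq_zero_of_dvd hG.lead hker hα (hG.EH p j))
  refine ⟨Dd, ξ, η, ?_, fun i => ?_⟩
  · have : (fun i => ev θ α (Polynomial.C (X i : MvPolynomial (Fin e) K))) = θ := by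
      funext i; simp
    rw [this] at h1
    exact h1
  · rw [← h2, ev_C]

/-- **specialisation** -/
theorem Good.spec (hS : DS δ S) (hG : Good δ S P Sig f a s g) {θ : Fin e → F}
    (hker : ∀ g, aeval θ g = 0 ↔ g ∈ P) {ι : Type*} [Fintype ι] (hι : Fintype.card ι = s)
    {α : ι → F} (hinj : Function.Injective α) (hα : ∀ l, ev θ (α l) g = 0)
    {ξ η : ι → Fin e → F}
    (hξ : ∀ l i, aeval θ (pderiv a f) * ξ l i = ev θ (α l) (XX δ f a i))
    (hη : ∀ l i, θ i = η l i + act (fun p => algebraMap K F (S p)) (ξ l) i)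
    {z : Pt e K} (hz : z ∈ Sig) (hx : Cst δ z.1) (hy : Cst δ z.2) (hfP : f ∈ P)
    (hzP : ∀ g ∈ P, MvPolynomial.eval (th S z) g = 0)
    (hnz : MvPolynomial.eval (th S z) (pderiv a f) ≠ 0)
    (hlz : MvPolynomial.eval (th S z) (g.coeff s) ≠ 0)
    (q : ι → MvPolynomial (Fin e ⊕ Fin e) K) (hq : ∀ l, aeval (Sum.elim (ξ l) (η l)) (q l) = 0) :
    ∏ l, MvPolynomial.eval (Sum.elim z.1 z.2) (q l) = 0 := by
  classical
  -- compatible families
  let c : (ι → F) → K → Prop := fun u w => ∃ (n : ℕ) (r : Polynomial (MvPolynomial (Fin e) K)),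
    (∀ l, ev θ (α l) r = aeval θ (pderiv a f) ^ n * u l) ∧ evz S a z r =
      MvPolynomial.eval (th S z) (pderiv a f) ^ n * w
  set B := pderiv a f with hB
  have hadd : ∀ {u w u' w'}, c u w → c u' w' → c (u + u') (w + w') := by
    rintro u w u' w' ⟨n, r, h1, h2⟩ ⟨n', r', h1', h2'⟩
    refine ⟨n + n', Polynomial.C (B ^ n') * r + Polynomial.C (B ^ n) * r', fun l => ?_, ?_⟩
    · simp only [map_add, map_mul, map_pow, h1, h1', ev_C, Pi.add_apply]; ring
    · simp only [map_add, map_mul, map_pow, h2, h2', evz_C]; ring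
  have hmul : ∀ {u w u' w'}, c u w → c u' w' → c (u * u') (w * w') := by
    rintro u w u' w' ⟨n, r, h1, h2⟩ ⟨n', r', h1', h2'⟩
    refine ⟨n + n', r * r', fun l => ?_, ?_⟩
    · simp only [map_mul, h1, h1', Pi.mul_apply]; ring
    · simp only [map_mul, h2, h2']; ring
  have hK : ∀ x : K, c (fun _ => algebraMap K F x) x := fun x =>
    ⟨0, Polynomial.C (C x), fun l => by simp, by simp⟩
  have hx' : ∀ i, c (fun l => ξ l i) (z.1 i) := fun i =>
    ⟨1, XX δ f a i, fun l => by rw [pow_one, hξ], by
      rw [pow_one, evz_XX hS hx hy (hzP f hfP)]⟩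
  have hneg : ∀ {u w}, c u w → c (-u) (-w) := by
    rintro u w ⟨n, r, h1, h2⟩
    exact ⟨n, -r, fun l => by rw [map_neg, h1, Pi.neg_apply]; ring, by rw [map_neg, h2]; ring⟩
  have hsum : ∀ (s : Finset (Fin e)) (u : Fin e → ι → F) (w : Fin e → K),
      (∀ i ∈ s, c (u i) (w i)) → c (∑ i ∈ s, u i) (∑ i ∈ s, w i) := by
    intro s u w
    induction s using Finset.induction_on with
    | empty => intro _; simpa [Pi.zero_def] using hK 0
    | insert a s ha ih =>
      intro h
      rw [Finset.sum_insert ha, Finset.sum_insert ha]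
      exact hadd (h a (Finset.mem_insert_self _ _))
        (ih fun i hi => h i (Finset.mem_insert_of_mem hi))
  have hy' : ∀ i, c (fun l => η l i) (z.2 i) := by
    intro i
    have h1 : (fun l => η l i) = (fun _ => θ i) +
        -∑ j, (fun _ => algebraMap K F (sk S i j)) * fun l => ξ l j := by
      funext l
      simp only [Pi.add_apply, Pi.neg_apply, Finset.sum_apply, Pi.mul_apply]
      rw [hη l i, act]
      simp only [sk_map (algebraMap K F) S]
      ring
    have h2 : z.2 i = th S z i + -∑ j, sk S i j * z.1 j := by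
      simp only [th, Pi.add_apply, act]; ring
    rw [h1, h2]
    refine hadd ⟨0, Polynomial.C (X i), fun l => by simp, by simp⟩ (hneg (hsum _ _ _ fun j _ => ?_))
    exact hmul (hK _) (hx' j)
  have key : ∀ q : MvPolynomial (Fin e ⊕ Fin e) K,
      c (fun l => aeval (Sum.elim (ξ l) (η l)) q) (MvPolynomial.eval (Sum.elim z.1 z.2) q) := by
    intro q
    induction q using MvPolynomial.induction_on with
    | C x => simpa using hK x
    | add p q hp hq =>
      have := hadd hp hq
      simpa [Pi.add_def] using this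
    | mul_X p i hp =>
      have h3 : c (fun l => Sum.elim (ξ l) (η l) i) (Sum.elim z.1 z.2 i) := by
        rcases i with i | i
        · exact hx' i
        · exact hy' i
      have := hmul hp h3
      simpa [Pi.mul_def] using this
  obtain ⟨n, r, h1, h2⟩ := key (∏ l, q l)
  have h3 : ∀ l, ev θ (α l) r = 0 := by
    intro l
    rw [h1 l]
    change _ * aeval (Sum.elim (ξ l) (η l)) (∏ l, q l) = 0
    rw [map_prod, Finset.prod_eq_zero (Finset.mem_univ l) (hq l), mul_zero]
  obtain ⟨m, u, r', h4, h5⟩ := pdiv' g s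
    (fun i hi => Polynomial.coeff_eq_zero_of_natDegree_lt (lt_of_le_of_lt hG.deg hi)) r
  have h6 : r'.map (aeval θ : MvPolynomial (Fin e) K →ₐ[K] F).toRingHom = 0 := by
    refine Polynomial.eq_zero_of_natDegree_lt_card_of_eval_eq_zero _ hinj (fun l => ?_) ?_
    · rw [← Polynomial.eval₂_eq_eval_map, ← ev_eq]
      have h7 := congrArg (ev θ (α l)) h4
      rw [map_mul, h3, map_add, map_mul, hα, zero_mul, mul_zero, zero_add] at h7
      exact h7.symm
    · rw [hι]
      by_contra hc
      have h8 : (r'.map (aeval θ : MvPolynomial (Fin e) K →ₐ[K] F).toRingHom).leadingCoeff = 0 := by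
        rw [Polynomial.leadingCoeff, Polynomial.coeff_map, h5 _ (not_lt.1 hc), map_zero]
      rw [Polynomial.leadingCoeff_eq_zero.1 h8, Polynomial.natDegree_zero] at hc
      exact hc hG.pos
  have h7 : ∀ i, r'.coeff i ∈ P := by
    intro i
    have h8 := congrArg (fun p => Polynomial.coeff p i) h6
    rw [← hker]
    simpa using h8
  have h8 : evz S a z r' = 0 := by
    rw [evz, Polynomial.coe_eval₂RingHom, Polynomial.eval₂_eq_sum_range]
    refine Finset.sum_eq_zero fun i _ => ?_
    rw [hzP _ (h7 i), zero_mul]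
  have h9 := congrArg (evz S a z) h4
  rw [map_mul, map_add, map_mul, hG.van z hz, h8, zero_mul, zero_add, map_pow, evz_C] at h9
  have h10 := (mul_eq_zero.1 h9).resolve_left (pow_ne_zero _ hlz)
  rw [h10] at h2
  have h11 := (mul_eq_zero.1 h2.symm).resolve_left (pow_ne_zero _ hnz)
  rwa [map_prod] at h11

end fld

end Crest.Agent.R065.Cod1q392
end

-- ▼ part R065/Cod1e_392
section

/-!
# Row 65, codimension one: the field `F = K(V)(λ)` and the constant varieties   (helper392)
-/

set_option autoImplicit false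

open MvPolynomial Module

namespace Crest.Agent.R065.Cod1q392

open Crest.Agent.R065.HF669 Crest.Agent.R065.Base348 Crest.Agent.R065.Cramer234

universe u

/-! ### fractions -/

section frac

variable {A F : Type*} [CommRing A] [Field F] {φ : A →+* F}

/-- `x` is a fraction of values of `φ` -/
def IsFr (φ : A →+* F) (x : F) : Prop := ∃ u v, φ v ≠ 0 ∧ x = φ u / φ v

lemma IsFr.of (u : A) : IsFr φ (φ u) := ⟨u, 1, by simp, by simp⟩

lemma IsFr.add {x y : F} (hx : IsFr φ x) (hy : IsFr φ y) : IsFr φ (x + y) := by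
  obtain ⟨u, v, hv, rfl⟩ := hx
  obtain ⟨u', v', hv', rfl⟩ := hy
  refine ⟨u * v' + v * u', v * v', by rw [map_mul]; exact mul_ne_zero hv hv', ?_⟩
  rw [div_add_div _ _ hv hv', map_add, map_mul, map_mul, map_mul]

lemma IsFr.mul {x y : F} (hx : IsFr φ x) (hy : IsFr φ y) : IsFr φ (x * y) := by
  obtain ⟨u, v, hv, rfl⟩ := hx
  obtain ⟨u', v', hv', rfl⟩ := hy
  refine ⟨u * u', v * v', by rw [map_mul]; exact mul_ne_zero hv hv', ?_⟩
  rw [div_mul_div_comm, map_mul, map_mul]

lemma IsFr.neg {x : F} (hx : IsFr φ x) : IsFr φ (-x) := by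
  obtain ⟨u, v, hv, rfl⟩ := hx
  exact ⟨-u, v, hv, by rw [map_neg, neg_div]⟩

lemma IsFr.div {x y : F} (hx : IsFr φ x) (hy : IsFr φ y) (h0 : y ≠ 0) : IsFr φ (x / y) := by
  obtain ⟨u, v, hv, rfl⟩ := hx
  obtain ⟨u', v', hv', rfl⟩ := hy
  have h1 : φ u' ≠ 0 := fun h => h0 (by rw [h, zero_div])
  refine ⟨u * v', v * u', by rw [map_mul]; exact mul_ne_zero hv h1, ?_⟩
  rw [map_mul, map_mul]
  field_simp

lemma IsFr.pow {x : F} (hx : IsFr φ x) (n : ℕ) : IsFr φ (x ^ n) := by
  induction n with
  | zero => rw [pow_zero]; exact ⟨1, 1, by simp, by simp⟩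
  | succ n ih => rw [pow_succ]; exact ih.mul hx

end frac

section fld

variable {e : ℕ} {K : Type u} [Field K] {δ : Pr e → Derivation ℤ K K} {S : Pr e → K}
  {P : Ideal (MvPolynomial (Fin e) K)} {Sig : Set (Pt e K)} {a : Fin e}
  {f : MvPolynomial (Fin e) K} {s : ℕ} {g : Polynomial (MvPolynomial (Fin e) K)}

/-- existence of `F` (as a ring extension) -/
lemma exists_field_aux {R : Type u} [CommRing R] (P : Ideal R) [hP : P.IsPrime]
    (g : Polynomial R) (hg : ∃ i, i ≠ 0 ∧ g.coeff i ∉ P) :
    ∃ (F : Type u) (_ : Field F) (Φ : R →+* F) (α : F), (∀ r, Φ r = 0 ↔ r ∈ P) ∧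
      Polynomial.eval₂ Φ α g = 0 ∧ ∀ x : F, IsFr (Polynomial.eval₂RingHom Φ α) x := by
  classical
  let L := FractionRing (R ⧸ P)
  let φ0 : R →+* L := (algebraMap (R ⧸ P) L).comp (Ideal.Quotient.mk P)
  have hφ0 : ∀ r, φ0 r = 0 ↔ r ∈ P := by
    intro r
    change algebraMap (R ⧸ P) L (Ideal.Quotient.mk P r) = 0 ↔ _
    rw [map_eq_zero_iff _ (IsFractionRing.injective (R ⧸ P) L), Ideal.Quotient.eq_zero_iff_mem]
  have hdeg : (g.map φ0).natDegree ≠ 0 := by
    obtain ⟨i, hi, hgi⟩ := hg
    intro h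
    have h1 : (g.map φ0).coeff i = 0 := Polynomial.coeff_eq_zero_of_natDegree_lt (by omega)
    rw [Polynomial.coeff_map] at h1
    exact hgi ((hφ0 _).1 h1)
  let q := Polynomial.factor (g.map φ0)
  have hq : Irreducible q := Polynomial.irreducible_factor _
  have hqd : q ∣ g.map φ0 := Polynomial.factor_dvd_of_natDegree_ne_zero hdeg
  haveI : Fact (Irreducible q) := ⟨hq⟩
  let Φ : R →+* AdjoinRoot q := (AdjoinRoot.of q).comp φ0
  refine ⟨AdjoinRoot q, inferInstance, Φ, AdjoinRoot.root q, fun r => ?_, ?_, fun x => ?_⟩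
  · change (AdjoinRoot.of q) (φ0 r) = 0 ↔ _
    rw [map_eq_zero_iff _ (AdjoinRoot.of q).injective, hφ0]
  · rw [← Polynomial.eval₂_map]
    exact Polynomial.eval₂_eq_zero_of_dvd_of_eval₂_eq_zero _ _ hqd (AdjoinRoot.eval₂_root q)
  · obtain ⟨h, rfl⟩ := AdjoinRoot.mk_surjective x
    induction h using Polynomial.induction_on' with
    | add p q hp hq => rw [map_add]; exact hp.add hq
    | monomial n l =>
      rw [← Polynomial.C_mul_X_pow_eq_monomial, map_mul, map_pow, AdjoinRoot.mk_C,
        AdjoinRoot.mk_X]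
      refine IsFr.mul ?_ (IsFr.pow ⟨Polynomial.X, 1, by simp, by simp⟩ n)
      obtain ⟨u, v, hv, rfl⟩ := IsFractionRing.div_surjective (A := R ⧸ P) l
      obtain ⟨u, rfl⟩ := Ideal.Quotient.mk_surjective u
      obtain ⟨v, rfl⟩ := Ideal.Quotient.mk_surjective v
      have h1 : Φ v ≠ 0 := by
        change (AdjoinRoot.of q) (φ0 v) ≠ 0
        rw [Ne, map_eq_zero_iff _ (AdjoinRoot.of q).injective, hφ0,
          ← Ideal.Quotient.eq_zero_iff_mem]
        exact nonZeroDivisors.ne_zero hv
      refine ⟨Polynomial.C u, Polynomial.C v, by simpa using h1, ?_⟩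
      rw [map_div₀]
      simp only [Polynomial.coe_eval₂RingHom, Polynomial.eval₂_C]
      rfl

/-- existence of `F` -/
theorem Good.exists_field [hP : P.IsPrime] (hG : Good δ S P Sig f a s g) :
    ∃ (F : Type u) (_ : Field F) (_ : Algebra K F) (θ : Fin e → F) (α : F),
      (∀ g, aeval θ g = 0 ↔ g ∈ P) ∧ ev θ α g = 0 ∧ ∀ x : F, IsFr (ev (K := K) θ α) x := by
  obtain ⟨F, hF, Φ, α, h1, h2, h3⟩ := exists_field_aux P g ⟨s, hG.pos.ne', hG.lead⟩
  letI : Algebra K F := (Φ.comp C).toAlgebra
  have h4 : (aeval (fun i => Φ (X i)) : MvPolynomial (Fin e) K →ₐ[K] F).toRingHom = Φ := by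
    apply MvPolynomial.ringHom_ext
    · intro x
      change aeval (fun i => Φ (X i)) (C x) = _
      rw [aeval_C]; rfl
    · intro i
      change aeval (fun i => Φ (X i)) (X i) = _
      rw [aeval_X]
  refine ⟨F, hF, inferInstance, fun i => Φ (X i), α, fun g => ?_, ?_, ?_⟩
  · have h6 : aeval (fun i => Φ (X i)) g = Φ g := RingHom.congr_fun h4 g
    rw [h6]; exact h1 g
  · rw [ev_eq, h4, h2]
  · have h5 : ev (fun i => Φ (X i)) α = Polynomial.eval₂RingHom Φ α := by
      rw [ev, h4]
    rw [h5]; exact h3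

variable {F : Type*} [Field F] [Algebra K F]

/-- fractions with respect to another generator -/
lemma isFr_of_isFr {θ : Fin e → F} {α β : F} (hα : ∀ x : F, IsFr (ev (K := K) θ α) x)
    (h : IsFr (ev (K := K) θ β) α) (x : F) : IsFr (ev (K := K) θ β) x := by
  have h1 : ∀ u : Polynomial (MvPolynomial (Fin e) K), IsFr (ev (K := K) θ β) (ev θ α u) := by
    intro u
    induction u using Polynomial.induction_on' with
    | add p q hp hq => rw [map_add]; exact hp.add hq
    | monomial n l =>
      rw [← Polynomial.C_mul_X_pow_eq_monomial, map_mul, map_pow, ev_C, ev_X]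
      refine IsFr.mul ?_ (h.pow n)
      have := IsFr.of (φ := ev (K := K) θ β) (Polynomial.C l)
      rwa [ev_C] at this
  obtain ⟨u, v, hv, rfl⟩ := hα x
  exact (h1 u).div (h1 v) hv

/-- all roots -/
theorem Good.exists_roots (hG : Good δ S P Sig f a s g) {θ : Fin e → F} {α : F}
    (hker : ∀ g, aeval θ g = 0 ↔ g ∈ P) (hα : ev θ α g = 0)
    (hfr : ∀ x : F, IsFr (ev (K := K) θ α) x) :
    ∃ β : Fin s → F, Function.Injective β ∧ (∀ l, ev θ (β l) g = 0) ∧
      ∀ l, ∀ x : F, IsFr (ev (K := K) θ (β l)) x := by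
  have hs : s = 1 ∨ s = 2 := by
    have := hG.pos; have := hG.le; omega
  rcases hs with rfl | rfl
  · exact ⟨fun _ => α, fun i j _ => Subsingleton.elim _ _, fun _ => hα, fun _ => hfr⟩
  · have hg2 : g.natDegree ≤ 2 := hG.deg
    have h2 : aeval θ (g.coeff 2) ≠ 0 := fun h => hG.lead ((hker _).1 h)
    set β := -(aeval θ (g.coeff 1) / aeval θ (g.coeff 2)) - α with hβ
    have hβ2 : aeval θ (g.coeff 2) * β = -aeval θ (g.coeff 1) - aeval θ (g.coeff 2) * α := by
      rw [hβ]; field_simp
    have hsep := hG.sep hker hα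
    rw [ev_derivative hg2] at hsep
    have hne : α ≠ β := by
      intro h
      apply hsep
      rw [← h] at hβ2
      linear_combination hβ2
    have hβ0 : ev θ β g = 0 := by
      rw [ev_le_two hg2] at hα ⊢
      have h3 : aeval θ (g.coeff 2) * (aeval θ (g.coeff 2) * β ^ 2 + aeval θ (g.coeff 1) * β +
          aeval θ (g.coeff 0)) = 0 := by
        linear_combination (aeval θ (g.coeff 2) * β - aeval θ (g.coeff 2) * α) * hβ2 +
          (aeval θ (g.coeff 2)) * hα
      exact (mul_eq_zero.1 h3).resolve_left h2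
    refine ⟨![α, β], ?_, ?_, ?_⟩
    · intro i j hij
      fin_cases i <;> fin_cases j <;> simp_all
    · intro l
      fin_cases l
      · exact hα
      · exact hβ0
    · intro l
      fin_cases l
      · exact hfr
      · refine isFr_of_isFr hfr ?_
        have h4 : α = -(aeval θ (g.coeff 1) / aeval θ (g.coeff 2)) + -β := by
          rw [hβ]; ring
        rw [h4]
        refine ((IsFr.div ?_ ?_ h2).neg).add (IsFr.neg ?_)
        · have := IsFr.of (φ := ev (K := K) θ β) (Polynomial.C (g.coeff 1))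
          rwa [ev_C] at this
        · have := IsFr.of (φ := ev (K := K) θ β) (Polynomial.C (g.coeff 2))
          rwa [ev_C] at this
        · have := IsFr.of (φ := ev (K := K) θ β) Polynomial.X
          rwa [ev_X] at this

open IntermediateField in
/-- the degree of `F` over `K(θ)` -/
theorem Good.finrank_le (hG : Good δ S P Sig f a s g) {θ : Fin e → F} {α : F}
    (hker : ∀ g, aeval θ g = 0 ↔ g ∈ P) (hα : ev θ α g = 0)
    (hfr : ∀ x : F, IsFr (ev (K := K) θ α) x) :
    FiniteDimensional (IntermediateField.adjoin K (Set.range θ)) F ∧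
      finrank (IntermediateField.adjoin K (Set.range θ)) F ≤ 2 := by
  set L := IntermediateField.adjoin K (Set.range θ) with hL
  let θ' : Fin e → L := fun i => ⟨θ i, subset_adjoin K _ ⟨i, rfl⟩⟩
  have hθ' : ∀ g : MvPolynomial (Fin e) K, ((aeval θ' g : L) : F) = aeval θ g := by
    intro g
    have h1 : (L.val.comp (aeval θ') : MvPolynomial (Fin e) K →ₐ[K] F) = aeval θ := by
      apply MvPolynomial.algHom_ext
      intro i
      simp [θ']
    rw [← h1]; rfl
  have hev : ∀ G : Polynomial (MvPolynomial (Fin e) K), ev θ α G =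
      Polynomial.aeval α (G.map (aeval θ' : MvPolynomial (Fin e) K →ₐ[K] L).toRingHom) := by
    intro G
    rw [Polynomial.aeval_def, Polynomial.eval₂_map, ev_eq]
    congr 1
    ext g
    · simp
    · simp [θ']
  set g' := g.map (aeval θ' : MvPolynomial (Fin e) K →ₐ[K] L).toRingHom with hg'
  have hg'0 : g' ≠ 0 := by
    intro h
    have h1 := congrArg (fun p => Polynomial.coeff p s) h
    simp only [hg', Polynomial.coeff_map, Polynomial.coeff_zero] at h1
    apply hG.lead
    rw [← hker, ← hθ']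
    have h2 : (aeval θ' (g.coeff s) : L) = 0 := h1
    rw [h2]; rfl
  have hg'α : Polynomial.aeval α g' = 0 := by rw [← hev, hα]
  have hint : IsIntegral L α := by
    rw [← isAlgebraic_iff_isIntegral]
    exact ⟨g', hg'0, hg'α⟩
  have htop : L⟮α⟯ = ⊤ := by
    rw [eq_top_iff]
    intro x _
    obtain ⟨u, v, -, rfl⟩ := hfr x
    rw [hev, hev]
    exact div_mem (algebra_adjoin_le_adjoin L {α} (Polynomial.aeval_mem_adjoin_singleton L α))
      (algebra_adjoin_le_adjoin L {α} (Polynomial.aeval_mem_adjoin_singleton L α))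
  have hfin : finrank L F = (minpoly L α).natDegree := by
    rw [← IntermediateField.finrank_top', ← htop, adjoin.finrank hint]
  have hle : (minpoly L α).natDegree ≤ 2 := by
    have h1 := minpoly.degree_le_of_ne_zero L α hg'0 hg'α
    have h2 := Polynomial.natDegree_le_natDegree h1
    have h3 : g'.natDegree ≤ g.natDegree := Polynomial.natDegree_map_le
    have := hG.deg
    have := hG.le
    omega
  refine ⟨?_, hfin ▸ hle⟩
  apply Module.finite_of_finrank_pos
  rw [hfin]
  exact minpoly.natDegree_pos hint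

end fld

end Crest.Agent.R065.Cod1q392
end

-- ▼ part R065/CaseG_649
section

/-!
# Row 65: codimension one, CASE G: all coefficients of `E_{p,j}` lie in `P`

Conclusion: `f` has degree one and all points of `Sig` are pairwise null.
-/

set_option autoImplicit false

open MvPolynomial Module

namespace Crest.Agent.R065.Cod1

open Crest.Agent.R065.HF669 Crest.Agent.R065.Base348 Crest.Agent.R065.Cramer234

/-! ### one variable lemmas -/

section uni

variable {K : Type*} [Field K] [CharZero K]

open Polynomial in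
lemma X_pow_succ_dvd_of_derivative {φ : Polynomial K} {k : ℕ} (h0 : φ.coeff 0 = 0)
    (h : (Polynomial.X : Polynomial K) ^ k ∣ derivative φ) :
    (Polynomial.X : Polynomial K) ^ (k + 1) ∣ φ := by
  rw [X_pow_dvd_iff] at h ⊢
  intro d hd
  rcases d with _ | d
  · exact h0
  · have h1 := h d (by omega)
    rw [coeff_derivative] at h1
    rcases mul_eq_zero.1 h1 with h2 | h2
    · exact h2
    · exact absurd h2 (Nat.cast_add_one_ne_zero d)

open Polynomial in
omit [CharZero K] in
lemma X_pow_dvd_derivative {φ : Polynomial K} {k : ℕ}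
    (h : (Polynomial.X : Polynomial K) ^ (k + 1) ∣ φ) :
    (Polynomial.X : Polynomial K) ^ k ∣ derivative φ := by
  rw [X_pow_dvd_iff] at h ⊢
  intro d hd
  rw [coeff_derivative, h (d + 1) (by omega), zero_mul]

open Polynomial in
/-- `ν(0) ≠ 0`, `w(0) = 0`, `X^k ∣ ν w' - w ν'` imply `X^(k+1) ∣ w` -/
lemma X_pow_dvd_of_wronskian {ν w : Polynomial K} {k : ℕ} (hν : ν.coeff 0 ≠ 0)
    (hw : w.coeff 0 = 0)
    (h : (Polynomial.X : Polynomial K) ^ k ∣ ν * derivative w - w * derivative ν) :
    (Polynomial.X : Polynomial K) ^ (k + 1) ∣ w := by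
  have key : ∀ s, s ≤ k → (Polynomial.X : Polynomial K) ^ (s + 1) ∣ w := by
    intro s
    induction s with
    | zero =>
      intro _
      rw [zero_add, pow_one, X_dvd_iff]; exact hw
    | succ s ih =>
      intro hs
      obtain ⟨u, hu⟩ := ih (by omega)
      have h1 : (Polynomial.X : Polynomial K) ^ (s + 1) ∣
          ν * derivative w - w * derivative ν := (pow_dvd_pow _ hs).trans h
      have h2 : ν * derivative w - w * derivative ν =
          Polynomial.X ^ s * (((s + 1 : ℕ) : Polynomial K) * u * ν + Polynomial.X * (derivative u * ν -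
            u * derivative ν)) := by
        rw [hu, derivative_mul, derivative_X_pow]
        simp only [Nat.add_sub_cancel, map_natCast]
        ring
      rw [h2, pow_succ] at h1
      have h3 : (Polynomial.X : Polynomial K) ∣ (((s + 1 : ℕ) : Polynomial K) * u * ν + Polynomial.X *
          (derivative u * ν - u * derivative ν)) :=
        (mul_dvd_mul_iff_left (pow_ne_zero _ Polynomial.X_ne_zero)).1 h1
      have h4 : (Polynomial.X : Polynomial K) ∣ ((s + 1 : ℕ) : Polynomial K) * u * ν := by
        have := dvd_sub h3 (dvd_mul_right Polynomial.X (derivative u * ν - u * derivative ν))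
        simpa using this
      rw [X_dvd_iff] at h4
      rw [mul_coeff_zero, mul_coeff_zero, coeff_natCast_ite, if_pos rfl] at h4
      have h5 : u.coeff 0 = 0 := by
        rcases mul_eq_zero.1 h4 with h6 | h6
        · rcases mul_eq_zero.1 h6 with h7 | h7
          · exact absurd h7 (Nat.cast_ne_zero.2 (by omega))
          · exact h7
        · exact absurd h6 hν
      obtain ⟨u', hu'⟩ := X_dvd_iff.2 h5
      exact ⟨u', by rw [hu, hu']; ring⟩
  exact key k le_rfl

end uni

/-! ### restriction to a line -/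

section line

variable {e : ℕ} {K : Type*} [Field K]

/-- restriction to the line `p + t v` -/
noncomputable def ln (p v : Fin e → K) : MvPolynomial (Fin e) K →ₐ[K] Polynomial K :=
  aeval fun i => Polynomial.C (p i) + Polynomial.C (v i) * Polynomial.X

lemma eval_ln (p v : Fin e → K) (t : K) (g : MvPolynomial (Fin e) K) :
    (ln p v g).eval t = eval (fun i => p i + v i * t) g := by
  induction g using MvPolynomial.induction_on with
  | C a => simp [ln]
  | add p q hp hq => rw [map_add, Polynomial.eval_add, hp, hq, map_add]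
  | mul_X q i hq =>
    rw [map_mul, Polynomial.eval_mul, hq, map_mul]
    simp [ln]

lemma coeff_zero_ln (p v : Fin e → K) (g : MvPolynomial (Fin e) K) :
    (ln p v g).coeff 0 = eval p g := by
  rw [Polynomial.coeff_zero_eq_eval_zero, eval_ln]; simp

lemma derivative_ln (p v : Fin e → K) (g : MvPolynomial (Fin e) K) :
    Polynomial.derivative (ln p v g) = ∑ i, Polynomial.C (v i) * ln p v (pderiv i g) := by
  classical
  induction g using MvPolynomial.induction_on with
  | C a => simp [ln]
  | add g h hg hh =>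
    simp only [map_add, hg, hh, mul_add, Finset.sum_add_distrib]
  | mul_X g i hg =>
    rw [map_mul, Polynomial.derivative_mul, hg]
    have h1 : Polynomial.derivative (ln p v (X i)) = Polynomial.C (v i) := by
      simp [ln]
    rw [h1]
    have h2 : ∀ j, Polynomial.C (v j) * ln p v (pderiv j (g * X i)) =
        Polynomial.C (v j) * ln p v (pderiv j g) * ln p v (X i) +
          if j = i then ln p v g * Polynomial.C (v j) else 0 := by
      intro j
      rw [pderiv_mul, map_add, map_mul, map_mul]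
      split_ifs with h
      · subst h; rw [pderiv_X_self, map_one]; ring
      · rw [pderiv_X_of_ne (Ne.symm h), map_zero]; ring
    simp only [h2, Finset.sum_add_distrib, Finset.sum_ite_eq', Finset.mem_univ, if_true,
      Finset.sum_mul]

end line

/-! ### (HYP): `f` has degree one -/

section hyp

variable {e : ℕ} {K : Type*} [Field K]

/-- `q2` for arbitrary ordered pairs -/
lemma q2_gen {f : MvPolynomial (Fin e) K} {a : Fin e} {P : Ideal (MvPolynomial (Fin e) K)}
    (h : ∀ p j, q2 f a p j ∈ P) (r s j : Fin e) :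
    pderiv a f * (pderiv s f * pderiv r (pderiv j f) - pderiv r f * pderiv s (pderiv j f)) -
      pderiv j f * (pderiv s f * pderiv r (pderiv a f) - pderiv r f * pderiv s (pderiv a f)) ∈ P := by
  have key : ∀ p : Pr e, pderiv a f * (pderiv p.1.2 f * pderiv p.1.1 (pderiv j f) -
      pderiv p.1.1 f * pderiv p.1.2 (pderiv j f)) - pderiv j f * (pderiv p.1.2 f *
      pderiv p.1.1 (pderiv a f) - pderiv p.1.1 f * pderiv p.1.2 (pderiv a f)) ∈ P := by
    intro p
    have h1 := h p j
    have h2 : ∀ G, NN f p G = pderiv p.1.2 f * pderiv p.1.1 G - pderiv p.1.1 f * pderiv p.1.2 G := by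
      intro G
      unfold NN
      simp only [act_single, sub_mul, ite_mul, zero_mul, Finset.sum_sub_distrib,
        Finset.sum_ite_eq', Finset.mem_univ, if_true]
    unfold q2 at h1
    rwa [h2, h2] at h1
  rcases lt_trichotomy r s with hrs | hrs | hrs
  · exact key ⟨(r, s), hrs⟩
  · subst hrs
    have : pderiv a f * (pderiv r f * pderiv r (pderiv j f) - pderiv r f * pderiv r (pderiv j f)) -
      pderiv j f * (pderiv r f * pderiv r (pderiv a f) - pderiv r f * pderiv r (pderiv a f)) = 0 := by
      ring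
    rw [this]; exact P.zero_mem
  · have h1 := P.neg_mem (key ⟨(s, r), hrs⟩)
    convert h1 using 1
    simp only
    ring

variable [CharZero K]

/-- `f` vanishes on all tangent lines at a smooth point -/
lemma ln_eq_zero {f : MvPolynomial (Fin e) K} {a : Fin e}
    (h : ∀ r s j : Fin e, f ∣ pderiv a f * (pderiv s f * pderiv r (pderiv j f) -
      pderiv r f * pderiv s (pderiv j f)) - pderiv j f * (pderiv s f * pderiv r (pderiv a f) -
      pderiv r f * pderiv s (pderiv a f)))
    {p : Fin e → K} (hp : eval p f = 0) (ha : eval p (pderiv a f) ≠ 0) {v : Fin e → K}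
    (hv : ∑ j, v j * eval p (pderiv j f) = 0) : ln p v f = 0 := by
  classical
  set φ := ln p v f with hφ
  set ν : Fin e → Polynomial K := fun j => ln p v (pderiv j f) with hν
  set ψ := ∑ j, Polynomial.C (v j) * ν j with hψ
  have hder : Polynomial.derivative φ = ψ := derivative_ln p v f
  have hν0 : ∀ j, (ν j).coeff 0 = eval p (pderiv j f) := fun j => coeff_zero_ln _ _ _
  have hνd : ∀ j, Polynomial.derivative (ν j) =
      ∑ i, Polynomial.C (v i) * ln p v (pderiv i (pderiv j f)) := fun j => derivative_ln _ _ _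
  -- the main induction
  have key : ∀ k : ℕ, (Polynomial.X : Polynomial K) ^ (k + 1) ∣ φ := by
    intro k
    induction k with
    | zero =>
      rw [zero_add, pow_one, Polynomial.X_dvd_iff, hφ, coeff_zero_ln, hp]
    | succ k ih =>
      have hψ1 : (Polynomial.X : Polynomial K) ^ k ∣ ψ := by
        rw [← hder]; exact X_pow_dvd_derivative ih
      -- the Wronskian
      have hw : ∀ j, (Polynomial.X : Polynomial K) ^ k ∣
          ν a * Polynomial.derivative (ν j) - ν j * Polynomial.derivative (ν a) := by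
        intro j
        have h1 : (Polynomial.X : Polynomial K) ^ (k + 1) ∣ ∑ i, Polynomial.C (v i) *
            ln p v (pderiv a f * (pderiv a f * pderiv i (pderiv j f) -
              pderiv i f * pderiv a (pderiv j f)) - pderiv j f * (pderiv a f *
              pderiv i (pderiv a f) - pderiv i f * pderiv a (pderiv a f))) := by
          refine Finset.dvd_sum fun i _ => Dvd.dvd.mul_left (ih.trans ?_) _
          exact map_dvd (ln p v) (h i a j)
        have h2 : ∑ i, Polynomial.C (v i) *
            ln p v (pderiv a f * (pderiv a f * pderiv i (pderiv j f) -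
              pderiv i f * pderiv a (pderiv j f)) - pderiv j f * (pderiv a f *
              pderiv i (pderiv a f) - pderiv i f * pderiv a (pderiv a f))) =
            ν a * (ν a * Polynomial.derivative (ν j) - ν j * Polynomial.derivative (ν a)) -
              ψ * (ν a * ln p v (pderiv a (pderiv j f)) -
                ν j * ln p v (pderiv a (pderiv a f))) := by
          rw [hνd, hνd, hψ]
          simp only [map_sub, map_mul, mul_sub, Finset.mul_sum, Finset.sum_mul,
            Finset.sum_sub_distrib]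
          simp only [← Finset.sum_sub_distrib]
          refine Finset.sum_congr rfl fun i _ => ?_
          simp only [hν]
          ring
        rw [h2] at h1
        have h3 : (Polynomial.X : Polynomial K) ^ k ∣
            ν a * (ν a * Polynomial.derivative (ν j) - ν j * Polynomial.derivative (ν a)) := by
          have h4 := ((pow_dvd_pow (Polynomial.X : Polynomial K) (Nat.le_succ k)).trans h1)
          have h5 := dvd_add h4 (hψ1.mul_right (ν a * ln p v (pderiv a (pderiv j f)) -
            ν j * ln p v (pderiv a (pderiv a f))))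
          simpa using h5
        have hcop : IsCoprime ((Polynomial.X : Polynomial K) ^ k) (ν a) := by
          apply IsCoprime.pow_left
          rw [Polynomial.irreducible_X.coprime_iff_not_dvd, Polynomial.X_dvd_iff, hν0]
          exact ha
        exact hcop.dvd_of_dvd_mul_left h3
      -- all `ν j` are proportional to `ν a` up to order `k+1`
      have hprop : ∀ j, (Polynomial.X : Polynomial K) ^ (k + 1) ∣
          Polynomial.C (eval p (pderiv a f)) * ν j - Polynomial.C (eval p (pderiv j f)) * ν a := by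
        intro j
        refine X_pow_dvd_of_wronskian (ν := ν a) (by rw [hν0]; exact ha) ?_ ?_
        · rw [Polynomial.coeff_sub, Polynomial.coeff_C_mul, Polynomial.coeff_C_mul, hν0, hν0]
          ring
        · have h1 : ν a * Polynomial.derivative (Polynomial.C (eval p (pderiv a f)) * ν j -
              Polynomial.C (eval p (pderiv j f)) * ν a) - (Polynomial.C (eval p (pderiv a f)) *
              ν j - Polynomial.C (eval p (pderiv j f)) * ν a) * Polynomial.derivative (ν a) =
              Polynomial.C (eval p (pderiv a f)) * (ν a * Polynomial.derivative (ν j) -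
                ν j * Polynomial.derivative (ν a)) := by
            simp only [Polynomial.derivative_sub, Polynomial.derivative_mul,
              Polynomial.derivative_C, zero_mul, zero_add]
            ring
          rw [h1]
          exact (hw j).mul_left _
      have hψ2 : (Polynomial.X : Polynomial K) ^ (k + 1) ∣ ψ := by
        have h1 : Polynomial.C (eval p (pderiv a f)) * ψ = ∑ j, Polynomial.C (v j) *
            (Polynomial.C (eval p (pderiv a f)) * ν j - Polynomial.C (eval p (pderiv j f)) * ν a) := by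
          have h2 : ∑ j, Polynomial.C (v j) * (Polynomial.C (eval p (pderiv j f)) * ν a) = 0 := by
            have h3 : ∑ j, Polynomial.C (v j) * (Polynomial.C (eval p (pderiv j f)) * ν a) =
                Polynomial.C (∑ j, v j * eval p (pderiv j f)) * ν a := by
              rw [map_sum, Finset.sum_mul]
              exact Finset.sum_congr rfl fun j _ => by rw [map_mul]; ring
            rw [h3, hv, map_zero, zero_mul]
          simp only [mul_sub, Finset.sum_sub_distrib, h2, sub_zero, hψ, Finset.mul_sum]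
          exact Finset.sum_congr rfl fun j _ => by ring
        have h2 : (Polynomial.X : Polynomial K) ^ (k + 1) ∣
            Polynomial.C (eval p (pderiv a f)) * ψ := by
          rw [h1]
          exact Finset.dvd_sum fun j _ => (hprop j).mul_left _
        have hu : IsUnit (Polynomial.C (eval p (pderiv a f))) :=
          Polynomial.isUnit_C.2 (isUnit_iff_ne_zero.2 ha)
        exact (hu.dvd_mul_left).1 h2
      refine X_pow_succ_dvd_of_derivative ?_ (by rw [hder]; exact hψ2)
      rw [hφ, coeff_zero_ln, hp]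
  by_contra hne
  have h1 := key φ.natDegree
  have h2 := Polynomial.natDegree_le_of_dvd h1 hne
  rw [Polynomial.natDegree_X_pow] at h2
  omega

/-- **(HYP)** -/
theorem totalDegree_le_one {P : Ideal (MvPolynomial (Fin e) K)} [hPp : P.IsPrime]
    {f : MvPolynomial (Fin e) K} (hfP : f ∈ P) (hP : ∀ g ∈ P, f ∣ g)
    (hmin : ∀ g ∈ P, g.totalDegree < f.totalDegree → g = 0) {a : Fin e}
    (hq2 : ∀ p j, q2 f a p j ∈ P)
    {p : Fin e → K} (hp : eval p f = 0) (ha : eval p (pderiv a f) ≠ 0) :
    f.totalDegree ≤ 1 := by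
  classical
  have hinf : Infinite K := inferInstance
  have hf0 : f ≠ 0 := by
    rintro rfl
    simp at ha
  have hline : ∀ v : Fin e → K, ∑ j, v j * eval p (pderiv j f) = 0 →
      eval (fun i => p i + v i) f = 0 := by
    intro v hv
    have h1 := ln_eq_zero (fun r s j => hP _ (q2_gen hq2 r s j)) hp ha hv
    have h2 := eval_ln p v 1 f
    rw [h1, Polynomial.eval_zero] at h2
    simpa using h2.symm
  -- the linear polynomial
  set L : MvPolynomial (Fin e) K := ∑ j, C (eval p (pderiv j f)) * (X j - C (p j)) with hL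
  have hLdeg : L.totalDegree ≤ 1 := by
    refine totalDegree_finsetSum_le fun j _ => ?_
    refine (totalDegree_mul _ _).trans ?_
    rw [totalDegree_C, zero_add]
    refine (totalDegree_sub _ _).trans (max_le ?_ ?_)
    · exact (totalDegree_X j).le
    · rw [totalDegree_C]; exact Nat.zero_le _
  have hLa : pderiv a L = C (eval p (pderiv a f)) := by
    rw [hL, map_sum, Finset.sum_eq_single a]
    · rw [pderiv_C_mul, map_sub, pderiv_X_self, pderiv_C, sub_zero]; simp
    · intro j _ hj
      rw [pderiv_C_mul, map_sub, pderiv_X_of_ne hj, pderiv_C, sub_zero]; simp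
    · simp
  have hL0 : L ≠ 0 := by
    intro h
    rw [h, map_zero] at hLa
    exact ha (by rw [← C_eq_zero (σ := Fin e), ← hLa])
  -- projection to the hyperplane `L = 0`
  set s : MvPolynomial (Fin e) K →ₐ[K] MvPolynomial (Fin e) K :=
    aeval fun i => if i = a then X i - C (eval p (pderiv a f))⁻¹ * L else X i with hs
  have hsf : s f = 0 := by
    apply MvPolynomial.funext
    intro x
    rw [map_zero]
    have h1 : eval x (s f) = eval (fun i => p i + (x i - p i - (if i = a then
        (eval p (pderiv a f))⁻¹ * eval x L else 0))) f := by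
      rw [hs]
      rw [← MvPolynomial.coe_aeval_eq_eval, ← MvPolynomial.coe_aeval_eq_eval]
      have h2 : ((aeval x : MvPolynomial (Fin e) K →ₐ[K] K).comp (aeval fun i => if i = a then
          X i - C (eval p (pderiv a f))⁻¹ * L else X i)) = aeval (fun i => p i + (x i - p i -
          (if i = a then (eval p (pderiv a f))⁻¹ * eval x L else 0))) := by
        apply MvPolynomial.algHom_ext
        intro i
        rw [AlgHom.comp_apply, aeval_X, aeval_X]
        split_ifs with h
        · have h5 : ∀ g : MvPolynomial (Fin e) K, (aeval x : MvPolynomial (Fin e) K →ₐ[K] K) g =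
              eval x g := fun g => rfl
          rw [map_sub, map_mul, aeval_X, h5, h5, eval_C]
          ring
        · rw [aeval_X]; ring
      have h3 := DFunLike.congr_fun h2 f
      rw [AlgHom.comp_apply] at h3
      exact h3
    rw [h1]
    apply hline
    have h4 : eval x L = ∑ j, eval p (pderiv j f) * (x j - p j) := by
      rw [hL, map_sum]
      exact Finset.sum_congr rfl fun j _ => by simp
    simp only [sub_mul, Finset.sum_sub_distrib, ite_mul, zero_mul, Finset.sum_ite_eq',
      Finset.mem_univ, if_true]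
    rw [h4]
    have h5 : (eval p (pderiv a f))⁻¹ * (∑ j, eval p (pderiv j f) * (x j - p j)) *
        eval p (pderiv a f) = ∑ j, eval p (pderiv j f) * (x j - p j) := by
      field_simp
    rw [h5]
    simp only [mul_sub, Finset.sum_sub_distrib]
    rw [sub_eq_zero]
    congr 1 <;> exact Finset.sum_congr rfl fun j _ => by ring
  have hcong : ∀ g : MvPolynomial (Fin e) K, L ∣ s g - g := by
    intro g
    induction g using MvPolynomial.induction_on with
    | C c => rw [hs]; simp
    | add g h hg hh =>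
      rw [map_add]
      have := dvd_add hg hh
      convert this using 1; ring
    | mul_X g i hg =>
      rw [map_mul]
      have h1 : L ∣ s (X i) - X i := by
        rw [hs, aeval_X]
        split_ifs with h
        · exact ⟨-C (eval p (pderiv a f))⁻¹, by ring⟩
        · simp
      have h2 : s g * s (X i) - g * X i = (s g - g) * s (X i) + g * (s (X i) - X i) := by ring
      rw [h2]
      exact dvd_add (hg.mul_right _) (h1.mul_left _)
  have hLf : L ∣ f := by
    have := hcong f
    rw [hsf, zero_sub] at this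
    exact (dvd_neg).1 this
  obtain ⟨g, hg⟩ := hLf
  have hg0 : g ≠ 0 := by rintro rfl; exact hf0 (by rw [hg, mul_zero])
  have hLdeg1 : 1 ≤ L.totalDegree := by
    by_contra hlt
    have h0 : L.totalDegree = 0 := by omega
    rw [totalDegree_eq_zero_iff_eq_C] at h0
    rw [h0, pderiv_C] at hLa
    exact ha (by rw [← C_eq_zero (σ := Fin e), ← hLa])
  have hdeg : f.totalDegree = L.totalDegree + g.totalDegree := by
    rw [hg]; exact totalDegree_mul_of_isDomain hL0 hg0
  rcases hPp.mem_or_mem (hg ▸ hfP : L * g ∈ P) with h1 | h1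
  · by_contra hlt
    exact hL0 (hmin L h1 (by omega))
  · exact absurd (hmin g h1 (by omega)) hg0

end hyp

/-! ### (ISO): the points are pairwise null -/

section iso

variable {e : ℕ} {K : Type*} [Field K]

lemma pderiv_cD (δ : Derivation ℤ K K) (k : Fin e) (p : MvPolynomial (Fin e) K) :
    pderiv k (cD δ p) = cD δ (pderiv k p) := by
  classical
  ext s
  rw [coeff_pderiv, coeff_cD, coeff_cD, coeff_pderiv, Derivation.leibniz]
  have h1 : δ ((s k : K) + 1) = 0 := by
    have : ((s k : K) + 1) = ((s k + 1 : ℕ) : K) := by push_cast; ring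
    rw [this]
    exact Derivation.map_natCast _ _
  rw [h1, smul_zero, zero_add, smul_eq_mul, mul_comm]

lemma pderiv_cc (δ : Pr e → Derivation ℤ K K) {f : MvPolynomial (Fin e) K} {ν : Fin e → K}
    (hν : ∀ j, pderiv j f = C (ν j)) (k a b : Fin e) :
    pderiv k (cc δ f a b) = C (sk (fun p => δ p (ν k)) a b) := by
  unfold cc sk
  split_ifs
  · rw [pderiv_cD, hν, cD_C]
  · rw [map_neg, pderiv_cD, hν, cD_C, map_neg]
  · rw [map_zero, map_zero]

variable [CharZero K]

/-- an affine polynomial -/
lemma eval_sub_eval {g : MvPolynomial (Fin e) K} {μ : Fin e → K}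
    (hμ : ∀ j, pderiv j g = C (μ j)) (x y : Fin e → K) :
    eval x g - eval y g = ∑ j, μ j * (x j - y j) := by
  classical
  obtain ⟨c, hc⟩ := eq_C_of_pderiv_eq_zero (p := g - ∑ j, C (μ j) * X j) (by
    intro j
    rw [map_sub, hμ, map_sum, Finset.sum_eq_single j]
    · rw [pderiv_C_mul, pderiv_X_self, mul_one, sub_self]
    · intro i _ hi
      rw [pderiv_C_mul, pderiv_X_of_ne hi, mul_zero]
    · simp)
  have h1 : g = C c + ∑ j, C (μ j) * X j := by rw [← hc]; ring
  rw [h1]
  simp only [map_add, map_sum, map_mul, eval_C, eval_X, mul_sub, Finset.sum_sub_distrib]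
  ring

/-- **CASE G** -/
theorem null_of_all_mem {δ : Pr e → Derivation ℤ K K} {S : Pr e → K} (hS : DS δ S)
    {P : Ideal (MvPolynomial (Fin e) K)} [hPp : P.IsPrime]
    {f : MvPolynomial (Fin e) K} (hfP : f ∈ P) (hP : ∀ g ∈ P, f ∣ g)
    (hmin : ∀ g ∈ P, g.totalDegree < f.totalDegree → g = 0) {a : Fin e}
    (hq2 : ∀ p j, q2 f a p j ∈ P) (hq1 : ∀ p j, q1 δ f a p j ∈ P)
    {Sig : Set (Pt e K)} (hx : ∀ z ∈ Sig, Cst δ z.1) (hy : ∀ z ∈ Sig, Cst δ z.2)
    (hf : ∀ z ∈ Sig, eval (th S z) f = 0)
    (ha : ∃ z ∈ Sig, eval (th S z) (pderiv a f) ≠ 0) :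
    ∀ z ∈ Sig, ∀ w ∈ Sig, Null z w := by
  classical
  obtain ⟨z0, hz0, ha⟩ := ha
  have hdeg := totalDegree_le_one hfP hP hmin hq2 (hf z0 hz0) ha
  have hν' : ∀ j, ∃ c, pderiv j f = C c := by
    intro j
    refine ⟨coeff 0 (pderiv j f), ?_⟩
    rw [← totalDegree_eq_zero_iff_eq_C]
    have := totalDegree_pderiv_le j f
    omega
  choose ν hν using hν'
  have hνa : ν a ≠ 0 := by
    rw [hν, eval_C] at ha; exact ha
  set D : Fin e → Fin e → Fin e → K := fun r s k => sk (fun p => δ p (ν k)) r s with hD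
  -- (★) for `r < s`
  have hstar0 : ∀ (p : Pr e) (j : Fin e), ν a * δ p (ν j) - ν j * δ p (ν a) =
      ν p.1.2 * D a j p.1.1 - ν p.1.1 * D a j p.1.2 := by
    intro p j
    have hNN : ∀ G : MvPolynomial (Fin e) K, NN f p G =
        C (ν p.1.2) * pderiv p.1.1 G - C (ν p.1.1) * pderiv p.1.2 G := by
      intro G
      unfold NN
      simp only [act_single, sub_mul, ite_mul, zero_mul, Finset.sum_sub_distrib,
        Finset.sum_ite_eq', Finset.mem_univ, if_true, hν]
    have hMM : ∀ c : K, MM δ f a p (C c) = C (ν a * δ p c) := by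
      intro c
      unfold MM
      simp only [cD_C, pderiv_C, mul_zero, Finset.sum_const_zero, sub_zero, hν, C_mul]
    have h1 : q1 δ f a p j = C (ν a * (ν a * δ p (ν j) - ν j * δ p (ν a) -
        (ν p.1.2 * D a j p.1.1 - ν p.1.1 * D a j p.1.2))) := by
      unfold q1
      rw [hν j, hν a, hMM, hMM, hNN, hNN, pderiv_cc δ hν, pderiv_cc δ hν]
      simp only [pderiv_C, mul_zero, sub_zero, add_zero, hD, C_mul, C_sub]
      ring
    have h2 := hq1 p j
    rw [h1] at h2
    have h3 : ν a * (ν a * δ p (ν j) - ν j * δ p (ν a) -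
        (ν p.1.2 * D a j p.1.1 - ν p.1.1 * D a j p.1.2)) = 0 := by
      by_contra hne
      apply hPp.ne_top
      rw [Ideal.eq_top_iff_one]
      have := P.mul_mem_left (C (ν a * (ν a * δ p (ν j) - ν j * δ p (ν a) -
        (ν p.1.2 * D a j p.1.1 - ν p.1.1 * D a j p.1.2)))⁻¹) h2
      rwa [← C_mul, inv_mul_cancel₀ hne, C_1] at this
    have h4 := (mul_eq_zero.1 h3).resolve_left hνa
    exact sub_eq_zero.1 h4
  -- (★)
  have hstar : ∀ r s j : Fin e, ν a * D r s j - ν j * D r s a = ν s * D a j r - ν r * D a j s := by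
    intro r s j
    rcases lt_trichotomy r s with hrs | hrs | hrs
    · have := hstar0 ⟨(r, s), hrs⟩ j
      have h1 : ∀ k, D r s k = δ ⟨(r, s), hrs⟩ (ν k) := fun k => sk_of_lt _ ⟨(r, s), hrs⟩
      rw [h1, h1]; exact this
    · subst hrs
      have h1 : ∀ k, D r r k = 0 := fun k => sk_self _ _
      rw [h1, h1]; ring
    · have := hstar0 ⟨(s, r), hrs⟩ j
      have h1 : ∀ k, D r s k = -δ ⟨(s, r), hrs⟩ (ν k) := fun k => by
        rw [hD]; simp only; rw [sk_swap]; congr 1; exact sk_of_lt _ ⟨(s, r), hrs⟩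
      rw [h1, h1]
      simp only at this
      linear_combination -this
  intro z hz w hw
  set π : Fin e → K := fun j => th S z j - th S w j with hπ
  have hνπ : ∑ j, ν j * π j = 0 := by
    have := eval_sub_eval hν (th S z) (th S w)
    rw [hf z hz, hf w hw, sub_zero] at this
    exact this.symm
  have hδ : ∀ j, ν a * (z.1 j - w.1 j) = (z.1 a - w.1 a) * ν j - ∑ k, D a j k * π k := by
    intro j
    have h1 := eval_X_eq hS (hx z hz) (hy z hz) (hf z hz) a j
    have h2 := eval_X_eq hS (hx w hw) (hy w hw) (hf w hw) a j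
    have h3 := eval_sub_eval (fun k => pderiv_cc δ hν k a j) (th S z) (th S w)
    rw [hν a, hν j, eval_C, eval_C] at h1 h2
    linear_combination h1 - h2 - h3
  have hB : ν a * ∑ j, ∑ k, D a j k * π j * π k = 0 := by
    have h1 : ∀ j k, ν a * (D a k j + D a j k) = ν j * D a k a + ν k * D a j a := by
      intro j k
      have := hstar a k j
      linear_combination this
    have h2 : ∑ j, ∑ k, D a k j * π j * π k = ∑ j, ∑ k, D a j k * π j * π k := by
      rw [Finset.sum_comm]
      exact Finset.sum_congr rfl fun j _ => Finset.sum_congr rfl fun k _ => by ring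
    have h3 : ∑ j, ∑ k, (ν j * D a k a + ν k * D a j a) * π j * π k = 0 := by
      have h4 : ∑ j, ∑ k, (ν j * D a k a + ν k * D a j a) * π j * π k =
          (∑ j, ν j * π j) * (∑ k, D a k a * π k) + (∑ j, D a j a * π j) * (∑ k, ν k * π k) := by
        rw [Finset.sum_mul_sum, Finset.sum_mul_sum, ← Finset.sum_add_distrib]
        refine Finset.sum_congr rfl fun j _ => ?_
        rw [← Finset.sum_add_distrib]
        exact Finset.sum_congr rfl fun k _ => by ring
      rw [h4, hνπ]; ring
    have h5 : 2 * (ν a * ∑ j, ∑ k, D a j k * π j * π k) = 0 := by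
      rw [← h3]
      have h6 : ∑ j, ∑ k, (ν j * D a k a + ν k * D a j a) * π j * π k =
          ν a * ∑ j, ∑ k, D a k j * π j * π k + ν a * ∑ j, ∑ k, D a j k * π j * π k := by
        simp only [Finset.mul_sum]
        rw [← Finset.sum_add_distrib]
        refine Finset.sum_congr rfl fun j _ => ?_
        rw [← Finset.sum_add_distrib]
        refine Finset.sum_congr rfl fun k _ => ?_
        rw [← h1]; ring
      rw [h6, h2]; ring
    exact (mul_eq_zero.1 h5).resolve_left two_ne_zero
  have hdot : ∑ j, (z.1 j - w.1 j) * π j = 0 := by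
    have h1 : ν a * ∑ j, (z.1 j - w.1 j) * π j = 0 := by
      have h2 : ν a * ∑ j, (z.1 j - w.1 j) * π j = (z.1 a - w.1 a) * ∑ j, ν j * π j -
          ∑ j, ∑ k, D a j k * π j * π k := by
        rw [Finset.mul_sum, Finset.mul_sum, ← Finset.sum_sub_distrib]
        refine Finset.sum_congr rfl fun j _ => ?_
        have h3 : ∑ k, D a j k * π j * π k = π j * ∑ k, D a j k * π k := by
          rw [Finset.mul_sum]; exact Finset.sum_congr rfl fun k _ => by ring
        rw [h3]
        linear_combination (π j) * hδ j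
      rw [h2, hνπ, (mul_eq_zero.1 hB).resolve_left hνa]; ring
    exact (mul_eq_zero.1 h1).resolve_left hνa
  -- conclusion
  unfold Null q
  have h1 := dot_act_self S (z.1 - w.1)
  have h2 : ∑ i, (z - w).1 i * (z - w).2 i = ∑ j, (z.1 j - w.1 j) * π j -
      ∑ i, (z.1 - w.1) i * act S (z.1 - w.1) i := by
    rw [← Finset.sum_sub_distrib]
    refine Finset.sum_congr rfl fun j _ => ?_
    rw [act_sub_right]
    simp only [hπ, th, Prod.fst_sub, Prod.snd_sub, Pi.sub_apply, Pi.add_apply]
    ring
  rw [h2, hdot, h1, sub_zero]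

end iso

end Crest.Agent.R065.Cod1
end

-- ▼ part R065/Swept_143
section

/-!
# Row 65: the swept variety (143 #12339 (5)), codimension at least two

`K = Frac k[S]`, `P` prime of `K[θ_1..θ_e]` vanishing at the points `θ_z = y + S x`, `z ∈ Sg`.
If every condition of degree `≤ CS e * flagTop P` satisfied on `1/16` of `Sg` lies in `P`, then
most of `Sg` lies on a prime `M` of `k[x, y]` of the same dimension and of no larger degree.
-/

set_option autoImplicit false

open MvPolynomial Module

namespace Crest.Agent.R065.Swept143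

open Crest.Agent.R065.HF669 Crest.Agent.R065.Base348 Crest.Agent.R065.Cramer234
  Crest.Agent.R065.Mblk474 Crest.Agent.R065.Pins348

/-! ### the derivation lemma with flags -/

section der

variable {σ : Type*} [Fintype σ] {K : Type*} [Field K] [Infinite K] [CharZero K]



end der

/-! ### the setting -/

section setting

variable {e : ℕ} (k : Type*) [Field k] (K : Type*) [Field K]
  [Algebra (MvPolynomial (Pr e) k) K]

/-- the generic skew matrix in `K` -/
noncomputable def SK : Pr e → K := fun p => algebraMap (MvPolynomial (Pr e) k) K (X p)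

variable {k} [Algebra k K]

/-- a point with coordinates in `K` -/
noncomputable def toK (z : Pt e k) : Pt e K :=
  (fun i => algebraMap k K (z.1 i), fun i => algebraMap k K (z.2 i))

/-- the point `θ_z = y + S x` -/
noncomputable def thK (z : Pt e k) : Fin e → K := th (SK k K) (toK K z)

variable {K} [IsScalarTower k (MvPolynomial (Pr e) k) K]
  [IsFractionRing (MvPolynomial (Pr e) k) K]

variable (k K) in
/-- the derivations `∂/∂S_p` of `K` -/
theorem exists_delta : ∃ δ : Pr e → Derivation ℤ K K,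
    (∀ p g, δ p (algebraMap (MvPolynomial (Pr e) k) K g) =
      algebraMap (MvPolynomial (Pr e) k) K (pderiv p g)) ∧ DS δ (SK k K) ∧
    ∀ z : Pt e k, Cst δ (toK K z).1 ∧ Cst δ (toK K z).2 := by
  have h1 : ∀ p : Pr e, ∃ D : Derivation ℤ K K, ∀ g,
      D (algebraMap (MvPolynomial (Pr e) k) K g) =
        algebraMap (MvPolynomial (Pr e) k) K (pderiv p g) := by
    intro p
    refine exists_der_ext (algebraMap (MvPolynomial (Pr e) k) K) (fun x => ?_)
      ((pderiv p).restrictScalars ℤ) (fun r hr => ?_)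
    · obtain ⟨a, b, hb, hx⟩ := IsFractionRing.div_surjective (A := MvPolynomial (Pr e) k) x
      refine ⟨a, b, ?_, hx.symm⟩
      rw [Ne, map_eq_zero_iff _ (IsFractionRing.injective (MvPolynomial (Pr e) k) K)]
      exact nonZeroDivisors.ne_zero hb
    · rw [map_eq_zero_iff _ (IsFractionRing.injective (MvPolynomial (Pr e) k) K)] at hr
      rw [hr, map_zero, map_zero]
  choose δ hδ using h1
  have hc : ∀ p (c : k), δ p (algebraMap k K c) = 0 := by
    intro p c
    rw [IsScalarTower.algebraMap_apply k (MvPolynomial (Pr e) k) K, hδ, algebraMap_eq, pderiv_C,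
      map_zero]
  refine ⟨δ, hδ, fun p q => ?_, fun z => ⟨fun p i => hc p _, fun p i => hc p _⟩⟩
  unfold SK
  rw [hδ, pderiv_X, Pi.single_apply]
  by_cases h : q = p
  · subst h
    simp
  · rw [if_neg h, if_neg (fun hc => h hc), map_zero]

/-! ### the constant variety -/

section constvar

variable {F : Type*} [Field F] [Algebra K F]

/-- **the constant variety has the same dimension, and degree `≤ s * degP P`**; `s = [F : K(θ)]` -/
theorem constVar [CharZero k] [Infinite k] [Infinite K] [Algebra k F] [IsScalarTower k K F]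
    {δ : Pr e → Derivation ℤ K K}
    (hδ : ∀ p g, δ p (algebraMap (MvPolynomial (Pr e) k) K g) =
      algebraMap (MvPolynomial (Pr e) k) K (pderiv p g))
    {θ : Fin e → F} {Dd : Pr e → Derivation ℤ F F} {ξ η : Fin e → F}
    (hC : ConstData δ (SK k K) F θ Dd ξ η)
    {P : Ideal (MvPolynomial (Fin e) K)} (hP0 : P ≠ ⊥)
    (hP : P = RingHom.ker (aeval θ : MvPolynomial (Fin e) K →ₐ[K] F))
    [hfd : FiniteDimensional (IntermediateField.adjoin K (Set.range θ)) F]
    {s : ℕ} (hs : finrank (IntermediateField.adjoin K (Set.range θ)) F ≤ s)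
    {M : Ideal (MvPolynomial (Fin e ⊕ Fin e) k)}
    (hM : M = RingHom.ker (aeval (Sum.elim ξ η) : MvPolynomial (Fin e ⊕ Fin e) k →ₐ[k] F)) :
    M.IsPrime ∧ dimP M = dimP P ∧ degP M ≤ s * degP P ∧
      (∀ m, HF M m ≤ s * degP P * (m + dimP P).choose (dimP P)) := by
  have hMp : M.IsPrime := by rw [hM]; exact RingHom.ker_isPrime _
  have hPp : P.IsPrime := by rw [hP]; exact RingHom.ker_isPrime _
  have hD : ∀ p (g : MvPolynomial (Pr e) k),
      Dd p (algebraMap K F (algebraMap (MvPolynomial (Pr e) k) K g)) =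
        algebraMap K F (algebraMap (MvPolynomial (Pr e) k) K (pderiv p g)) := by
    intro p g
    rw [hC.ext, hδ]
  have hsF : (sF k K F : Pr e → F) = fun p => algebraMap K F (SK k K p) := by
    funext p; rfl
  have hdep : ¬ AlgebraicIndependent K θ := by
    intro h
    apply hP0
    rw [hP]
    rw [eq_bot_iff]
    intro g hg
    rw [RingHom.mem_ker] at hg
    have h1 : Function.Injective (aeval θ : MvPolynomial (Fin e) K →ₐ[K] F) := h
    exact h1 (by rw [map_zero]; exact hg)
  have hupper : ∀ m, HF M m ≤ s * degP P * (m + dimP P).choose (dimP P) := by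
    intro m
    have h1 := M_main Dd hD ξ η θ (fun i => by rw [hsF]; exact hC.theta i)
      (fun i p => hC.xi p i) (fun i p => hC.eta p i) hdep P hP m
    have h2 : HF M m = finrank k (U k (Sum.elim ξ η : Fin e ⊕ Fin e → F) m) := by
      rw [hM]; exact HF_ker_aeval _ m
    rw [h2]
    refine h1.trans ?_
    gcongr
  have hlower : ∀ m, HF P m ≤ HF M m := by
    intro m
    have h2 : HF M m = finrank k (U k (Sum.elim ξ η : Fin e ⊕ Fin e → F) m) := by
      rw [hM]; exact HF_ker_aeval _ m
    have h3 : HF P m = finrank K (U K θ m) := by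
      rw [hP]; exact HF_ker_aeval _ m
    rw [h2, h3, finrank_U_eq Dd hD (Sum.elim ξ η) (by
      rintro (i | i) p
      · exact hC.xi p i
      · exact hC.eta p i) m]
    refine Submodule.finrank_mono ?_
    refine U_le_U (fun i => ?_) m
    rw [hC.theta i, ← hsF]
    exact Submodule.add_mem _ (self_mem_U _ (Sum.inr i))
      (act_mem_U (fun i => self_mem_U (k := K) (Sum.elim ξ η : Fin e ⊕ Fin e → F) (Sum.inl i)) i)
  have hdim : dimP M = dimP P := by
    apply le_antisymm
    · obtain ⟨b, hb⟩ := (isDimDeg M).ge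
      refine exp_le_of_choose_le (r₁ := dimP M) (r₂ := dimP P) (δ₁ := degP M)
        (δ₂ := s * degP P) (c₁ := 0) (c₂ := b) (degP_pos M) ?_
      refine Filter.Eventually.of_forall fun m => ?_
      have h2 := hb m
      have h3 := hupper (m + b)
      simpa using h2.trans h3
    · exact (isDimDeg P).dim_le (c := 0) (C := 1) (isDimDeg M)
        (Filter.Eventually.of_forall fun m => by simpa using hlower m)
  refine ⟨hMp, hdim, ?_, hupper⟩
  obtain ⟨b, hb⟩ := (isDimDeg M).ge
  refine le_of_choose_le (r := dimP P) (c₁ := 0) (c₂ := b) ?_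
  refine Filter.Eventually.of_forall fun m => ?_
  have h2 := hb m
  have h3 := hupper (m + b)
  rw [hdim] at h2
  simpa using h2.trans h3

end constvar

/-! ### the swept theorem in codimension at least two -/

section swept




/-- nonzero element of least degree, of degree `≤ flagTop P` -/
lemma exists_min [Infinite K] {P : Ideal (MvPolynomial (Fin e) K)} [hP : P.IsPrime]
    (hdim : dimP P + 1 ≤ e) : ∃ f ∈ P, f ≠ 0 ∧ f.totalDegree ≤ flagTop P ∧
      ∀ g ∈ P, g.totalDegree < f.totalDegree → g = 0 := by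
  classical
  have h1 : ∃ g ∈ P, g ≠ 0 ∧ g.totalDegree ≤ flagTop P := by
    by_contra hc
    push Not at hc
    have h2 := cod_flagTop (P := P) ⊥ Ideal.isPrime_bot bot_le (fun g hg hgd => by
      by_contra hne
      exact absurd hgd (not_le.2 (hc g hg (fun h => hne (by rw [h]; exact Ideal.zero_mem _)))))
    rw [dimP_bot, Fintype.card_fin] at h2
    omega
  obtain ⟨g, hg, hg0, hgd⟩ := h1
  have hex : ∃ n, ∃ f ∈ P, f ≠ 0 ∧ f.totalDegree = n := ⟨_, g, hg, hg0, rfl⟩
  obtain ⟨f, hf, hf0, hfn⟩ := Nat.find_spec hex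
  refine ⟨f, hf, hf0, ?_, fun u hu hud => ?_⟩
  · rw [hfn]
    exact (Nat.find_min' hex ⟨g, hg, hg0, rfl⟩).trans hgd
  · by_contra hu0
    exact Nat.find_min hex (hfn ▸ hud) ⟨u, hu, hu0, rfl⟩






end swept

end setting

end Crest.Agent.R065.Swept143
end

-- ▼ part R065/Swept1_392

/-!
# Row 65, codimension one: the swept theorem   (helper392)
-/

set_option autoImplicit false

open MvPolynomial Module

namespace Crest.Agent.R065.Cod1q392

open Crest.Agent.R065.HF669 Crest.Agent.R065.Base348 Crest.Agent.R065.Cramer234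
  Crest.Agent.R065.Mblk474 Crest.Agent.R065.Swept143 Crest.Agent.R065.Pins348

universe u

section cod1

variable {e : ℕ} {K : Type u} [Field K] [CharZero K]

omit [CharZero K] in
lemma pos_of_mem {P : Ideal (MvPolynomial (Fin e) K)} [hP : P.IsPrime]
    {f : MvPolynomial (Fin e) K} (hf : f ∈ P) (hf0 : f ≠ 0) : f.totalDegree ≠ 0 := by
  intro h0
  rw [totalDegree_eq_zero_iff_eq_C] at h0
  rw [h0] at hf hf0
  have hc0 : coeff 0 f ≠ 0 := fun h => hf0 (by rw [h, C_0])
  apply hP.ne_top
  rw [Ideal.eq_top_iff_one]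
  have := P.mul_mem_left (C (coeff 0 f)⁻¹) hf
  rwa [← C_mul, inv_mul_cancel₀ hc0, C_1] at this

/-- an element of minimal degree of a height one prime generates it -/
lemma span_of_min [Infinite K] {P : Ideal (MvPolynomial (Fin e) K)} [hP : P.IsPrime]
    (hdim : dimP P + 1 = e) {f : MvPolynomial (Fin e) K} (hf : f ∈ P) (hf0 : f ≠ 0)
    (hmin : ∀ g ∈ P, g.totalDegree < f.totalDegree → g = 0) : P = Ideal.span {f} := by
  have hpos := pos_of_mem hf hf0
  have hirr : Irreducible f := by
    refine ⟨fun hu => hP.ne_top (Ideal.eq_top_of_isUnit_mem P hf hu), fun a b hab => ?_⟩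
    have ha0 : a ≠ 0 := by rintro rfl; rw [zero_mul] at hab; exact hf0 hab
    have hb0 : b ≠ 0 := by rintro rfl; rw [mul_zero] at hab; exact hf0 hab
    have hdeg : f.totalDegree = a.totalDegree + b.totalDegree := by
      rw [hab, totalDegree_mul_of_isDomain ha0 hb0]
    have hunit : ∀ c : MvPolynomial (Fin e) K, c ≠ 0 → c.totalDegree = 0 → IsUnit c := by
      intro c hc hc'
      rw [totalDegree_eq_zero_iff_eq_C] at hc'
      rw [hc'] at hc ⊢
      have : coeff 0 c ≠ 0 := fun h => hc (by rw [h, C_0])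
      exact (isUnit_iff_ne_zero.2 this).map C
    rw [hab] at hf
    rcases hP.mem_or_mem hf with h | h
    · right
      refine hunit b hb0 ?_
      by_contra hne
      exact ha0 (hmin a h (by omega))
    · left
      refine hunit a ha0 ?_
      by_contra hne
      exact hb0 (hmin b h (by omega))
  have hprime : (Ideal.span {f}).IsPrime := (Ideal.span_singleton_prime hf0).2 hirr.prime
  have hle : Ideal.span {f} ≤ P := (Ideal.span_singleton_le_iff_mem _).2 hf
  by_contra hne
  have hlt : Ideal.span {f} < P := lt_of_le_of_ne hle (Ne.symm hne)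
  have h1 := dimP_lt hlt
  have hbot : (⊥ : Ideal (MvPolynomial (Fin e) K)) < Ideal.span {f} := by
    rw [bot_lt_iff_ne_bot, Ne, Ideal.span_singleton_eq_bot]
    exact hf0
  have h2 := dimP_lt hbot
  rw [dimP_bot, Fintype.card_fin] at h2
  omega

lemma exists_pderiv_notMem {P : Ideal (MvPolynomial (Fin e) K)} [hP : P.IsPrime]
    {f : MvPolynomial (Fin e) K} (hf : f ∈ P) (hf0 : f ≠ 0)
    (hmin : ∀ g ∈ P, g.totalDegree < f.totalDegree → g = 0) : ∃ a, pderiv a f ∉ P := by
  have hpos := pos_of_mem hf hf0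
  by_contra hcc
  push Not at hcc
  have h0 : ∀ a, pderiv a f = 0 := by
    intro a
    apply hmin _ (hcc a)
    have := Cramer234.totalDegree_pderiv_le a f
    omega
  obtain ⟨c, hc'⟩ := eq_C_of_pderiv_eq_zero h0
  apply hpos
  rw [hc', totalDegree_C]

end cod1

section main

variable {e : ℕ} {k : Type*} [Field k] [CharZero k] [Infinite k] {K : Type u} [Field K]
  [CharZero K] [Infinite K] [Algebra (MvPolynomial (Pr e) k) K] [Algebra k K]
  [IsScalarTower k (MvPolynomial (Pr e) k) K] [IsFractionRing (MvPolynomial (Pr e) k) K]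

/-- `Q` is a constant variety belonging to `P` -/
def IsCV (P : Ideal (MvPolynomial (Fin e) K)) (Q : Ideal (MvPolynomial (Fin e ⊕ Fin e) k)) :
    Prop :=
  Q.IsPrime ∧ dimP Q = dimP P ∧ degP Q ≤ 2 * degP P ∧
    ∀ m, HF Q m ≤ 2 * degP P * (m + dimP P).choose (dimP P)

/-- **swept theorem in codimension one** -/
theorem swept1_core {P : Ideal (MvPolynomial (Fin e) K)} [hP : P.IsPrime]
    (hdim : dimP P + 1 = e) (Sig : Set (Pt e k))
    (hSig : ∀ z ∈ Sig, ∀ g ∈ P, eval (thK K z) g = 0) {D : ℕ} (hD1 : 1 ≤ D) (hflag : flagTop P ≤ D)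
    (hH : ∀ g : MvPolynomial (Fin e) K, g.totalDegree ≤ 31 * D →
      (∀ z ∈ Sig, eval (thK K z) g = 0) → g ∈ P) :
    ((∃ f : MvPolynomial (Fin e) K, P = Ideal.span {f} ∧ f.totalDegree = 1) ∧
      ∀ z ∈ Sig, ∀ w ∈ Sig, Null z w) ∨
    ∃ B : MvPolynomial (Fin e) K, B ∉ P ∧ B.totalDegree ≤ 11 * D ∧
      ∃ Q₁ Q₂ : Ideal (MvPolynomial (Fin e ⊕ Fin e) k), IsCV P Q₁ ∧ IsCV P Q₂ ∧
        ∀ z ∈ Sig, eval (thK K z) B ≠ 0 →
          (∀ q ∈ Q₁, eval (toFn z) q = 0) ∨ (∀ q ∈ Q₂, eval (toFn z) q = 0) := by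
  classical
  obtain ⟨δ, hδ, hS, hCst⟩ := exists_delta k K (e := e)
  obtain ⟨f, hf, hf0, hfd, hmin⟩ := exists_min (P := P) (by omega)
  have hfD : f.totalDegree ≤ D := hfd.trans hflag
  have hPf := span_of_min hdim hf hf0 hmin
  have hdvd : ∀ g ∈ P, f ∣ g := by
    intro g hg
    rw [hPf, Ideal.mem_span_singleton] at hg
    exact hg
  obtain ⟨a, ha⟩ := exists_pderiv_notMem hf hf0 hmin
  set SigK : Set (Pt e K) := (toK K) '' Sig with hSigK
  have hx : ∀ z ∈ SigK, Cst δ z.1 ∧ Cst δ z.2 := by
    rintro _ ⟨z, -, rfl⟩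
    exact hCst z
  have hSP : ∀ z ∈ SigK, ∀ g ∈ P, eval (th (SK k K) z) g = 0 := by
    rintro _ ⟨z, hz, rfl⟩ g hg
    exact hSig z hz g hg
  have hH' : ∀ g : MvPolynomial (Fin e) K, g.totalDegree ≤ 31 * D →
      (∀ z ∈ SigK, eval (th (SK k K) z) g = 0) → g ∈ P :=
    fun g hg hz => hH g hg fun z hz' => hz _ ⟨z, hz', rfl⟩
  by_cases hq : ∃ p j, Cod1.q2 f a p j ∉ P ∨ Cod1.q1 δ f a p j ∉ P
  · right
    obtain ⟨s, g, hG, hgR⟩ := exists_good hS hfD hdvd hf hx hSP hH' ha hq
    obtain ⟨F, _, _, θ, α, hker, hα, hfr⟩ := hG.exists_field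
    obtain ⟨hfd', hfin⟩ := hG.finrank_le hker hα hfr
    obtain ⟨β, hinj, hβ, hβfr⟩ := hG.exists_roots hker hα hfr
    choose Dd ξ η hC hξ using fun l => hG.constData hS hker (hβ l) (hβfr l)
    letI : Algebra k F := ((algebraMap K F).comp (algebraMap k K)).toAlgebra
    haveI : IsScalarTower k K F := IsScalarTower.of_algebraMap_eq (fun _ => rfl)
    have hPker : P = RingHom.ker (aeval θ : MvPolynomial (Fin e) K →ₐ[K] F) := by
      ext g
      rw [RingHom.mem_ker]
      exact (hker g).symm
    have hP0 : P ≠ ⊥ := by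
      intro h
      rw [h] at hf
      exact hf0 ((Submodule.mem_bot _).1 hf)
    let M : Fin s → Ideal (MvPolynomial (Fin e ⊕ Fin e) k) := fun l =>
      RingHom.ker (aeval (Sum.elim (ξ l) (η l)) : MvPolynomial (Fin e ⊕ Fin e) k →ₐ[k] F)
    have hM : ∀ l, IsCV P (M l) := fun l =>
      constVar hδ (hC l) hP0 hPker hfin (M := M l) rfl
    refine ⟨pderiv a f * g.coeff s, ?_, ?_, M ⟨0, hG.pos⟩, M ⟨s - 1, by have := hG.pos; omega⟩,
      hM _, hM _, fun z hz hzB => ?_⟩
    · intro h
      rcases hP.mem_or_mem h with h | h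
      · exact ha h
      · exact hG.lead h
    · refine (totalDegree_mul _ _).trans ?_
      have h1 := Cramer234.totalDegree_pderiv_le a f
      have h2 := hgR.deg s
      omega
    · rw [map_mul] at hzB
      -- `z` lies on one of the varieties
      have hex : ∃ l, ∀ q ∈ M l, eval (toFn z) q = 0 := by
        by_contra hcon
        push Not at hcon
        choose q hq1 hq2 using hcon
        have h5 := hG.spec hS hker (Fintype.card_fin s) hinj hβ hξ (fun l i => (hC l).theta i)
          (z := toK K z) ⟨z, hz, rfl⟩ (hCst z).1 (hCst z).2 hf (hSP _ ⟨z, hz, rfl⟩)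
          (left_ne_zero_of_mul hzB) (right_ne_zero_of_mul hzB)
          (fun l => map (algebraMap k K) (q l)) (fun l => by
            rw [aeval_map_algebraMap]
            exact hq1 l)
        rw [Finset.prod_eq_zero_iff] at h5
        obtain ⟨l, -, h5⟩ := h5
        have h6 : eval (Sum.elim (toK K z).1 (toK K z).2) (map (algebraMap k K) (q l)) =
            algebraMap k K (eval (toFn z) (q l)) := by
          have e0 : (Sum.elim (toK K z).1 (toK K z).2) = algebraMap k K ∘ toFn z := by
            funext i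
            rcases i with i | i <;> rfl
          have e1 := MvPolynomial.aeval_algebraMap_apply (A := k) K (toFn z) (q l)
          rw [e0, eval_map]
          exact e1
        rw [h6] at h5
        exact hq2 l ((map_eq_zero _).1 h5)
      obtain ⟨l, hl⟩ := hex
      have hl2 : l = ⟨0, hG.pos⟩ ∨ l = ⟨s - 1, by have := hG.pos; omega⟩ := by
        have h1 := hG.le
        have h2 := l.2
        rcases Nat.eq_zero_or_pos l.1 with h | h
        · left; ext; exact h
        · right; ext; simp only; omega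
      rcases hl2 with rfl | rfl
      · exact Or.inl hl
      · exact Or.inr hl
  · left
    push Not at hq
    have hex : ∃ z ∈ SigK, eval (th (SK k K) z) (pderiv a f) ≠ 0 := by
      by_contra hcon
      push Not at hcon
      refine ha (hH' _ ?_ hcon)
      have := Cramer234.totalDegree_pderiv_le a f
      omega
    have hnull := Cod1.null_of_all_mem hS hf hdvd hmin (fun p j => (hq p j).1)
      (fun p j => (hq p j).2) (Sig := SigK) (fun z hz => (hx z hz).1) (fun z hz => (hx z hz).2)
      (fun z hz => hSP z hz f hf) hex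
    obtain ⟨z0, hz0, hz0'⟩ := hex
    have hle1 := Cod1.totalDegree_le_one hf hdvd hmin (fun p j => (hq p j).1) (hSP z0 hz0 f hf)
      hz0'
    refine ⟨⟨f, hPf, ?_⟩, fun z hz w hw => ?_⟩
    · have := pos_of_mem hf hf0
      omega
    · have h1 := hnull _ ⟨z, hz, rfl⟩ _ ⟨w, hw, rfl⟩
      unfold Null q at h1 ⊢
      have h2 : algebraMap k K (∑ i, (z - w).1 i * (z - w).2 i) = 0 := by
        rw [← h1, map_sum]
        refine Finset.sum_congr rfl fun i _ => ?_
        simp [toK]
      exact (map_eq_zero _).1 h2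


/-- 795's leaf -/
theorem swept1Set : Glue795.Swept1Set k K e := by
  refine ⟨31, fun P hP hdim Sig Dd _ hDd hSig hflag hH => ?_⟩
  rcases swept1_core hdim Sig hSig hDd hflag hH with
    ⟨⟨f, hf, hf1⟩, h⟩ | ⟨B, hB, hBd, Q₁, Q₂, h₁, h₂, hz⟩
  · refine Or.inl ⟨⟨f, ?_, ?_, hf1.le⟩, h⟩
    · rw [hf]; exact Ideal.mem_span_singleton_self f
    · rintro rfl
      simp at hf1
  · exact Or.inr ⟨B, hB, hBd.trans (by omega), Q₁, Q₂, ⟨h₁.1, h₁.2.1, h₁.2.2.1⟩,
      ⟨h₂.1, h₂.2.1, h₂.2.2.1⟩, hz⟩

end main

end Crest.Agent.R065.Cod1q392
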