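import Crest.Agent.R065.D3in_855
import Crest.Agent.R065.D3d_477
import Crest.Agent.R065.D3cons_275
import Crest.Agent.R065.Cut_477
import Crest.Agent.R065.D3over_789_Mg
import Crest.Agent.R065.D3rot_812
import Crest.Agent.R065.Rank_417
import Crest.Agent.R065.M4defs_96
import Crest.Agent.R065.Extr_203
import Crest.Agent.R065.SplDefs_795
import Mathlib
import Crest.Agent.R065.D3bad_855
import Crest.Agent.R065.SweptIdx_795
import Crest.Agent.R065.Swept1_392
import Crest.Agent.R065.M4_96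
import Crest.Agent.R065.Slice_417
import Crest.Agent.R065.D3blk_812
import Crest.Agent.R065.NN_669

-- ▼ part R065/D3o1_477
section

/-!
# Row 65, d = 3: Lemmas 4.1 and 4.2 in the form of `D3in_855`
-/

set_option autoImplicit false

open MvPolynomial Module Finset

namespace Crest.Agent.R065.D3o1477

open Crest.Agent.R065.HF669 Crest.Agent.R065.Base348 Crest.Agent.R065.Top348
  Crest.Agent.R065.Pins348 Crest.Agent.R065.D3 Crest.Agent.R065.D3blk812
  Crest.Agent.R065.D3d477

lemma ZP_eq (Z : Finset PP) (P : Ideal (MvPolynomial (Fin 3 ⊕ Fin 3) ℂ)) :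
    D3in855.ZP Z P = D3d477.ZP Z P := by
  classical
  ext z
  rw [mem_ZP, D3in855.ZP, mem_filter]
  rfl

lemma cut2 (P : Ideal (MvPolynomial (Fin 3 ⊕ Fin 3) ℂ)) [P.IsPrime] (hP : dimP P = 2) :
    Cut2 P := by
  intro g hg he
  obtain ⟨S, h1, _, h3, h4⟩ := Cut477.exists_cut hg he
  refine ⟨S, fun Q hQ => ⟨(h1 Q hQ).1, ?_⟩, h3, h4⟩
  have := (h1 Q hQ).2.2.2
  omega

variable {C0 B L : ℝ} {Z : Finset PP}

lemma lineBd (hR : Reg Nul C0 B Z L) : LineBd C0 L Z :=
  lineBd_of (D3cons275.fst_line' hR) hR.L_pos.le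

lemma tau1_le' (hR : Reg Nul C0 B Z L) :
    tau1 C0 L Z ≤ 8 * C0 * ((Z.card : ℝ) / L) * ((ss Z : ℝ) ^ 2 / Z.card) := by
  have hC := D3cons275.one_le_C0 hR
  have hZ : (0 : ℝ) < Z.card := by exact_mod_cast card_pos.2 hR.ne
  have hL := hR.L_pos
  have hs : (Z.card : ℝ) ≤ (ss Z : ℝ) ^ 2 := by exact_mod_cast card_le_ss_sq Z
  have e : 8 * C0 * ((Z.card : ℝ) / L) * ((ss Z : ℝ) ^ 2 / Z.card) =
      8 * C0 * (ss Z : ℝ) ^ 2 / L := by
    field_simp
  rw [e]
  unfold tau1
  have hs0 : (0 : ℝ) ≤ (ss Z : ℝ) ^ 2 := by positivity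
  refine max_le ?_ ?_
  · rw [← mul_div_assoc]
    refine div_le_div_of_nonneg_right ?_ hL.le
    nlinarith
  · refine div_le_div_of_nonneg_right ?_ hL.le
    nlinarith

theorem o1curve : D3in855.O1curve := by
  intro C0 hC0
  refine ⟨64, fun B Z L hB hR P hP hd => ?_⟩
  rw [ZP_eq]
  have := hP
  refine (card_ZP_le_tau1 hR hB (lineBd hR) P (by omega)).trans ?_
  exact mul_le_mul_of_nonneg_right (tau1_le' hR) (Nat.cast_nonneg _)

theorem o1surf : D3in855.O1surf := by
  intro C0 hC0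
  refine ⟨24 * C0, by linarith, 64, fun B Z L hB hR P hP hd => ?_⟩
  rw [ZP_eq]
  have := hP
  refine (surfaces hR hB (lineBd hR) P (cut2 P hd)).trans ?_
  refine mul_le_mul_of_nonneg_right ?_ (Nat.cast_nonneg _)
  have ht := one_le_t hR
  have h1 : 3 * ((Z.card : ℝ) / L) * tau1 C0 L Z ≤
      3 * ((Z.card : ℝ) / L) * (8 * C0 * ((Z.card : ℝ) / L) * ((ss Z : ℝ) ^ 2 / Z.card)) :=
    mul_le_mul_of_nonneg_left (tau1_le' hR) (by linarith)
  refine h1.trans (le_of_eq ?_)
  ring

end Crest.Agent.R065.D3o1477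
end

-- ▼ part R065/Skel_745
section

/-!
# Row 65: the top of the proof tree (interface check)

`S0087` from STEP A (`d = 3`) and the bound `Bd d` (`d ≥ 4`).
-/

set_option autoImplicit false

namespace Crest.Agent.R065.Skel745

open Crest.Agent.R065.Base348 Crest.Agent.R065.Top348 Crest.Agent.R065.Final348
  Crest.Agent.R065.D3

/-- the frozen statement -/
def Goal : Prop :=
  ∀ (d : ℕ), 3 ≤ d → ∃ c : ℝ, 0 < c ∧ ∀ P : Finset (EuclideanSpace ℝ (Fin d)), 2 ≤ P.card →
      c * (P.card : ℝ) ^ ((2 : ℝ) / d) ≤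
        ({t : ℝ | ∃ p ∈ P, ∃ q ∈ P, p ≠ q ∧ dist p q = t}.ncard : ℝ)

/-- the top level: `d = 3` from MainD3, `d ≥ 4` from `Bd d` -/
theorem goal_of (h3 : MainD3) (h4 : ∀ d, 4 ≤ d → Bd d) : Goal := by
  intro d hd
  rcases eq_or_lt_of_le hd with rfl | hd'
  · exact D3fin812.result_three h3
  · obtain ⟨A, hA, hb⟩ := h4 d hd'
    exact result_of_bound (by omega) A hA hb



end Crest.Agent.R065.Skel745
end

-- ▼ part R065/RankD_417
section

/-!
# Row 65: `RankD d` (input of the master for `d ≥ 4`) from `ExtrP` and `SweptP` (helper417)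
-/

set_option autoImplicit false

open MvPolynomial Module

namespace Crest.Agent.R065.Rank417

open Crest.Agent.R065.HF669 Crest.Agent.R065.Base348 Crest.Agent.R065.Cramer234
  Crest.Agent.R065.Slice417 Crest.Agent.R065.Glue795

/-- the field of rational functions in the skew matrix -/
abbrev K1 (e : ℕ) : Type := FractionRing (MvPolynomial (Pr e) ℂ)

instance instInfiniteK1 (e : ℕ) : Infinite (K1 e) :=
  Infinite.of_injective _ (algebraMap ℂ (K1 e)).injective

theorem rankD_of {e : ℕ} (he : 0 < e) (hE : ExtrP (K1 e) e) (hSw : SweptP ℂ (K1 e) e) :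
    M4.RankD (e + 1) := by
  classical
  obtain ⟨C, hC, h⟩ := rankGen (k := ℂ) (K := K1 e) hE hSw he
  refine ⟨oo (SS e ℂ (K1 e)), C, hC, ?_⟩
  intro m Om z ν hm hν hbad Sg hSg hw hnull
  obtain ⟨f₀, hf₀, hz⟩ : ∃ f, M4.IsI m Om f ∧ res z f ≠ 0 := by
    unfold M4.IsBad at hbad
    push Not at hbad
    exact hbad
  have h1 := h m Om z f₀ hm hf₀ hz Sg hSg
    (fun w hwS => ⟨null_symm (hw w hwS).1, (hw w hwS).2.1 _, (hw w hwS).2.2⟩) ν hν
    (fun Q hQ hQn _ => hnull Q hQ hQn)
  simpa using h1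

end Crest.Agent.R065.Rank417
end

-- ▼ part R065/ExtrP_203
section

/-!
# Row 65: `ExtrP` (795's literal Prop) from `Extr203.extremal`, and the weight 1 version
-/

set_option autoImplicit false

open MvPolynomial Finset

namespace Crest.Agent.R065.Extr203

open Crest.Agent.R065.HF669 Crest.Agent.R065.Glue795 Crest.Agent.R065.Wt639

theorem extrP (K : Type*) [Field K] [Infinite K] [CharZero K] (e : ℕ) : ExtrP K e := by
  intro Ce
  refine ⟨Cx e Ce, fun ι Sg p m h hm hh hdeg hz hne => ?_⟩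
  obtain ⟨V, hV, hhV, -, D, hmD, hfl, hgap, hcard⟩ :=
    extremal Sg hne p hh hm hdeg hz (weight_ord hh hdeg) Ce
  refine ⟨V, hV, hhV, D, hmD, hfl, fun g hg h8 => hgap g hg h8, ?_⟩
  have h1 : (onI Sg p V).card = (on Sg p V).card := rfl
  rw [h1]
  simp only [Fintype.card_fin] at hcard
  calc Sg.card * ((1 + ordP V h) * degP V) ≤
        Cx e Ce * m ^ (e - dimP V) * (on Sg p V).card := hcard
    _ = _ := by ring


end Crest.Agent.R065.Extr203
end

-- ▼ part R065/D3cnt_855
section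

/-!
# Row 65, `d = 3`: first and second moments over `j`-subsets
-/

set_option autoImplicit false

open Finset

namespace Crest.Agent.R065.D3cnt855

variable {α : Type*} [DecidableEq α]

lemma mul_choose_pred {n j : ℕ} (hn : 1 ≤ n) (hj : 1 ≤ j) :
    n * (n - 1).choose (j - 1) = j * n.choose j := by
  obtain ⟨n, rfl⟩ : ∃ n', n = n' + 1 := ⟨n - 1, by omega⟩
  obtain ⟨j, rfl⟩ : ∃ j', j = j' + 1 := ⟨j - 1, by omega⟩
  have := Nat.add_one_mul_choose_eq n j
  simp only [Nat.add_sub_cancel]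
  rw [this, mul_comm]

/-- number of `j`-subsets containing `w` -/
lemma card_mem {V : Finset α} {w : α} (hw : w ∈ V) {j : ℕ} (hj : 1 ≤ j) :
    V.card * ((V.powersetCard j).filter fun Om => w ∈ Om).card = j * V.card.choose j := by
  have h1 : ((V.powersetCard j).filter fun Om => w ∈ Om) =
      (V.powersetCard j).filter fun Om => ({w} : Finset α) ⊆ Om := by
    ext Om; simp
  rw [h1, card_filter_powersetCard_subset _ _ _ (by simpa using hw) (by simpa using hj),
    card_singleton]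
  exact mul_choose_pred (card_pos.2 ⟨w, hw⟩) hj

/-- number of `j`-subsets containing `w ≠ w'` -/
lemma card_mem_mem {V : Finset α} {w w' : α} (hw : w ∈ V) (hw' : w' ∈ V) (hne : w ≠ w') {j : ℕ} :
    V.card ^ 2 * ((V.powersetCard j).filter fun Om => w ∈ Om ∧ w' ∈ Om).card ≤
      j ^ 2 * V.card.choose j := by
  have hc2 : ({w, w'} : Finset α).card = 2 := card_pair hne
  have hn2 : 2 ≤ V.card := by
    rw [← hc2]
    exact card_le_card (by
      intro x hx
      simp only [mem_insert, mem_singleton] at hx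
      rcases hx with rfl | rfl <;> assumption)
  by_cases hj : 2 ≤ j
  · have h1 : ((V.powersetCard j).filter fun Om => w ∈ Om ∧ w' ∈ Om) =
        (V.powersetCard j).filter fun Om => ({w, w'} : Finset α) ⊆ Om := by
      ext Om
      simp [insert_subset_iff]
    rw [h1, card_filter_powersetCard_subset _ _ _ (by
      intro x hx
      simp only [mem_insert, mem_singleton] at hx
      rcases hx with rfl | rfl <;> assumption) (by rw [hc2]; exact hj), hc2]
    set n := V.card with hn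
    by_cases hjn : j ≤ n
    · have e1 := mul_choose_pred (n := n) (j := j) (by omega) (by omega)
      have e2 := mul_choose_pred (n := n - 1) (j := j - 1) (by omega) (by omega)
      have e3 : n - 1 - 1 = n - 2 := by omega
      have e4 : j - 1 - 1 = j - 2 := by omega
      rw [e3, e4] at e2
      -- n (n-1) C(n-2, j-2) = j (j-1) C(n,j)
      have e5 : n * (n - 1) * (n - 2).choose (j - 2) = j * (j - 1) * n.choose j := by
        calc n * (n - 1) * (n - 2).choose (j - 2) = n * ((n - 1) * (n - 2).choose (j - 2)) := by ring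
          _ = n * ((j - 1) * (n - 1).choose (j - 1)) := by rw [e2]
          _ = (j - 1) * (n * (n - 1).choose (j - 1)) := by ring
          _ = (j - 1) * (j * n.choose j) := by rw [e1]
          _ = _ := by ring
      have e6 : n * (j - 1) ≤ j * (n - 1) := by
        obtain ⟨a, rfl⟩ : ∃ a, j = a + 1 := ⟨j - 1, by omega⟩
        obtain ⟨b, hb⟩ : ∃ b, n = b + 1 := ⟨n - 1, by omega⟩
        rw [hb]
        simp only [Nat.add_sub_cancel]
        have : a ≤ b := by omega
        nlinarith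
      -- multiply by n - 1 and cancel
      have hpos : 0 < n - 1 := by omega
      apply Nat.le_of_mul_le_mul_left _ hpos
      calc (n - 1) * (n ^ 2 * (n - 2).choose (j - 2))
          = n * (n * (n - 1) * (n - 2).choose (j - 2)) := by ring
        _ = n * (j * (j - 1) * n.choose j) := by rw [e5]
        _ = (n * (j - 1)) * (j * n.choose j) := by ring
        _ ≤ (j * (n - 1)) * (j * n.choose j) := Nat.mul_le_mul_right _ e6
        _ = (n - 1) * (j ^ 2 * n.choose j) := by ring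
    · have : (n - 2).choose (j - 2) = 0 := Nat.choose_eq_zero_of_lt (by omega)
      rw [this, mul_zero]
      exact Nat.zero_le _
  · have h1 : ((V.powersetCard j).filter fun Om => w ∈ Om ∧ w' ∈ Om) = ∅ := by
      rw [filter_eq_empty_iff]
      rintro Om hOm ⟨h2, h3⟩
      have h4 := (mem_powersetCard.1 hOm).2
      have h5 : ({w, w'} : Finset α).card ≤ Om.card := card_le_card (by
        intro x hx
        simp only [mem_insert, mem_singleton] at hx
        rcases hx with rfl | rfl <;> assumption)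
      omega
    rw [h1, card_empty, mul_zero]
    exact Nat.zero_le _

/-- second moment of `|Om ∩ N|` -/
theorem second_moment (V N : Finset α) (hN : N ⊆ V) {j : ℕ} (hj : 1 ≤ j) (hV : V.Nonempty) :
    ∑ Om ∈ V.powersetCard j, (((Om.filter fun w => w ∈ N).card : ℝ)) ^ 2 ≤
      ((N.card * (j / V.card : ℝ)) ^ 2 + N.card * (j / V.card : ℝ)) * V.card.choose j := by
  have hn : (0 : ℝ) < V.card := by exact_mod_cast card_pos.2 hV
  have h1 : ∀ Om ∈ V.powersetCard j, (((Om.filter fun w => w ∈ N).card : ℝ)) ^ 2 =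
      ∑ w ∈ N, ∑ w' ∈ N, (if w ∈ Om ∧ w' ∈ Om then (1 : ℝ) else 0) := by
    intro Om hOm
    have h2 : ((Om.filter fun w => w ∈ N).card : ℝ) = ∑ w ∈ N, (if w ∈ Om then (1 : ℝ) else 0) := by
      rw [← sum_filter, sum_const, nsmul_eq_mul, mul_one]
      congr 2
      ext w
      simp only [mem_filter]
      tauto
    rw [h2, sq, sum_mul_sum]
    refine sum_congr rfl fun w _ => sum_congr rfl fun w' _ => ?_
    by_cases ha : w ∈ Om <;> by_cases hb : w' ∈ Om <;> simp [ha, hb]
  rw [sum_congr rfl h1, sum_comm]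
  have h3 : ∀ w ∈ N, ∑ Om ∈ V.powersetCard j, ∑ w' ∈ N,
      (if w ∈ Om ∧ w' ∈ Om then (1 : ℝ) else 0) ≤
      (N.card * (j / V.card : ℝ) ^ 2 + (j / V.card : ℝ)) * V.card.choose j := by
    intro w hw
    rw [sum_comm]
    have h4 : ∀ w' ∈ N, ∑ Om ∈ V.powersetCard j, (if w ∈ Om ∧ w' ∈ Om then (1 : ℝ) else 0) ≤
        (j / V.card : ℝ) ^ 2 * V.card.choose j +
          (if w' = w then (j / V.card : ℝ) * V.card.choose j else 0) := by
      intro w' hw'
      rw [← sum_filter, sum_const, nsmul_eq_mul, mul_one]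
      by_cases hww : w' = w
      · subst hww
        rw [if_pos rfl]
        have h5 := card_mem (hN hw) hj (j := j)
        have h6 : ((V.powersetCard j).filter fun Om => w' ∈ Om ∧ w' ∈ Om) =
            (V.powersetCard j).filter fun Om => w' ∈ Om := by
          ext Om; simp
        rw [h6]
        have h7 : (V.card : ℝ) * (((V.powersetCard j).filter fun Om => w' ∈ Om).card : ℝ) =
            j * V.card.choose j := by exact_mod_cast h5
        have h8 : (((V.powersetCard j).filter fun Om => w' ∈ Om).card : ℝ) =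
            (j / V.card : ℝ) * V.card.choose j := by
          field_simp
          linarith [h7]
        rw [h8]
        have : 0 ≤ (j / V.card : ℝ) ^ 2 * V.card.choose j := by positivity
        linarith
      · rw [if_neg hww, add_zero]
        have h5 := card_mem_mem (hN hw) (hN hw') (fun h => hww h.symm) (j := j)
        have h6 : (V.card : ℝ) ^ 2 *
            (((V.powersetCard j).filter fun Om => w ∈ Om ∧ w' ∈ Om).card : ℝ) ≤
            j ^ 2 * V.card.choose j := by exact_mod_cast h5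
        rw [div_pow, div_mul_eq_mul_div, le_div_iff₀ (by positivity), mul_comm]
        exact h6
    refine (sum_le_sum h4).trans ?_
    rw [sum_add_distrib, sum_const, nsmul_eq_mul, sum_ite_eq', if_pos hw]
    apply le_of_eq
    ring
  refine (sum_le_sum h3).trans ?_
  rw [sum_const, nsmul_eq_mul]
  apply le_of_eq
  ring

end Crest.Agent.R065.D3cnt855
end

-- ▼ part R065/D3stepA_855
section

/-!
# Row 65, `d = 3`: assembly of STEP A
-/

set_option autoImplicit false

open MvPolynomial Module Finset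

namespace Crest.Agent.R065.D3stepA855

open Crest.Agent.R065.HF669 Crest.Agent.R065.Base348 Crest.Agent.R065.Top348
  Crest.Agent.R065.Pins348 Crest.Agent.R065.D3 Crest.Agent.R065.D3blk812
  Crest.Agent.R065.D3in855 Crest.Agent.R065.D3bad855 Crest.Agent.R065.D3cnt855
  Crest.Agent.R065.D3rot812

lemma card_union3 {α : Type*} [DecidableEq α] (S A B D : Finset α) (h : S ⊆ A ∪ B ∪ D) :
    (S.card : ℝ) ≤ A.card + D.card + B.card := by
  have h1 := (card_le_card h).trans ((card_union_le _ _).trans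
    (Nat.add_le_add_right (card_union_le _ _) _))
  have h2 : (S.card : ℝ) ≤ A.card + B.card + D.card := by exact_mod_cast h1
  linarith

open scoped Classical in
/-- out-neighbours of a good point -/
lemma point_count {Z : Finset PP} {o : ℕ → Finset (Pt 3 ℂ) → Pt 3 ℂ → Pt 3 ℂ → ℕ∞} {C : ℝ}
    (hrank : ∀ (m : ℕ) (Om : Finset (Pt 3 ℂ)) (z : Pt 3 ℂ), 1 ≤ m → ¬ IsBad m Om z → ∀ Sg ⊆ Om,
      (∀ w ∈ Sg, Null z w ∧ (∀ i, w.1 i ≠ z.1 i) ∧
        o m (Om.erase w) w z ≤ o m (Om.erase w) z w) →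
      ∃ D : Finset ((Fin 3 → ℂ) × ℂ), D.card ≤ m ∧ (∀ p ∈ D, p.1 ≠ 0) ∧
        ((Sg.filter fun w => ∀ p ∈ D, ¬ inD p.1 p.2 (w - z)).card : ℝ) ≤ C * (m : ℝ) ^ 2)
    (hG : GPall Z) (m r : ℕ) (hm : 1 ≤ m) (k0 : ℝ) {Om : Finset PP} (hOm : Om ⊆ Z) {z : PP}
    (hz : z ∈ Z) (hbad : ¬ IsBad m (Om.image zcp) (zcp z)) :
    ((Om.filter fun w => (z, w) ∈ uncov Z (SSof Z) k0 ∧
      o m ((Om.erase w).image zcp) (zcp w) (zcp z) ≤
        o m ((Om.erase w).image zcp) (zcp z) (zcp w)).card : ℝ) ≤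
      C * (m : ℝ) ^ 2 + m * (2 * r + 1) +
      ((Om.filter fun w => Nul z w ∧ ∃ X ∈ SSof Z, z ∈ X ∧ w ∈ X ∧ (X.card : ℝ) < k0 ∧
        2 * r + 2 ≤ (Om ∩ X).card).card : ℝ) := by
  set R : Finset PP := Om.filter fun w => (z, w) ∈ uncov Z (SSof Z) k0 ∧
      o m ((Om.erase w).image zcp) (zcp w) (zcp z) ≤
        o m ((Om.erase w).image zcp) (zcp z) (zcp w) with hR
  have hRmem : ∀ w, w ∈ R ↔ w ∈ Om ∧ (z, w) ∈ uncov Z (SSof Z) k0 ∧
      o m ((Om.erase w).image zcp) (zcp w) (zcp z) ≤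
        o m ((Om.erase w).image zcp) (zcp z) (zcp w) := by
    intro w; rw [hR, mem_filter]
  have hunc : ∀ w, (z, w) ∈ uncov Z (SSof Z) k0 → Nul z w ∧ ∀ X ∈ SSof Z, z ∈ X → w ∈ X →
      (X.card : ℝ) < k0 := by
    intro w hw
    unfold uncov at hw
    rw [mem_filter] at hw
    exact hw.2
  obtain ⟨D, hD1, hD2, hD3⟩ := hrank m (Om.image zcp) (zcp z) hm hbad (R.image zcp)
    (image_subset_image (filter_subset _ _)) (by
      intro w' hw'
      obtain ⟨w, hw, rfl⟩ := mem_image.1 hw'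
      obtain ⟨hwO, hwU, hwo⟩ := (hRmem w).1 hw
      have hnul := (hunc w hwU).1
      have hne : w ≠ z := by
        rintro rfl
        exact hnul.2 rfl
      refine ⟨(null_zcp z w).2 hnul.1, hG w (hOm hwO) z hz hne, ?_⟩
      have e : (Om.image zcp).erase (zcp w) = (Om.erase w).image zcp := by
        ext x
        rw [mem_erase, mem_image, mem_image]
        constructor
        · rintro ⟨hx, y, hy, rfl⟩
          exact ⟨y, mem_erase.2 ⟨fun h => hx (by rw [h]), hy⟩, rfl⟩
        · rintro ⟨y, hy, rfl⟩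
          exact ⟨fun h => (mem_erase.1 hy).1 (zcp_inj h), y, (mem_erase.1 hy).2, rfl⟩
      rw [e]
      exact hwo)
  set Rg : Finset PP := R.filter fun w => ∀ p ∈ D, ¬ inD p.1 p.2 (zcp w - zcp z) with hRg
  have hRgc : (Rg.card : ℝ) ≤ C * (m : ℝ) ^ 2 := by
    refine le_trans ?_ hD3
    rw [← card_image_of_injective Rg zcp_inj]
    have : Rg.image zcp ⊆ (R.image zcp).filter fun w => ∀ p ∈ D, ¬ inD p.1 p.2 (w - zcp z) := by
      intro x hx
      obtain ⟨w, hw, rfl⟩ := mem_image.1 hx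
      rw [mem_filter] at hw
      exact mem_filter.2 ⟨mem_image_of_mem _ hw.1, hw.2⟩
    exact_mod_cast card_le_card this
  set OV : Finset PP := Om.filter fun w => Nul z w ∧ ∃ X ∈ SSof Z, z ∈ X ∧ w ∈ X ∧
    (X.card : ℝ) < k0 ∧ 2 * r + 2 ≤ (Om ∩ X).card with hOV
  set U : Finset PP := (D.filter fun p => (Om ∩ blockOf Z p.1 p.2 z).card ≤ 2 * r + 1).biUnion
    fun p => Om ∩ blockOf Z p.1 p.2 z with hU
  have hUc : (U.card : ℝ) ≤ m * (2 * r + 1) := by
    have h1 : U.card ≤ (D.filter fun p => (Om ∩ blockOf Z p.1 p.2 z).card ≤ 2 * r + 1).card *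
        (2 * r + 1) := by
      refine card_biUnion_le_card_mul _ _ _ ?_
      intro p hp
      exact (mem_filter.1 hp).2
    have h2 : U.card ≤ m * (2 * r + 1) :=
      h1.trans (Nat.mul_le_mul_right _ ((card_filter_le _ _).trans hD1))
    exact_mod_cast h2
  have hsub : R ⊆ Rg ∪ OV ∪ U := by
    intro w hw
    rw [mem_union, mem_union]
    by_cases hg : ∀ p ∈ D, ¬ inD p.1 p.2 (zcp w - zcp z)
    · exact Or.inl (Or.inl (mem_filter.2 ⟨hw, hg⟩))
    · push Not at hg
      obtain ⟨p, hp, hin⟩ := hg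
      obtain ⟨hwO, hwU, hwo⟩ := (hRmem w).1 hw
      have hwb : w ∈ blockOf Z p.1 p.2 z := mem_blockOf.2 ⟨hOm hwO, hin⟩
      have hSS := blockOf_mem_SSof (Z := Z) (κ := p.2) hz (hD2 p hp)
      by_cases hc : (Om ∩ blockOf Z p.1 p.2 z).card ≤ 2 * r + 1
      · exact Or.inr (mem_biUnion.2 ⟨p, mem_filter.2 ⟨hp, hc⟩, mem_inter.2 ⟨hwO, hwb⟩⟩)
      · refine Or.inl (Or.inr (mem_filter.2 ⟨hwO, (hunc w hwU).1, _, hSS, self_mem_blockOf hz, hwb,
          (hunc w hwU).2 _ hSS (self_mem_blockOf hz) hwb, ?_⟩))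
        omega
  have hfin := card_union3 R Rg OV U hsub
  linarith

/-- the relation `NN` is symmetric -/
lemma uncov_symm {Z : Finset PP} {SS : Finset (Finset PP)} {k0 : ℝ} (z w : PP)
    (h : (z, w) ∈ uncov Z SS k0) : (w, z) ∈ uncov Z SS k0 := by
  classical
  unfold uncov at *
  rw [mem_filter, mem_product] at *
  exact ⟨⟨h.1.2, h.1.1⟩, h.2.1.symm, fun X hX h1 h2 => h.2.2 X hX h2 h1⟩

lemma not_uncov_self {Z : Finset PP} {SS : Finset (Finset PP)} {k0 : ℝ} (z : PP)
    (h : (z, z) ∈ uncov Z SS k0) : False := by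
  classical
  unfold uncov at h
  rw [mem_filter] at h
  exact h.2.1.2 rfl

lemma mem_nb_of_uncov {Z : Finset PP} {SS : Finset (Finset PP)} {k0 : ℝ} {z w : PP}
    (h : (z, w) ∈ uncov Z SS k0) : w ∈ nb Nul Z z := by
  classical
  unfold uncov at h
  rw [mem_filter, mem_product] at h
  exact mem_nb.2 ⟨h.1.2, h.2.1⟩

/-- `x ≤ a + x² / a` -/
lemma le_add_sq_div {x a : ℝ} (hx : 0 ≤ x) (ha : 0 < a) : x ≤ a + x ^ 2 / a := by
  by_cases h : x ≤ a
  · have : 0 ≤ x ^ 2 / a := by positivity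
    linarith
  · push Not at h
    have : x ≤ x ^ 2 / a := by
      rw [le_div_iff₀ ha]
      nlinarith
    linarith

open scoped Classical in
/-- the bad points -/
lemma bad_sum {Z : Finset PP} {C0 B L : ℝ} (hreg : Reg Nul C0 B Z L) (hC0 : 1 ≤ C0) {m k : ℕ}
    {A η : ℝ} (hA : 0 < A)
    (hb : ∀ Om ∈ Z.powersetCard (k + 1),
      ((Z.filter fun z => IsBad m (Om.image zcp) (zcp z)).card : ℝ) ≤ η * Z.card) :
    ∑ Om ∈ Z.powersetCard (k + 1), ∑ z ∈ Z, (if IsBad m (Om.image zcp) (zcp z) then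
        ((Om.filter fun w => w ∈ nb Nul Z z).card : ℝ) else 0) ≤
      (η * A * C0 * L * (k + 1) + (C0 * L * (k + 1) + Z.card) / A) * Z.card.choose (k + 1) := by
  have hn := card_pos' hreg
  have hL := hreg.L_pos
  set n : ℝ := (Z.card : ℝ) with hndef
  set μ : ℝ := C0 * L * (k + 1) / n with hμ
  have hμpos : 0 < μ := by positivity
  have hAμ : 0 < A * μ := by positivity
  have h1 : ∀ Om ∈ Z.powersetCard (k + 1), ∑ z ∈ Z, (if IsBad m (Om.image zcp) (zcp z) then
        ((Om.filter fun w => w ∈ nb Nul Z z).card : ℝ) else 0) ≤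
      η * n * (A * μ) + ∑ z ∈ Z, ((Om.filter fun w => w ∈ nb Nul Z z).card : ℝ) ^ 2 / (A * μ) := by
    intro Om hOm
    have h2 : ∀ z ∈ Z, (if IsBad m (Om.image zcp) (zcp z) then
        ((Om.filter fun w => w ∈ nb Nul Z z).card : ℝ) else 0) ≤
        (if IsBad m (Om.image zcp) (zcp z) then A * μ else 0) +
        ((Om.filter fun w => w ∈ nb Nul Z z).card : ℝ) ^ 2 / (A * μ) := by
      intro z _
      split_ifs with h
      · exact le_add_sq_div (Nat.cast_nonneg _) hAμ
      · positivity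
    refine (sum_le_sum h2).trans ?_
    rw [sum_add_distrib]
    refine add_le_add ?_ le_rfl
    rw [← sum_filter, sum_const, nsmul_eq_mul]
    exact mul_le_mul_of_nonneg_right (hb Om hOm) hAμ.le
  refine (sum_le_sum h1).trans ?_
  rw [sum_add_distrib, sum_const, nsmul_eq_mul, card_powersetCard, sum_comm]
  have h3 : ∀ z ∈ Z, ∑ Om ∈ Z.powersetCard (k + 1),
      ((Om.filter fun w => w ∈ nb Nul Z z).card : ℝ) ^ 2 / (A * μ) ≤
      (μ + 1) / A * Z.card.choose (k + 1) := by
    intro z hz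
    rw [← sum_div]
    have h4 := second_moment Z (nb Nul Z z) (fun w hw => (mem_nb.1 hw).1) (j := k + 1)
      (by omega) hreg.ne
    have h5 : ((nb Nul Z z).card : ℝ) * (((k + 1 : ℕ) : ℝ) / Z.card) ≤ μ := by
      have h6 : ((nb Nul Z z).card : ℝ) ≤ C0 * L := hreg.deg_le z hz
      rw [hμ, mul_div_assoc']
      push_cast
      gcongr
    have h7 : 0 ≤ ((nb Nul Z z).card : ℝ) * (((k + 1 : ℕ) : ℝ) / Z.card) := by positivity
    rw [div_le_iff₀ hAμ]
    calc ∑ Om ∈ Z.powersetCard (k + 1), ((Om.filter fun w => w ∈ nb Nul Z z).card : ℝ) ^ 2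
        ≤ (((nb Nul Z z).card * (((k + 1 : ℕ) : ℝ) / Z.card : ℝ)) ^ 2 +
          (nb Nul Z z).card * (((k + 1 : ℕ) : ℝ) / Z.card : ℝ)) * Z.card.choose (k + 1) := h4
      _ ≤ (μ ^ 2 + μ) * Z.card.choose (k + 1) := by gcongr
      _ = (μ + 1) / A * Z.card.choose (k + 1) * (A * μ) := by field_simp
  refine (add_le_add le_rfl (sum_le_sum h3)).trans ?_
  rw [sum_const, nsmul_eq_mul, ← hndef]
  apply le_of_eq
  rw [hμ]
  field_simp

open scoped Classical in
/-- the count for one parameter choice -/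
lemma count (hE : Engine) {o : ℕ → Finset (Pt 3 ℂ) → Pt 3 ℂ → Pt 3 ℂ → ℕ∞} {CR : ℝ}
    (hrank : ∀ (m : ℕ) (Om : Finset (Pt 3 ℂ)) (z : Pt 3 ℂ), 1 ≤ m → ¬ IsBad m Om z → ∀ Sg ⊆ Om,
      (∀ w ∈ Sg, Null z w ∧ (∀ i, w.1 i ≠ z.1 i) ∧
        o m (Om.erase w) w z ≤ o m (Om.erase w) z w) →
      ∃ D : Finset ((Fin 3 → ℂ) × ℂ), D.card ≤ m ∧ (∀ p ∈ D, p.1 ≠ 0) ∧
        ((Sg.filter fun w => ∀ p ∈ D, ¬ inD p.1 p.2 (w - z)).card : ℝ) ≤ CR * (m : ℝ) ^ 2)
    (hCR : 0 < CR) {Z : Finset PP} {C0 B L : ℝ} (hreg : Reg Nul C0 B Z L) (hC0 : 1 ≤ C0)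
    (hG : GPall Z) {m k r : ℕ} (hm : 1 ≤ m) (k0 : ℝ) {A η ω : ℝ} (hA : 0 < A)
    (h4 : 4 * (k + 1) ≤ Z.card)
    (hb : ∀ Om ∈ Z.powersetCard (k + 1),
      ((Z.filter fun z => IsBad m (Om.image zcp) (zcp z)).card : ℝ) ≤ η * Z.card)
    (hov : ∑ Om ∈ Z.powersetCard (k + 1), ∑ z ∈ Z,
        ((Om.filter fun w => Nul z w ∧
          ∃ X ∈ SSof Z, z ∈ X ∧ w ∈ X ∧ (X.card : ℝ) < k0 ∧
            2 * r + 2 ≤ (Om ∩ X).card).card : ℝ) ≤ ω * (Z.card.choose (k + 1))) :
    ((uncov Z (SSof Z) k0).card : ℝ) * (k + 1) ≤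
      4 * Z.card * ((η * A * C0 * L * (k + 1) + (C0 * L * (k + 1) + Z.card) / A) +
        Z.card * (CR * (m : ℝ) ^ 2 + m * (2 * r + 1)) + ω) := by
  have hn := card_pos' hreg
  have hch : (0 : ℝ) < Z.card.choose (k + 1) := by
    exact_mod_cast Nat.choose_pos (by omega)
  have h1 := hE Z k (fun z w => (z, w) ∈ uncov Z (SSof Z) k0)
    (fun Om z w => o m (Om.image zcp) (zcp z) (zcp w)) (fun z w => uncov_symm z w)
    (fun z h => (not_uncov_self z h)) h4
  have e1 : ((Z ×ˢ Z).filter fun p : PP × PP => (p.1, p.2) ∈ uncov Z (SSof Z) k0) =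
      uncov Z (SSof Z) k0 := by
    ext p
    rw [mem_filter]
    constructor
    · exact fun h => h.2
    · intro h
      refine ⟨?_, h⟩
      unfold uncov at h
      exact (mem_filter.1 h).1
  rw [e1] at h1
  have h2 : ∑ Om ∈ Z.powersetCard (k + 1), ∑ z ∈ Z \ Om,
        ((Om.filter fun w => (z, w) ∈ uncov Z (SSof Z) k0 ∧
          o m ((Om.erase w).image zcp) (zcp w) (zcp z) ≤
            o m ((Om.erase w).image zcp) (zcp z) (zcp w)).card : ℝ) ≤
      ∑ Om ∈ Z.powersetCard (k + 1), ∑ z ∈ Z, ((if IsBad m (Om.image zcp) (zcp z) then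
        ((Om.filter fun w => w ∈ nb Nul Z z).card : ℝ) else 0) +
        (CR * (m : ℝ) ^ 2 + m * (2 * r + 1)) +
        ((Om.filter fun w => Nul z w ∧
          ∃ X ∈ SSof Z, z ∈ X ∧ w ∈ X ∧ (X.card : ℝ) < k0 ∧
            2 * r + 2 ≤ (Om ∩ X).card).card : ℝ)) := by
    refine sum_le_sum fun Om hOm => ?_
    have hOmZ := (mem_powersetCard.1 hOm).1
    refine le_trans (sum_le_sum fun z hz => ?_) (sum_le_sum_of_subset_of_nonneg
      (sdiff_subset (s := Z) (t := Om)) (fun z _ _ => ?_))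
    · have hzZ := (mem_sdiff.1 hz).1
      by_cases hbad : IsBad m (Om.image zcp) (zcp z)
      · rw [if_pos hbad]
        have h3 : ((Om.filter fun w => (z, w) ∈ uncov Z (SSof Z) k0 ∧
          o m ((Om.erase w).image zcp) (zcp w) (zcp z) ≤
            o m ((Om.erase w).image zcp) (zcp z) (zcp w)).card : ℝ) ≤
            ((Om.filter fun w => w ∈ nb Nul Z z).card : ℝ) := by
          have : (Om.filter fun w => (z, w) ∈ uncov Z (SSof Z) k0 ∧
            o m ((Om.erase w).image zcp) (zcp w) (zcp z) ≤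
              o m ((Om.erase w).image zcp) (zcp z) (zcp w)) ⊆
              (Om.filter fun w => w ∈ nb Nul Z z) := by
            intro w hw
            rw [mem_filter] at hw ⊢
            exact ⟨hw.1, mem_nb_of_uncov hw.2.1⟩
          exact_mod_cast card_le_card this
        have h5 : 0 ≤ (CR * (m : ℝ) ^ 2 + m * (2 * r + 1)) := by positivity
        have h6 : (0 : ℝ) ≤ ((Om.filter fun w => Nul z w ∧
          ∃ X ∈ SSof Z, z ∈ X ∧ w ∈ X ∧ (X.card : ℝ) < k0 ∧
            2 * r + 2 ≤ (Om ∩ X).card).card : ℝ) := Nat.cast_nonneg _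
        linarith
      · rw [if_neg hbad, zero_add]
        exact point_count hrank hG m r hm k0 hOmZ hzZ hbad
    · split_ifs <;> positivity
  have h7 : ∑ Om ∈ Z.powersetCard (k + 1), ∑ z ∈ Z, ((if IsBad m (Om.image zcp) (zcp z) then
        ((Om.filter fun w => w ∈ nb Nul Z z).card : ℝ) else 0) +
        (CR * (m : ℝ) ^ 2 + m * (2 * r + 1)) +
        ((Om.filter fun w => Nul z w ∧
          ∃ X ∈ SSof Z, z ∈ X ∧ w ∈ X ∧ (X.card : ℝ) < k0 ∧
            2 * r + 2 ≤ (Om ∩ X).card).card : ℝ)) ≤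
      ((η * A * C0 * L * (k + 1) + (C0 * L * (k + 1) + Z.card) / A) +
        Z.card * (CR * (m : ℝ) ^ 2 + m * (2 * r + 1)) + ω) * Z.card.choose (k + 1) := by
    simp only [sum_add_distrib]
    rw [add_mul, add_mul]
    refine add_le_add (add_le_add (bad_sum hreg hC0 hA hb) ?_) hov
    simp only [sum_const, nsmul_eq_mul, card_powersetCard]
    apply le_of_eq
    ring
  have h8 : (((uncov Z (SSof Z) k0).card : ℝ) * (k + 1)) * (Z.card.choose (k + 1)) ≤
      (4 * Z.card * ((η * A * C0 * L * (k + 1) + (C0 * L * (k + 1) + Z.card) / A) +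
        Z.card * (CR * (m : ℝ) ^ 2 + m * (2 * r + 1)) + ω)) * Z.card.choose (k + 1) := by
    refine h1.trans ?_
    rw [mul_assoc (4 * (Z.card : ℝ))]
    exact mul_le_mul_of_nonneg_left (h2.trans h7) (by positivity)
  exact le_of_mul_le_mul_right h8 hch

lemma card_Pr3 : Fintype.card (Pr 3) = 3 := by decide

lemma Kd3 : Kd 3 = 120 := by
  unfold Kd
  rw [card_Pr3]
  rfl

open scoped Classical in
/-- STEP A, the count -/
theorem main_count (hE : Engine) (hR : RankIn) (hO : Overfull) (h1 : O1curve) (h2 : O1surf)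
    (hL0 : L0in) (C0 ε : ℝ) (hC0 : 1 ≤ C0) (hε : 0 < ε) (hε1 : ε ≤ 1) :
    ∃ c B0 : ℝ, 0 < c ∧ ∀ (Z : Finset PP) (L B : ℝ), B0 ≤ B → Reg Nul C0 B Z L → GPall Z →
      ((uncov Z (SSof Z) (c * L ^ 2 / Z.card)).card : ℝ) ≤ ε * L * Z.card := by
  obtain ⟨o, CR, hCR, hrank⟩ := hR
  set C1 : ℝ := max 1 (3840 * CR / ε) with hC1def
  have hC1 : 1 ≤ C1 := le_max_left _ _
  have hC1' : 3840 * CR ≤ ε * C1 := by
    have := le_max_right 1 (3840 * CR / ε)
    rw [div_le_iff₀ hε] at this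
    linarith
  set A : ℝ := 128 * C0 / ε with hAdef
  have hA : 0 < A := by positivity
  set η : ℝ := ε / (64 * A * C0) with hηdef
  have hη : 0 < η := by positivity
  obtain ⟨B1, hB1⟩ := hO C0 ε C1 hC0 hε hε1 hC1
  obtain ⟨B2, hB2⟩ := bad_small hL0 h1 h2 C0 C1 η hC0 hC1 hη
  obtain ⟨B3, hB3⟩ := D3cons275.t_large C0 (122880 / ε)
  have hKK : 0 < KK := by unfold KK; norm_num
  refine ⟨ε / (KK * C1), max (max B1 B2) (max B3 (C1 ^ 3)), by positivity, ?_⟩
  intro Z L B hB hreg hgen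
  have hBB1 : B1 ≤ B := (le_max_left _ _).trans ((le_max_left _ _).trans hB)
  have hBB2 : B2 ≤ B := (le_max_right _ _).trans ((le_max_left _ _).trans hB)
  have hBB3 : B3 ≤ B := (le_max_left _ _).trans ((le_max_right _ _).trans hB)
  have hBB4 : C1 ^ 3 ≤ B := (le_max_right _ _).trans ((le_max_right _ _).trans hB)
  have hn := card_pos' hreg
  have hL := hreg.L_pos
  have hBpos : 0 < B := lt_of_lt_of_le (by positivity) hBB4
  set n : ℝ := (Z.card : ℝ) with hndef
  set t : ℝ := n / L with htdef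
  have ht1 : 122880 / ε ≤ t := by
    rw [htdef, le_div_iff₀ hL]
    exact hB3 B Z L hBB3 hreg
  have ht2 : 122880 ≤ ε * t := by
    rw [div_le_iff₀ hε] at ht1
    linarith
  have htpos : 0 < t := by positivity
  have ht3 : 122880 ≤ t := by nlinarith
  have ht4 : t ^ 3 ≤ n / B := t3_le hreg hBpos
  have hLt : L * t = n := by rw [htdef]; field_simp
  -- m
  set m : ℕ := ⌈C1 * t⌉₊ with hmdef
  have hm1 : C1 * t ≤ m := Nat.le_ceil _
  have hm2 : (m : ℝ) ≤ 2 * C1 * t := by
    have h3 : (m : ℝ) < C1 * t + 1 := Nat.ceil_lt_add_one (by positivity)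
    nlinarith
  have hmt : t ≤ m := by nlinarith
  have hm16 : (16 : ℝ) ≤ m := by linarith
  have hmpos : (0 : ℝ) < m := by linarith
  have hm1' : 1 ≤ m := by exact_mod_cast (by linarith : (1 : ℝ) ≤ (m : ℝ))
  have hm3 : (4096 : ℝ) ≤ (m : ℝ) ^ 3 := by
    calc (4096 : ℝ) = 16 ^ 3 := by norm_num
      _ ≤ (m : ℝ) ^ 3 := by gcongr
  -- k
  set kk : ℕ := ⌈(m : ℝ) ^ 3 / 240⌉₊ with hkkdef
  have hk1 : (m : ℝ) ^ 3 / 240 ≤ kk := Nat.le_ceil _
  have hk2 : (kk : ℝ) ≤ (m : ℝ) ^ 3 / 120 := by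
    have h3 : (kk : ℝ) < (m : ℝ) ^ 3 / 240 + 1 := Nat.ceil_lt_add_one (by positivity)
    linarith
  obtain ⟨k, hk⟩ : ∃ k, kk = k + 1 := by
    have h3 : (0 : ℝ) < kk := by
      have : (0 : ℝ) < (m : ℝ) ^ 3 / 240 := by positivity
      linarith
    have h4 : 0 < kk := by exact_mod_cast h3
    exact ⟨kk - 1, by omega⟩
  rw [hk] at hk1 hk2
  have hkc : (((k + 1 : ℕ)) : ℝ) = (k : ℝ) + 1 := by push_cast; ring
  rw [hkc] at hk1 hk2
  have hm3' : (m : ℝ) ^ 3 ≤ 8 * C1 ^ 3 * t ^ 3 := by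
    calc (m : ℝ) ^ 3 ≤ (2 * C1 * t) ^ 3 := by gcongr
      _ = _ := by ring
  have h4 : 4 * (k + 1) ≤ Z.card := by
    have h5 : (4 : ℝ) * (k + 1) ≤ n := by
      calc (4 : ℝ) * (k + 1) ≤ 4 * ((m : ℝ) ^ 3 / 120) := by gcongr
        _ ≤ 4 * ((8 * C1 ^ 3 * t ^ 3) / 120) := by gcongr
        _ ≤ C1 ^ 3 * t ^ 3 := by
          have : 0 ≤ C1 ^ 3 * t ^ 3 := by positivity
          linarith
        _ ≤ B * (n / B) := by gcongr
        _ = n := by field_simp
    rw [hndef] at h5
    exact_mod_cast h5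
  -- r
  set r : ℕ := ⌈ε * C1 ^ 2 * t / 61440⌉₊ with hrdef
  have hr1 : ε * C1 ^ 2 * t / 61440 ≤ r := Nat.le_ceil _
  have hr2 : (r : ℝ) ≤ ε * C1 ^ 2 * t / 61440 + 1 :=
    (Nat.ceil_lt_add_one (by positivity)).le
  -- the bad sets
  have hb : ∀ Om ∈ Z.powersetCard (k + 1),
      ((Z.filter fun z => IsBad m (Om.image zcp) (zcp z)).card : ℝ) ≤ η * Z.card := by
    intro Om hOm
    obtain ⟨f, hf1, hf2, hf3⟩ := exists_res_eq_zero' (Om.image zcp) m (by
      rw [Kd3, card_image_of_injective _ zcp_inj, (mem_powersetCard.1 hOm).2]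
      have h5 : (((k + 1 : ℕ)) : ℝ) * 120 < ((m : ℝ) + 1) ^ 3 := by
        rw [hkc]
        calc ((k : ℝ) + 1) * 120 ≤ (m : ℝ) ^ 3 / 120 * 120 := by gcongr
          _ = (m : ℝ) ^ 3 := by ring
          _ < ((m : ℝ) + 1) ^ 3 := by gcongr; linarith
      exact_mod_cast h5)
    refine hB2 B Z L hBB2 hreg m hm1' hm2 f hf2 hf1 _ (filter_subset _ _) ?_
    intro z hz
    exact (mem_filter.1 hz).2 f ⟨hf1, hf3⟩
  have hov := hB1 B Z L hBB1 hreg (SSof Z) (blocks Z) k r (by
      rw [hkc]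
      calc (k : ℝ) + 1 ≤ (m : ℝ) ^ 3 / 120 := hk2
        _ ≤ (8 * C1 ^ 3 * t ^ 3) / 120 := by gcongr
        _ = (C1 * (n / L)) ^ 3 / 15 := by rw [← htdef]; ring) hr1
  have key := count hE hrank hCR hreg hC0 hgen hm1' (ε / (KK * C1) * L ^ 2 / Z.card) hA h4 hb hov
  rw [← hndef] at key
  have hkpos : (0 : ℝ) < (k : ℝ) + 1 := by positivity
  -- numerical estimates
  have e1 : η * A * C0 * L * (k + 1) = ε / 64 * (L * (k + 1)) := by
    rw [hηdef]
    field_simp
  have e2 : C0 * L * (k + 1) / A = ε / 128 * (L * (k + 1)) := by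
    rw [hAdef]
    field_simp
  have e3 : n / A ≤ ε / 128 * (L * (k + 1)) := by
    have h5 : t ≤ k + 1 := by
      have h6 : t ≤ (m : ℝ) ^ 3 / 240 := by
        have h7 : t ^ 3 ≤ (m : ℝ) ^ 3 := by gcongr
        have h8 : 240 * t ≤ t ^ 3 := by
          have : 240 ≤ t ^ 2 := by nlinarith
          nlinarith
        linarith
      linarith
    have h6 : n / A = ε * n / (128 * C0) := by
      rw [hAdef]
      field_simp
    rw [h6, div_le_iff₀ (by positivity), ← hLt]
    have h7 : L * t ≤ L * (k + 1) := by gcongr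
    have h8 : ε * (L * t) ≤ ε * (L * (k + 1)) := by gcongr
    have h9 : 0 ≤ ε * (L * (k + 1)) := by positivity
    have h10 : ε * (L * (k + 1)) ≤ ε * (L * (k + 1)) * C0 := le_mul_of_one_le_right h9 hC0
    calc ε * (L * t) ≤ ε * (L * (k + 1)) * C0 := h8.trans h10
      _ = ε / 128 * (L * (↑k + 1)) * (128 * C0) := by ring
  -- `t CR m² ≤ ε / 16 (k+1)`
  have e4 : n * (CR * (m : ℝ) ^ 2) ≤ ε / 16 * (L * (k + 1)) := by
    have h5 : t * (CR * (m : ℝ) ^ 2) ≤ ε / 16 * (k + 1) := by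
      have h6 : 3840 * CR * t ≤ ε * m := by
        calc 3840 * CR * t ≤ ε * C1 * t := by gcongr
          _ = ε * (C1 * t) := by ring
          _ ≤ ε * m := by gcongr
      calc t * (CR * (m : ℝ) ^ 2) = (3840 * CR * t) * (m : ℝ) ^ 2 / 3840 := by ring
        _ ≤ (ε * m) * (m : ℝ) ^ 2 / 3840 := by gcongr
        _ = ε / 16 * ((m : ℝ) ^ 3 / 240) := by ring
        _ ≤ ε / 16 * (k + 1) := by gcongr
    calc n * (CR * (m : ℝ) ^ 2) = L * (t * (CR * (m : ℝ) ^ 2)) := by rw [← hLt]; ring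
      _ ≤ L * (ε / 16 * (k + 1)) := by gcongr
      _ = _ := by ring
  have e5 : n * (m * (2 * r + 1)) ≤ ε / 16 * (L * (k + 1)) := by
    have h5 : t * (m * (2 * r + 1)) ≤ ε / 16 * (k + 1) := by
      have h6 : 3840 * (t * (2 * r + 1)) ≤ ε * (m : ℝ) ^ 2 := by
        have h7 : 3840 * (2 * (r : ℝ) + 1) ≤ ε * C1 ^ 2 * t := by
          have h8 : (1 : ℝ) ≤ C1 ^ 2 := by nlinarith
          have h9 : 122880 ≤ ε * C1 ^ 2 * t := by
            calc (122880 : ℝ) ≤ ε * t := ht2
              _ = ε * 1 * t := by ring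
              _ ≤ ε * C1 ^ 2 * t := by gcongr
          linarith
        calc 3840 * (t * (2 * r + 1)) = t * (3840 * (2 * (r : ℝ) + 1)) := by ring
          _ ≤ t * (ε * C1 ^ 2 * t) := by gcongr
          _ = ε * (C1 * t) ^ 2 := by ring
          _ ≤ ε * (m : ℝ) ^ 2 := by gcongr
      calc t * (m * (2 * r + 1)) = m * (3840 * (t * (2 * r + 1))) / 3840 := by ring
        _ ≤ m * (ε * (m : ℝ) ^ 2) / 3840 := by gcongr
        _ = ε / 16 * ((m : ℝ) ^ 3 / 240) := by ring
        _ ≤ ε / 16 * (k + 1) := by gcongr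
    calc n * (m * (2 * r + 1)) = L * (t * (m * (2 * r + 1))) := by rw [← hLt]; ring
      _ ≤ L * (ε / 16 * (k + 1)) := by gcongr
      _ = _ := by ring
  have e6 : ((η * A * C0 * L * (k + 1) + (C0 * L * (k + 1) + n) / A) +
        n * (CR * (m : ℝ) ^ 2 + m * (2 * r + 1)) + ε / 64 * (k + 1) * L) ≤
        ε / 4 * (L * (k + 1)) := by
    have h5 : ε / 64 * (k + 1) * L = ε / 64 * (L * (k + 1)) := by ring
    have h6 : 0 ≤ ε * (L * (k + 1)) := by positivity
    rw [add_div, e1, e2, mul_add, h5]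
    linarith
  have e7 : ((uncov Z (SSof Z) (ε / (KK * C1) * L ^ 2 / n)).card : ℝ) * (k + 1) ≤
      (ε * L * n) * (k + 1) := by
    refine key.trans ?_
    calc 4 * n * ((η * A * C0 * L * (k + 1) + (C0 * L * (k + 1) + n) / A) +
        n * (CR * (m : ℝ) ^ 2 + m * (2 * r + 1)) + ε / 64 * (k + 1) * L)
        ≤ 4 * n * (ε / 4 * (L * (k + 1))) := by gcongr
      _ = (ε * L * n) * (k + 1) := by ring
  exact le_of_mul_le_mul_right e7 hkpos

/-- STEP A for generic sets (all coordinates) -/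
def StepAall (C0 : ℝ) : Prop :=
  ∀ ε : ℝ, 0 < ε → ∃ c B0 : ℝ, 0 < c ∧ ∀ (Z : Finset PP) (L B : ℝ), B0 ≤ B → Reg Nul C0 B Z L →
    GPall Z → ∃ SS : Finset (Finset PP), Blocks Z SS ∧
      ((uncov Z SS (c * L ^ 2 / Z.card)).card : ℝ) ≤ ε * L * Z.card

/-- STEP A for generic sets -/
theorem stepAall (hE : Engine) (hR : RankIn) (hO : Overfull) (h1 : O1curve) (h2 : O1surf)
    (hL0 : L0in) (C0 : ℝ) : StepAall C0 := by
  intro ε hε
  by_cases hC0 : 1 ≤ C0
  · obtain ⟨c, B0, hc, h⟩ := main_count hE hR hO h1 h2 hL0 C0 (min ε 1) hC0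
      (lt_min hε one_pos) (min_le_right _ _)
    refine ⟨c, B0, hc, fun Z L B hB hreg hgen => ⟨SSof Z, blocks Z, ?_⟩⟩
    refine (h Z L B hB hreg hgen).trans ?_
    have := hreg.L_pos
    gcongr
    exact min_le_left _ _
  · exact ⟨1, 0, one_pos, fun Z L B _ hreg _ => absurd (D3cons275.one_le_C0 hreg) hC0⟩

end Crest.Agent.R065.D3stepA855
end

-- ▼ part R065/Exch_134
section

/-!
# Row 65: the exchange lemma (helper272 #14572 (2'), helper855's `Engine`)

For a finite set `V` and any function `F` of `(Om, z, w)`, summing over `k`-subsets `Om` and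
points `w ∉ Om` is the same as summing over `(k+1)`-subsets `Om` and points `w ∈ Om`
(`exch`).  Orienting each related pair by an arbitrary order function gives `engine`.
-/

set_option autoImplicit false

open Finset

namespace Crest.Agent.R065.Exch134

variable {α : Type*} [DecidableEq α]

/-- **Exchange.** -/
theorem exch {M : Type*} [AddCommMonoid M] (V : Finset α) (k : ℕ) (F : Finset α → α → α → M) :
    ∑ Om ∈ V.powersetCard k, ∑ z ∈ V \ Om, ∑ w ∈ (V \ Om).erase z, F Om z w =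
      ∑ Om ∈ V.powersetCard (k + 1), ∑ z ∈ V \ Om, ∑ w ∈ Om, F (Om.erase w) z w := by
  classical
  simp only [Finset.sum_sigma']
  refine Finset.sum_bij' (fun x _ => ⟨insert x.2.2 x.1, ⟨x.2.1, x.2.2⟩⟩)
    (fun x _ => ⟨x.1.erase x.2.2, ⟨x.2.1, x.2.2⟩⟩) ?_ ?_ ?_ ?_ ?_
  · rintro ⟨Om, z, w⟩ h
    simp only [mem_sigma, mem_powersetCard, mem_sdiff, mem_erase] at h
    obtain ⟨⟨h1, h2⟩, ⟨hz1, hz2⟩, hwz, hw1, hw2⟩ := h
    simp only [mem_sigma, mem_powersetCard, mem_sdiff, mem_insert]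
    refine ⟨⟨insert_subset hw1 h1, ?_⟩, ⟨hz1, ?_⟩, Or.inl trivial⟩
    · rw [card_insert_of_notMem hw2, h2]
    · rintro (h | h)
      · exact hwz h.symm
      · exact hz2 h
  · rintro ⟨Om, z, w⟩ h
    simp only [mem_sigma, mem_powersetCard, mem_sdiff] at h
    obtain ⟨⟨h1, h2⟩, ⟨hz1, hz2⟩, hw⟩ := h
    simp only [mem_sigma, mem_powersetCard, mem_sdiff, mem_erase]
    refine ⟨⟨(erase_subset _ _).trans h1, ?_⟩, ⟨hz1, fun h => hz2 h.2⟩, ?_, h1 hw, fun h => h.1 rfl⟩
    · rw [card_erase_of_mem hw, h2]; rfl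
    · rintro rfl
      exact hz2 hw
  · rintro ⟨Om, z, w⟩ h
    simp only [mem_sigma, mem_powersetCard, mem_sdiff, mem_erase] at h
    obtain ⟨⟨h1, h2⟩, ⟨hz1, hz2⟩, hwz, hw1, hw2⟩ := h
    simp only [erase_insert hw2]
  · rintro ⟨Om, z, w⟩ h
    simp only [mem_sigma, mem_powersetCard, mem_sdiff] at h
    obtain ⟨⟨h1, h2⟩, ⟨hz1, hz2⟩, hw⟩ := h
    simp only [insert_erase hw]
  · rintro ⟨Om, z, w⟩ h
    simp only [mem_sigma, mem_powersetCard, mem_sdiff, mem_erase] at h
    obtain ⟨⟨h1, h2⟩, ⟨hz1, hz2⟩, hwz, hw1, hw2⟩ := h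
    simp only [erase_insert hw2]

/-- the number of `k`-subsets avoiding two points -/
lemma card_avoid (V : Finset α) (k : ℕ) {z w : α} (hz : z ∈ V) (hw : w ∈ V) (hne : z ≠ w) :
    ((V.powersetCard k).filter fun Om => z ∉ Om ∧ w ∉ Om).card = (V.card - 2).choose k := by
  have h : ((V.powersetCard k).filter fun Om => z ∉ Om ∧ w ∉ Om) =
      ((V.erase z).erase w).powersetCard k := by
    ext Om
    simp only [mem_filter, mem_powersetCard]
    constructor
    · rintro ⟨⟨h1, h2⟩, h3, h4⟩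
      refine ⟨fun x hx => ?_, h2⟩
      rw [mem_erase, mem_erase]
      exact ⟨fun h => h4 (h ▸ hx), fun h => h3 (h ▸ hx), h1 hx⟩
    · rintro ⟨h1, h2⟩
      refine ⟨⟨fun x hx => mem_of_mem_erase (mem_of_mem_erase (h1 hx)), h2⟩, ?_, ?_⟩
      · intro h
        have := mem_of_mem_erase (h1 h)
        exact (mem_erase.1 this).1 rfl
      · intro h
        exact (mem_erase.1 (h1 h)).1 rfl
  rw [h, card_powersetCard, card_erase_of_mem (mem_erase.2 ⟨hne.symm, hw⟩), card_erase_of_mem hz]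
  rfl

open scoped Classical in
/-- double counting of related pairs outside `Om` -/
lemma sum_outside (V : Finset α) (k : ℕ) (NN : α → α → Prop) (irr : ∀ z, ¬ NN z z) :
    ∑ Om ∈ V.powersetCard k, ∑ z ∈ V \ Om, (((V \ Om).erase z).filter fun w => NN z w).card =
      ((V ×ˢ V).filter fun p => NN p.1 p.2).card * (V.card - 2).choose k := by
  have h1 : ∀ Om ∈ V.powersetCard k,
      ∑ z ∈ V \ Om, (((V \ Om).erase z).filter fun w => NN z w).card =
      ∑ p ∈ (V ×ˢ V).filter fun p => NN p.1 p.2, if p.1 ∉ Om ∧ p.2 ∉ Om then 1 else 0 := by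
    intro Om _
    rw [← card_filter, ← card_sigma]
    refine card_bij (fun x _ => (x.1, x.2)) ?_ ?_ ?_
    · rintro ⟨z, w⟩ h
      simp only [mem_sigma, mem_sdiff, mem_filter, mem_erase] at h
      obtain ⟨⟨hz1, hz2⟩, ⟨_, hw1, hw2⟩, h3⟩ := h
      simp only [mem_filter, mem_product]
      exact ⟨⟨⟨hz1, hw1⟩, h3⟩, hz2, hw2⟩
    · rintro ⟨z, w⟩ _ ⟨z', w'⟩ _ h
      simp only [Prod.mk.injEq] at h
      obtain ⟨rfl, rfl⟩ := h
      rfl
    · rintro ⟨z, w⟩ h
      simp only [mem_filter, mem_product] at h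
      obtain ⟨⟨⟨hz1, hw1⟩, h3⟩, hz2, hw2⟩ := h
      refine ⟨⟨z, w⟩, ?_, rfl⟩
      simp only [mem_sigma, mem_sdiff, mem_filter, mem_erase]
      have hwz : w ≠ z := by
        rintro rfl
        exact irr w h3
      exact ⟨⟨hz1, hz2⟩, ⟨hwz, hw1, hw2⟩, h3⟩
  rw [sum_congr rfl h1, sum_comm, ← smul_eq_mul, ← sum_const]
  refine sum_congr rfl ?_
  rintro ⟨z, w⟩ h
  simp only [mem_filter, mem_product] at h
  obtain ⟨⟨hz, hw⟩, h3⟩ := h
  rw [← card_filter]
  have hzw : z ≠ w := by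
    rintro rfl
    exact irr z h3
  exact card_avoid V k hz hw hzw

open scoped Classical in
/-- one `Om`: every related pair outside `Om` is counted in at least one orientation -/
lemma orient (U : Finset α) (NN : α → α → Prop) (hs : ∀ z w, NN z w → NN w z)
    (g : α → α → ℕ∞) :
    ∑ z ∈ U, ((U.erase z).filter fun w => NN z w).card ≤
      2 * ∑ z ∈ U, ((U.erase z).filter fun w => NN z w ∧ g w z ≤ g z w).card := by
  have h1 : ∑ z ∈ U, ((U.erase z).filter fun w => NN z w ∧ g z w ≤ g w z).card =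
      ∑ z ∈ U, ((U.erase z).filter fun w => NN z w ∧ g w z ≤ g z w).card := by
    rw [← card_sigma, ← card_sigma]
    refine card_bij (fun x _ => ⟨x.2, x.1⟩) ?_ ?_ ?_
    · rintro ⟨z, w⟩ h
      simp only [mem_sigma, mem_filter, mem_erase] at h
      obtain ⟨hz, ⟨hwz, hw⟩, h3, h4⟩ := h
      simp only [mem_sigma, mem_filter, mem_erase]
      exact ⟨hw, ⟨fun h => hwz h.symm, hz⟩, hs _ _ h3, h4⟩
    · rintro ⟨z, w⟩ _ ⟨z', w'⟩ _ h
      simp only [Sigma.mk.injEq, heq_eq_eq] at h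
      obtain ⟨rfl, rfl⟩ := h
      rfl
    · rintro ⟨z, w⟩ h
      simp only [mem_sigma, mem_filter, mem_erase] at h
      obtain ⟨hz, ⟨hwz, hw⟩, h3, h4⟩ := h
      refine ⟨⟨w, z⟩, ?_, rfl⟩
      simp only [mem_sigma, mem_filter, mem_erase]
      exact ⟨hw, ⟨fun h => hwz h.symm, hz⟩, hs _ _ h3, h4⟩
  rw [two_mul]
  nth_rewrite 2 [← h1]
  rw [← sum_add_distrib]
  refine sum_le_sum fun z _ => ?_
  refine le_trans (card_le_card ?_) (card_union_le _ _)
  intro w hw
  rw [mem_filter] at hw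
  rw [mem_union, mem_filter, mem_filter]
  rcases le_total (g w z) (g z w) with h | h
  · exact Or.inl ⟨hw.1, hw.2, h⟩
  · exact Or.inr ⟨hw.1, hw.2, h⟩

open scoped Classical in
/-- **Engine, exact form.** -/
theorem engine_nat (V : Finset α) (k : ℕ) (NN : α → α → Prop) (o : Finset α → α → α → ℕ∞)
    (hs : ∀ z w, NN z w → NN w z) (irr : ∀ z, ¬ NN z z) :
    ((V ×ˢ V).filter fun p => NN p.1 p.2).card * (V.card - 2).choose k ≤
      2 * ∑ Om ∈ V.powersetCard (k + 1), ∑ z ∈ V \ Om,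
        (Om.filter fun w => NN z w ∧ o (Om.erase w) w z ≤ o (Om.erase w) z w).card := by
  rw [← sum_outside V k NN irr]
  have h1 := exch V k (fun Om z w => if NN z w ∧ o Om w z ≤ o Om z w then (1 : ℕ) else 0)
  simp only [← card_filter] at h1
  rw [← h1, mul_sum]
  exact sum_le_sum fun Om _ => orient (V \ Om) NN hs fun z w => o Om z w

open scoped Classical in
/-- **Engine** (`D3in855.Engine` with irreflexivity). -/
theorem engine (V : Finset α) (k : ℕ) (NN : α → α → Prop) (o : Finset α → α → α → ℕ∞)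
    (hs : ∀ z w, NN z w → NN w z) (irr : ∀ z, ¬ NN z z) (hk : 4 * (k + 1) ≤ V.card) :
    ((((V ×ˢ V).filter fun p => NN p.1 p.2).card : ℝ) * (k + 1)) * (V.card.choose (k + 1)) ≤
      4 * V.card * ∑ Om ∈ V.powersetCard (k + 1), ∑ z ∈ V \ Om,
        ((Om.filter fun w => NN z w ∧ o (Om.erase w) w z ≤ o (Om.erase w) z w).card : ℝ) := by
  have h1 := engine_nat V k NN o hs irr
  obtain ⟨n, hn⟩ : ∃ n, V.card = n + 2 := ⟨V.card - 2, by omega⟩
  rw [hn] at h1 hk ⊢
  have e1 : (n + 2).choose (k + 1) * (k + 1) = (n + 2) * (n + 1).choose k :=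
    (Nat.add_one_mul_choose_eq (n + 1) k).symm
  have e2 : (n + 1).choose k * (n + 1 - k) = (n + 1) * n.choose k := by
    have := Nat.choose_mul_succ_eq n k
    rw [← this]; ring
  have e3 : (n + 1).choose k ≤ 2 * n.choose k := by
    have h3 : (n + 1).choose k * (n + 1) ≤ 2 * n.choose k * (n + 1) := by
      calc (n + 1).choose k * (n + 1) ≤ (n + 1).choose k * (2 * (n + 1 - k)) :=
            Nat.mul_le_mul_left _ (by omega)
        _ = 2 * ((n + 1).choose k * (n + 1 - k)) := by ring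
        _ = 2 * n.choose k * (n + 1) := by rw [e2]; ring
    exact Nat.le_of_mul_le_mul_right h3 (Nat.succ_pos n)
  have h2 : ((((V ×ˢ V).filter fun p => NN p.1 p.2).card * (k + 1)) * (n + 2).choose (k + 1)) ≤
      4 * (n + 2) * ∑ Om ∈ V.powersetCard (k + 1), ∑ z ∈ V \ Om,
        (Om.filter fun w => NN z w ∧ o (Om.erase w) w z ≤ o (Om.erase w) z w).card := by
    generalize ((V ×ˢ V).filter fun p => NN p.1 p.2).card = T at *
    generalize (∑ Om ∈ V.powersetCard (k + 1), ∑ z ∈ V \ Om,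
        (Om.filter fun w => NN z w ∧ o (Om.erase w) w z ≤ o (Om.erase w) z w).card) = X at *
    have h3 : T * n.choose k ≤ 2 * X := by simpa using h1
    calc T * (k + 1) * (n + 2).choose (k + 1) = T * ((n + 2).choose (k + 1) * (k + 1)) := by ring
      _ = T * ((n + 2) * (n + 1).choose k) := by rw [e1]
      _ ≤ T * ((n + 2) * (2 * n.choose k)) := by gcongr
      _ = 2 * (n + 2) * (T * n.choose k) := by ring
      _ ≤ 2 * (n + 2) * (2 * X) := by gcongr
      _ = 4 * (n + 2) * X := by ring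
  exact_mod_cast h2

end Crest.Agent.R065.Exch134
end

-- ▼ part R065/GenAll_812
section

/-!
# Row 65: an isometry making all coordinates of finitely many vectors nonzero
-/

set_option autoImplicit false

open Module

namespace Crest.Agent.R065.D3rot812

open Crest.Agent.R065.Top348 Crest.Agent.R065.Base348 Crest.Agent.R065.D3

section coord

variable {d : ℕ}

/-- the quadric of the reflections `n` with `(Q v) i = 0` -/
noncomputable def Fq (v : EuclideanSpace ℝ (Fin d)) (i : Fin d) : MvPolynomial (Fin d) ℝ :=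
  2 * (∑ j, MvPolynomial.C (v j) * MvPolynomial.X j) * MvPolynomial.X i -
    MvPolynomial.C (v i) * ∑ j, MvPolynomial.X j * MvPolynomial.X j

lemma eval_Fq (v : EuclideanSpace ℝ (Fin d)) (i : Fin d) (n : Fin d → ℝ) :
    MvPolynomial.eval n (Fq v i) = 2 * (∑ j, v j * n j) * n i - v i * ∑ j, n j * n j := by
  simp [Fq]

lemma Fq_ne_zero {v : EuclideanSpace ℝ (Fin d)} (hv : v ≠ 0) (i : Fin d) : Fq v i ≠ 0 := by
  classical
  intro h
  by_cases hvi : v i = 0
  · obtain ⟨j, hj⟩ : ∃ j, v j ≠ 0 := by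
      by_contra hcon
      push Not at hcon
      exact hv (by ext j; simpa using hcon j)
    have hij : j ≠ i := by
      rintro rfl
      exact hj hvi
    have h1 := eval_Fq v i (Pi.single i 1 + Pi.single j 1)
    rw [h, map_zero, hvi, zero_mul, sub_zero] at h1
    have h2 : (∑ k, v k * ((Pi.single i 1 + Pi.single j 1 : Fin d → ℝ)) k) = v j := by
      simp only [Pi.add_apply, mul_add, Finset.sum_add_distrib]
      rw [Finset.sum_eq_single i, Finset.sum_eq_single j]
      · simp [hvi]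
      · intro b _ hb
        simp [Pi.single_eq_of_ne hb]
      · intro h; exact absurd (Finset.mem_univ _) h
      · intro b _ hb
        simp [Pi.single_eq_of_ne hb]
      · intro h; exact absurd (Finset.mem_univ _) h
    rw [h2] at h1
    have h3 : ((Pi.single i 1 + Pi.single j 1 : Fin d → ℝ)) i = 1 := by
      simp [Pi.single_eq_of_ne hij.symm]
    rw [h3] at h1
    apply hj
    linarith
  · have h1 := eval_Fq v i (Pi.single i 1)
    rw [h, map_zero] at h1
    have h2 : (∑ k, v k * ((Pi.single i 1 : Fin d → ℝ)) k) = v i := by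
      rw [Finset.sum_eq_single i]
      · simp
      · intro b _ hb
        simp [Pi.single_eq_of_ne hb]
      · intro h; exact absurd (Finset.mem_univ _) h
    have h3 : (∑ k, ((Pi.single i 1 : Fin d → ℝ)) k * ((Pi.single i 1 : Fin d → ℝ)) k) = 1 := by
      rw [Finset.sum_eq_single i]
      · simp
      · intro b _ hb
        simp [Pi.single_eq_of_ne hb]
      · intro h; exact absurd (Finset.mem_univ _) h
    rw [h2, h3, Pi.single_eq_same] at h1
    apply hvi
    linarith

lemma aux_div {A s x y : ℝ} (hs : ¬ s = 0) :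
    2 * A * x - y * s = ((2 : ℝ) * (A / s) * x - y) * s := by
  field_simp

/-- a linear isometry such that finitely many nonzero vectors get nonzero coordinates -/
theorem exists_isometry_coord (S : Finset (EuclideanSpace ℝ (Fin d)))
    (hS : ∀ v ∈ S, v ≠ 0) : ∃ Q : EuclideanSpace ℝ (Fin d) ≃ₗᵢ[ℝ] EuclideanSpace ℝ (Fin d),
      ∀ v ∈ S, ∀ i, (Q v) i ≠ 0 := by
  classical
  have hne : (∏ v ∈ S, ∏ i, Fq v i) ≠ 0 := by
    rw [Finset.prod_ne_zero_iff]
    intro v hv
    rw [Finset.prod_ne_zero_iff]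
    intro i _
    exact Fq_ne_zero (hS v hv) i
  obtain ⟨n, hn⟩ : ∃ n : Fin d → ℝ, MvPolynomial.eval n (∏ v ∈ S, ∏ i, Fq v i) ≠ 0 := by
    by_contra hcon
    push Not at hcon
    apply hne
    refine MvPolynomial.funext fun x => ?_
    rw [hcon x, map_zero]
  rw [map_prod, Finset.prod_ne_zero_iff] at hn
  set N : EuclideanSpace ℝ (Fin d) := WithLp.toLp 2 n with hN
  refine ⟨(ℝ ∙ N).reflection, fun v hv i h0 => ?_⟩
  have h1 := hn v hv
  rw [map_prod, Finset.prod_ne_zero_iff] at h1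
  have h2 := h1 i (Finset.mem_univ _)
  rw [eval_Fq] at h2
  rw [Submodule.reflection_singleton_apply] at h0
  have e1 : inner ℝ N v = ∑ j, v j * n j := by
    rw [PiLp.inner_apply]
    refine Finset.sum_congr rfl fun j _ => ?_
    simp [hN]
  have e2 : ‖N‖ ^ 2 = ∑ j, n j * n j := by
    rw [← real_inner_self_eq_norm_sq, PiLp.inner_apply]
    refine Finset.sum_congr rfl fun j _ => ?_
    simp [hN]
    ring
  by_cases hN0 : ‖N‖ ^ 2 = 0
  · apply h2
    have : N = 0 := by
      rw [← norm_eq_zero]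
      exact pow_eq_zero_iff (two_ne_zero) |>.1 hN0
    have hn0 : ∀ j, n j = 0 := by
      intro j
      have := congrArg (fun u : EuclideanSpace ℝ (Fin d) => u j) this
      simpa [hN] using this
    simp [hn0]
  · apply h2
    have h3 : (2 : ℝ) * ((∑ j, v j * n j) / (∑ j, n j * n j)) * n i - v i = 0 := by
      have h4 : ((2 : ℕ) • ((inner ℝ N v / ((‖N‖ : ℝ) ^ 2)) • N) - v) i = 0 := h0
      rw [e1, e2] at h4
      have h5 : ((2 : ℕ) • (((∑ j, v j * n j) / (∑ j, n j * n j)) • N) - v) i =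
          (2 : ℝ) * ((∑ j, v j * n j) / (∑ j, n j * n j)) * n i - v i := by
        rw [two_nsmul]
        simp only [PiLp.sub_apply, PiLp.add_apply, PiLp.smul_apply, smul_eq_mul, hN]
        ring
      rw [h5] at h4
      exact h4
    rw [e2] at hN0
    have h6 : 2 * (∑ j, v j * n j) * n i - v i * ∑ j, n j * n j =
        ((2 : ℝ) * ((∑ j, v j * n j) / (∑ j, n j * n j)) * n i - v i) * (∑ j, n j * n j) :=
      aux_div hN0
    rw [h6, h3, zero_mul]

/-- all coordinates of the `x`-parts of different points are different -/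
def GenAll (Z : Finset (EuclideanSpace ℝ (Fin d) × EuclideanSpace ℝ (Fin d))) : Prop :=
  ∀ z ∈ Z, ∀ w ∈ Z, z ≠ w → ∀ i, (zc z.1 z.2).1 i ≠ (zc w.1 w.2).1 i

lemma zc_fst_apply_ne {z w : EuclideanSpace ℝ (Fin d) × EuclideanSpace ℝ (Fin d)} {i : Fin d}
    (h : ((z.1 + z.2) - (w.1 + w.2)) i ≠ 0) : (zc z.1 z.2).1 i ≠ (zc w.1 w.2).1 i := by
  intro h0
  apply h
  simp only [zc, zp, Pi.add_apply] at h0
  simp only [PiLp.add_apply, PiLp.sub_apply]
  have : (((z.1 i + z.2 i : ℝ)) : ℂ) = ((w.1 i + w.2 i : ℝ) : ℂ) := by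
    push_cast
    exact h0
  have h2 : z.1 i + z.2 i = w.1 i + w.2 i := by exact_mod_cast this
  linarith

/-- two isometries making the set generic in all coordinates -/
theorem exists_generic2 (hd : 2 ≤ d)
    (Z : Finset (EuclideanSpace ℝ (Fin d) × EuclideanSpace ℝ (Fin d))) :
    ∃ Q R : EuclideanSpace ℝ (Fin d) ≃ₗᵢ[ℝ] EuclideanSpace ℝ (Fin d),
      ∀ z ∈ Z, ∀ w ∈ Z, z ≠ w → ∀ i, (zc (Q z.1) (R z.2)).1 i ≠ (zc (Q w.1) (R w.2)).1 i := by
  classical
  obtain ⟨R, hR⟩ := exists_generic (E := EuclideanSpace ℝ (Fin d))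
    (by rw [finrank_euclideanSpace_fin]; exact hd) Z
  obtain ⟨Q, hQ⟩ := exists_isometry_coord
    (((Z ×ˢ Z).filter fun p => p.1 ≠ p.2).image fun p =>
      (p.1.1 + R p.1.2) - (p.2.1 + R p.2.2)) (by
      intro v hv
      rw [Finset.mem_image] at hv
      obtain ⟨p, hp, rfl⟩ := hv
      rw [Finset.mem_filter, Finset.mem_product] at hp
      exact sub_ne_zero.2 (hR _ hp.1.1 _ hp.1.2 hp.2))
  refine ⟨Q, R.trans Q, fun z hz w hw hne i => ?_⟩
  refine zc_fst_apply_ne (z := (Q z.1, (R.trans Q) z.2)) (w := (Q w.1, (R.trans Q) w.2)) ?_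
  have h1 := hQ ((z.1 + R z.2) - (w.1 + R w.2)) (by
    rw [Finset.mem_image]
    exact ⟨(z, w), Finset.mem_filter.2 ⟨Finset.mem_product.2 ⟨hz, hw⟩, hne⟩, rfl⟩) i
  have h2 : Q ((z.1 + R z.2) - (w.1 + R w.2)) =
      (Q z.1 + (R.trans Q) z.2) - (Q w.1 + (R.trans Q) w.2) := by
    rw [map_sub, map_add, map_add]
    rfl
  rw [h2] at h1
  exact h1

end coord

end Crest.Agent.R065.D3rot812
end

-- ▼ part R065/D3rot2_812
section

/-!
# Row 65, `d = 3`: STEP A for sets which are generic in all coordinates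
-/

set_option autoImplicit false

open Module

namespace Crest.Agent.R065.D3rot812

open Crest.Agent.R065.Top348 Crest.Agent.R065.Base348 Crest.Agent.R065.D3

/-- the map `(a, c) ↦ (Q a, R c)` -/
noncomputable def rot2 (Q R : E3 ≃ₗᵢ[ℝ] E3) : E3 × E3 ≃ E3 × E3 := Equiv.prodCongr Q.toEquiv R.toEquiv

@[simp] lemma rot2_fst (Q R : E3 ≃ₗᵢ[ℝ] E3) (z : E3 × E3) : (rot2 Q R z).1 = Q z.1 := rfl
@[simp] lemma rot2_snd (Q R : E3 ≃ₗᵢ[ℝ] E3) (z : E3 × E3) : (rot2 Q R z).2 = R z.2 := rfl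

section inv

variable (Q R : E3 ≃ₗᵢ[ℝ] E3)

lemma nul_rot2 (z w : PP) : Nul (rot2 Q R z) (rot2 Q R w) ↔ Nul z w := by
  unfold Nul
  rw [rot2_fst, rot2_fst, rot2_snd, rot2_snd, LinearIsometryEquiv.dist_map,
    LinearIsometryEquiv.dist_map]
  have h : Q z.1 ≠ Q w.1 ↔ z.1 ≠ w.1 := Q.injective.ne_iff
  simp [h]

lemma mem_map_rot2 {Z : Finset PP} {z : PP} :
    rot2 Q R z ∈ Z.map (rot2 Q R).toEmbedding ↔ z ∈ Z := by
  rw [Finset.mem_map]
  constructor
  · rintro ⟨w, hw, h⟩
    have : w = z := (rot2 Q R).injective h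
    rwa [← this]
  · intro h
    exact ⟨z, h, rfl⟩

lemma card_map_rot2 (Z : Finset PP) : (Z.map (rot2 Q R).toEmbedding).card = Z.card :=
  Finset.card_map _

lemma deg_rot2 (Z : Finset PP) (z : PP) :
    deg Nul (Z.map (rot2 Q R).toEmbedding) (rot2 Q R z) = deg Nul Z z := by
  classical
  unfold deg nb
  rw [Finset.filter_map, Finset.card_map]
  congr 1
  ext w
  simp only [Finset.mem_filter, Function.comp]
  exact and_congr_right fun _ => nul_rot2 Q R z w

lemma EE_rot2 (A B : Finset PP) :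
    EE Nul (A.map (rot2 Q R).toEmbedding) (B.map (rot2 Q R).toEmbedding) = EE Nul A B := by
  unfold EE
  rw [Finset.sum_map]
  exact Finset.sum_congr rfl fun z _ => deg_rot2 Q R B z

lemma TT_rot2 (A : Finset PP) : TT Nul (A.map (rot2 Q R).toEmbedding) = TT Nul A :=
  EE_rot2 Q R A A

lemma card_image_map_eq (Z : Finset PP) (S : E3 ≃ₗᵢ[ℝ] E3) (f : PP → E3)
    (hf : ∀ z, f (rot2 Q R z) = S (f z)) (i1 i2 : DecidableEq E3) :
    (@Finset.image _ _ i1 f (Z.map (rot2 Q R).toEmbedding)).card =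
      (@Finset.image _ _ i2 f Z).card := by
  have h1 : @Finset.image _ _ i1 f (Z.map (rot2 Q R).toEmbedding) =
      @Finset.image _ _ i1 S (@Finset.image _ _ i2 f Z) := by
    ext a
    simp only [Finset.mem_image, Finset.mem_map]
    constructor
    · rintro ⟨_, ⟨z, hz, rfl⟩, h⟩
      exact ⟨f z, ⟨z, hz, rfl⟩, by rw [← hf]; exact h⟩
    · rintro ⟨_, ⟨z, hz, rfl⟩, h⟩
      exact ⟨_, ⟨z, hz, rfl⟩, by rw [← h]; exact hf z⟩
  rw [h1]
  exact @Finset.card_image_of_injective E3 E3 S i1 (@Finset.image _ _ i2 f Z) S.injective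

lemma ss_rot2 (Z : Finset PP) : ss (Z.map (rot2 Q R).toEmbedding) = ss Z := by
  classical
  unfold ss
  congr 1
  · exact card_image_map_eq Q R Z Q Prod.fst (fun _ => rfl) _ _
  · exact card_image_map_eq Q R Z R Prod.snd (fun _ => rfl) _ _

/-- every subset of the image is an image -/
lemma exists_map_eq2 {Z Y : Finset PP} (h : Y ⊆ Z.map (rot2 Q R).toEmbedding) :
    ∃ X ⊆ Z, X.map (rot2 Q R).toEmbedding = Y := by
  classical
  refine ⟨Z.filter fun z => rot2 Q R z ∈ Y, Finset.filter_subset _ _, ?_⟩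
  ext y
  rw [Finset.mem_map]
  constructor
  · rintro ⟨z, hz, rfl⟩
    exact (Finset.mem_filter.1 hz).2
  · intro hy
    obtain ⟨z, hz, rfl⟩ := Finset.mem_map.1 (h hy)
    exact ⟨z, Finset.mem_filter.2 ⟨hz, hy⟩, rfl⟩

theorem reg_rot2 {C0 B L : ℝ} {Z : Finset PP} (h : Reg Nul C0 B Z L) :
    Reg Nul C0 B (Z.map (rot2 Q R).toEmbedding) L where
  ne := h.ne.map
  L_pos := h.L_pos
  deg_ge := by
    intro z hz
    obtain ⟨w, hw, rfl⟩ := Finset.mem_map.1 hz
    rw [Equiv.coe_toEmbedding, deg_rot2]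
    exact h.deg_ge w hw
  deg_le := by
    intro z hz
    obtain ⟨w, hw, rfl⟩ := Finset.mem_map.1 hz
    rw [Equiv.coe_toEmbedding, deg_rot2]
    exact h.deg_le w hw
  fst_ge := by
    intro a F hF hne
    have hsub : F ⊆ Z.map (rot2 Q R).toEmbedding := fun z hz => ((hF z).1 hz).1
    obtain ⟨X, hX, rfl⟩ := exists_map_eq2 Q R hsub
    rw [card_map_rot2, ss_rot2, EE_rot2]
    refine h.fst_ge (Q.symm a) X (fun z => ?_) (by rwa [Finset.map_nonempty] at hne)
    have := hF (rot2 Q R z)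
    rw [mem_map_rot2, mem_map_rot2, rot2_fst] at this
    rw [this]
    refine and_congr_right fun _ => ?_
    constructor
    · intro h1
      rw [← h1, LinearIsometryEquiv.symm_apply_apply]
    · intro h1
      rw [h1, LinearIsometryEquiv.apply_symm_apply]
  snd_ge := by
    intro a F hF hne
    have hsub : F ⊆ Z.map (rot2 Q R).toEmbedding := fun z hz => ((hF z).1 hz).1
    obtain ⟨X, hX, rfl⟩ := exists_map_eq2 Q R hsub
    rw [card_map_rot2, ss_rot2, EE_rot2]
    refine h.snd_ge (R.symm a) X (fun z => ?_) (by rwa [Finset.map_nonempty] at hne)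
    have := hF (rot2 Q R z)
    rw [mem_map_rot2, mem_map_rot2, rot2_snd] at this
    rw [this]
    refine and_congr_right fun _ => ?_
    constructor
    · intro h1
      rw [← h1, LinearIsometryEquiv.symm_apply_apply]
    · intro h1
      rw [h1, LinearIsometryEquiv.apply_symm_apply]
  sub := by
    intro Y hY y hy hcard
    obtain ⟨X, hX, rfl⟩ := exists_map_eq2 Q R hY
    rw [card_map_rot2, card_map_rot2] at hcard
    rw [TT_rot2, ss_rot2, ss_rot2, card_map_rot2]
    exact h.sub X hX y hy hcard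
  big := by
    rw [ss_rot2, card_map_rot2]
    exact h.big

open scoped Classical in
/-- pull back of a family of sets -/
noncomputable def pull2 (SS : Finset (Finset PP)) : Finset (Finset PP) :=
  SS.image fun X => X.map (rot2 Q R).symm.toEmbedding

lemma mem_map_symm2 {X : Finset PP} {z : PP} :
    z ∈ X.map (rot2 Q R).symm.toEmbedding ↔ rot2 Q R z ∈ X := by
  rw [Finset.mem_map]
  constructor
  · rintro ⟨w, hw, rfl⟩
    rw [Equiv.coe_toEmbedding, Equiv.apply_symm_apply]
    exact hw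
  · intro h
    exact ⟨rot2 Q R z, h, by rw [Equiv.coe_toEmbedding, Equiv.symm_apply_apply]⟩

lemma collinear_map_iff (S : E3 ≃ₗᵢ[ℝ] E3) (A : Set E3) (h : Collinear ℝ (S '' A)) :
    Collinear ℝ A := by
  rw [collinear_iff_exists_forall_eq_smul_vadd] at h ⊢
  obtain ⟨p₀, v, hv⟩ := h
  refine ⟨S.symm p₀, S.symm v, fun p hp => ?_⟩
  obtain ⟨r, hr⟩ := hv (S p) ⟨p, hp, rfl⟩
  refine ⟨r, ?_⟩
  have h1 : p = S.symm (r • v +ᵥ p₀) := by rw [← hr, LinearIsometryEquiv.symm_apply_apply]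
  rw [h1, vadd_eq_add, vadd_eq_add, map_add, map_smul]

theorem blocks_rot2 {Z : Finset PP} {SS : Finset (Finset PP)}
    (h : Blocks (Z.map (rot2 Q R).toEmbedding) SS) : Blocks Z (pull2 Q R SS) where
  sub := by
    intro X hX z hz
    obtain ⟨Y, hY, rfl⟩ := Finset.mem_image.1 hX
    rw [mem_map_symm2] at hz
    exact (mem_map_rot2 Q R).1 (h.sub Y hY hz)
  iso := by
    intro X hX u hu v hv
    obtain ⟨Y, hY, rfl⟩ := Finset.mem_image.1 hX
    rw [mem_map_symm2] at hu hv
    have := h.iso Y hY _ hu _ hv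
    rwa [rot2_fst, rot2_fst, rot2_snd, rot2_snd, LinearIsometryEquiv.dist_map,
      LinearIsometryEquiv.dist_map] at this
  col := by
    intro X hX X' hX' hne
    obtain ⟨Y, hY, rfl⟩ := Finset.mem_image.1 hX
    obtain ⟨Y', hY', rfl⟩ := Finset.mem_image.1 hX'
    have hne' : Y ≠ Y' := by
      rintro rfl
      exact hne rfl
    refine collinear_map_iff Q _ ((h.col Y hY Y' hY' hne').subset ?_)
    rintro _ ⟨a, ⟨u, hu, hu', rfl⟩, rfl⟩
    rw [mem_map_symm2] at hu hu'
    exact ⟨rot2 Q R u, hu, hu', rfl⟩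

theorem uncov_rot2 (Z : Finset PP) (SS : Finset (Finset PP)) (k : ℝ) :
    (uncov Z (pull2 Q R SS) k).card = (uncov (Z.map (rot2 Q R).toEmbedding) SS k).card := by
  classical
  refine Finset.card_bij (fun p _ => (rot2 Q R p.1, rot2 Q R p.2)) ?_ ?_ ?_
  · intro p hp
    unfold uncov at hp ⊢
    rw [Finset.mem_filter, Finset.mem_product] at hp ⊢
    refine ⟨⟨(mem_map_rot2 Q R).2 hp.1.1, (mem_map_rot2 Q R).2 hp.1.2⟩,
      (nul_rot2 Q R _ _).2 hp.2.1, ?_⟩
    intro X hX h1 h2
    have := hp.2.2 (X.map (rot2 Q R).symm.toEmbedding) (Finset.mem_image_of_mem _ hX)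
      ((mem_map_symm2 Q R).2 h1) ((mem_map_symm2 Q R).2 h2)
    rwa [Finset.card_map] at this
  · intro p _ q _ h
    rw [Prod.mk.injEq] at h
    exact Prod.ext ((rot2 Q R).injective h.1) ((rot2 Q R).injective h.2)
  · intro q hq
    unfold uncov at hq
    rw [Finset.mem_filter, Finset.mem_product] at hq
    obtain ⟨z, hz, h1⟩ := Finset.mem_map.1 hq.1.1
    obtain ⟨w, hw, h2⟩ := Finset.mem_map.1 hq.1.2
    rw [Equiv.coe_toEmbedding] at h1 h2
    refine ⟨(z, w), ?_, Prod.ext h1 h2⟩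
    unfold uncov
    rw [Finset.mem_filter, Finset.mem_product]
    refine ⟨⟨hz, hw⟩, ?_, ?_⟩
    · have := hq.2.1
      rw [← h1, ← h2] at this
      exact (nul_rot2 Q R _ _).1 this
    · intro X hX h3 h4
      obtain ⟨Y, hY, rfl⟩ := Finset.mem_image.1 hX
      rw [mem_map_symm2] at h3 h4
      rw [Finset.card_map]
      exact hq.2.2 Y hY (h1 ▸ h3) (h2 ▸ h4)

end inv

/-- two isometries making a finite set generic in all coordinates -/
theorem exists_genAll (Z : Finset PP) :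
    ∃ Q R : E3 ≃ₗᵢ[ℝ] E3, GenAll (Z.map (rot2 Q R).toEmbedding) := by
  obtain ⟨Q, R, hR⟩ := exists_generic2 (d := 3) (by norm_num) Z
  refine ⟨Q, R, ?_⟩
  intro z' hz' w' hw' hne
  rw [Finset.mem_map] at hz' hw'
  obtain ⟨z, hz, rfl⟩ := hz'
  obtain ⟨w, hw, rfl⟩ := hw'
  exact hR z hz w hw (fun h => hne (by rw [h]))


/-- STEP A for sets generic in all coordinates -/
def StepAGenAll (C0 : ℝ) : Prop :=
  ∀ ε : ℝ, 0 < ε → ∃ c B0 : ℝ, 0 < c ∧ ∀ (Z : Finset PP) (L B : ℝ), B0 ≤ B → Reg Nul C0 B Z L →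
    GenAll Z →
    ∃ SS : Finset (Finset PP), Blocks Z SS ∧
      ((uncov Z SS (c * L ^ 2 / Z.card)).card : ℝ) ≤ ε * L * Z.card

/-- it suffices to prove STEP A for sets generic in all coordinates -/
theorem stepA_of_genAll {C0 : ℝ} (H : StepAGenAll C0) : StepA C0 := by
  intro ε hε
  obtain ⟨c, B0, hc, h⟩ := H ε hε
  refine ⟨c, B0, hc, fun Z L B hB hreg => ?_⟩
  obtain ⟨Q, R, hR⟩ := exists_genAll Z
  obtain ⟨SS, hb, hu⟩ := h _ L B hB (reg_rot2 Q R hreg) hR
  refine ⟨pull2 Q R SS, blocks_rot2 Q R hb, ?_⟩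
  rw [uncov_rot2]
  rw [card_map_rot2] at hu
  exact hu


end Crest.Agent.R065.D3rot812
end

-- ▼ part R065/Skel2_745
section

/-!
# Row 65: second level of the composition
-/

set_option autoImplicit false

namespace Crest.Agent.R065.Skel745

open Crest.Agent.R065.Base348 Crest.Agent.R065.Top348 Crest.Agent.R065.Rank417
  Crest.Agent.R065.D3 Crest.Agent.R065.D3in855 Crest.Agent.R065.Final348

/-- `SweptP` holds over `K1` -/
theorem sweptP (e : ℕ) : Glue795.SweptP ℂ (K1 e) e := Glue795.sweptP_of Cod1q392.swept1Set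

/-- the rank lemma, all `d ≥ 2` -/
theorem rankD {e : ℕ} (he : 0 < e) : M4.RankD (e + 1) :=
  rankD_of he (Extr203.extrP (K1 e) e) (sweptP e)

theorem engine3 : Engine := fun V k NN o hs irr hk => Exch134.engine V k NN o hs irr hk

/-- STEP A for `d = 3` from the two last inputs -/
theorem stepA3 (hR : RankIn) (hL : L0in) : StepA (10 ^ 9) :=
  D3rot812.stepA_of_genAll
    (D3stepA855.stepAall engine3 hR D3over789.overfull D3o1477.o1curve D3o1477.o1surf hL (10 ^ 9))

/-- **what is left for `d = 3`**: `RankIn` and `L0in` -/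
theorem main3 (hR : RankIn) (hL : L0in) : MainD3 :=
  D3a235.mainD3_of (stepA3 hR hL) (D3B235.stepB (by norm_num))


end Crest.Agent.R065.Skel745
end

-- ▼ part R065/M4pre_96
section

/-!
# Row 65, `d ≥ 4`: separation of the product, number of null pairs, generic isometries
-/

set_option autoImplicit false

open MvPolynomial Module Finset

namespace Crest.Agent.R065.M4

open Crest.Agent.R065.HF669 Crest.Agent.R065.Base348 Crest.Agent.R065.Top348
  Crest.Agent.R065.Pins348 Crest.Agent.R065.ExtP580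

variable {d : ℕ}

open scoped Classical in
/-- the nonzero distances -/
noncomputable def Dst (P : Finset (E d)) : Finset ℝ := P.offDiag.image fun p => dist p.1 p.2

lemma mem_Dst {P : Finset (E d)} {r : ℝ} :
    r ∈ Dst P ↔ ∃ a ∈ P, ∃ b ∈ P, a ≠ b ∧ dist a b = r := by
  classical
  unfold Dst
  rw [mem_image]
  constructor
  · rintro ⟨⟨a, b⟩, h, rfl⟩
    rw [mem_offDiag] at h
    exact ⟨a, h.1, b, h.2.1, h.2.2, rfl⟩
  · rintro ⟨a, ha, b, hb, hne, rfl⟩
    exact ⟨(a, b), mem_offDiag.2 ⟨ha, hb, hne⟩, rfl⟩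

lemma card_Dst (P : Finset (E d)) : (Dst P).card = nd P := by
  unfold nd
  rw [← Set.ncard_coe_finset]
  congr 1
  ext r
  rw [mem_coe, mem_Dst]
  rfl

lemma Dst_pos {P : Finset (E d)} {r : ℝ} (h : r ∈ Dst P) : 0 < r := by
  obtain ⟨a, _, b, _, hne, rfl⟩ := mem_Dst.1 h
  exact dist_pos.2 hne

/-- (P1) -/
theorem sepPts (d : ℕ) : SepPts d := by
  intro Q R P _
  apply sep_of_ne_zero
  rintro _ ⟨⟨a, c⟩, hz, rfl⟩
  rw [mem_coe, mem_product] at hz
  have h0 : ∀ r ∈ Dst P, 0 ≤ r := fun r hr => (Dst_pos hr).le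
  refine ⟨PQ (-1) (Dst P) (Q a) 0 * PQ 1 (Dst P) (R c) 0, ?_, ?_, ?_⟩
  · rw [← mem_W]
    have h1 := PQ_mem_W (-1 : ℂ) (card_Dst P).le (Q a) 0
    have h2 := PQ_mem_W (1 : ℂ) (card_Dst P).le (R c) 0
    refine W_mono ?_ (mul_mem_W h1 h2)
    omega
  · rw [map_mul]
    refine mul_ne_zero ?_ ?_
    · refine eval_PQ_ne_zero h0 le_rfl ?_
      rw [eval_QP_neg, dist_self]
    · refine eval_PQ_ne_zero h0 le_rfl ?_
      rw [eval_QP_pos, dist_self]
  · rintro _ ⟨⟨b, e⟩, hw, rfl⟩ hne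
    rw [mem_coe, mem_product] at hw
    rw [map_mul]
    by_cases hab : b = a
    · have hce : e ≠ c := by
        rintro rfl
        subst hab
        exact hne rfl
      refine mul_eq_zero_of_right _ ?_
      have h1 : dist c e ∈ Dst P := mem_Dst.2 ⟨c, hz.2, e, hw.2, hce.symm, rfl⟩
      refine eval_PQ_eq_zero h1 (Dst_pos h1).ne' ?_
      rw [eval_QP_pos, LinearIsometryEquiv.dist_map]
    · refine mul_eq_zero_of_left ?_ _
      have h1 : dist a b ∈ Dst P := mem_Dst.2 ⟨a, hz.1, b, hw.1, fun h => hab h.symm, rfl⟩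
      refine eval_PQ_eq_zero h1 (Dst_pos h1).ne' ?_
      rw [eval_QP_neg, LinearIsometryEquiv.dist_map]

open scoped Classical in
lemma sum_sq_le_TP (P : Finset (E d)) :
    ∑ r ∈ Dst P, (P.offDiag.filter fun p => dist p.1 p.2 = r).card ^ 2 ≤
      TP Nl (P ×ˢ P) (P ×ˢ P) := by
  have h3 : ∑ r ∈ Dst P, (P.offDiag.filter fun p => dist p.1 p.2 = r).card ^ 2 =
      ((Dst P).sigma fun r => (P.offDiag.filter fun p => dist p.1 p.2 = r) ×ˢ
        (P.offDiag.filter fun p => dist p.1 p.2 = r)).card := by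
    rw [card_sigma]
    refine sum_congr rfl fun r _ => ?_
    rw [card_product, sq]
  rw [h3]
  unfold TP
  refine card_le_card_of_injOn
    (fun x => ((x.2.1.1, x.2.2.1), (x.2.1.2, x.2.2.2))) ?_ ?_
  · rintro ⟨r, ⟨⟨a, b⟩, ⟨c, e⟩⟩⟩ hx
    simp only [coe_sigma, Set.mem_sigma_iff, mem_coe, mem_product, mem_filter,
      mem_offDiag] at hx
    obtain ⟨_, ⟨⟨h1, h2, h3⟩, h4⟩, ⟨h5, h6, h7⟩, h8⟩ := hx
    simp only [mem_coe, mem_filter, mem_product]
    refine ⟨⟨⟨h1, h5⟩, h2, h6⟩, h4.trans h8.symm, ?_⟩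
    intro h
    exact h3 (congrArg Prod.fst h)
  · rintro ⟨r, ⟨⟨a, b⟩, ⟨c, e⟩⟩⟩ hx ⟨r', ⟨⟨a', b'⟩, ⟨c', e'⟩⟩⟩ hx' h
    simp only [coe_sigma, Set.mem_sigma_iff, mem_coe, mem_product, mem_filter,
      mem_offDiag] at hx hx'
    obtain ⟨_, ⟨_, h4⟩, _⟩ := hx
    obtain ⟨_, ⟨_, h4'⟩, _⟩ := hx'
    simp only [Prod.mk.injEq] at h
    obtain ⟨⟨rfl, rfl⟩, rfl, rfl⟩ := h
    have : r = r' := h4.symm.trans h4'
    subst this
    rfl

/-- (P2) -/
theorem manyNull (d : ℕ) : ManyNull d := by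
  classical
  intro P hP
  have h1 : P.offDiag.card =
      ∑ r ∈ Dst P, (P.offDiag.filter fun p => dist p.1 p.2 = r).card := by
    apply card_eq_sum_card_fiberwise
    intro p hp
    rw [mem_coe] at hp
    exact mem_coe.2 (mem_image_of_mem _ hp)
  have h2 : P.offDiag.card ^ 2 ≤ nd P * TP Nl (P ×ˢ P) (P ×ˢ P) := by
    calc P.offDiag.card ^ 2 =
        (∑ r ∈ Dst P, (P.offDiag.filter fun p => dist p.1 p.2 = r).card) ^ 2 := by rw [← h1]
      _ ≤ (Dst P).card * ∑ r ∈ Dst P, (P.offDiag.filter fun p => dist p.1 p.2 = r).card ^ 2 :=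
          sq_sum_le_card_mul_sum_sq
      _ ≤ nd P * TP Nl (P ×ˢ P) (P ×ˢ P) := by
          rw [card_Dst]
          exact Nat.mul_le_mul_left _ (sum_sq_le_TP P)
  have h3 : P.offDiag.card = P.card * P.card - P.card := offDiag_card P
  have h4 : (P ×ˢ P).card ≤ 2 * P.offDiag.card := by
    rw [card_product, h3]
    have : P.card * 2 ≤ P.card * P.card := Nat.mul_le_mul_left _ hP
    omega
  have h5 : (P ×ˢ P).card ^ 2 ≤ 4 * (nd P * TP Nl (P ×ˢ P) (P ×ˢ P)) := by
    calc (P ×ˢ P).card ^ 2 ≤ (2 * P.offDiag.card) ^ 2 := Nat.pow_le_pow_left h4 2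
      _ = 4 * P.offDiag.card ^ 2 := by ring
      _ ≤ _ := Nat.mul_le_mul_left 4 h2
  have h6 : (((P ×ˢ P).card : ℝ)) ^ 2 ≤ 4 * ((nd P : ℝ) * TP Nl (P ×ˢ P) (P ×ˢ P)) := by
    exact_mod_cast h5
  linarith

/-- (P3) -/
theorem generic2 (hd : 2 ≤ d) : Generic2 d := fun P => D3rot812.exists_generic2 hd (P ×ˢ P)

/-- **`d ≥ 4`** from the two algebraic inputs -/
theorem bd4 (hd : 4 ≤ d) (hL0 : L0inD d) (hRank : RankD d) :
    ∃ A : ℝ, 0 < A ∧ ∀ P : Finset (E d), 2 ≤ P.card →
      (P.card : ℝ) ^ 2 ≤ (A * (nd P : ℝ)) ^ d :=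
  bd4_of hd hL0 hRank (sepPts d) (manyNull d) (generic2 (by omega))

end Crest.Agent.R065.M4
end

-- ▼ part R065/L0fin_795
section

/-!
# Row 65: LEVEL 0 from the extremal variety and the swept theorem, index form (helper795)
-/

set_option autoImplicit false

open MvPolynomial Module

namespace Crest.Agent.R065.Glue795

open Crest.Agent.R065.HF669 Crest.Agent.R065.Base348 Crest.Agent.R065.Wt639
  Crest.Agent.R065.Cramer234 Crest.Agent.R065.Slice417

section lift

variable {k : Type*} [Field k] {e : ℕ} {K : Type*} [Field K] [Algebra k K]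

/-- `f(S, θ)` as a polynomial in `θ` over `K` -/
noncomputable def liftS (S : Pr e → K) :
    MvPolynomial (Pr e ⊕ Fin e) k →ₐ[k] MvPolynomial (Fin e) K :=
  aeval (Sum.elim (fun p => C (S p)) X)

lemma liftS_totalDegree_le (S : Pr e → K) (f : MvPolynomial (Pr e ⊕ Fin e) k) {m : ℕ}
    (hf : f.totalDegree ≤ m) : (liftS S f).totalDegree ≤ m := by
  refine totalDegree_aeval_le' _ ?_ f hf
  rintro (p | i)
  · simp
  · simp [totalDegree_X]

lemma liftS_injective {S : Pr e → K} (hS : AlgebraicIndependent k S) :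
    Function.Injective (liftS (k := k) S) := by
  let r := renameEquiv k (Equiv.sumComm (Fin e) (Pr e))
  have h : (liftS (k := k) S).comp
      (r : MvPolynomial (Fin e ⊕ Pr e) k →ₐ[k] MvPolynomial (Pr e ⊕ Fin e) k) =
      ((MvPolynomial.mapAlgHom (aeval S : MvPolynomial (Pr e) k →ₐ[k] K)).comp
        (sumAlgEquiv k (Fin e) (Pr e) : MvPolynomial (Fin e ⊕ Pr e) k →ₐ[k]
          MvPolynomial (Fin e) (MvPolynomial (Pr e) k))) := by
    apply MvPolynomial.algHom_ext
    rintro (i | p)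
    · simp only [AlgHom.comp_apply, r, AlgEquiv.coe_toAlgHom, renameEquiv_apply, rename_X,
        Equiv.sumComm_apply, Sum.swap_inl, liftS, aeval_X, Sum.elim_inr]
      rw [sumAlgEquiv_X_inl]
      simp
    · simp only [AlgHom.comp_apply, r, AlgEquiv.coe_toAlgHom, renameEquiv_apply, rename_X,
        Equiv.sumComm_apply, Sum.swap_inr, liftS, aeval_X, Sum.elim_inl]
      rw [sumAlgEquiv_X_inr]
      simp
  have h1 : Function.Injective (((MvPolynomial.mapAlgHom
      (aeval S : MvPolynomial (Pr e) k →ₐ[k] K)).comp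
        (sumAlgEquiv k (Fin e) (Pr e) : MvPolynomial (Fin e ⊕ Pr e) k →ₐ[k]
          MvPolynomial (Fin e) (MvPolynomial (Pr e) k)))) := by
    intro x y hxy
    exact (sumAlgEquiv k (Fin e) (Pr e)).injective (map_injective _ hS hxy)
  rw [← h] at h1
  intro x y hxy
  have h2 := h1 (a₁ := r.symm x) (a₂ := r.symm y) (by
    simp only [AlgHom.comp_apply, AlgEquiv.coe_toAlgHom, AlgEquiv.apply_symm_apply, hxy])
  exact r.symm.injective h2

/-- evaluation of the lift at `y + S x` -/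
lemma eval_liftS (S : Pr e → K) (z : Pt e k) (f : MvPolynomial (Pr e ⊕ Fin e) k) :
    eval (th S (toK K z)) (liftS S f) = aeval S (res z f) := by
  have h : ((aeval (th S (toK K z)) : MvPolynomial (Fin e) K →ₐ[K] K).restrictScalars k).comp
      (liftS (k := k) S) = (aeval S : MvPolynomial (Pr e) k →ₐ[k] K).comp (res z) := by
    apply MvPolynomial.algHom_ext
    rintro (p | i)
    · simp [liftS, res]
    · simp only [AlgHom.comp_apply, AlgHom.restrictScalars_apply, liftS, res, aeval_X,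
        Sum.elim_inr, map_add, aeval_C]
      have h1 : (aeval S : MvPolynomial (Pr e) k →ₐ[k] K) (actX z.1 i) =
          act S (fun j => algebraMap k K (z.1 j)) i := by
        unfold actX act
        rw [map_sum]
        refine Finset.sum_congr rfl fun j _ => ?_
        rw [map_mul, aeval_C]
        congr 1
        have := sk_map ((aeval S : MvPolynomial (Pr e) k →ₐ[k] K) :
          MvPolynomial (Pr e) k →+* K) (fun p => X p) i j
        rw [RingHom.coe_coe] at this
        rw [← this]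
        congr 1
        funext p
        simp
      rw [h1]
      rfl
  have h2 := congrArg (fun g : MvPolynomial (Pr e ⊕ Fin e) k →ₐ[k] K => g f) h
  exact h2

end lift

section main

variable {k : Type*} [Field k] {e : ℕ}
  {K : Type*} [Field K] [Algebra (MvPolynomial (Pr e) k) K]
  [IsFractionRing (MvPolynomial (Pr e) k) K] [Algebra k K]
  [IsScalarTower k (MvPolynomial (Pr e) k) K]

omit [IsFractionRing (MvPolynomial (Pr e) k) K] in
lemma aeval_gen (g : MvPolynomial (Pr e) k) :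
    aeval (fun p => algebraMap (MvPolynomial (Pr e) k) K (X p)) g =
      algebraMap (MvPolynomial (Pr e) k) K g := by
  have h : (aeval (fun p => algebraMap (MvPolynomial (Pr e) k) K (X p)) :
      MvPolynomial (Pr e) k →ₐ[k] K) = IsScalarTower.toAlgHom k (MvPolynomial (Pr e) k) K := by
    apply MvPolynomial.algHom_ext
    intro p
    simp
  rw [h]; rfl

open scoped Classical in
/-- **LEVEL 0**, index form -/
theorem l0_gen [Infinite k] [Infinite K] (hE : ExtrP K e) (hS : SweptP k K e) :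
    ∃ C : ℝ, 0 < C ∧ ∀ (m : ℕ) (f : MvPolynomial (Pr e ⊕ Fin e) k) (ι : Type) (Sg : Finset ι)
      (ω : ι → Pt e k) (τ : ℕ → ℝ) (ν : ℝ), 1 ≤ m → f ≠ 0 → f.totalDegree ≤ m →
      (∀ i ∈ Sg, res (ω i) f = 0) → (∀ r, 1 ≤ τ r) → 1 ≤ ν →
      (∀ Q : Ideal (MvPolynomial (Fin e ⊕ Fin e) k), Q.IsPrime → dimP Q < e →
        ((Sg.filter fun i => ∀ q ∈ Q, eval (Pins348.toFn (ω i)) q = 0).card : ℝ) ≤
          τ (dimP Q) * degP Q) →
      (∀ Y ⊆ Sg, (∀ i ∈ Y, ∀ j ∈ Y, Null (ω i) (ω j)) → (Y.card : ℝ) ≤ ν) →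
      (Sg.card : ℝ) ≤ C * (∑ r ∈ Finset.range e, (m : ℝ) ^ (e - r) * τ r + m * ν) := by
  obtain ⟨Ce, hS⟩ := hS
  obtain ⟨C, hE⟩ := hE Ce
  refine ⟨8 * C + 1, by positivity, ?_⟩
  intro m f ι Sg ω τ ν hm hf0 hfm hres hτ hν hQ hY
  have hm' : (1 : ℝ) ≤ m := by exact_mod_cast hm
  have hsum0 : (0 : ℝ) ≤ ∑ r ∈ Finset.range e, (m : ℝ) ^ (e - r) * τ r :=
    Finset.sum_nonneg fun r _ => mul_nonneg (by positivity) (by linarith [hτ r])
  have hC0 : (0 : ℝ) ≤ C := Nat.cast_nonneg _
  rcases Sg.eq_empty_or_nonempty with rfl | hne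
  · simp only [Finset.card_empty, Nat.cast_zero]
    have : (0 : ℝ) ≤ m * ν := mul_nonneg (by linarith) (by linarith)
    positivity
  set S : Pr e → K := fun p => algebraMap (MvPolynomial (Pr e) k) K (X p) with hSdef
  have hSind : AlgebraicIndependent k S := by
    intro x y hxy
    have h1 : algebraMap (MvPolynomial (Pr e) k) K x = algebraMap (MvPolynomial (Pr e) k) K y := by
      rw [← aeval_gen, ← aeval_gen]; exact hxy
    exact IsFractionRing.injective (MvPolynomial (Pr e) k) K h1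
  set h := liftS (k := k) S f with hh
  have hh0 : h ≠ 0 := by
    intro h0
    apply hf0
    apply liftS_injective hSind
    rw [map_zero]; exact h0
  have hhm : h.totalDegree ≤ m := liftS_totalDegree_le S f hfm
  have hhz : ∀ i ∈ Sg, eval (thz k K (ω i)) h = 0 := by
    intro i hi
    have h1 := eval_liftS (K := K) S (ω i) f
    rw [hres i hi, map_zero] at h1
    exact h1
  obtain ⟨P, hP, hhP, Dd, hmD, hfl, hgap, hcard⟩ := hE ι Sg (fun i => thz k K (ω i)) m h hm hh0
    hhm hhz hne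
  have hP0 : P ≠ ⊥ := by
    intro h0
    rw [h0] at hhP
    exact hh0 ((Submodule.mem_bot _).1 hhP)
  have hdimlt : dimP P < e := by
    have h2 : dimP P < Fintype.card (Fin e) := by
      rw [← dimP_bot (k := K) (σ := Fin e)]
      exact dimP_lt (P := (⊥ : Ideal (MvPolynomial (Fin e) K))) (Q := P)
        (bot_lt_iff_ne_bot.2 hP0)
    rwa [Fintype.card_fin] at h2
  have hdeg : 0 < degP P := degP_pos P
  set Sg' := onI Sg (fun i => thz k K (ω i)) P with hSg'
  have hsub : Sg' ⊆ Sg := Finset.filter_subset _ _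
  have hcardpos : 0 < Sg.card * ((1 + ordP P h) * degP P) :=
    Nat.mul_pos (Finset.card_pos.2 hne) (Nat.mul_pos (by omega) hdeg)
  have hne' : Sg'.Nonempty := by
    rw [Finset.nonempty_iff_ne_empty]
    intro h0
    rw [h0, Finset.card_empty, Nat.zero_mul, Nat.mul_zero] at hcard
    omega
  have hSgP : ∀ i ∈ Sg', ∀ g ∈ P, eval (thz k K (ω i)) g = 0 := fun i hi =>
    (Finset.mem_filter.1 hi).2
  have hcardR : (Sg.card : ℝ) * degP P ≤ C * (Sg'.card * (m : ℝ) ^ (e - dimP P)) := by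
    have h1 : Sg.card * degP P ≤ C * (Sg'.card * m ^ (e - dimP P)) := by
      refine le_trans ?_ hcard
      exact Nat.mul_le_mul_left _ (Nat.le_mul_of_pos_left _ (by omega))
    exact_mod_cast h1
  have hdR : (1 : ℝ) ≤ degP P := by exact_mod_cast hdeg
  have hSgR : (0 : ℝ) ≤ Sg.card := Nat.cast_nonneg _
  rcases hS P hP hP0 ι Sg' ω Dd hne' (hm.trans hmD) hSgP hfl hgap with
    ⟨hdim, -, hnull⟩ | ⟨Q, hQp, hQd, hQg, hQc⟩
  · have h1 : (Sg'.card : ℝ) ≤ ν := hY Sg' hsub hnull
    have h2 : e - dimP P = 1 := by omega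
    rw [h2, pow_one] at hcardR
    have h3 : (Sg.card : ℝ) ≤ C * (ν * m) := by
      calc (Sg.card : ℝ) ≤ Sg.card * degP P := le_mul_of_one_le_right hSgR hdR
        _ ≤ C * (Sg'.card * m) := hcardR
        _ ≤ C * (ν * m) := by gcongr
    have h4 : (0 : ℝ) ≤ ν * m := mul_nonneg (by linarith) (by linarith)
    have h5 : (C : ℝ) * (ν * m) ≤ (8 * C + 1) * (ν * m) :=
      mul_le_mul_of_nonneg_right (by linarith) h4
    have h6 : (0 : ℝ) ≤ (8 * C + 1) *
        ∑ r ∈ Finset.range e, (m : ℝ) ^ (e - r) * τ r := by positivity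
    calc (Sg.card : ℝ) ≤ (8 * C + 1) * (ν * m) := h3.trans h5
      _ ≤ (8 * C + 1) * (∑ r ∈ Finset.range e, (m : ℝ) ^ (e - r) * τ r + m * ν) := by
        rw [mul_add, mul_comm ν]; linarith
  · have h1 : (Sg'.card : ℝ) ≤ 4 * (τ (dimP P) * (2 * degP P)) := by
      have h2 : (Sg'.card : ℝ) ≤ 4 *
          ((Sg.filter fun i => ∀ q ∈ Q, eval (Pins348.toFn (ω i)) q = 0).card : ℝ) := by
        have h3 : Sg'.card ≤ 4 *
            (Sg.filter fun i => ∀ q ∈ Q, eval (Pins348.toFn (ω i)) q = 0).card :=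
          hQc.trans (Nat.mul_le_mul_left _
            (Finset.card_le_card (Finset.filter_subset_filter _ hsub)))
        exact_mod_cast h3
      have h3 := hQ Q hQp (by omega)
      have h4 : (degP Q : ℝ) ≤ 2 * degP P := by exact_mod_cast hQg
      rw [hQd] at h3
      have h5 : τ (dimP P) * degP Q ≤ τ (dimP P) * (2 * degP P) :=
        mul_le_mul_of_nonneg_left h4 (by linarith [hτ (dimP P)])
      linarith
    have h2 : (Sg.card : ℝ) * degP P ≤ (8 * C * ((m : ℝ) ^ (e - dimP P) * τ (dimP P))) * degP P := by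
      calc (Sg.card : ℝ) * degP P ≤ C * (Sg'.card * (m : ℝ) ^ (e - dimP P)) := hcardR
        _ ≤ C * ((4 * (τ (dimP P) * (2 * degP P))) * (m : ℝ) ^ (e - dimP P)) := by gcongr
        _ = _ := by ring
    have h3 : (Sg.card : ℝ) ≤ 8 * C * ((m : ℝ) ^ (e - dimP P) * τ (dimP P)) :=
      le_of_mul_le_mul_right h2 (by linarith)
    have h4 : (m : ℝ) ^ (e - dimP P) * τ (dimP P) ≤
        ∑ r ∈ Finset.range e, (m : ℝ) ^ (e - r) * τ r :=
      Finset.single_le_sum (f := fun r => (m : ℝ) ^ (e - r) * τ r)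
        (fun r _ => mul_nonneg (by positivity) (by linarith [hτ r]))
        (Finset.mem_range.2 hdimlt)
    have h5 : (0 : ℝ) ≤ m * ν := mul_nonneg (by linarith) (by linarith)
    calc (Sg.card : ℝ) ≤ 8 * C * ((m : ℝ) ^ (e - dimP P) * τ (dimP P)) := h3
      _ ≤ 8 * C * ∑ r ∈ Finset.range e, (m : ℝ) ^ (e - r) * τ r := by gcongr
      _ ≤ (8 * C + 1) * (∑ r ∈ Finset.range e, (m : ℝ) ^ (e - r) * τ r + m * ν) := by
        have : (0 : ℝ) ≤ 8 * C * (m * ν) := by positivity
        nlinarith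

end main

/-! ### the literal inputs of 96 and 855 -/

/-- the function field of `so(e)` over `ℂ` -/
abbrev KC (e : ℕ) : Type := FractionRing (MvPolynomial (Pr e) ℂ)

noncomputable instance (e : ℕ) : Algebra ℂ (KC e) := inferInstance

instance (e : ℕ) : IsScalarTower ℂ (MvPolynomial (Pr e) ℂ) (KC e) := inferInstance

instance (e : ℕ) : CharZero (KC e) := inferInstance

instance (e : ℕ) : Infinite (KC e) := inferInstance

open M4 in
theorem l0inD_of (d : ℕ) (hE : ExtrP (KC d) d) (hS : SweptP ℂ (KC d) d) : M4.L0inD d := by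
  classical
  obtain ⟨C, hC, h⟩ := l0_gen (k := ℂ) (K := KC d) hE hS
  refine ⟨C, hC, fun m f Sg τ ν hm hf hfm hres hτ hν hQ hY => ?_⟩
  exact h m f (Pt d ℂ) Sg id τ ν hm hf hfm hres hτ hν
    (fun Q hQp hQd => by
      have h1 := hQ Q hQp hQd
      unfold M4.onP at h1
      simpa only [id] using h1)
    (fun Y hYS hYn => hY Y hYS hYn)

/-- a zero-dimensional prime has at most one rational point -/
lemma point_unique {k : Type*} [Field k] [Infinite k] {σ : Type*} [Fintype σ]
    {P : Ideal (MvPolynomial σ k)} [hP : P.IsPrime] (hd : dimP P = 0) {x y : σ → k}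
    (hx : ∀ g ∈ P, eval x g = 0) (hy : ∀ g ∈ P, eval y g = 0) : x = y := by
  have key : ∀ u : σ → k, (∀ g ∈ P, eval u g = 0) → ∀ g, eval u g = 0 → g ∈ P := by
    intro u hu g hg
    by_contra hgP
    have hk : (RingHom.ker (eval u)).IsPrime := RingHom.ker_isPrime _
    have hlt : P < RingHom.ker (eval u) := by
      refine lt_of_le_of_ne (fun f hf => hu f hf) fun h => ?_
      rw [h] at hgP
      exact hgP hg
    have h2 := dimP_lt (P := P) (Q := RingHom.ker (eval u)) hlt
    omega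
  funext i
  have h1 : (X i - C (x i) : MvPolynomial σ k) ∈ P := key x hx _ (by simp)
  have h2 := hy _ h1
  rw [map_sub, eval_X, eval_C, sub_eq_zero] at h2
  exact h2.symm

theorem l0in_of_D (h : M4.L0inD 3) : D3in855.L0in := by
  classical
  obtain ⟨C, hC, h⟩ := h
  refine ⟨C, hC, fun m f Sg τ₁ τ₂ ν hm hf hfm hres hτ₁ hτ₂ hν hP1 hP2 hY => ?_⟩
  have h1 := h m f Sg (fun r => if r = 1 then τ₁ else if r = 2 then τ₂ else 1) ν hm hf hfm hres
    (fun r => by split_ifs <;> first | assumption | exact le_rfl) hν ?_ hY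
  · refine h1.trans (le_of_eq ?_)
    simp only [Finset.sum_range_succ, Finset.sum_range_zero]
    norm_num
  · intro P hP hPd
    rcases (by omega : dimP P = 0 ∨ dimP P = 1 ∨ dimP P = 2) with h0 | h0 | h0
    · rw [h0]
      simp only [zero_ne_one, if_false]
      norm_num
      have h2 : (M4.onP Sg P).card ≤ 1 := by
        rw [Finset.card_le_one]
        intro z hz w hw
        unfold M4.onP at hz hw
        rw [Finset.mem_filter] at hz hw
        exact Pins348.toFn_injective (point_unique h0 hz.2 hw.2)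
      exact h2.trans (degP_pos P)
    · have h2 := hP1 P hP h0
      rw [h0]
      unfold D3in855.onP at h2
      unfold M4.onP
      simpa using h2
    · have h2 := hP2 P hP h0
      rw [h0]
      unfold D3in855.onP at h2
      unfold M4.onP
      simpa using h2

end Crest.Agent.R065.Glue795
end

-- ▼ part R065/Trunk_795
section

/-!
# Row 65: LEVEL 0, unconditional (helper795)

`l0inD d : M4.L0inD d` and `l0in : D3in855.L0in`.
-/

set_option autoImplicit false

open MvPolynomial Module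

namespace Crest.Agent.R065.Glue795

open Crest.Agent.R065.HF669 Crest.Agent.R065.Base348

theorem sweptP_KC (e : ℕ) : SweptP ℂ (KC e) e := sweptP_of Cod1q392.swept1Set

theorem l0inD (d : ℕ) : M4.L0inD d :=
  l0inD_of d (Extr203.extrP (KC d) d) (sweptP_KC d)

theorem l0in : D3in855.L0in := l0in_of_D (l0inD 3)

end Crest.Agent.R065.Glue795
end

-- ▼ part R065/Plane3_649
section

/-!
# Row 65, `d = 3`: the exceptional sets of the rank lemma are planes

`pl n κ` is the polynomial of the plane `n · vecS = κ`.  If a polynomial `g` of degree `≤ 1` of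
the slice divides `slice S h` and vanishes at the points of two different coplanar leaves, the
plane of these leaves lies in `Z(h)`.
-/

set_option autoImplicit false

open MvPolynomial Module Matrix

namespace Crest.Agent.R065.Plane649

open Crest.Agent.R065.HF669 Crest.Agent.R065.Base348 Crest.Agent.R065.Cramer234
  Crest.Agent.R065.Slice417 Crest.Agent.R065.D3blk812

/-! ### null pairs in the slice -/

section null

variable {e : ℕ} {k : Type*} [Field k]


end null

/-! ### linear polynomials in two variables -/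

section lin

variable {K : Type*} [Field K] [CharZero K]

/-- a polynomial of degree at most one is affine -/
lemma eval_of_totalDegree_le_one {g : MvPolynomial (Fin 2) K} (hg : g.totalDegree ≤ 1) :
    ∃ μ : Fin 2 → K, ∀ x y : Fin 2 → K, eval x g - eval y g = ∑ j, μ j * (x j - y j) := by
  classical
  have h1 : ∀ j, ∃ c, pderiv j g = C c := by
    intro j
    refine ⟨coeff 0 (pderiv j g), ?_⟩
    rw [← totalDegree_eq_zero_iff_eq_C]
    have := totalDegree_pderiv_le j g
    omega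
  choose μ hμ using h1
  refine ⟨μ, fun x y => ?_⟩
  obtain ⟨c, hc⟩ := eq_C_of_pderiv_eq_zero (p := g - ∑ j, C (μ j) * X j) (by
    intro j
    rw [map_sub, hμ, map_sum, Finset.sum_eq_single j]
    · rw [pderiv_C_mul, pderiv_X_self, mul_one, sub_self]
    · intro i _ hi
      rw [pderiv_C_mul, pderiv_X_of_ne hi, mul_zero]
    · simp)
  have h1 : g = C c + ∑ j, C (μ j) * X j := by rw [← hc]; ring
  rw [h1]
  simp only [map_add, map_sum, map_mul, eval_C, eval_X, mul_sub, Finset.sum_sub_distrib]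
  ring

/-- two polynomials of degree `≤ 1` in two variables with two common zeros are proportional -/
lemma dvd_of_two_zeros {f g : MvPolynomial (Fin 2) K} (hf : f.totalDegree ≤ 1)
    (hg : g.totalDegree ≤ 1) {p p' : Fin 2 → K} (hne : p ≠ p') (hfp : eval p f = 0)
    (hfp' : eval p' f = 0) (hgp : eval p g = 0) (hgp' : eval p' g = 0) (hf0 : f ≠ 0) :
    f ∣ g := by
  obtain ⟨α, hα⟩ := eval_of_totalDegree_le_one hf
  obtain ⟨μ, hμ⟩ := eval_of_totalDegree_le_one hg
  have h1 := hα p p'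
  have h2 := hμ p p'
  rw [hfp, hfp', sub_zero, Fin.sum_univ_two] at h1
  rw [hgp, hgp', sub_zero, Fin.sum_univ_two] at h2
  have hα0 : α ≠ 0 := by
    rintro rfl
    apply hf0
    apply MvPolynomial.funext
    intro x
    have := hα x p
    rw [hfp, sub_zero] at this
    rw [this]; simp
  have hu : p 0 - p' 0 ≠ 0 ∨ p 1 - p' 1 ≠ 0 := by
    by_contra hc
    push Not at hc
    apply hne
    funext i
    fin_cases i
    · exact sub_eq_zero.1 hc.1
    · exact sub_eq_zero.1 hc.2
  have hdet : α 0 * μ 1 = α 1 * μ 0 := by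
    rcases hu with hu | hu
    · apply mul_right_cancel₀ hu
      linear_combination (-μ 1) * h1 + (α 1) * h2
    · apply mul_right_cancel₀ hu
      linear_combination (μ 0) * h1 - (α 0) * h2
  have hα' : α 0 ≠ 0 ∨ α 1 ≠ 0 := by
    by_contra hc
    push Not at hc
    apply hα0
    funext i
    fin_cases i
    · exact hc.1
    · exact hc.2
  obtain ⟨t, ht⟩ : ∃ t, ∀ i, μ i = t * α i := by
    rcases hα' with h | h
    · refine ⟨μ 0 / α 0, fun i => ?_⟩
      fin_cases i
      · simp only [Fin.zero_eta, Fin.isValue]; field_simp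
      · simp only [Fin.mk_one, Fin.isValue]; field_simp; linear_combination hdet
    · refine ⟨μ 1 / α 1, fun i => ?_⟩
      fin_cases i
      · simp only [Fin.zero_eta, Fin.isValue]; field_simp; linear_combination -hdet
      · simp only [Fin.mk_one, Fin.isValue]; field_simp
  refine ⟨C t, ?_⟩
  apply MvPolynomial.funext
  intro x
  have e1 := hα x p
  have e2 := hμ x p
  rw [hfp, sub_zero] at e1
  rw [hgp, sub_zero] at e2
  rw [map_mul, eval_C, e1, e2, Finset.sum_mul]
  refine Finset.sum_congr rfl fun i _ => ?_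
  rw [ht]; ring

end lin

/-! ### planes -/

section plane

variable {k : Type*} [Field k]

/-- the index `(0,1)` -/
abbrev p01 : Pr 3 := ⟨(0, 1), by decide⟩
/-- the index `(0,2)` -/
abbrev p02 : Pr 3 := ⟨(0, 2), by decide⟩
/-- the index `(1,2)` -/
abbrev p12 : Pr 3 := ⟨(1, 2), by decide⟩

lemma Pr3_cases : ∀ p : Pr 3, p = p01 ∨ p = p02 ∨ p = p12 := by decide

/-- the polynomial of the plane `n · vecS = κ` -/
noncomputable def pl (n : Fin 3 → k) (κ : k) : MvPolynomial (Pr 3) k :=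
  C (n 1) * X p02 - C (n 0) * X p12 - C (n 2) * X p01 - C κ


lemma totalDegree_pl_le (n : Fin 3 → k) (κ : k) : (pl n κ).totalDegree ≤ 1 := by
  have h : ∀ (c : k) (p : Pr 3), (C c * X p : MvPolynomial (Pr 3) k).totalDegree ≤ 1 := by
    intro c p
    refine (totalDegree_mul _ _).trans ?_
    rw [totalDegree_C, totalDegree_X]
  unfold pl
  refine (totalDegree_sub _ _).trans (max_le ((totalDegree_sub _ _).trans (max_le
    ((totalDegree_sub _ _).trans (max_le (h _ _) (h _ _))) (h _ _))) ?_)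
  rw [totalDegree_C]; exact Nat.zero_le _

/-- coefficients of a polynomial as a plane -/
noncomputable def cf (p : MvPolynomial (Pr 3) k) : (Fin 3 → k) × k :=
  (![-coeff (Finsupp.single p12 1) p, coeff (Finsupp.single p02 1) p,
    -coeff (Finsupp.single p01 1) p], -coeff 0 p)

lemma cf_C_mul (c : k) (p : MvPolynomial (Pr 3) k) :
    cf (C c * p) = (c • (cf p).1, c * (cf p).2) := by
  unfold cf
  simp only [coeff_C_mul]
  refine Prod.ext ?_ ?_
  · funext i
    fin_cases i <;> simp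
  · simp

lemma cf_pl (n : Fin 3 → k) (κ : k) : cf (pl n κ) = (n, κ) := by
  unfold cf pl
  have h01 : (p01 : Pr 3) ≠ p02 := by decide
  have h02 : (p01 : Pr 3) ≠ p12 := by decide
  have h12 : (p02 : Pr 3) ≠ p12 := by decide
  simp only [coeff_sub, coeff_C_mul, coeff_X, coeff_C, Finsupp.single_left_inj one_ne_zero,
    h01, h02, h12, h01.symm, h02.symm, h12.symm, if_true, if_false, mul_one, mul_zero, sub_zero,
    zero_sub, Finsupp.single_eq_zero, one_ne_zero]
  refine Prod.ext ?_ ?_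
  · funext i
    fin_cases i <;> simp [eq_comm (a := (0 : Pr 3 →₀ ℕ))]
  · simp

variable {K : Type*} [Field K] [Algebra k K]

/-- the variable of `so(2)` -/
def s01 (S : Pr 2 → K) : K := S ⟨(0, 1), by decide⟩

lemma sl_p01 (S : Pr 2 → K) : sl S p01 = C (s01 S) := by
  change slM S (Fin.castSucc 0) (Fin.castSucc 1) = _
  rw [slM_castSucc_castSucc]
  rfl

lemma sl_p02 (S : Pr 2 → K) : sl S p02 = -X 0 := by
  change slM S (Fin.castSucc 0) (Fin.last 2) = _
  rw [slM_castSucc_last]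

lemma sl_p12 (S : Pr 2 → K) : sl S p12 = -X 1 := by
  change slM S (Fin.castSucc 1) (Fin.last 2) = _
  rw [slM_castSucc_last]

lemma slice_pl (S : Pr 2 → K) (n : Fin 3 → k) (κ : k) : slice S (pl n κ) =
    C (algebraMap k K (n 0)) * X 1 - C (algebraMap k K (n 1)) * X 0 -
      C (algebraMap k K (n 2) * s01 S + algebraMap k K κ) := by
  unfold pl
  simp only [map_sub, map_mul, slice_C]
  unfold slice
  rw [aeval_X, aeval_X, aeval_X, sl_p01, sl_p02, sl_p12, C_add, C_mul]
  ring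

/-- `1, s01` are linearly independent over `k` -/
lemma s01_indep {S : Pr 2 → K} (hS : AlgebraicIndependent k S) {a b : k}
    (h : algebraMap k K a + algebraMap k K b * s01 S = 0) : a = 0 ∧ b = 0 := by
  have h1 : aeval S (C a + C b * X (⟨(0, 1), by decide⟩ : Pr 2) : MvPolynomial (Pr 2) k) = 0 := by
    rw [map_add, map_mul, aeval_C, aeval_C, aeval_X]; exact h
  have h2 := hS.eq_zero_of_aeval_eq_zero _ h1
  have ha := congrArg (coeff 0) h2
  have hb := congrArg (coeff (Finsupp.single (⟨(0, 1), by decide⟩ : Pr 2) 1)) h2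
  rw [coeff_add, coeff_C_mul, coeff_C, coeff_X, coeff_zero] at ha hb
  constructor
  · simpa using ha
  · simpa [eq_comm (a := (0 : Pr 2 →₀ ℕ))] using hb

/-- **descent** from the slice to the plane -/
theorem pl_dvd_of_slice {S : Pr 2 → K} (hS : AlgebraicIndependent k S) {n : Fin 3 → k} {κ : k}
    (hn : n 0 ≠ 0 ∨ n 1 ≠ 0) {h : MvPolynomial (Pr 3) k}
    (hdvd : slice S (pl n κ) ∣ slice S h) : pl n κ ∣ h := by
  classical
  -- general principle
  have key : ∀ (σ : MvPolynomial (Pr 3) k →ₐ[k] MvPolynomial (Pr 3) k)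
      (σK : MvPolynomial (Fin 2) K →ₐ[K] MvPolynomial (Fin 2) K),
      (∀ p : Pr 3, pl n κ ∣ σ (X p) - X p) → σ (pl n κ) = 0 →
      (∀ p : Pr 3, slice S (σ (X p)) = σK (slice (k := k) S (X p))) → pl n κ ∣ h := by
    intro σ σK h1 h2 h3
    have h4 : ∀ f, slice S (σ f) = σK (slice S f) := by
      intro f
      have : (slice S).comp σ = (σK.restrictScalars k).comp (slice S) := by
        apply MvPolynomial.algHom_ext
        intro p
        simpa using h3 p
      exact congrArg (fun g : MvPolynomial (Pr 3) k →ₐ[k] MvPolynomial (Fin 2) K => g f) this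
    have h5 : ∀ f, pl n κ ∣ σ f - f := by
      intro f
      induction f using MvPolynomial.induction_on with
      | C c =>
        have : σ (C c) = C c := by rw [← algebraMap_eq, AlgHom.commutes]
        rw [this, sub_self]; exact dvd_zero _
      | add f g hf hg =>
        rw [map_add]
        have := dvd_add hf hg
        convert this using 1; ring
      | mul_X f p hf =>
        rw [map_mul]
        have h6 : σ f * σ (X p) - f * X p = (σ f - f) * σ (X p) + f * (σ (X p) - X p) := by ring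
        rw [h6]
        exact dvd_add (hf.mul_right _) ((h1 p).mul_left _)
    have h6 : σK (slice S h) = 0 := by
      obtain ⟨r, hr⟩ := hdvd
      rw [hr, map_mul, ← h4, h2, map_zero, zero_mul]
    have h7 : σ h = 0 := by
      apply slice_injective hS
      rw [h4, h6, map_zero]
    have h8 := h5 h
    rw [h7, zero_sub] at h8
    exact (dvd_neg).1 h8
  rcases hn with hn | hn
  · have hn' : algebraMap k K (n 0) ≠ 0 := (map_ne_zero_iff _ (algebraMap k K).injective).2 hn
    refine key (aeval fun p => if p = p12 then X p + C (n 0)⁻¹ * pl n κ else X p)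
      (aeval fun i => if i = 1 then X i - C (algebraMap k K (n 0))⁻¹ * slice S (pl n κ)
        else X i) ?_ ?_ ?_
    · intro p
      rw [aeval_X]
      split_ifs
      · exact ⟨C (n 0)⁻¹, by ring⟩
      · simp
    · have e1 : (C (n 0) * C (n 0)⁻¹ : MvPolynomial (Pr 3) k) = 1 := by
        rw [← C_mul, mul_inv_cancel₀ hn, C_1]
      have h12 : (p02 : Pr 3) ≠ p12 := by decide
      have h02 : (p01 : Pr 3) ≠ p12 := by decide
      conv_lhs => rw [pl]
      simp only [map_sub, map_mul, aeval_X, aeval_C, algebraMap_eq, if_neg h12, if_neg h02, if_true]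
      linear_combination
        (-(C (n 1) * X p02 - C (n 0) * X p12 - C (n 2) * X p01 - C κ)) * e1
    · intro p
      rw [aeval_X]
      rcases Pr3_cases p with rfl | rfl | rfl
      · rw [if_neg (by decide)]
        simp only [slice, aeval_X, sl_p01, aeval_C, algebraMap_eq]
      · rw [if_neg (by decide)]
        simp only [slice, aeval_X, sl_p02, map_neg]
        rw [if_neg (by decide)]
      · rw [if_pos rfl, map_add, map_mul, slice_C]
        have : slice (k := k) S (X p12) = -X 1 := by rw [slice, aeval_X, sl_p12]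
        rw [this, map_neg, aeval_X, if_pos rfl, map_inv₀]
        ring
  · have hn' : algebraMap k K (n 1) ≠ 0 := (map_ne_zero_iff _ (algebraMap k K).injective).2 hn
    refine key (aeval fun p => if p = p02 then X p - C (n 1)⁻¹ * pl n κ else X p)
      (aeval fun i => if i = 0 then X i + C (algebraMap k K (n 1))⁻¹ * slice S (pl n κ)
        else X i) ?_ ?_ ?_
    · intro p
      rw [aeval_X]
      split_ifs
      · exact ⟨-C (n 1)⁻¹, by ring⟩
      · simp
    · have e1 : (C (n 1) * C (n 1)⁻¹ : MvPolynomial (Pr 3) k) = 1 := by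
        rw [← C_mul, mul_inv_cancel₀ hn, C_1]
      have h12 : (p12 : Pr 3) ≠ p02 := by decide
      have h02 : (p01 : Pr 3) ≠ p02 := by decide
      conv_lhs => rw [pl]
      simp only [map_sub, map_mul, aeval_X, aeval_C, algebraMap_eq, if_neg h12, if_neg h02, if_true]
      linear_combination
        (-(C (n 1) * X p02 - C (n 0) * X p12 - C (n 2) * X p01 - C κ)) * e1
    · intro p
      rw [aeval_X]
      rcases Pr3_cases p with rfl | rfl | rfl
      · rw [if_neg (by decide)]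
        simp only [slice, aeval_X, sl_p01, aeval_C, algebraMap_eq]
      · rw [if_pos rfl, map_sub, map_mul, slice_C]
        have : slice (k := k) S (X p02) = -X 0 := by rw [slice, aeval_X, sl_p02]
        rw [this, map_neg, aeval_X, if_pos rfl, map_inv₀]
        ring
      · rw [if_neg (by decide)]
        simp only [slice, aeval_X, sl_p12, map_neg]
        rw [if_neg (by decide)]

/-! ### leaves and planes -/

lemma pS_injective {S : Pr 2 → K} (hS : AlgebraicIndependent k S) {v v' : Pt 2 k}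
    (h : pS S v = pS S v') : v = v' := by
  have h0 := congrFun h 0
  have h1 := congrFun h 1
  have e1 : sk S 0 1 = s01 S := rfl
  have e2 : sk S 1 0 = -s01 S := by rw [sk_swap]; rfl
  simp only [pS_apply, Fin.sum_univ_two, sk_self, e1, e2, zero_mul, zero_add, add_zero] at h0 h1
  have a0 := s01_indep hS (a := v.2 0 - v'.2 0) (b := v.1 1 - v'.1 1) (by
    rw [map_sub, map_sub]; linear_combination h0)
  have a1 := s01_indep hS (a := v.2 1 - v'.2 1) (b := v'.1 0 - v.1 0) (by
    rw [map_sub, map_sub]; linear_combination h1)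
  refine Prod.ext ?_ ?_
  · funext i
    fin_cases i
    · exact (sub_eq_zero.1 a1.2).symm
    · exact sub_eq_zero.1 a0.2
  · funext i
    fin_cases i
    · exact sub_eq_zero.1 a0.1
    · exact sub_eq_zero.1 a1.1


lemma rho_eval_slice_pl (S : Pr 2 → K) {v : Pt 3 k} (hρ : v.1 2 ≠ 0) (n : Fin 3 → k) (κ : k) :
    algebraMap k K (v.1 2) * eval (pS S (dir v)) (slice S (pl n κ)) =
      algebraMap k K (n 0 * v.2 1 - n 1 * v.2 0 - κ * v.1 2) -
        s01 S * algebraMap k K (n ⬝ᵥ v.1) := by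
  have hρ' : v.1 (Fin.last 2) ≠ 0 := hρ
  have h0 := rho_mul_pS S hρ' 0
  have h1 := rho_mul_pS S hρ' 1
  have e1 : sk S 0 1 = s01 S := rfl
  have e2 : sk S 1 0 = -s01 S := by rw [sk_swap]; rfl
  simp only [Fin.sum_univ_two, sk_self, e1, e2, zero_mul, zero_add, add_zero] at h0 h1
  rw [slice_pl]
  simp only [map_sub, map_mul, map_add, eval_C, eval_X, dotProduct, Fin.sum_univ_three]
  change algebraMap k K (v.1 2) * pS S (dir v) 0 = algebraMap k K (v.2 0) +
    s01 S * algebraMap k K (v.1 1) at h0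
  change algebraMap k K (v.1 2) * pS S (dir v) 1 = algebraMap k K (v.2 1) +
    -s01 S * algebraMap k K (v.1 0) at h1
  linear_combination (algebraMap k K (n 0)) * h1 - (algebraMap k K (n 1)) * h0

lemma inD_of {v : Pt 3 k} (hρ : v.1 2 ≠ 0) (hq : q v = 0) {n : Fin 3 → k} {κ : k}
    (hA : n ⬝ᵥ v.1 = 0) (hC : n 0 * v.2 1 - n 1 * v.2 0 = κ * v.1 2) : inD n κ v := by
  refine ⟨hA, ?_⟩
  unfold q at hq
  rw [Fin.sum_univ_three] at hq
  rw [dotProduct, Fin.sum_univ_three] at hA
  funext i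
  fin_cases i
  · simp only [cross_apply, Matrix.cons_val_zero, Fin.zero_eta, Pi.smul_apply, smul_eq_mul,
      Fin.isValue]
    apply mul_left_cancel₀ hρ
    linear_combination (n 1) * hq - (v.2 1) * hA + (v.1 0) * hC
  · simp only [cross_apply, Matrix.cons_val_one, Fin.mk_one, Pi.smul_apply, smul_eq_mul,
      Fin.isValue, Matrix.cons_val_zero]
    apply mul_left_cancel₀ hρ
    linear_combination (-n 0) * hq + (v.2 0) * hA + (v.1 1) * hC
  · simp only [cross_apply, Matrix.cons_val, Fin.reduceFinMk, Pi.smul_apply, smul_eq_mul,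
      Fin.isValue]
    exact hC

lemma eval_slice_pl_of_inD (S : Pr 2 → K) {v : Pt 3 k} (hρ : v.1 2 ≠ 0) {n : Fin 3 → k} {κ : k}
    (h : inD n κ v) : eval (pS S (dir v)) (slice S (pl n κ)) = 0 := by
  have h1 := rho_eval_slice_pl S hρ n κ
  have h2 := congrFun h.2 2
  simp only [cross_apply, Matrix.cons_val, Pi.smul_apply, smul_eq_mul] at h2
  rw [h.1, h2, sub_self, map_zero, mul_zero, sub_zero] at h1
  exact (mul_eq_zero.1 h1).resolve_left ((map_ne_zero_iff _ (algebraMap k K).injective).2 hρ)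

/-- two different coplanar directions span a plane -/
lemma exists_plane {v w : Pt 3 k} (hv : v.1 2 ≠ 0) (hw : w.1 2 ≠ 0) (hqv : q v = 0)
    (hqw : q w = 0) (hq : q (v - w) = 0) (hne : om v ≠ om w) :
    ∃ (n : Fin 3 → k) (κ : k), n ≠ 0 ∧ inD n κ v ∧ inD n κ w := by
  have hB : ∑ i, (v.1 i * w.2 i + w.1 i * v.2 i) = 0 := by
    have : ∑ i, (v.1 i * w.2 i + w.1 i * v.2 i) = q v + q w - q (v - w) := by
      unfold q
      rw [← Finset.sum_add_distrib, ← Finset.sum_sub_distrib]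
      refine Finset.sum_congr rfl fun i _ => ?_
      simp only [Prod.fst_sub, Prod.snd_sub, Pi.sub_apply]
      ring
    rw [this, hqv, hqw, hq]; ring
  by_cases hc : v.1 ⨯₃ w.1 = 0
  · have hv0 : v.1 ≠ 0 := fun h => hv (by rw [h]; rfl)
    obtain ⟨c, hcc⟩ := exists_smul_of_cross hv0 hc
    have hc0 : c ≠ 0 := by
      rintro rfl
      apply hw
      rw [hcc]; simp
    have hci : ∀ i, w.1 i = c * v.1 i := fun i => by rw [hcc]; rfl
    set n : Fin 3 → k := fun i => c * v.2 i - w.2 i with hn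
    have hn0 : n ≠ 0 := by
      intro h0
      apply hne
      have h1 : ∀ i, w.2 i = c * v.2 i := fun i => (sub_eq_zero.1 (congrFun h0 i)).symm
      have h2 : dir v = dir w := by
        have hl : v.1 (Fin.last 2) ≠ 0 := hv
        refine Prod.ext ?_ ?_
        · funext i
          simp only [dir, hci]
          field_simp
        · funext i
          simp only [dir, hci, h1]
          field_simp
      unfold om
      rw [h2]
    have hq1 := hqv
    have hq2 := hqw
    unfold q at hq1 hq2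
    rw [Fin.sum_univ_three] at hq1 hq2
    simp only [hci] at hq2
    have hA : n ⬝ᵥ v.1 = 0 := by
      rw [dotProduct, Fin.sum_univ_three]
      apply mul_left_cancel₀ hc0
      simp only [hn]
      linear_combination (c ^ 2) * hq1 - hq2
    refine ⟨n, (n 0 * v.2 1 - n 1 * v.2 0) / v.1 2, hn0, inD_of hv hqv hA (by field_simp),
      inD_of hw hqw ?_ ?_⟩
    · rw [hcc, dotProduct_smul, hA, smul_zero]
    · rw [hci]
      field_simp
      simp only [hn]
      ring
  · refine ⟨v.1 ⨯₃ w.1, v.1 ⬝ᵥ w.2, hc, ⟨?_, ?_⟩, ⟨?_, ?_⟩⟩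
    · rw [dotProduct_comm]; exact dot_self_cross _ _
    · unfold q at hqv
      rw [Fin.sum_univ_three] at hqv hB
      funext i
      fin_cases i <;>
        simp only [cross_apply, dotProduct, Fin.sum_univ_three, Matrix.cons_val_zero,
          Matrix.cons_val_one, Matrix.cons_val, Fin.zero_eta, Fin.mk_one, Fin.reduceFinMk,
          Pi.smul_apply, smul_eq_mul, Fin.isValue]
      · linear_combination (w.1 0) * hqv - (v.1 0) * hB
      · linear_combination (w.1 1) * hqv - (v.1 1) * hB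
      · linear_combination (w.1 2) * hqv - (v.1 2) * hB
    · rw [dotProduct_comm]; exact dot_cross_self _ _
    · unfold q at hqw
      rw [Fin.sum_univ_three] at hqw
      funext i
      fin_cases i <;>
        simp only [cross_apply, dotProduct, Fin.sum_univ_three, Matrix.cons_val_zero,
          Matrix.cons_val_one, Matrix.cons_val, Fin.zero_eta, Fin.mk_one, Fin.reduceFinMk,
          Pi.smul_apply, smul_eq_mul, Fin.isValue]
      · linear_combination -(v.1 0) * hqw
      · linear_combination -(v.1 1) * hqw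
      · linear_combination -(v.1 2) * hqw

/-- **two coplanar leaves on a linear factor of the slice: their plane lies in `Z(h)`** -/
theorem exists_plane_dvd [CharZero K] {S : Pr 2 → K} (hS : AlgebraicIndependent k S)
    {z w₁ w₂ : Pt 3 k} (hρ₁ : w₁.1 2 ≠ z.1 2) (hρ₂ : w₂.1 2 ≠ z.1 2) (hn₁ : Null z w₁)
    (hn₂ : Null z w₂) (hn : Null w₁ w₂) (hne : om (w₁ - z) ≠ om (w₂ - z))
    {h : MvPolynomial (Pr 3) k} {g : MvPolynomial (Fin 2) K} (hg1 : g.totalDegree ≤ 1)
    (hgh : g ∣ slice S h) (h₁ : eval (pZ S z w₁) g = 0) (h₂ : eval (pZ S z w₂) g = 0) :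
    ∃ (n : Fin 3 → k) (κ : k), n ≠ 0 ∧ pl n κ ∣ h ∧ inD n κ (w₁ - z) ∧ inD n κ (w₂ - z) := by
  have hv₁ : (w₁ - z).1 2 ≠ 0 := by simpa [sub_eq_zero] using hρ₁
  have hv₂ : (w₂ - z).1 2 ≠ 0 := by simpa [sub_eq_zero] using hρ₂
  obtain ⟨n, κ, hn0, hD₁, hD₂⟩ := exists_plane hv₁ hv₂ (null_symm hn₁) (null_symm hn₂)
    (by rw [sub_sub_sub_cancel_right]; exact hn) hne
  refine ⟨n, κ, hn0, ?_, hD₁, hD₂⟩
  have hn' : n 0 ≠ 0 ∨ n 1 ≠ 0 := by
    by_contra hc
    push Not at hc
    have h3 := hD₁.1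
    rw [dotProduct, Fin.sum_univ_three, hc.1, hc.2, zero_mul, zero_mul, zero_add, zero_add] at h3
    have h4 := (mul_eq_zero.1 h3).resolve_right hv₁
    apply hn0
    funext i
    fin_cases i
    · exact hc.1
    · exact hc.2
    · exact h4
  apply pl_dvd_of_slice hS hn'
  refine (dvd_of_two_zeros (slice_totalDegree_le S _ (totalDegree_pl_le n κ)) hg1
    (p := pZ S z w₁) (p' := pZ S z w₂) ?_ ?_ ?_ h₁ h₂ ?_).trans hgh
  · intro h
    apply hne
    have := pS_injective hS h
    unfold om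
    rw [this]
  · exact eval_slice_pl_of_inD S hv₁ hD₁
  · exact eval_slice_pl_of_inD S hv₂ hD₂
  · intro h0
    have h3 : pl n κ = 0 := slice_injective hS (by rw [h0, map_zero])
    have h4 := cf_pl n κ
    rw [h3] at h4
    apply hn0
    have h5 := congrArg Prod.fst h4
    simp only [cf, coeff_zero, neg_zero] at h5
    rw [← h5]
    funext i
    fin_cases i <;> simp

end plane

/-! ### the planes in `Z(h)` -/

section count

variable {k : Type*} [Field k]

lemma pl_ne_zero {n : Fin 3 → k} (hn : n ≠ 0) (κ : k) : pl n κ ≠ 0 := by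
  intro h3
  have h4 := cf_pl n κ
  rw [h3] at h4
  apply hn
  have h5 := congrArg Prod.fst h4
  simp only [cf, coeff_zero, neg_zero] at h5
  rw [← h5]
  funext i
  fin_cases i <;> simp

lemma irreducible_pl {n : Fin 3 → k} (hn : n ≠ 0) (κ : k) : Irreducible (pl n κ) := by
  have h1 : (pl n κ).totalDegree = 1 := by
    refine le_antisymm (totalDegree_pl_le n κ) ?_
    by_contra hlt
    have h0 : (pl n κ).totalDegree = 0 := by omega
    rw [totalDegree_eq_zero_iff_eq_C] at h0
    apply hn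
    have h2 := congrArg (fun p => (cf p).1) h0
    rw [cf_pl] at h2
    simp only at h2
    rw [h2]
    funext i
    fin_cases i <;> simp [cf, coeff_C, eq_comm (a := (0 : Pr 3 →₀ ℕ))]
  refine irreducible_of_totalDegree_eq_one h1 fun x hx => ?_
  rw [isUnit_iff_ne_zero]
  rintro rfl
  apply pl_ne_zero hn κ
  ext s
  rw [coeff_zero]
  exact zero_dvd_iff.1 (hx s)

open scoped Classical in
/-- the planes in `Z(h)` -/
noncomputable def planes (h : MvPolynomial (Pr 3) k) : Finset ((Fin 3 → k) × k) :=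
  ((UniqueFactorizationMonoid.factors h).toFinset.image cf).filter fun p => p.1 ≠ 0

lemma planes_ne_zero {h : MvPolynomial (Pr 3) k} {p : (Fin 3 → k) × k} (hp : p ∈ planes h) :
    p.1 ≠ 0 := by
  classical
  exact (Finset.mem_filter.1 hp).2

lemma card_le_totalDegree_prod (s : Multiset (MvPolynomial (Pr 3) k))
    (hs : ∀ p ∈ s, Irreducible p) : Multiset.card s ≤ s.prod.totalDegree := by
  induction s using Multiset.induction_on with
  | empty => simp
  | cons a s ih =>
    rw [Multiset.card_cons, Multiset.prod_cons]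
    have ha := hs a (Multiset.mem_cons_self a s)
    have hs' : ∀ p ∈ s, Irreducible p := fun p hp => hs p (Multiset.mem_cons_of_mem hp)
    have hprod : s.prod ≠ 0 := by
      intro h0
      rw [Multiset.prod_eq_zero_iff] at h0
      exact (hs' 0 h0).ne_zero rfl
    rw [totalDegree_mul_of_isDomain ha.ne_zero hprod]
    have h1 : 1 ≤ a.totalDegree := by
      by_contra hlt
      have h0 : a.totalDegree = 0 := by omega
      rw [totalDegree_eq_zero_iff_eq_C] at h0
      apply ha.not_isUnit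
      rw [h0]
      apply IsUnit.map
      rw [isUnit_iff_ne_zero]
      intro hc
      apply ha.ne_zero
      rw [h0, hc, C_0]
    have := ih hs'
    omega

lemma card_planes_le {h : MvPolynomial (Pr 3) k} (hh : h ≠ 0) :
    (planes h).card ≤ h.totalDegree := by
  classical
  have h1 := card_le_totalDegree_prod (UniqueFactorizationMonoid.factors h)
    (fun p hp => UniqueFactorizationMonoid.irreducible_of_factor p hp)
  obtain ⟨u, hu⟩ := UniqueFactorizationMonoid.factors_prod hh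
  have h2 : (UniqueFactorizationMonoid.factors h).prod.totalDegree ≤ h.totalDegree := by
    have hp0 : (UniqueFactorizationMonoid.factors h).prod ≠ 0 := by
      intro h0
      rw [h0, zero_mul] at hu
      exact hh hu.symm
    have h3 := congrArg totalDegree hu
    rw [totalDegree_mul_of_isDomain hp0 u.ne_zero] at h3
    omega
  calc (planes h).card ≤ ((UniqueFactorizationMonoid.factors h).toFinset.image cf).card :=
        Finset.card_filter_le _ _
    _ ≤ (UniqueFactorizationMonoid.factors h).toFinset.card := Finset.card_image_le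
    _ ≤ Multiset.card (UniqueFactorizationMonoid.factors h) := Multiset.toFinset_card_le _
    _ ≤ _ := h1.trans h2

lemma exists_mem_planes {h : MvPolynomial (Pr 3) k} (hh : h ≠ 0) {n : Fin 3 → k} (hn : n ≠ 0)
    {κ : k} (hd : pl n κ ∣ h) : ∃ p ∈ planes h, ∀ v : Pt 3 k, inD n κ v → inD p.1 p.2 v := by
  classical
  obtain ⟨r, hr, u, hu⟩ := UniqueFactorizationMonoid.exists_mem_factors_of_dvd hh
    (irreducible_pl hn κ) hd
  have hu1 : (u : MvPolynomial (Pr 3) k).totalDegree = 0 :=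
    (isUnit_iff_totalDegree_of_isReduced.1 u.isUnit).2
  rw [totalDegree_eq_zero_iff_eq_C] at hu1
  set c := coeff 0 (u : MvPolynomial (Pr 3) k) with hc
  have hc0 : c ≠ 0 := by
    intro h0
    apply u.ne_zero
    rw [hu1, h0, C_0]
  have hr' : r = C c * pl n κ := by rw [← hu, hu1, mul_comm]
  have hcf : cf r = (c • n, c * κ) := by rw [hr', cf_C_mul, cf_pl]
  refine ⟨cf r, ?_, ?_⟩
  · unfold planes
    rw [Finset.mem_filter, Finset.mem_image]
    refine ⟨⟨r, Multiset.mem_toFinset.2 hr, rfl⟩, ?_⟩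
    rw [hcf]
    exact smul_ne_zero hc0 hn
  · intro v hv
    rw [hcf]
    exact (inD_smul_iff hc0).2 hv

end count

end Crest.Agent.R065.Plane649
end

-- ▼ part R065/Plane3b_649
section

/-!
# Row 65, `d = 3`: the exceptional sets outside the planes in `Z(h)` are small
-/

set_option autoImplicit false

open MvPolynomial Module Matrix

namespace Crest.Agent.R065.Plane649

open Crest.Agent.R065.HF669 Crest.Agent.R065.Base348 Crest.Agent.R065.Cramer234
  Crest.Agent.R065.Slice417 Crest.Agent.R065.D3blk812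

section pt

variable {k : Type*} [Field k]

/-- the Hilbert function of a point -/
lemma HF_point_le {σ : Type*} [Finite σ] (ω : σ → k) (m : ℕ) :
    HF (RingHom.ker (aeval ω : MvPolynomial σ k →ₐ[k] k)) m ≤ 1 := by
  rw [HF_ker_aeval]
  exact (Submodule.finrank_le _).trans (by rw [Module.finrank_self])

variable {e : ℕ} {K : Type*} [Field K] [Algebra k K]

/-- many points on one leaf -/
theorem card_le_of_same_leaf [Infinite k] [NeZero (2 : K)] (he : 0 < e) (S : Pr e → K) (a m : ℕ)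
    (z : Pt (e + 1) k) (Sig : Finset (Pt (e + 1) k))
    (hρ : ∀ w ∈ Sig, w.1 (Fin.last e) ≠ z.1 (Fin.last e))
    (hq : ∀ w ∈ Sig, Null w z) (F : Pt (e + 1) k → MvPolynomial (Pr (e + 1) ⊕ Fin (e + 1)) k)
    (hF : ∀ w ∈ Sig, (F w).totalDegree ≤ m)
    (hoff : ∀ w ∈ Sig, ∀ w' ∈ Sig, w' ≠ w → res w' (F w) = 0)
    (hord : ∀ w ∈ Sig, ¬ Ord (a + 1) (shift (pZ S z w) (slice S (res w (F w)))))
    (hsame : ∀ w ∈ Sig, ∀ w' ∈ Sig, om (w - z) = om (w' - z)) : Sig.card ≤ a + 1 := by
  classical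
  rcases Sig.eq_empty_or_nonempty with rfl | ⟨w0, hw0⟩
  · simp
  have h1 := card_le_rank he S a m z Sig hρ hq F hF hoff hord
    (RingHom.ker (aeval (om (w0 - z)) : MvPolynomial (Fin e ⊕ Fin e) k →ₐ[k] k)) (by
      intro w hw g hg
      rw [hsame w hw w0 hw0]
      exact RingHom.mem_ker.1 hg)
  have h2 := HF_point_le (om (w0 - z)) (m + a)
  calc Sig.card ≤ (a + 1) * _ := h1
    _ ≤ (a + 1) * 1 := Nat.mul_le_mul_left _ h2
    _ = a + 1 := by ring

end pt

section main

variable {k K : Type*} [Field k] [Infinite k] [Field K] [CharZero K] [Algebra k K]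

/-- **exceptional sets outside the planes in `Z(h)` have at most `m + 1` elements** -/
theorem card_exceptional_le {S : Pr 2 → K} (hS : AlgebraicIndependent k S) {m : ℕ} {z : Pt 3 k}
    {h : MvPolynomial (Pr 3) k} (hh : h ≠ 0) {Q : Finset (Pt 3 k)}
    (hρ : ∀ w ∈ Q, w.1 2 ≠ z.1 2) (hnz : ∀ w ∈ Q, Null z w)
    (F : Pt 3 k → MvPolynomial (Pr 3 ⊕ Fin 3) k)
    (hF : ∀ w ∈ Q, (F w).totalDegree ≤ m)
    (hoff : ∀ w ∈ Q, ∀ w' ∈ Q, w' ≠ w → res w' (F w) = 0)
    (hord : ∀ w ∈ Q, ¬ Ord (m + 1) (shift (pZ S z w) (slice S (res w (F w)))))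
    (hpl : ∀ w ∈ Q, ∀ p ∈ planes h, ¬ inD p.1 p.2 (w - z))
    (hnull : ∀ w ∈ Q, ∀ w' ∈ Q, Null w w')
    (hg : ∃ g : MvPolynomial (Fin 2) K, g.totalDegree ≤ 1 ∧ g ∣ slice S h ∧
      ∀ w ∈ Q, eval (pZ S z w) g = 0) : Q.card ≤ m + 1 := by
  obtain ⟨g, hg1, hgh, hgz⟩ := hg
  have h2 : NeZero (2 : K) := ⟨two_ne_zero⟩
  refine card_le_of_same_leaf (e := 2) (by norm_num) S m m z Q hρ
    (fun w hw => null_symm (hnz w hw)) F hF hoff hord ?_
  intro w₁ hw₁ w₂ hw₂
  by_contra hne
  obtain ⟨n, κ, hn, hdvd, hD₁, -⟩ := exists_plane_dvd hS (hρ w₁ hw₁) (hρ w₂ hw₂) (hnz w₁ hw₁)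
    (hnz w₂ hw₂) (hnull w₁ hw₁ w₂ hw₂) hne hg1 hgh (hgz w₁ hw₁) (hgz w₂ hw₂)
  obtain ⟨p, hp, hpD⟩ := exists_mem_planes hh hn hdvd
  exact hpl w₁ hw₁ p hp (hpD _ hD₁)

end main

end Crest.Agent.R065.Plane649
end

-- ▼ part R065/RankIn3_649
section

/-!
# Row 65, `d = 3`: 855's `RankIn` from `ExtrP` and `SweptP`
-/

set_option autoImplicit false

open MvPolynomial Module

namespace Crest.Agent.R065.Plane649

open Crest.Agent.R065.HF669 Crest.Agent.R065.Base348 Crest.Agent.R065.Cramer234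
  Crest.Agent.R065.Slice417 Crest.Agent.R065.Glue795 Crest.Agent.R065.Rank417
  Crest.Agent.R065.D3blk812 Crest.Agent.R065.D3in855

open scoped Classical in
/-- `RankIn` with all coordinates different -/
def RankInAll : Prop :=
  ∃ (o : ℕ → Finset (Pt 3 ℂ) → Pt 3 ℂ → Pt 3 ℂ → ℕ∞) (C : ℝ), 0 < C ∧
    ∀ (m : ℕ) (Om : Finset (Pt 3 ℂ)) (z : Pt 3 ℂ), 1 ≤ m → ¬ IsBad m Om z → ∀ Sg ⊆ Om,
      (∀ w ∈ Sg, Null z w ∧ (∀ i, w.1 i ≠ z.1 i) ∧
        o m (Om.erase w) w z ≤ o m (Om.erase w) z w) →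
      ∃ D : Finset ((Fin 3 → ℂ) × ℂ), D.card ≤ m ∧ (∀ p ∈ D, p.1 ≠ 0) ∧
        ((Sg.filter fun w => ∀ p ∈ D, ¬ inD p.1 p.2 (w - z)).card : ℝ) ≤ C * (m : ℝ) ^ 2

theorem rankInAll_of (hE : ExtrP (K1 2) 2) (hSw : SweptP ℂ (K1 2) 2) : RankInAll := by
  classical
  obtain ⟨C, hC, h⟩ := rankGen (k := ℂ) (K := K1 2) hE hSw (by norm_num)
  refine ⟨oo (SS 2 ℂ (K1 2)), 3 * C, by positivity, ?_⟩
  intro m Om z hm hbad Sg hSg hw
  obtain ⟨f₀, hf₀, hz⟩ : ∃ f, D3in855.IsI m Om f ∧ res z f ≠ 0 := by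
    unfold D3in855.IsBad at hbad
    push Not at hbad
    exact hbad
  have hf₀' : Rank417.IsI m Om f₀ := hf₀
  have hdeg : (res z f₀).totalDegree ≤ m := res_mem_W z f₀ hf₀.1
  have hsl0 : slice (SS 2 ℂ (K1 2)) (res z f₀) ≠ 0 := by
    intro h0
    apply hz
    apply slice_injective (algebraicIndependent_SS (e := 2) (k := ℂ) (K := K1 2))
    rw [map_zero]
    exact h0
  have hslm : (slice (SS 2 ℂ (K1 2)) (res z f₀)).totalDegree ≤ m :=
    slice_totalDegree_le _ _ hdeg
  refine ⟨planes (res z f₀), (card_planes_le hz).trans hdeg, fun p hp => planes_ne_zero hp, ?_⟩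
  set Sg' := Sg.filter fun w => ∀ p ∈ planes (res z f₀), ¬ inD p.1 p.2 (w - z) with hSg'
  have hsub : Sg' ⊆ Sg := Finset.filter_subset _ _
  have h1 := h m Om z f₀ hm hf₀' hz Sg' (hsub.trans hSg)
    (fun w hwS => ⟨null_symm (hw w (hsub hwS)).1, (hw w (hsub hwS)).2.1 _,
      (hw w (hsub hwS)).2.2⟩) (m + 1) (by
        have : (0 : ℝ) ≤ m := Nat.cast_nonneg m
        linarith) ?_
  · have hm' : (1 : ℝ) ≤ m := by exact_mod_cast hm
    refine h1.trans ?_
    have : (m : ℝ) ^ 2 + m * (m + 1) ≤ 3 * (m : ℝ) ^ 2 := by nlinarith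
    nlinarith
  · intro Q hQ hQn hQg
    obtain ⟨g, hg1, -, hgd, hgz⟩ := hQg
    -- the functions
    have hord : ∀ w ∈ Q, ∃ f, Rank417.IsI m (Om.erase w) f ∧
        ¬ HF669.Ord (m + 1) (shift (pZ (SS 2 ℂ (K1 2)) z w) (slice (SS 2 ℂ (K1 2)) (res w f))) := by
      intro w hwQ
      refine exists_fun hf₀' (hw w (hsub (hQ hwQ))).2.2 ?_
      intro hO
      apply hsl0
      have h2 : shift (pZ (SS 2 ℂ (K1 2)) z w) (slice (SS 2 ℂ (K1 2)) (res z f₀)) = 0 :=
        hO.eq_zero (by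
          refine lt_of_le_of_lt (shift_totalDegree_le _ _) ?_
          omega)
      have h4 := aeval_sub_shift (pZ (SS 2 ℂ (K1 2)) z w)
        (fun i => (X i : MvPolynomial (Fin 2) (K1 2))) (slice (SS 2 ℂ (K1 2)) (res z f₀))
      rw [h2, map_zero, aeval_X_left_apply] at h4
      exact h4.symm
    have h2 : ∀ w, ∃ f, w ∈ Q → Rank417.IsI m (Om.erase w) f ∧
        ¬ HF669.Ord (m + 1) (shift (pZ (SS 2 ℂ (K1 2)) z w)
          (slice (SS 2 ℂ (K1 2)) (res w f))) := by
      intro w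
      by_cases hwQ : w ∈ Q
      · obtain ⟨f, hf⟩ := hord w hwQ
        exact ⟨f, fun _ => hf⟩
      · exact ⟨0, fun hc => absurd hc hwQ⟩
    choose F hF using h2
    have h3 := card_exceptional_le (algebraicIndependent_SS (e := 2) (k := ℂ) (K := K1 2))
      (m := m) (z := z) hz (Q := Q) (fun w hwQ => (hw w (hsub (hQ hwQ))).2.1 _)
      (fun w hwQ => (hw w (hsub (hQ hwQ))).1) F (fun w hwQ => (hF w hwQ).1.1)
      (fun w hwQ w' hwQ' hne' => (hF w hwQ).1.2 w'
        (Finset.mem_erase.2 ⟨hne', hSg (hsub (hQ hwQ'))⟩))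
      (fun w hwQ => (hF w hwQ).2)
      (fun w hwQ => (Finset.mem_filter.1 (hQ hwQ)).2) hQn ⟨g, hg1.le, hgd, hgz⟩
    exact_mod_cast h3

/-- 855's `RankIn` -/
theorem rankIn_of (hE : ExtrP (K1 2) 2) (hSw : SweptP ℂ (K1 2) 2) : D3in855.RankIn :=
  rankInAll_of hE hSw

end Crest.Agent.R065.Plane649
end

-- ▼ part R065/RankIn3f_649
section

/-!
# Row 65, `d = 3`: `RankIn`, unconditional
-/

set_option autoImplicit false

open MvPolynomial Module

namespace Crest.Agent.R065.Plane649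

open Crest.Agent.R065.Glue795 Crest.Agent.R065.Rank417

theorem rankIn : D3in855.RankIn :=
  rankIn_of (Extr203.extrP (K1 2) 2) (sweptP_of Cod1q392.swept1Set)

/-- `RankD (e + 1)` of 96, unconditional -/
theorem rankD {e : ℕ} (he : 0 < e) : M4.RankD (e + 1) :=
  rankD_of he (Extr203.extrP (K1 e) e) (sweptP_of Cod1q392.swept1Set)

end Crest.Agent.R065.Plane649
end

-- ▼ part R065/Skel3_745

/-!
# Row 65: `S0087`, composition of everything
-/

set_option autoImplicit false

namespace Crest.Agent.R065.Skel745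

/-- the bound for `d ≥ 4` -/
theorem bd4 {d : ℕ} (hd : 4 ≤ d) : Final348.Bd d :=
  M4.bd4 hd (Glue795.l0inD d) (by
    obtain ⟨e, rfl⟩ : ∃ e, d = e + 1 := ⟨d - 1, by omega⟩
    exact rankD (by omega))

/-- the main theorem for `d = 3` -/
theorem mainD3 : D3.MainD3 := main3 Plane649.rankIn Glue795.l0in

/-- **S0087** -/
theorem goal : Goal := goal_of mainD3 fun _ hd => bd4 hd

end Crest.Agent.R065.Skel745
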